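import Mathlib
import Vale.Agent.P166.Defs
import Vale.Agent.P157.Parisi.Formula

/-!
The variational formula for the pressure of orthogonally invariant Ising spin glasses.

A path is `0 ≤ q 0 ≤ ... ≤ q K < 1` with the weights `1 / (K + 1)`; level `l` carries the parameter
`lvl K l = l / (K + 1)`.
-/

namespace Vale.Agent.P166.Parisi

open MeasureTheory Set
open Vale.Agent.P157.Parisi (lvl IsPath isingEntropy)

/-- The least `ω` to the right of the support of `μ` with `∫ (ω - a)⁻¹ dμ ≤ x`: the inverse of the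
Cauchy transform, continued by the right end of the support. -/
noncomputable def omegaInv (μ : Measure ℝ) (x : ℝ) : ℝ :=
  sInf {ω | sSup μ.support < ω ∧ ∫ a, (ω - a)⁻¹ ∂μ ≤ x}

/-- The R-transform of `μ`, continued by `sup supp μ - 1/x` beyond its range. -/
noncomputable def rTrans (μ : Measure ℝ) (x : ℝ) : ℝ := omegaInv μ x - x⁻¹

/-- `∑_{m ≥ l} q m / (K + 1)`. -/
noncomputable def qTail (K : ℕ) (q : ℕ → ℝ) (l : ℕ) : ℝ :=
  (∑ m ∈ Finset.Ico l (K + 1), q m) / ((K : ℝ) + 1)

/-- `∫_s^1` of the distribution function of the path, as a minimum of affine functions. -/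
noncomputable def chiPath (K : ℕ) (q : ℕ → ℝ) (s : ℝ) : ℝ :=
  (Finset.range (K + 2)).inf' Finset.nonempty_range_add_one fun l =>
    1 - lvl K l * s - qTail K q l

/-- The energy term `(β/2) ∫₀¹ R_μ(β χ_q(s)) ds`. -/
noncomputable def energy (μ : Measure ℝ) (β : ℝ) (K : ℕ) (q : ℕ → ℝ) : ℝ :=
  β / 2 * ∫ s in (0 : ℝ)..1, rTrans μ (β * chiPath K q s)

/-- The predicted limit of the pressure. -/
noncomputable def value (μ : Measure ℝ) (β : ℝ) : ℝ :=
  sInf {v | ∃ K q, IsPath q ∧ q K < 1 ∧ v = isingEntropy K q + energy μ β K q}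

end Vale.Agent.P166.Parisi
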