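import Vale.Agent.P166.Parisi.LowerStep

/-!
Module F2: the lower bound for equally weighted atoms.
-/

namespace Vale.Agent.P166.Parisi

open MeasureTheory ProbabilityTheory Finset Filter Topology
open Vale.Agent.P157 Vale.Agent.P157.Parisi

variable {M N : ℕ}

/-- Fields on the spins cost at most half the sum of their variances. -/
lemma free_le_no_spin (P : Par) (a : Fin M → ℝ) (b : Fin N → Fin M) (v : GBox M P.K → ℝ)
    (hN : 0 < N) (s : ℕ → ℝ) (hs : ∀ l, 0 ≤ s l) (hK : ∀ l, P.K < l → s l = 0) :
    P.free a s b v ≤ P.free a (fun _ => 0) b v +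
      (N : ℝ) / 2 * ∑ l ∈ range (P.K + 1), s l ^ 2 := by
  have key : ∀ n, n ≤ P.K + 1 →
      P.free a s b v ≤ P.free a (fun l => if l < n then 0 else s l) b v +
        (N : ℝ) / 2 * ∑ l ∈ range n, s l ^ 2 := by
    intro n hn
    induction n with
    | zero => simp
    | succ m ih =>
      have hm : m ≤ P.K := by omega
      set u : ℕ → ℝ := fun l => if l < m then 0 else s l with hu
      set f : ℝ → ℝ := fun θ => P.free a (Function.update u m θ) b v - (N : ℝ) / 2 * θ ^ 2 with hf
      have hd : ∀ θ, HasDerivAt f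
          ((N : ℝ) * θ * (1 - qTail P.K (P.qhat a (Function.update u m θ) b v) m) -
            (N : ℝ) * θ) θ := by
        intro θ
        have h := hasDerivAt_spin P a (Function.update u m θ) b v hm
        simp only [Function.update_idem, Function.update_self] at h
        exact (h.sub ((hasDerivAt_pow 2 θ).const_mul ((N : ℝ) / 2))).congr_deriv
          (by push_cast; ring)
      have hanti : AntitoneOn f (Set.Ici 0) := by
        refine antitoneOn_of_deriv_nonpos (convex_Ici 0)
          (fun θ _ => (hd θ).continuousAt.continuousWithinAt)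
          (fun θ _ => (hd θ).differentiableAt.differentiableWithinAt) fun θ hθ => ?_
        rw [interior_Ici, Set.mem_Ioi] at hθ
        rw [(hd θ).deriv]
        have hq := (qTail_le (qhat_path P a (Function.update u m θ) b v hN).1
          (show m ≤ P.K + 1 by omega)).1
        have : 0 ≤ (N : ℝ) * θ * qTail P.K (P.qhat a (Function.update u m θ) b v) m :=
          mul_nonneg (mul_nonneg (Nat.cast_nonneg N) hθ.le) hq
        linarith
      have h1 := hanti (Set.mem_Ici.2 le_rfl) (Set.mem_Ici.2 (hs m)) (hs m)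
      have e1 : Function.update u m (s m) = u := by
        rw [show s m = u m by simp [hu], Function.update_eq_self]
      have e2 : Function.update u m 0 = fun l => if l < m + 1 then 0 else s l := by
        funext l
        rcases eq_or_ne l m with rfl | hne
        · simp
        · simp only [Function.update_of_ne hne, hu]
          split_ifs <;> first | rfl | omega
      simp only [hf, e1, e2] at h1
      rw [sum_range_succ]
      have := ih (by omega)
      linarith
  refine (key (P.K + 1) le_rfl).trans (le_of_eq ?_)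
  congr 2
  funext l
  split_ifs with h
  · rfl
  · exact hK l (by omega)

/-- The fields and the shifts cost little. -/
lemma free_le_meanP (P : Par) (hP : P.Ok) (a : Fin M → ℝ) (b : Fin N → Fin M)
    (v : GBox M P.K → ℝ) (hN : 0 < N) (hv : ∀ k, v k ∈ Set.Icc (0 : ℝ) 1) (s : ℕ → ℝ)
    (hs : ∀ l, 0 ≤ s l) (hK : ∀ l, P.K < l → s l = 0) :
    P.free a s b v ≤ (N : ℝ) * (meanP 1 (a ∘ b) + P.du / 2 +
      2 * ((P.K : ℝ) + 2) * P.eta ^ 2 + (∑ l ∈ range (P.K + 1), s l ^ 2) / 2) := by
  have h1 := free_le_no_spin P a b v hN s hs hK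
  have hη : ∀ l p, |P.ampN b v l p| ≤ 2 * P.eta := by
    intro l p
    have := hP.eta_pos
    unfold Par.ampN Par.etaV
    split_ifs with ha hb
    · simpa using this.le
    · obtain ⟨v0, v1⟩ := hv (Sum.inr (⟨l, Nat.lt_succ_of_le ha⟩, b p))
      rw [abs_of_nonneg (mul_nonneg this.le (by linarith))]
      nlinarith
    · simpa using this.le
  have h2 : P.free a (fun _ => 0) b v ≤ meanFree P.K (P.lamN a b v) (fun _ _ => 0) (fun _ _ => 0) +
      (N : ℝ) / 2 * ∑ _l ∈ range (P.K + 2), (2 * P.eta) ^ 2 :=
    meanFree_amp_le P.K (P.lamN a b v) (fun _ _ => 0) (P.ampN b v) (A := fun _ => 2 * P.eta) hη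
  have h3 := meanFree_lam_lip (N := N) P.K (lam := P.lamN a b v) (lam' := a ∘ b)
    (fun _ _ => 0) (fun _ _ => 0) (d := P.du) fun p => by
      obtain ⟨v0, v1⟩ := hv (Sum.inl (b p))
      have := hP.du_pos
      simp only [Par.lamN, Par.lamV, Function.comp_apply, add_sub_cancel_left]
      rw [abs_of_nonneg (mul_nonneg this.le v0)]
      exact mul_le_of_le_one_right this.le v1
  rw [meanFree_zero P.K (a ∘ b)] at h3
  rw [sum_const, card_range, nsmul_eq_mul] at h2
  push_cast at h2
  linarith [(abs_le.1 h3).2]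

variable [NeZero M]

/-- Module F2: the lower bound. -/
theorem atoms_lower {a : Fin M → ℝ} (ha : StrictMono a) {ε : ℝ} (hε : 0 < ε) :
    ∀ᶠ N : ℕ in atTop, value (evenLaw a) 1 ≤ meanP 1 (a ∘ (blkOf : Fin N → Fin M)) + ε := by
  obtain ⟨P, hP, hdu, heta, s, hs, hK, hsum, hev⟩ :=
    lower_increment ha (show 0 < ε / 6 by positivity)
  obtain ⟨N₀, hN₀⟩ := eventually_atTop.1 hev
  set G : ℕ → ℝ := fun N =>
    ∫ v, P.free a s (blkOf : Fin N → Fin M) v ∂cubeLaw (GBox M P.K) with hG
  set w : ℝ := value (evenLaw a) 1 - ε / 6 with hw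
  obtain ⟨c, hc⟩ : ∃ c : ℝ, ∀ N, N₀ ≤ N → N < N₀ + M → c ≤ G N - N * w := by
    refine ⟨-∑ i ∈ range (N₀ + M), |G i - i * w|, fun N _ h2 => ?_⟩
    have := single_le_sum (f := fun i : ℕ => |G i - i * w|) (fun i _ => abs_nonneg _)
      (mem_range.2 h2)
    linarith [neg_abs_le (G N - N * w)]
  have hgrow : ∀ N, N₀ ≤ N → c ≤ G N - N * w := by
    intro N
    induction N using Nat.strong_induction_on with
    | _ N ih =>
      intro hN
      by_cases h : N < N₀ + M
      · exact hc N hN h
      · obtain ⟨n, rfl⟩ : ∃ n, N = n + M := ⟨N - M, by omega⟩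
        have hn : N₀ ≤ n := by omega
        have h1 := ih n (by have := Nat.pos_of_ne_zero (NeZero.ne M); omega) hn
        have h2 : (M : ℝ) * w + G n ≤ G (n + M) := hN₀ n hn
        push_cast
        linarith
  filter_upwards [eventually_ge_atTop (max N₀ 1),
    tendsto_natCast_atTop_atTop.eventually_ge_atTop (-c / (ε / 6))] with N hN hNc
  have hN0 : 0 < N := by omega
  have hN' : (0 : ℝ) < N := Nat.cast_pos.2 hN0
  have hup : G N ≤ (N : ℝ) * (meanP 1 (a ∘ (blkOf : Fin N → Fin M)) + P.du / 2 +
      2 * ((P.K : ℝ) + 2) * P.eta ^ 2 + (∑ l ∈ range (P.K + 1), s l ^ 2) / 2) := by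
    have h := integral_mono_ae
      (Box.integrable_cube (continuous_free_box P a (blkOf : Fin N → Fin M) (fun l _ => s l)))
      (integrable_const _) (Box.ae_mem_cube.mono fun v hv =>
        free_le_meanP P hP a (blkOf : Fin N → Fin M) v hN0 hv s hs hK)
    rw [integral_const, probReal_univ, one_smul] at h
    exact h
  have hlow := hgrow N (by omega)
  rw [div_le_iff₀ (by positivity)] at hNc
  have key : (N : ℝ) * w - (N : ℝ) * (ε / 6) ≤ (N : ℝ) * (meanP 1 (a ∘ (blkOf : Fin N → Fin M)) +
      P.du / 2 + 2 * ((P.K : ℝ) + 2) * P.eta ^ 2 + (∑ l ∈ range (P.K + 1), s l ^ 2) / 2) := by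
    linarith
  rw [← mul_sub] at key
  have := le_of_mul_le_mul_left key hN'
  linarith

end Vale.Agent.P166.Parisi
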