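import Mathlib

/-!
# The algebra of hierarchical overlap matrices in the replica limit

A matrix is given by its diagonal entry `d` and the entries `q l` of the levels `0..K`; level `l` has
weight `x (l+1) - x l`. The eigenvalues `eig l` together with `q 0` determine it, and multiplication
is pointwise on the eigenvalues and the product rule on `q 0`. The main result `loop_stable_mat` says
that approximate solutions of the loop equations `M r + t r • M r * M r₀ = M r₀` with almost the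
same weighted sum are close, uniformly in the number of levels.
-/

namespace Vale.Agent.P166.Parisi

open Finset

/-- Parameters of the levels. -/
structure Grid where
  K : ℕ
  x : ℕ → ℝ
  x_zero : x 0 = 0
  x_last : x (K + 1) = 1
  x_pos : ∀ l, 1 ≤ l → l ≤ K → 0 < x l
  x_mono : ∀ l, l ≤ K → x l ≤ x (l + 1)

/-- A hierarchical matrix. -/
structure SMat where
  d : ℝ
  q : ℕ → ℝ

namespace SMat

variable (g : Grid)

/-- The weight of level `l`. -/
def _root_.Vale.Agent.P166.Parisi.Grid.w (l : ℕ) : ℝ := g.x (l + 1) - g.x l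

lemma w_nonneg {l : ℕ} (hl : l ≤ g.K) : 0 ≤ g.w l := sub_nonneg.2 (g.x_mono l hl)

lemma sum_w : ∑ l ∈ range (g.K + 1), g.w l = 1 := by
  simp only [Grid.w]
  rw [Finset.sum_range_sub g.x, g.x_zero, g.x_last]; ring

lemma x_nonneg {l : ℕ} (hl : l ≤ g.K + 1) : 0 ≤ g.x l := by
  induction l with
  | zero => rw [g.x_zero]
  | succ n ih => exact (ih (by omega)).trans (g.x_mono n (by omega))

lemma x_le_one {l : ℕ} (hl : l ≤ g.K + 1) : g.x l ≤ 1 := by
  have h : ∀ d l, l + d = g.K + 1 → g.x l ≤ 1 := by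
    intro d
    induction d with
    | zero => intro l hl; rw [show l = g.K + 1 by omega, g.x_last]
    | succ d ih => intro l hl; exact (g.x_mono l (by omega)).trans (ih (l + 1) (by omega))
  exact h (g.K + 1 - l) l (by omega)

/-- The weighted sum above level `l`. -/
noncomputable def above (X : SMat) (l : ℕ) : ℝ := ∑ m ∈ Ioc l g.K, g.w m * X.q m

/-- The eigenvalue of level `l`. -/
noncomputable def eig (X : SMat) (l : ℕ) : ℝ := X.d - g.x (l + 1) * X.q l - above g X l

lemma above_step (X : SMat) {l : ℕ} (hl : l < g.K) :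
    above g X l = g.w (l + 1) * X.q (l + 1) + above g X (l + 1) := by
  rw [above, above, ← Finset.insert_Ioc_add_one_left_eq_Ioc hl,
    Finset.sum_insert (by simp)]

lemma eig_top (X : SMat) : eig g X g.K = X.d - X.q g.K := by
  simp [eig, above, g.x_last]

lemma eig_step (X : SMat) {l : ℕ} (hl : l < g.K) :
    eig g X l = eig g X (l + 1) + g.x (l + 1) * (X.q (l + 1) - X.q l) := by
  rw [eig, eig, above_step g X hl, Grid.w]; ring

/-- Sum. -/
def add (X Y : SMat) : SMat := ⟨X.d + Y.d, fun l => X.q l + Y.q l⟩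

/-- Multiple. -/
def smul (c : ℝ) (X : SMat) : SMat := ⟨c * X.d, fun l => c * X.q l⟩

/-- The identity. -/
def one : SMat := ⟨1, fun _ => 0⟩

/-- A finite combination. -/
def comb {ι : Type*} [Fintype ι] (c : ι → ℝ) (X : ι → SMat) : SMat :=
  ⟨∑ r, c r * (X r).d, fun l => ∑ r, c r * (X r).q l⟩

/-- Product. -/
noncomputable def mul (X Y : SMat) : SMat where
  d := X.d * Y.d - ∑ m ∈ range (g.K + 1), g.w m * (X.q m * Y.q m)
  q l := X.d * Y.q l + Y.d * X.q l - g.x (l + 1) * (X.q l * Y.q l) - X.q l * above g Y l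
    - Y.q l * above g X l - ∑ m ∈ range (l + 1), g.w m * (X.q m * Y.q m)

@[simp] lemma eig_add (X Y : SMat) (l : ℕ) : eig g (add X Y) l = eig g X l + eig g Y l := by
  simp [eig, add, above, mul_add, Finset.sum_add_distrib]; ring

@[simp] lemma eig_smul (c : ℝ) (X : SMat) (l : ℕ) : eig g (smul c X) l = c * eig g X l := by
  simp [eig, smul, above, mul_sub, Finset.mul_sum, mul_comm, mul_left_comm]

@[simp] lemma eig_one (l : ℕ) : eig g one l = 1 := by simp [eig, one, above]

@[simp] lemma eig_comb {ι : Type*} [Fintype ι] (c : ι → ℝ) (X : ι → SMat) (l : ℕ) :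
    eig g (comb c X) l = ∑ r, c r * eig g (X r) l := by
  have h : ∑ m ∈ Ioc l g.K, ∑ r, g.w m * (c r * (X r).q m) =
      ∑ r, ∑ m ∈ Ioc l g.K, c r * (g.w m * (X r).q m) := by
    rw [Finset.sum_comm]
    exact Finset.sum_congr rfl fun r _ => Finset.sum_congr rfl fun m _ => by ring
  simp only [eig, comb, above, Finset.mul_sum, mul_sub, Finset.sum_sub_distrib, h]
  congr 2
  exact Finset.sum_congr rfl fun r _ => by ring

lemma q_mul_zero (X Y : SMat) :
    (mul g X Y).q 0 = X.q 0 * eig g Y 0 + Y.q 0 * eig g X 0 := by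
  simp only [mul, eig, zero_add, Finset.sum_range_one, Grid.w, g.x_zero]
  ring

lemma q_mul_step (X Y : SMat) {l : ℕ} (hl : l < g.K) :
    (mul g X Y).q (l + 1) - (mul g X Y).q l
      = (X.q (l + 1) - X.q l) * eig g Y l + eig g X (l + 1) * (Y.q (l + 1) - Y.q l) := by
  simp only [mul, eig]
  rw [Finset.sum_range_succ _ (l + 1), above_step g X hl, above_step g Y hl, Grid.w]
  ring

lemma eig_mul (X Y : SMat) {l : ℕ} (hl : l ≤ g.K) :
    eig g (mul g X Y) l = eig g X l * eig g Y l := by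
  induction hd : g.K - l generalizing l with
  | zero =>
    obtain rfl : l = g.K := by omega
    rw [eig_top, eig_top, eig_top]
    simp only [mul, above, Finset.Ioc_self, Finset.sum_empty, g.x_last]
    ring
  | succ d ih =>
    have hlt : l < g.K := by omega
    rw [eig_step g _ hlt, ih (l := l + 1) (by omega) (by omega), q_mul_step g X Y hlt,
      eig_step g X hlt, eig_step g Y hlt]
    ring

/-- Equality up to level `K`. -/
def Eqv (X Y : SMat) : Prop := X.d = Y.d ∧ ∀ l ≤ g.K, X.q l = Y.q l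

lemma eqv_of_eig {X Y : SMat} (h0 : X.q 0 = Y.q 0) (h : ∀ l ≤ g.K, eig g X l = eig g Y l) :
    Eqv g X Y := by
  have hq : ∀ l ≤ g.K, X.q l = Y.q l := by
    intro l
    induction l with
    | zero => exact fun _ => h0
    | succ n ih =>
      intro hn
      have e1 := eig_step g X (show n < g.K by omega)
      have e2 := eig_step g Y (show n < g.K by omega)
      rw [h n (by omega), h (n + 1) hn, e2, ih (by omega)] at e1
      have := mul_left_cancel₀ (g.x_pos (n + 1) (by omega) hn).ne' (add_left_cancel e1)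
      linarith
  refine ⟨?_, hq⟩
  have := h g.K le_rfl
  rw [eig_top, eig_top, hq g.K le_rfl] at this
  linarith

/-- The `L¹` norm over the levels. -/
noncomputable def nrm (X : SMat) : ℝ := |X.d| + ∑ l ∈ range (g.K + 1), g.w l * |X.q l|

/-- The total variation over the levels. -/
noncomputable def var (X : SMat) : ℝ := |X.q 0| + ∑ l ∈ range g.K, |X.q (l + 1) - X.q l|

lemma nrm_nonneg (X : SMat) : 0 ≤ nrm g X :=
  add_nonneg (abs_nonneg _) (Finset.sum_nonneg fun l hl =>
    mul_nonneg (w_nonneg g (Nat.lt_succ_iff.1 (Finset.mem_range.1 hl))) (abs_nonneg _))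

lemma var_nonneg (X : SMat) : 0 ≤ var g X :=
  add_nonneg (abs_nonneg _) (Finset.sum_nonneg fun _ _ => abs_nonneg _)

lemma abs_q_le_var (X : SMat) {l : ℕ} (hl : l ≤ g.K) : |X.q l| ≤ var g X := by
  have h : X.q l = X.q 0 + ∑ j ∈ range l, (X.q (j + 1) - X.q j) := by
    rw [Finset.sum_range_sub X.q]; ring
  calc |X.q l| ≤ |X.q 0| + ∑ j ∈ range l, |X.q (j + 1) - X.q j| := by
        rw [h]; exact (abs_add_le _ _).trans (add_le_add le_rfl (Finset.abs_sum_le_sum_abs _ _))
    _ ≤ var g X := add_le_add le_rfl (Finset.sum_le_sum_of_subset_of_nonneg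
        (Finset.range_subset_range.2 hl) fun _ _ _ => abs_nonneg _)

lemma nrm_congr {X Y : SMat} (h : Eqv g X Y) : nrm g X = nrm g Y := by
  rw [nrm, nrm, h.1, Finset.sum_congr rfl fun l hl =>
    show g.w l * |X.q l| = g.w l * |Y.q l| by
      rw [h.2 l (Nat.lt_succ_iff.1 (Finset.mem_range.1 hl))]]

lemma nrm_add_le (X Y : SMat) : nrm g (add X Y) ≤ nrm g X + nrm g Y := by
  simp only [nrm, add]
  rw [add_add_add_comm, ← Finset.sum_add_distrib]
  refine add_le_add (abs_add_le _ _) (Finset.sum_le_sum fun l hl => ?_)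
  rw [← mul_add]
  exact mul_le_mul_of_nonneg_left (abs_add_le _ _)
    (w_nonneg g (Nat.lt_succ_iff.1 (Finset.mem_range.1 hl)))

lemma nrm_smul (c : ℝ) (X : SMat) : nrm g (smul c X) = |c| * nrm g X := by
  simp only [nrm, smul, abs_mul, mul_add, Finset.mul_sum]
  congr 1
  exact Finset.sum_congr rfl fun l _ => by ring

lemma nrm_comb_le {ι : Type*} [Fintype ι] (c : ι → ℝ) (X : ι → SMat) :
    nrm g (comb c X) ≤ ∑ r, |c r| * nrm g (X r) := by
  have e : ∑ r, |c r| * nrm g (X r)
      = ∑ r, |c r * (X r).d| + ∑ l ∈ range (g.K + 1), g.w l * ∑ r, |c r * (X r).q l| := by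
    simp only [nrm, mul_add, Finset.sum_add_distrib, Finset.mul_sum, abs_mul]
    congr 1
    rw [Finset.sum_comm]
    exact Finset.sum_congr rfl fun l _ => Finset.sum_congr rfl fun r _ => by ring
  rw [e]
  exact add_le_add (Finset.abs_sum_le_sum_abs _ _) (Finset.sum_le_sum fun l hl =>
    mul_le_mul_of_nonneg_left (Finset.abs_sum_le_sum_abs _ _)
      (w_nonneg g (Nat.lt_succ_iff.1 (Finset.mem_range.1 hl))))

lemma abs_above_le (X : SMat) (l : ℕ) :
    |above g X l| ≤ ∑ m ∈ range (g.K + 1), g.w m * |X.q m| := by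
  refine (Finset.abs_sum_le_sum_abs _ _).trans ?_
  calc ∑ m ∈ Ioc l g.K, |g.w m * X.q m| = ∑ m ∈ Ioc l g.K, g.w m * |X.q m| :=
        Finset.sum_congr rfl fun m hm => by
          rw [abs_mul, abs_of_nonneg (w_nonneg g (Finset.mem_Ioc.1 hm).2)]
    _ ≤ _ := Finset.sum_le_sum_of_subset_of_nonneg
        (fun m hm => Finset.mem_range.2 (Nat.lt_succ_iff.2 (Finset.mem_Ioc.1 hm).2))
        (fun m hm _ => mul_nonneg (w_nonneg g (Nat.lt_succ_iff.1 (Finset.mem_range.1 hm)))
          (abs_nonneg _))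

lemma nrm_mul_le (X Y : SMat) :
    nrm g (mul g X Y) ≤ 6 * (|Y.d| + var g Y) * nrm g X := by
  set V := var g Y with hV
  set N := ∑ m ∈ range (g.K + 1), g.w m * |X.q m| with hN
  have hV0 : 0 ≤ V := var_nonneg g Y
  have hmem : ∀ {m}, m ∈ range (g.K + 1) → m ≤ g.K := fun h =>
    Nat.lt_succ_iff.1 (Finset.mem_range.1 h)
  have hw : ∀ m ∈ range (g.K + 1), 0 ≤ g.w m := fun m hm => w_nonneg g (hmem hm)
  have hN0 : 0 ≤ N := Finset.sum_nonneg fun m hm => mul_nonneg (hw m hm) (abs_nonneg _)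
  have hcross : ∀ l ≤ g.K, |∑ m ∈ range (l + 1), g.w m * (X.q m * Y.q m)| ≤ V * N := by
    intro l hl
    refine (Finset.abs_sum_le_sum_abs _ _).trans ?_
    calc ∑ m ∈ range (l + 1), |g.w m * (X.q m * Y.q m)|
        ≤ ∑ m ∈ range (g.K + 1), |g.w m * (X.q m * Y.q m)| :=
          Finset.sum_le_sum_of_subset_of_nonneg
            (Finset.range_subset_range.2 (by omega)) fun _ _ _ => abs_nonneg _
      _ ≤ ∑ m ∈ range (g.K + 1), V * (g.w m * |X.q m|) := Finset.sum_le_sum fun m hm => by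
          rw [abs_mul, abs_mul, abs_of_nonneg (hw m hm)]
          calc g.w m * (|X.q m| * |Y.q m|) ≤ g.w m * (|X.q m| * V) := by
                gcongr
                · exact hw m hm
                · exact abs_q_le_var g Y (hmem hm)
            _ = _ := by ring
      _ = V * N := by rw [hN, Finset.mul_sum]
  have hYab : ∀ l, |above g Y l| ≤ V := by
    intro l
    refine (abs_above_le g Y l).trans ?_
    calc ∑ m ∈ range (g.K + 1), g.w m * |Y.q m| ≤ ∑ m ∈ range (g.K + 1), g.w m * V :=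
          Finset.sum_le_sum fun m hm =>
            mul_le_mul_of_nonneg_left (abs_q_le_var g Y (hmem hm)) (hw m hm)
      _ = V := by rw [← Finset.sum_mul, sum_w, one_mul]
  have hq : ∀ l ≤ g.K, |(mul g X Y).q l|
      ≤ (|X.d| + 2 * N) * V + |X.q l| * (|Y.d| + 2 * V) := by
    intro l hl
    have hl1 : l + 1 ≤ g.K + 1 := by omega
    have t1 : |X.d * Y.q l| ≤ |X.d| * V := by
      rw [abs_mul]; exact mul_le_mul_of_nonneg_left (abs_q_le_var g Y hl) (abs_nonneg _)
    have t2 : |Y.d * X.q l| = |X.q l| * |Y.d| := by rw [abs_mul, mul_comm]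
    have t3 : |g.x (l + 1) * (X.q l * Y.q l)| ≤ |X.q l| * V := by
      rw [abs_mul, abs_mul, abs_of_nonneg (x_nonneg g hl1)]
      calc g.x (l + 1) * (|X.q l| * |Y.q l|) ≤ 1 * (|X.q l| * V) :=
            mul_le_mul (x_le_one g hl1)
              (mul_le_mul_of_nonneg_left (abs_q_le_var g Y hl) (abs_nonneg _))
              (by positivity) zero_le_one
        _ = _ := one_mul _
    have t4 : |X.q l * above g Y l| ≤ |X.q l| * V := by
      rw [abs_mul]; exact mul_le_mul_of_nonneg_left (hYab l) (abs_nonneg _)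
    have t5 : |Y.q l * above g X l| ≤ V * N := by
      rw [abs_mul]; exact mul_le_mul (abs_q_le_var g Y hl) (abs_above_le g X l) (abs_nonneg _) hV0
    have t6 := hcross l hl
    simp only [mul]
    rw [abs_le] at t1 t3 t4 t5 t6
    have t2' := abs_le.1 t2.le
    rw [abs_le]
    constructor <;> linarith
  have hd : |(mul g X Y).d| ≤ |X.d| * |Y.d| + V * N := by
    simp only [mul]
    refine (abs_sub _ _).trans (add_le_add (abs_mul _ _).le (hcross g.K le_rfl))
  have hs : ∑ l ∈ range (g.K + 1), g.w l * |(mul g X Y).q l|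
      ≤ (|X.d| + 2 * N) * V + N * (|Y.d| + 2 * V) := by
    calc _ ≤ ∑ l ∈ range (g.K + 1),
          (g.w l * ((|X.d| + 2 * N) * V) + g.w l * |X.q l| * (|Y.d| + 2 * V)) :=
          Finset.sum_le_sum fun l hl => by
            rw [mul_assoc (g.w l) |X.q l|, ← mul_add]
            exact mul_le_mul_of_nonneg_left (hq l (hmem hl)) (hw l hl)
      _ = _ := by rw [Finset.sum_add_distrib, ← Finset.sum_mul, ← Finset.sum_mul, sum_w, one_mul]
  rw [nrm, nrm, ← hN]
  nlinarith [abs_nonneg X.d, abs_nonneg Y.d, mul_nonneg hN0 hV0,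
    mul_nonneg (abs_nonneg X.d) hV0, mul_nonneg (abs_nonneg X.d) (abs_nonneg Y.d),
    mul_nonneg hN0 (abs_nonneg Y.d)]

lemma var_mul_le (X Y : SMat) {S S' : ℝ} (hS : ∀ l ≤ g.K, |eig g X l| ≤ S)
    (hS' : ∀ l ≤ g.K, |eig g Y l| ≤ S') :
    var g (mul g X Y) ≤ var g X * S' + S * var g Y := by
  have e : var g X * S' + S * var g Y = (|X.q 0| * S' + |Y.q 0| * S)
      + ∑ l ∈ range g.K, (|X.q (l + 1) - X.q l| * S' + S * |Y.q (l + 1) - Y.q l|) := by
    rw [var, var, Finset.sum_add_distrib, ← Finset.sum_mul, ← Finset.mul_sum]; ring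
  rw [e, var]
  refine add_le_add ?_ (Finset.sum_le_sum fun l hl => ?_)
  · rw [q_mul_zero]
    refine (abs_add_le _ _).trans (add_le_add ?_ ?_) <;> rw [abs_mul]
    · exact mul_le_mul_of_nonneg_left (hS' 0 (Nat.zero_le _)) (abs_nonneg _)
    · exact mul_le_mul_of_nonneg_left (hS 0 (Nat.zero_le _)) (abs_nonneg _)
  · have hlt := Finset.mem_range.1 hl
    rw [q_mul_step g X Y hlt]
    refine (abs_add_le _ _).trans (add_le_add ?_ ?_) <;> rw [abs_mul]
    · exact mul_le_mul_of_nonneg_left (hS' l hlt.le) (abs_nonneg _)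
    · exact mul_le_mul_of_nonneg_right (hS (l + 1) hlt) (abs_nonneg _)

/-- The matrix with a given first entry and given eigenvalues. -/
noncomputable def ofEig (a : ℝ) (D : ℕ → ℝ) : SMat where
  q l := a + ∑ j ∈ range l, (D j - D (j + 1)) / g.x (j + 1)
  d := D g.K + (a + ∑ j ∈ range g.K, (D j - D (j + 1)) / g.x (j + 1))

lemma eig_ofEig (a : ℝ) (D : ℕ → ℝ) {l : ℕ} (hl : l ≤ g.K) : eig g (ofEig g a D) l = D l := by
  induction hd : g.K - l generalizing l with
  | zero =>
    obtain rfl : l = g.K := by omega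
    rw [eig_top]; simp [ofEig]
  | succ d ih =>
    have hlt : l < g.K := by omega
    have hx := (g.x_pos (l + 1) (by omega) hlt).ne'
    rw [eig_step g _ hlt, ih (l := l + 1) (by omega) (by omega)]
    simp only [ofEig, Finset.sum_range_succ]
    field_simp
    ring

/-- The inverse. -/
noncomputable def inv (X : SMat) : SMat :=
  ofEig g (-X.q 0 / eig g X 0 ^ 2) fun l => (eig g X l)⁻¹

lemma eig_inv (X : SMat) {l : ℕ} (hl : l ≤ g.K) : eig g (inv g X) l = (eig g X l)⁻¹ :=
  eig_ofEig g _ _ hl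

lemma q_inv_zero (X : SMat) : (inv g X).q 0 = -X.q 0 / eig g X 0 ^ 2 := by
  simp [inv, ofEig]

lemma var_inv_le (X : SMat) {c : ℝ} (hc : 0 < c) (hX : ∀ l ≤ g.K, c ≤ eig g X l) :
    var g (inv g X) ≤ var g X / c ^ 2 := by
  rw [var, var, add_div, Finset.sum_div, q_inv_zero]
  refine add_le_add ?_ (Finset.sum_le_sum fun l hl => ?_)
  · rw [abs_div, abs_neg, abs_pow]
    refine div_le_div_of_nonneg_left (abs_nonneg _) (by positivity) ?_
    have := hX 0 (Nat.zero_le _)
    rw [abs_of_nonneg (hc.le.trans this)]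
    exact pow_le_pow_left₀ hc.le this 2
  · have hlt := Finset.mem_range.1 hl
    have hx := g.x_pos (l + 1) (by omega) hlt
    have ha := hX l hlt.le
    have hb := hX (l + 1) hlt
    have ha0 := lt_of_lt_of_le hc ha
    have hb0 := lt_of_lt_of_le hc hb
    have e := eig_step g X hlt
    have e' : (inv g X).q (l + 1) - (inv g X).q l
        = -(X.q (l + 1) - X.q l) / (eig g X l * eig g X (l + 1)) := by
      simp only [inv, ofEig, Finset.sum_range_succ]
      rw [inv_sub_inv ha0.ne' hb0.ne', e]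
      field_simp
      ring
    rw [e', abs_div, abs_neg, abs_of_pos (mul_pos ha0 hb0)]
    refine div_le_div_of_nonneg_left (abs_nonneg _) (by positivity) ?_
    nlinarith

lemma abs_d_le (X : SMat) : |X.d| ≤ |eig g X g.K| + var g X := by
  have h := eig_top g X
  calc |X.d| = |eig g X g.K + X.q g.K| := by rw [h]; ring_nf
    _ ≤ |eig g X g.K| + |X.q g.K| := abs_add_le _ _
    _ ≤ _ := add_le_add le_rfl (abs_q_le_var g X le_rfl)

lemma var_add_le (X Y : SMat) : var g (add X Y) ≤ var g X + var g Y := by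
  simp only [var, add]
  rw [add_add_add_comm, ← Finset.sum_add_distrib]
  refine add_le_add (abs_add_le _ _) (Finset.sum_le_sum fun l _ => ?_)
  rw [add_sub_add_comm]; exact abs_add_le _ _

lemma var_smul (c : ℝ) (X : SMat) : var g (smul c X) = |c| * var g X := by
  simp only [var, smul, ← mul_sub, abs_mul, mul_add, Finset.mul_sum]

lemma var_one : var g one = 0 := by simp [var, one]

lemma var_comb_le {ι : Type*} [Fintype ι] (c : ι → ℝ) (X : ι → SMat) :
    var g (comb c X) ≤ ∑ r, |c r| * var g (X r) := by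
  have e : ∑ r, |c r| * var g (X r) = ∑ r, |c r * (X r).q 0|
      + ∑ l ∈ range g.K, ∑ r, |c r * ((X r).q (l + 1) - (X r).q l)| := by
    simp only [var, mul_add, Finset.sum_add_distrib, Finset.mul_sum, abs_mul]
    rw [Finset.sum_comm (s := univ)]
  rw [e, var]
  refine add_le_add (Finset.abs_sum_le_sum_abs _ _) (Finset.sum_le_sum fun l _ => ?_)
  simp only [comb, ← Finset.sum_sub_distrib, ← mul_sub]
  exact Finset.abs_sum_le_sum_abs _ _

/-- A matrix with bounded variation and eigenvalues in `[0, B]`. -/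
def Nice (B : ℝ) (X : SMat) : Prop := var g X ≤ B ∧ ∀ l ≤ g.K, 0 ≤ eig g X l ∧ eig g X l ≤ B

/-- The resolvent `(1 + t X)⁻¹`. -/
noncomputable def res (t : ℝ) (X : SMat) : SMat := inv g (add one (smul t X))

lemma eig_res (t : ℝ) (X : SMat) {l : ℕ} (hl : l ≤ g.K) :
    eig g (res g t X) l = (1 + t * eig g X l)⁻¹ := by simp [res, eig_inv g _ hl]

lemma res_nice {t T B : ℝ} (ht : 0 ≤ t) (htT : t ≤ T) (hB : 0 ≤ B) {X : SMat} (hX : Nice g B X) :
    var g (res g t X) ≤ T * B ∧ ∀ l ≤ g.K, 0 ≤ eig g (res g t X) l ∧ eig g (res g t X) l ≤ 1 := by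
  have h1 : ∀ l ≤ g.K, 1 ≤ eig g (add one (smul t X)) l := fun l hl => by
    simp only [eig_add, eig_one, eig_smul]
    linarith [mul_nonneg ht (hX.2 l hl).1]
  refine ⟨(var_inv_le g _ one_pos h1).trans ?_, fun l hl => ?_⟩
  · rw [one_pow, div_one]
    refine (var_add_le g _ _).trans ?_
    rw [var_one, zero_add, var_smul, abs_of_nonneg ht]
    exact mul_le_mul htT hX.1 (var_nonneg g X) (ht.trans htT)
  · rw [res, eig_inv g _ hl]
    exact ⟨inv_nonneg.2 (zero_le_one.trans (h1 l hl)), inv_le_one_of_one_le₀ (h1 l hl)⟩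

/-- The defect in the loop equation of one atom against the reference atom. -/
noncomputable def defect (t : ℝ) (X X₀ : SMat) : SMat :=
  add (add X (smul t (mul g X X₀))) (smul (-1) X₀)

lemma eig_defect (t : ℝ) (X X₀ : SMat) {l : ℕ} (hl : l ≤ g.K) :
    eig g (defect g t X X₀) l = eig g X l + t * (eig g X l * eig g X₀ l) - eig g X₀ l := by
  simp only [defect, eig_add, eig_smul, eig_mul g _ _ hl]; ring

lemma q_defect_zero (t : ℝ) (X X₀ : SMat) :
    (defect g t X X₀).q 0
      = X.q 0 + t * (X.q 0 * eig g X₀ 0 + X₀.q 0 * eig g X 0) - X₀.q 0 := by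
  simp only [defect, add, smul]
  rw [q_mul_zero]; ring

lemma diff_eig (t x a b : ℝ) (hd : 1 + t * a ≠ 0) (hd' : 1 + t * b ≠ 0) :
    x - b / (1 + t * b) = (a - b) * ((1 + t * a)⁻¹ * (1 + t * b)⁻¹)
      + (x + t * (x * a) - a) * (1 + t * a)⁻¹ := by
  have e := inv_mul_cancel₀ hd
  have e' := inv_mul_cancel₀ hd'
  rw [div_eq_mul_inv]
  linear_combination (b * (1 + t * b)⁻¹ - x) * e - a * (1 + t * a)⁻¹ * e' 

lemma diff_q_zero (t x a b u v v' : ℝ) (hd : 1 + t * a ≠ 0) (hd' : 1 + t * b ≠ 0) :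
    u - v' / (1 + t * b) ^ 2
      = (v - v') * ((1 + t * a)⁻¹ * (1 + t * b)⁻¹)
        + (-(t * v) / (1 + t * a) ^ 2 * (1 + t * b)⁻¹
          + -(t * v') / (1 + t * b) ^ 2 * (1 + t * a)⁻¹) * (a - b)
        + ((u + t * (u * a + v * x) - v) * (1 + t * a)⁻¹
          + -(t * v) / (1 + t * a) ^ 2 * (x + t * (x * a) - a)) := by
  field_simp
  ring

end SMat

open SMat

/-- Approximate solutions of the loop equations with almost the same weighted sum are close to the
exact one, uniformly in the levels and in the atoms. -/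
theorem loop_stable_unif {ι : Type*} [Fintype ι] {c₀ T B : ℝ} (hc₀ : 0 < c₀) (hB : 1 ≤ B)
    (hT : 0 ≤ T) :
    ∃ C : ℝ, 0 < C ∧ ∀ (c t : ι → ℝ) (r₀ : ι), (∀ r, 0 ≤ c r) → c r₀ = c₀ → ∑ r, c r ≤ 1 →
      t r₀ = 0 → (∀ r, 0 ≤ t r ∧ t r ≤ T) →
      ∀ (g : Grid) (M M' : ι → SMat), (∀ r, Nice g B (M r)) →
      (∀ r, Nice g B (M' r)) →
      (∀ r, Eqv g (defect g (t r) (M' r) (M' r₀)) ⟨0, fun _ => 0⟩) →
      ∀ ε : ℝ, (∀ r, nrm g (defect g (t r) (M r) (M r₀)) ≤ ε) →
        nrm g (comb c fun r => add (M r) (smul (-1) (M' r))) ≤ ε →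
        ∀ r, nrm g (add (M r) (smul (-1) (M' r))) ≤ C * ε := by
  set A : ℝ := 1 + T * B with hA
  have hA1 : 1 ≤ A := by rw [hA]; nlinarith
  -- constants: resolvents, products of two of them, the inverse of their mixture
  set VH : ℝ := 2 * A with hVH
  set VI : ℝ := c₀⁻¹ + VH / c₀ ^ 2 + VH / c₀ ^ 2 with hVI
  have hVI0 : 0 ≤ VI := by rw [hVI, hVH]; positivity
  set C0 : ℝ := 6 * VI * (1 + 12 * A) with hC0
  have hC00 : 0 ≤ C0 := by rw [hC0]; positivity
  refine ⟨36 * A * C0 + 12 * A + 1, by positivity, ?_⟩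
  intro c t r₀ hc hcr hsum ht₀ ht g M M' hM hM' hex ε hdef hmix r
  subst hcr
  have hε : 0 ≤ ε := (nrm_nonneg g _).trans hmix
  set W : ι → SMat := fun r => res g (t r) (M r₀) with hW
  set W' : ι → SMat := fun r => res g (t r) (M' r₀) with hW'
  set P : ι → SMat := fun r => SMat.mul g (W r) (W' r) with hP
  set Δ : ι → SMat := fun r => add (M r) (smul (-1) (M' r)) with hΔ
  set E : ι → SMat := fun r => SMat.mul g (defect g (t r) (M r) (M r₀)) (W r) with hE
  have hWn := fun r => res_nice g (ht r).1 (ht r).2 (zero_le_one.trans hB) (hM r₀)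
  have hW'n := fun r => res_nice g (ht r).1 (ht r).2 (zero_le_one.trans hB) (hM' r₀)
  have hden : ∀ (N : ι → SMat), (∀ r, Nice g B (N r)) → ∀ r, ∀ l ≤ g.K,
      (0:ℝ) < 1 + t r * eig g (N r₀) l := fun N hN r l hl => by
    have := mul_nonneg (ht r).1 ((hN r₀).2 l hl).1
    linarith
  -- the difference of one atom in terms of that of the reference atom
  have hrel : ∀ r, Eqv g (Δ r) (add (SMat.mul g (Δ r₀) (P r)) (E r)) := by
    intro r
    have hl0 : ∀ l ≤ g.K,
        eig g (M' r) l + t r * (eig g (M' r) l * eig g (M' r₀) l) - eig g (M' r₀) l = 0 := by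
      intro l hl
      rw [← eig_defect g _ _ _ hl]
      have e := hex r
      rw [eig, above, e.1, e.2 l hl,
        Finset.sum_eq_zero fun m hm => by rw [e.2 m (Finset.mem_Ioc.1 hm).2]; simp]
      simp
    have hq0 := (hex r).2 0 (Nat.zero_le _)
    rw [q_defect_zero] at hq0
    refine eqv_of_eig g ?_ fun l hl => ?_
    · have d := hden M hM r 0 (Nat.zero_le _)
      have d' := hden M' hM' r 0 (Nat.zero_le _)
      have h0 := hl0 0 (Nat.zero_le _)
      have e1 : eig g (M' r) 0 = eig g (M' r₀) 0 / (1 + t r * eig g (M' r₀) 0) := by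
        rw [eq_div_iff d'.ne']; linarith
      have e2 : (M' r).q 0
          = (M' r₀).q 0 * (1 - t r * eig g (M' r) 0) / (1 + t r * eig g (M' r₀) 0) := by
        rw [eq_div_iff d'.ne']
        simp only at hq0
        linarith
      have e3 : (M' r).q 0 = (M' r₀).q 0 / (1 + t r * eig g (M' r₀) 0) ^ 2 := by
        rw [e2, e1]; field_simp; ring
      have key := diff_q_zero (t r) (eig g (M r) 0) (eig g (M r₀) 0) (eig g (M' r₀) 0)
        ((M r).q 0) ((M r₀).q 0) ((M' r₀).q 0) d.ne' d'.ne'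
      have qr : ∀ X : SMat, (res g (t r) X).q 0
          = -(t r * X.q 0) / (1 + t r * eig g X 0) ^ 2 := fun X => by
        rw [res, q_inv_zero, eig_add, eig_smul, eig_one]
        simp [SMat.add, SMat.one, SMat.smul]
      have qa : ∀ X Y : SMat, (add X Y).q 0 = X.q 0 + Y.q 0 := fun _ _ => rfl
      have qs : ∀ X : SMat, (smul (-1) X).q 0 = -1 * X.q 0 := fun _ => rfl
      simp only [hΔ, hE, hP, hW, hW', qa, qs, q_mul_zero, eig_mul g _ _ (Nat.zero_le g.K),
        eig_defect g _ _ _ (Nat.zero_le g.K), q_defect_zero, eig_res g _ _ (Nat.zero_le g.K),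
        eig_add, eig_smul, qr, e3]
      linear_combination key
    · have d := hden M hM r l hl
      have d' := hden M' hM' r l hl
      have h0 := hl0 l hl
      have e1 : eig g (M' r) l = eig g (M' r₀) l / (1 + t r * eig g (M' r₀) l) := by
        rw [eq_div_iff d'.ne']; linarith
      have key := diff_eig (t r) (eig g (M r) l) (eig g (M r₀) l) (eig g (M' r₀) l) d.ne' d'.ne'
      simp only [hΔ, hE, hP, hW, hW', eig_add, eig_smul, eig_mul g _ _ hl,
        eig_defect g _ _ _ hl, eig_res g _ _ hl, e1]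
      linear_combination key
  -- the mixture of the products
  set H : SMat := comb c P with hH
  have hPe : ∀ r, ∀ l ≤ g.K, 0 ≤ eig g (P r) l ∧ eig g (P r) l ≤ 1 := fun r l hl => by
    rw [hP]; simp only [eig_mul g _ _ hl]
    exact ⟨mul_nonneg ((hWn r).2 l hl).1 ((hW'n r).2 l hl).1,
      mul_le_one₀ ((hWn r).2 l hl).2 ((hW'n r).2 l hl).1 ((hW'n r).2 l hl).2⟩
  have hPv : ∀ r, var g (P r) ≤ VH := fun r => by
    refine (var_mul_le g _ _ (S := 1) (S' := 1) (fun l hl => ?_) fun l hl => ?_).trans ?_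
    · rw [abs_of_nonneg ((hWn r).2 l hl).1]; exact ((hWn r).2 l hl).2
    · rw [abs_of_nonneg ((hW'n r).2 l hl).1]; exact ((hW'n r).2 l hl).2
    · rw [hVH, hA]; linarith [(hWn r).1, (hW'n r).1]
  have hHlow : ∀ l ≤ g.K, c r₀ ≤ eig g H l := fun l hl => by
    rw [hH, eig_comb]
    refine le_trans (le_of_eq ?_) (Finset.single_le_sum
      (f := fun r => c r * eig g (P r) l) (fun r _ => mul_nonneg (hc r) (hPe r l hl).1)
      (Finset.mem_univ r₀))
    simp [hP, hW, hW', eig_mul g _ _ hl, eig_res g _ _ hl, ht₀]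
  have hHv : var g H ≤ VH := by
    refine (var_comb_le g c P).trans ?_
    calc ∑ r, |c r| * var g (P r) ≤ ∑ r, c r * VH := Finset.sum_le_sum fun r _ => by
          rw [abs_of_nonneg (hc r)]; exact mul_le_mul_of_nonneg_left (hPv r) (hc r)
      _ = (∑ r, c r) * VH := by rw [Finset.sum_mul]
      _ ≤ 1 * VH := mul_le_mul_of_nonneg_right hsum (by rw [hVH]; positivity)
      _ = VH := one_mul _
  -- solve for the reference atom
  set J : SMat := add (comb c Δ) (smul (-1) (comb c E)) with hJ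
  have hq0J : J.q 0 = ∑ r, c r * ((SMat.mul g (Δ r₀) (P r)).q 0) := by
    simp only [hJ, SMat.add, SMat.smul, SMat.comb, Finset.mul_sum, ← Finset.sum_add_distrib]
    refine Finset.sum_congr rfl fun r _ => ?_
    rw [(hrel r).2 0 (Nat.zero_le _)]
    simp only [SMat.add]; ring
  have heJ : ∀ l ≤ g.K, eig g J l = eig g (Δ r₀) l * eig g H l := fun l hl => by
    simp only [hJ, hH, eig_add, eig_smul, eig_comb, Finset.mul_sum, ← Finset.sum_add_distrib]
    refine Finset.sum_congr rfl fun r _ => ?_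
    have e := hrel r
    have : eig g (Δ r) l = eig g (add (SMat.mul g (Δ r₀) (P r)) (E r)) l := by
      rw [eig, eig, above, above, e.1, e.2 l hl,
        Finset.sum_congr rfl fun m hm => by rw [e.2 m (Finset.mem_Ioc.1 hm).2]]
    rw [this, eig_add, eig_mul g _ _ hl]; ring
  have hsolve : Eqv g (Δ r₀) (SMat.mul g J (inv g H)) := by
    refine eqv_of_eig g ?_ fun l hl => ?_
    · have hne := (lt_of_lt_of_le hc₀ (hHlow 0 (Nat.zero_le _))).ne'
      rw [q_mul_zero, eig_inv g _ (Nat.zero_le _), q_inv_zero, heJ 0 (Nat.zero_le _), hq0J]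
      have : ∑ r, c r * ((SMat.mul g (Δ r₀) (P r)).q 0)
          = (Δ r₀).q 0 * eig g H 0 + H.q 0 * eig g (Δ r₀) 0 := by
        rw [hH, eig_comb]
        simp only [SMat.comb, Finset.mul_sum, Finset.sum_mul,
          ← Finset.sum_add_distrib, q_mul_zero]
        exact Finset.sum_congr rfl fun r _ => by ring
      rw [this]
      field_simp
      ring
    · rw [eig_mul g _ _ hl, eig_inv g _ hl, heJ l hl,
        mul_inv_cancel_right₀ (lt_of_lt_of_le hc₀ (hHlow l hl)).ne']
  -- norms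
  have hmulW : ∀ r (X : SMat), nrm g (SMat.mul g X (W r)) ≤ 12 * A * nrm g X := fun r X => by
    refine (nrm_mul_le g X (W r)).trans (mul_le_mul_of_nonneg_right ?_ (nrm_nonneg g X))
    have := abs_d_le g (W r)
    rw [abs_of_nonneg ((hWn r).2 g.K le_rfl).1] at this
    linarith [((hWn r).2 g.K le_rfl).2, (hWn r).1]
  have hEb : ∀ r, nrm g (E r) ≤ 12 * A * ε := fun r =>
    (hmulW r _).trans (mul_le_mul_of_nonneg_left (hdef r) (by positivity))
  have hJb : nrm g J ≤ (1 + 12 * A) * ε := by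
    refine (nrm_add_le g _ _).trans ?_
    rw [nrm_smul, abs_neg, abs_one, one_mul]
    have : nrm g (comb c E) ≤ 12 * A * ε := by
      refine (nrm_comb_le g c E).trans ?_
      calc ∑ r, |c r| * nrm g (E r) ≤ ∑ r, c r * (12 * A * ε) := Finset.sum_le_sum fun r _ => by
            rw [abs_of_nonneg (hc r)]; exact mul_le_mul_of_nonneg_left (hEb r) (hc r)
        _ = (∑ r, c r) * (12 * A * ε) := by rw [Finset.sum_mul]
        _ ≤ _ := by
            refine le_trans (mul_le_mul_of_nonneg_right hsum (by positivity)) (le_of_eq ?_)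
            ring
    linarith
  have hIb : |(inv g H).d| + var g (inv g H) ≤ VI := by
    have h1 := var_inv_le g H hc₀ hHlow
    have h2 := abs_d_le g (inv g H)
    have hpos := lt_of_lt_of_le hc₀ (hHlow g.K le_rfl)
    rw [eig_inv g _ le_rfl, abs_of_pos (inv_pos.2 hpos)] at h2
    have h3 : (eig g H g.K)⁻¹ ≤ (c r₀)⁻¹ := inv_anti₀ hc₀ (hHlow g.K le_rfl)
    have h4 : var g H / c r₀ ^ 2 ≤ VH / c r₀ ^ 2 := div_le_div_of_nonneg_right hHv (by positivity)
    rw [hVI]; linarith
  have hΔ0 : nrm g (Δ r₀) ≤ C0 * ε := by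
    rw [nrm_congr g hsolve]
    calc nrm g (SMat.mul g J (inv g H)) ≤ 6 * (|(inv g H).d| + var g (inv g H)) * nrm g J :=
          nrm_mul_le g _ _
      _ ≤ 6 * VI * ((1 + 12 * A) * ε) :=
          mul_le_mul (by linarith) hJb (nrm_nonneg g _) (by positivity)
      _ = _ := by rw [hC0]; ring
  have hPd : |(P r).d| + var g (P r) ≤ 6 * A := by
    have := abs_d_le g (P r)
    rw [abs_of_nonneg (hPe r g.K le_rfl).1] at this
    linarith [(hPe r g.K le_rfl).2, hPv r]
  calc nrm g (Δ r) = nrm g (add (SMat.mul g (Δ r₀) (P r)) (E r)) := nrm_congr g (hrel r)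
    _ ≤ nrm g (SMat.mul g (Δ r₀) (P r)) + nrm g (E r) := nrm_add_le g _ _
    _ ≤ 36 * A * (C0 * ε) + 12 * A * ε := add_le_add ((nrm_mul_le g _ _).trans
        (mul_le_mul (by linarith) hΔ0 (nrm_nonneg g _) (by positivity))) (hEb r)
    _ ≤ _ := by nlinarith


/-- Approximate solutions of the loop equations with almost the same weighted sum are close to the
exact one, uniformly in the levels. -/
theorem loop_stable_mat {ι : Type*} [Fintype ι] (c t : ι → ℝ) (r₀ : ι) (hc : ∀ r, 0 ≤ c r)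
    (hc₀ : 0 < c r₀) (hsum : ∑ r, c r ≤ 1) (ht₀ : t r₀ = 0) {T B : ℝ} (hB : 1 ≤ B)
    (ht : ∀ r, 0 ≤ t r ∧ t r ≤ T) :
    ∃ C : ℝ, 0 < C ∧ ∀ (g : Grid) (M M' : ι → SMat), (∀ r, Nice g B (M r)) →
      (∀ r, Nice g B (M' r)) →
      (∀ r, Eqv g (defect g (t r) (M' r) (M' r₀)) ⟨0, fun _ => 0⟩) →
      ∀ ε : ℝ, (∀ r, nrm g (defect g (t r) (M r) (M r₀)) ≤ ε) →
        nrm g (comb c fun r => add (M r) (smul (-1) (M' r))) ≤ ε →
        ∀ r, nrm g (add (M r) (smul (-1) (M' r))) ≤ C * ε := by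
  obtain ⟨C, hC, h⟩ := loop_stable_unif (ι := ι) hc₀ hB ((ht r₀).1.trans (ht r₀).2)
  exact ⟨C, hC, h c t r₀ hc rfl hsum ht₀ ht⟩

end Vale.Agent.P166.Parisi
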