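import Vale.Agent.P166.Parisi.Spec.Atoms
import Vale.Agent.P166.Parisi.Spec.General
import Vale.Agent.P166.Parisi.Spec.Quantile
import Vale.Agent.P166.Parisi.Spec.Seq
import Vale.Agent.P166.Parisi.Spec.Path
import Vale.Agent.P166.Parisi.Spec.Exact

/-! Module S (spectral algebra): all parts. -/
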