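import Vale.Agent.P166.Parisi.Sys
import Vale.Agent.P157.Parisi.Concave
import Vale.Agent.P157.Parisi.Insert
import Vale.Agent.P157.Parisi.LowerBasics

/-!
One spin in a hierarchical field; the entropy term.
-/

namespace Vale.Agent.P166.Parisi

open MeasureTheory ProbabilityTheory Finset Filter Topology
open Vale.Agent.P157 Vale.Agent.P157.Parisi Vale.Agent.P157.Parisi.ModelFacts

variable {K : ℕ}

theorem spinLaw_prob : IsProbabilityMeasure spinLaw := by
  refine ⟨?_⟩
  rw [spinLaw, Fintype.sum_bool, Measure.add_apply, Measure.smul_apply, Measure.smul_apply]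
  simp only [measure_univ, smul_eq_mul, mul_one]
  rw [← ENNReal.ofReal_add (by norm_num) (by norm_num)]
  norm_num

attribute [local instance] spinLaw_prob

namespace SpinAux

lemma integral_spinLaw (f : Bool → ℝ) : ∫ b, f b ∂spinLaw = (f true + f false) / 2 := by
  rw [spinLaw, Fintype.sum_bool,
    integral_add_measure (Integrable.of_finite.smul_measure ENNReal.ofReal_ne_top)
      (Integrable.of_finite.smul_measure ENNReal.ofReal_ne_top),
    integral_smul_measure, integral_smul_measure, integral_dirac, integral_dirac]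
  simp
  ring

lemma spinLeaf_good : spinLeaf.Good 1 where
  nonneg := zero_le_one
  meas _ _ := measurable_of_finite _
  bound b _ _ := by cases b <;> simp [spinLeaf]
  deriv1 _ z := hasDerivAt_id z
  deriv2 _ z := hasDerivAt_const z 1
  cont2 _ := continuous_const
  bound1 _ _ := by simp [spinLeaf]
  bound2 _ _ := by simp [spinLeaf]

lemma spinNest_good (K : ℕ) (e : ℕ → ℝ) : (spinNest K e).Good :=
  ⟨(oneNest_good K e).x_zero, (oneNest_good K e).x_last, (oneNest_good K e).x_pos,
    (oneNest_good K e).x_mono⟩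

lemma logZ_spin (y : Unit → ℝ) :
    spinLeaf.logZ spinLaw y = Real.log (Real.cosh (y ())) := by
  rw [Leaf.logZ, integral_spinLaw]
  congr 1
  simp [Leaf.ham, Leaf.loc, spinLeaf, Real.cosh_eq]

lemma vec_spin (b : Bool) (y : Unit → ℝ) : spinLeaf.vec () b y = if b then 1 else -1 := by
  simp [Leaf.vec, spinLeaf]

/-! ### Gaussian integrals -/

lemma integral_exp_lin (a : ℝ) :
    ∫ z, Real.exp (a * z) ∂gaussianReal 0 1 = Real.exp (a ^ 2 / 2) := by
  have := congrFun (mgf_id_gaussianReal (μ := 0) (v := 1)) a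
  simpa [mgf] using this

lemma integral_gauss_neg (F : ℝ → ℝ) :
    ∫ z, F (-z) ∂gaussianReal 0 1 = ∫ z, F z ∂gaussianReal 0 1 := by
  have h : MeasurePreserving (fun x : ℝ => -x) (gaussianReal 0 1) (gaussianReal 0 1) :=
    ⟨measurable_neg, by rw [gaussianReal_map_neg, neg_zero]⟩
  exact h.integral_comp (Homeomorph.neg ℝ).measurableEmbedding F

lemma integral_gauss_abs (F : ℝ → ℝ) (e : ℝ) :
    ∫ z, F (|e| * z) ∂gaussianReal 0 1 = ∫ z, F (e * z) ∂gaussianReal 0 1 := by
  rcases abs_choice e with h | h <;> rw [h]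
  rw [← integral_gauss_neg (fun z => F (e * z))]
  simp

/-! ### The recursion of the formula -/

lemma lvl_ne {l : ℕ} (hl : 1 ≤ l) : lvl K l ≠ 0 :=
  (div_pos (Nat.cast_pos.2 hl) (by positivity)).ne'

lemma gaussStep_zero {m : ℝ} (hm : m ≠ 0) (u : ℝ → ℝ) (y : ℝ) : gaussStep m 0 u y = u y := by
  simp [gaussStep, hm]

lemma descend_congr {h h' : ℕ → ℝ} (e : ∀ l ≤ K, h l = h' l) (u : ℝ → ℝ) :
    ∀ d ≤ K, descend K h u d = descend K h' u d := by
  intro d hd
  induction d with
  | zero => rfl
  | succ d ih =>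
    simp only [descend, ih (by omega), e _ (show K - d ≤ K by omega),
      e _ (show K - d - 1 ≤ K by omega)]

lemma isingField_congr {h h' : ℕ → ℝ} (e : ∀ l ≤ K, h l = h' l) :
    isingField K h = isingField K h' := by
  simp only [isingField, cascade, e K le_rfl, e 0 (Nat.zero_le K), descend_congr e _ K le_rfl]

lemma isingField_zero (K : ℕ) : isingField K (fun _ => 0) = 0 := by
  have h : ∀ d ≤ K, ∀ y, descend K (fun _ => 0) (fun y => Real.log (Real.cosh y)) d y =
      Real.log (Real.cosh y) := by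
    intro d hd
    induction d with
    | zero => intro y; rfl
    | succ d ih =>
      intro y
      rw [descend, sub_self, gaussStep_zero (lvl_ne (by omega)), ih (by omega)]
  simp [isingField, cascade, h K le_rfl]

/-! ### Cumulative variances -/

lemma cumVar_of_le {e : ℕ → ℝ} {l : ℕ} (hl : l ≤ K) :
    cumVar K e l = ∑ i ∈ range (l + 1), e i ^ 2 := by
  rw [cumVar, min_eq_left hl]

lemma pInc_cumVar (e : ℕ → ℝ) {l : ℕ} (hl : l ≤ K) : pInc (cumVar K e) l = e l ^ 2 := by
  rcases l with - | l
  · simp [pInc, cumVar]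
  · rw [pInc, if_neg (Nat.succ_ne_zero l), Nat.add_sub_cancel, cumVar_of_le hl,
      cumVar_of_le (by omega), sum_range_succ _ (l + 1)]
    ring

lemma cumVar_isPath (K : ℕ) (e : ℕ → ℝ) : IsPath (cumVar K e) :=
  ⟨fun i j hij => sum_le_sum_of_subset_of_nonneg (range_mono (by omega)) fun _ _ _ => sq_nonneg _,
    sum_nonneg fun _ _ => sq_nonneg _⟩

/-- Amplitudes with a given path of cumulative variances. -/
noncomputable def ampOf (K : ℕ) (h : ℕ → ℝ) (l : ℕ) : ℝ :=
  if l ≤ K then Real.sqrt (pInc h l) else 0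

lemma cumVar_ampOf {h : ℕ → ℝ} (hh : IsPath h) {l : ℕ} (hl : l ≤ K) :
    cumVar K (ampOf K h) l = h l := by
  rw [cumVar_of_le hl, ← sum_pInc h l]
  refine sum_congr rfl fun i hi => ?_
  rw [mem_range] at hi
  rw [ampOf, if_pos (by omega), Real.sq_sqrt (pInc_nonneg hh i)]

lemma qTail_top (q : ℕ → ℝ) : qTail K q (K + 1) = 0 := by simp [qTail]

lemma pairing_cumVar (e q : ℕ → ℝ) :
    (∑ l ∈ range (K + 1), cumVar K e l * q l) / ((K : ℝ) + 1) =
      ∑ l ∈ range (K + 1), e l ^ 2 * qTail K q l := by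
  rw [pairing_eq_tail]
  refine sum_congr rfl fun l hl => ?_
  rw [pInc_cumVar e (by rw [mem_range] at hl; omega), pTail, qTail, sum_div,
    ← Finset.Ico_add_one_right_eq_Icc]

lemma qTail_nonneg {q : ℕ → ℝ} (hq : IsPath q) (l : ℕ) : 0 ≤ qTail K q l :=
  div_nonneg (sum_nonneg fun m _ => hq.2.trans (hq.1 (Nat.zero_le m))) (by positivity)

/-! ### One spin and the formula -/

lemma uUp_succ_eq (e : ℕ → ℝ) : ∀ d ≤ K, ∀ y : Unit → ℝ,
    (spinNest K e).uUp (spinLeaf.logZ spinLaw) (d + 1) y =
      descend K (cumVar K e) (fun y => Real.log (Real.cosh y)) d (y ()) + e (K + 1) ^ 2 / 2 := by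
  set N := spinNest K e
  intro d hd
  induction d with
  | zero =>
    intro y
    have hx : N.x (K + 1) = 1 := gridX_top K le_rfl
    have hU : ∀ z : Unit → ℝ, spinLeaf.logZ spinLaw z = Real.log (Real.cosh (z ())) := logZ_spin
    show stepLog (N.x (K + 1)) (N.amp (K + 1)) (spinLeaf.logZ spinLaw) y = _
    simp only [stepLog, hx, inv_one, one_mul, move, hU, Real.exp_log (Real.cosh_pos _), descend]
    rw [integral_gauss_unit (fun z => Real.cosh (y () + N.amp (K + 1) () * z))]
    have hc : ∀ z : ℝ, Real.cosh (y () + e (K + 1) * z) =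
        Real.exp (y ()) / 2 * Real.exp (e (K + 1) * z) +
          Real.exp (-y ()) / 2 * Real.exp (-e (K + 1) * z) := fun z => by
      rw [Real.cosh_eq, div_mul_eq_mul_div, div_mul_eq_mul_div, ← Real.exp_add, ← Real.exp_add,
        ← add_div, neg_mul, neg_add]
    show Real.log (∫ z, Real.cosh (y () + e (K + 1) * z) ∂gaussianReal 0 1) = _
    simp only [hc]
    rw [integral_add ((integrable_exp_mul_gaussianReal _).const_mul _)
      ((integrable_exp_mul_gaussianReal _).const_mul _), integral_const_mul, integral_const_mul,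
      integral_exp_lin, integral_exp_lin, neg_sq, ← add_mul, ← add_div, ← Real.cosh_eq,
      Real.log_mul (Real.cosh_pos _).ne' (Real.exp_pos _).ne', Real.log_exp]
  | succ d ih =>
    intro y
    have hk : N.K - (d + 1) = K - d := by
      show K + 1 - (d + 1) = K - d
      omega
    have hl : lvl K (K - d) ≠ 0 :=
      div_ne_zero (Nat.cast_ne_zero.2 (by omega)) (by positivity)
    have hx : N.x (K - d) = lvl K (K - d) := gridX_of_le K (by omega)
    have hv : cumVar K e (K - d) - cumVar K e (K - d - 1) = e (K - d) ^ 2 := by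
      have := pInc_cumVar e (show K - d ≤ K by omega)
      rwa [pInc, if_neg (by omega)] at this
    have hpos := integral_exp_move_pos (linB_uUp N (linB_logZ spinLaw (spinNest_good K e)
      spinLeaf_good) (d + 1)) (N.x (K - d)) (N.amp (K - d)) y
    rw [Nest.uUp, hk, stepLog, descend, gaussStep, hv, Real.sqrt_sq_eq_abs,
      integral_gauss_abs (fun z => Real.exp (lvl K (K - d) *
        descend K (cumVar K e) (fun y => Real.log (Real.cosh y)) d (y () + z))) (e (K - d))]
    have ha : N.amp (K - d) () = e (K - d) := rfl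
    simp only [ih (by omega), hx, move, ha, mul_add, Real.exp_add, integral_mul_const] at hpos ⊢
    rw [integral_gauss_unit (fun z => Real.exp (lvl K (K - d) *
      descend K (cumVar K e) (fun y => Real.log (Real.cosh y)) d
        (y () + e (K - d) * z)))] at hpos ⊢
    rw [Real.log_mul (left_ne_zero_of_mul hpos.ne') (Real.exp_pos _).ne', Real.log_exp, mul_add,
      ← mul_assoc, inv_mul_cancel₀ hl, one_mul]

lemma descend_root_integrable (e : ℕ → ℝ) :
    Integrable (fun z => descend K (cumVar K e) (fun y => Real.log (Real.cosh y)) K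
      (e 0 * z ()) + e (K + 1) ^ 2 / 2) (gauss Unit) := by
  have h := (integrable_root (spinNest K e)
    (linB_logZ spinLaw (spinNest_good K e) spinLeaf_good)).integrable one_le_two
  exact h.congr (Eventually.of_forall fun z => uUp_succ_eq e K le_rfl _)

end SpinAux

open SpinAux

theorem cumVar_path (e : ℕ → ℝ) : IsPath (cumVar K e) := cumVar_isPath K e

theorem oneSpin_eq (e : ℕ → ℝ) :
    oneSpin K e = isingField K (cumVar K e) + (∑ i ∈ range (K + 2), e i ^ 2) / 2 := by
  have h0 : ∀ z : Unit → ℝ, (spinNest K e).u (spinLeaf.logZ spinLaw) 0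
      (fun i => (spinNest K e).amp 0 i * z i) =
      descend K (cumVar K e) (fun y => Real.log (Real.cosh y)) K (e 0 * z ()) +
        e (K + 1) ^ 2 / 2 := fun z => uUp_succ_eq e K le_rfl _
  have hi := descend_root_integrable (K := K) e
  have hi' : Integrable (fun z => descend K (cumVar K e) (fun y => Real.log (Real.cosh y)) K
      (e 0 * z ())) (gauss Unit) :=
    (hi.sub (integrable_const (e (K + 1) ^ 2 / 2))).congr (Eventually.of_forall fun z => by simp)
  rw [oneSpin, free_eq]
  simp only [h0]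
  rw [integral_add hi' (integrable_const _), integral_const, probReal_univ, one_smul,
    integral_gauss_unit (fun z => descend K (cumVar K e) (fun y => Real.log (Real.cosh y)) K
      (e 0 * z)), ← integral_gauss_abs]
  rw [isingField, cascade, sum_range_succ _ (K + 1), ← cumVar_of_le (le_refl K),
    show cumVar K e 0 = e 0 ^ 2 by simp [cumVar], Real.sqrt_sq_eq_abs]
  ring

namespace SpinAux

lemma oneSpin_congr_sq {e e' : ℕ → ℝ} (h : ∀ i, e i ^ 2 = e' i ^ 2) :
    oneSpin K e = oneSpin K e' := by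
  rw [oneSpin_eq, oneSpin_eq]
  simp only [h]
  congr 1
  exact isingField_congr fun l _ => by simp [cumVar, h]

/-- The entropy's objective at the path of a field. -/
lemma value_eq (e q : ℕ → ℝ) :
    isingField K (cumVar K e) +
        (∑ l ∈ range (K + 1), cumVar K e l * q l) / (2 * ((K : ℝ) + 1)) =
      oneSpin K e - (∑ l ∈ range (K + 1), e l ^ 2 * (1 - qTail K q l)) / 2 -
        e (K + 1) ^ 2 / 2 := by
  have hp := pairing_cumVar (K := K) e q
  rw [oneSpin_eq, sum_range_succ _ (K + 1), show (2 * ((K : ℝ) + 1)) = ((K : ℝ) + 1) * 2 by ring,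
    ← div_div, hp]
  simp only [mul_sub, mul_one, sum_sub_distrib]
  ring

lemma heatTop_spin (e : ℕ → ℝ) : (spinNest K e).heatTop spinLeaf spinLaw () = 1 := by
  have hN := spinNest_good K e
  have hL := spinLeaf_good
  have h : (spinNest K e).heat spinLeaf spinLaw (spinNest K e).K () = fun _ => 1 := by
    funext y
    rw [heat_top hN hL]
    have : (fun ω v => (∑ j, spinLeaf.φ2 j (spinLeaf.loc ω v j) * spinLeaf.a ω j () ^ 2) +
        spinLeaf.vec () ω v ^ 2) = fun (_ : Bool) (_ : Unit → ℝ) => (1 : ℝ) := by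
      funext b v
      cases b <;> simp [spinLeaf, Leaf.vec]
    rw [this]
    have := node_const (μ := spinLaw) hN hL (le_refl (spinNest K e).K) (1 : ℝ) y
    rwa [node_top hN hL] at this
  rw [Nest.heatTop, h]
  exact mean_const hN hL le_rfl 1

lemma sqGrad_mem (e : ℕ → ℝ) {m : ℕ} (hm : m ≤ K + 1) :
    0 ≤ (spinNest K e).sqGrad spinLeaf spinLaw m () ∧
      (spinNest K e).sqGrad spinLeaf spinLaw m () ≤ 1 := by
  have hN := spinNest_good K e
  have hL := spinLeaf_good
  have hb : ∀ y, |(spinNest K e).grad spinLeaf spinLaw m () y| ≤ 1 := fun y =>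
    (grad_bound hN hL hm () y).trans (by simp)
  have hc : ∀ c : ℝ, Parisi.Tame fun _ : Unit → ℝ => c := fun c =>
    ModelFacts.tame_of_bdd continuous_const fun _ => le_rfl
  refine ⟨le_trans (le_of_eq (mean_const (μ := spinLaw) hN hL hm 0).symm)
      (mean_mono hN hL hm (hc 0) (grad_tame hN hL hm ()).sq fun y => sq_nonneg _), ?_⟩
  refine le_trans (mean_mono hN hL hm (grad_tame hN hL hm ()).sq (hc 1) fun y => ?_)
    (le_of_eq (mean_const (μ := spinLaw) hN hL hm 1))
  exact (sq_le_one_iff_abs_le_one _).2 (hb y)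

lemma sum_tail_eq (e : ℕ → ℝ) {l : ℕ} (hl : l ≤ K + 1) :
    ∑ m ∈ Icc l (K + 1), (spinNest K e).w m * (spinNest K e).sqGrad spinLeaf spinLaw m () =
      qTail K (spinPath K e) l := by
  rw [← Finset.Ico_add_one_right_eq_Icc, sum_Ico_succ_top hl, w_top K _ rfl, zero_mul, add_zero,
    qTail, sum_div]
  refine sum_congr rfl fun m hm => ?_
  rw [mem_Ico] at hm
  rw [w_of_le K _ rfl (by omega), spinPath, min_eq_left (by omega)]
  field_simp

lemma free_deriv_spin {A A' : ℝ → ℕ → ℝ} {t r : ℝ} (hr : 0 < r)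
    (hA : ∀ l ≤ K + 1, ∀ s, |s - t| < r → HasDerivAt (fun s => A s l) (A' s l) s)
    (hA' : ∀ l ≤ K + 1, ContinuousAt (fun s => A' s l) t) :
    HasDerivAt (fun s => oneSpin K (A s))
      (∑ l ∈ range (K + 2), A' t l * A t l * (1 - qTail K (spinPath K (A t)) l)) t := by
  have h := free_deriv (N := spinNest K (A t)) (μ := spinLaw) (spinNest_good K (A t)) spinLeaf_good
    (A := fun s l _ => A s l) (A' := fun s l _ => A' s l) hr (fun l hl _ => hA l hl)
    (fun l hl _ => hA' l hl)
  refine h.congr_deriv ?_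
  refine sum_congr rfl fun l hl => ?_
  rw [mem_range] at hl
  rw [Fintype.univ_punit, sum_singleton, ← sum_tail_eq (A t) (show l ≤ K + 1 by omega)]
  show A' t l * A t l * ((spinNest K (A t)).heatTop spinLeaf spinLaw () - _) = _
  rw [heatTop_spin]
  rfl

lemma isingField_concave {h h' : ℕ → ℝ} (hh : IsPath h) (hh' : IsPath h') {t : ℝ} (ht0 : 0 ≤ t)
    (ht1 : t ≤ 1) :
    (1 - t) * isingField K h + t * isingField K h' ≤
      isingField K fun l => (1 - t) * h l + t * h' l := by
  have hp : IsPath fun l => (1 - t) * h l + t * h' l :=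
    ⟨fun i j hij => add_le_add (mul_le_mul_of_nonneg_left (hh.1 hij) (sub_nonneg.2 ht1))
      (mul_le_mul_of_nonneg_left (hh'.1 hij) ht0),
      add_nonneg (mul_nonneg (sub_nonneg.2 ht1) hh.2) (mul_nonneg ht0 hh'.2)⟩
  have := blockField_concave one_pos K hh hh' ht0 ht1
  rwa [blockField_one K hh, blockField_one K hh', blockField_one K hp] at this

/-- The free energy is concave in the variances, hence below each tangent. -/
lemma oneSpin_le (e : ℕ → ℝ) {v : ℕ → ℝ} (hv : ∀ l, 0 ≤ v l) :
    oneSpin K (fun l => Real.sqrt (v l)) ≤ oneSpin K e +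
      ∑ l ∈ range (K + 2), (v l - e l ^ 2) / 2 * (1 - qTail K (spinPath K e) l) := by
  set sg : ℕ → ℝ := fun l => if e l < 0 then -1 else 1 with hsg
  have hsg2 : ∀ l, sg l ^ 2 = 1 := fun l => by simp only [hsg]; split_ifs <;> norm_num
  set S : ℝ → ℕ → Unit → ℝ := fun t l _ => Real.sqrt ((1 - t) * e l ^ 2 + t * v l) with hS
  set Δ : ℕ → Unit → ℝ := fun l _ => v l - e l ^ 2
  have hpath : ∀ l i, SqPath S Δ l i := fun l _ =>
    Or.inr ⟨e l ^ 2, v l, sq_nonneg _, hv l, fun _ => rfl, rfl⟩
  set A : ℝ → ℕ → ℝ := fun t l => sg l * S t l ()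
  have hAc : ∀ l, Continuous fun t => A t l := fun l =>
    continuous_const.mul (continuous_sqPath (hpath l ()))
  set D : ℝ → ℝ := fun t => ∑ l ∈ range (K + 2),
    (v l - e l ^ 2) / 2 * (1 - qTail K (spinPath K (A t)) l) with hD
  set F : ℝ → ℝ := fun t => oneSpin K (A t) with hF
  have hderiv : ∀ t ∈ Set.Ioo (0 : ℝ) 1, HasDerivAt F (D t) t := by
    intro t ht
    have hr : 0 < min t (1 - t) := lt_min ht.1 (by linarith [ht.2])
    have hmem : ∀ s, |s - t| < min t (1 - t) → s ∈ Set.Ioo (0 : ℝ) 1 := fun s hs => by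
      have h1 := abs_lt.1 hs
      constructor <;> linarith [min_le_left t (1 - t), min_le_right t (1 - t)]
    refine (free_deriv_spin (K := K) (A := A) (A' := fun s l => sg l * (Δ l () / (2 * S s l ())))
      hr (fun l _ s hs => (hasDerivAt_sqPath (hpath l ()) (hmem s hs)).1.const_mul _)
      (fun l _ => continuousAt_const.mul ?_)).congr_deriv ?_
    · obtain ⟨-, -, hz⟩ := hasDerivAt_sqPath (hpath l ()) ht
      rcases eq_or_ne (S t l ()) 0 with h0 | h0
      · simp only [hz h0, zero_div]; exact continuousAt_const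
      · exact continuousAt_const.div
          (continuousAt_const.mul (continuous_sqPath (hpath l ())).continuousAt)
          (mul_ne_zero two_ne_zero h0)
    · refine sum_congr rfl fun l _ => ?_
      have e2 := (hasDerivAt_sqPath (hpath l ()) ht).2.1
      show sg l * (Δ l () / (2 * S t l ())) * (sg l * S t l ()) * _ = _
      rw [show sg l * (Δ l () / (2 * S t l ())) * (sg l * S t l ()) =
        sg l ^ 2 * (Δ l () / (2 * S t l ()) * S t l ()) by ring, hsg2, e2, one_mul]
  have hnn : ∀ t ∈ Set.Icc (0 : ℝ) 1, ∀ l, 0 ≤ (1 - t) * e l ^ 2 + t * v l := fun t ht l =>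
    add_nonneg (mul_nonneg (sub_nonneg.2 ht.2) (sq_nonneg _)) (mul_nonneg ht.1 (hv l))
  have hsq : ∀ t ∈ Set.Icc (0 : ℝ) 1, ∀ l, A t l ^ 2 = (1 - t) * e l ^ 2 + t * v l :=
    fun t ht l => by simp only [A, hS, mul_pow, hsg2, Real.sq_sqrt (hnn t ht l), one_mul]
  have hconc : ConcaveOn ℝ (Set.Icc 0 1) F := by
    refine ⟨convex_Icc _ _, fun s hs t ht a b ha hb hab => ?_⟩
    obtain rfl : a = 1 - b := by linarith
    have hu : (1 - b) * s + b * t ∈ Set.Icc (0 : ℝ) 1 := convex_Icc 0 1 hs ht ha hb hab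
    have hcum : cumVar K (A ((1 - b) * s + b * t)) =
        fun l => (1 - b) * cumVar K (A s) l + b * cumVar K (A t) l := by
      funext l
      simp only [cumVar, hsq _ hu, hsq _ hs, hsq _ ht, mul_sum, ← sum_add_distrib]
      exact sum_congr rfl fun i _ => by ring
    have hlin : ∑ i ∈ range (K + 2), A ((1 - b) * s + b * t) i ^ 2 =
        (1 - b) * ∑ i ∈ range (K + 2), A s i ^ 2 + b * ∑ i ∈ range (K + 2), A t i ^ 2 := by
      simp only [hsq _ hu, hsq _ hs, hsq _ ht, mul_sum, ← sum_add_distrib]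
      exact sum_congr rfl fun i _ => by ring
    simp only [smul_eq_mul, hF, oneSpin_eq]
    rw [hcum, hlin]
    linarith [isingField_concave (K := K) (cumVar_isPath K (A s)) (cumVar_isPath K (A t))
      hb (by linarith)]
  have hcF : Continuous F :=
    continuous_free (N := spinNest K e) (μ := spinLaw) (spinNest_good K e) spinLeaf_good
      (A := fun t l _ => A t l) (fun l _ _ => hAc l)
  have hcD : Continuous D := by
    refine continuous_finsetSum _ fun l _ => continuous_const.mul (continuous_const.sub ?_)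
    refine (continuous_finsetSum _ fun m hm => ?_).div_const _
    exact continuous_sqGrad (N := spinNest K e) (μ := spinLaw) (spinNest_good K e) spinLeaf_good
      (A := fun t l _ => A t l) (fun l _ _ => hAc l) (m := min m K)
      ((min_le_right m K).trans (Nat.le_succ K)) ()
  have hineq : ∀ t ∈ Set.Ioo (0 : ℝ) 1, F 1 ≤ F t + (1 - t) * D t := by
    intro t ht
    have h := hconc.slope_le_of_hasDerivAt (Set.Ioo_subset_Icc_self ht)
      (Set.right_mem_Icc.2 zero_le_one) ht.2 (hderiv t ht)
    rw [slope_def_field, div_le_iff₀ (by linarith [ht.2])] at h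
    linarith
  have hlim : F 1 ≤ F 0 + (1 - 0) * D 0 := by
    have hc : Continuous fun t => F t + (1 - t) * D t := by fun_prop
    refine ge_of_tendsto (hc.continuousWithinAt (s := Set.Ioi 0) (x := 0)).tendsto ?_
    filter_upwards [Ioo_mem_nhdsGT (zero_lt_one' ℝ)] with t ht using hineq t ht
  have hA0 : A 0 = e := by
    funext l
    simp only [A, hS, hsg, sub_zero, one_mul, zero_mul, add_zero, Real.sqrt_sq_eq_abs]
    split_ifs with h
    · rw [abs_of_neg h]; ring
    · rw [abs_of_nonneg (not_lt.1 h), one_mul]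
  have hA1 : F 1 = oneSpin K (fun l => Real.sqrt (v l)) :=
    oneSpin_congr_sq fun l => by
      rw [hsq 1 (Set.right_mem_Icc.2 zero_le_one), Real.sq_sqrt (hv l)]; ring
  rw [hA1, show F 0 = oneSpin K e by simp only [hF, hA0], sub_zero, one_mul] at hlim
  simpa only [hD, hA0] using hlim

lemma isPath_spinPath (e : ℕ → ℝ) : IsPath (spinPath K e) :=
  ⟨fun i j hij => sqGrad_mono (spinNest_good K e) spinLeaf_good (by omega)
    (show min j K ≤ K + 1 by omega) (), (sqGrad_mem e (by omega)).1⟩

lemma u_le (e : ℕ → ℝ) : ∀ d ≤ K + 1, ∀ y : Unit → ℝ,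
    (spinNest K e).uUp (spinLeaf.logZ spinLaw) d y ≤ |y ()| + ∑ j ∈ range d,
      (lvl K (K + 1 - j) * e (K + 1 - j) ^ 2 / 2 + Real.log 2 / lvl K (K + 1 - j)) := by
  set N := spinNest K e
  intro d hd
  induction d with
  | zero =>
    intro y
    simp only [Nest.uUp, range_zero, sum_empty, add_zero, logZ_spin]
    rw [Real.log_le_iff_le_exp (Real.cosh_pos _), Real.cosh_eq]
    linarith [Real.exp_le_exp.2 (le_abs_self (y ())), Real.exp_le_exp.2 (neg_le_abs (y ()))]
  | succ d ih =>
    intro y
    have hk : N.K - d = K + 1 - d := rfl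
    set l := K + 1 - d with hl
    set m := lvl K l with hm
    have hm0 : 0 < m := div_pos (Nat.cast_pos.2 (by omega)) (by positivity)
    have hx : N.x l = m := gridX_of_le K (by omega)
    set C := ∑ j ∈ range d,
      (lvl K (K + 1 - j) * e (K + 1 - j) ^ 2 / 2 + Real.log 2 / lvl K (K + 1 - j)) with hC
    rw [sum_range_succ, ← hC, ← hl, ← hm, Nest.uUp, hk, stepLog, hx]
    have hi := ModelFacts.integrable_exp_move (linB_uUp N (linB_logZ spinLaw (spinNest_good K e)
      spinLeaf_good) d) m (N.amp l) y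
    set c := Real.exp (m * (|y ()| + C))
    have hpt : ∀ z : Unit → ℝ, Real.exp (m * N.uUp (spinLeaf.logZ spinLaw) d (move (N.amp l) y z))
        ≤ c * (Real.exp (m * e l * z ()) + Real.exp (-(m * e l) * z ())) := by
      intro z
      refine (Real.exp_le_exp.2 (mul_le_mul_of_nonneg_left (ih (by omega) _) hm0.le)).trans ?_
      have h1 : Real.exp (m * (|move (N.amp l) y z ()| + C)) ≤
          c * Real.exp |m * e l * z ()| := by
        rw [← Real.exp_add]
        refine Real.exp_le_exp.2 ?_
        have : |move (N.amp l) y z ()| ≤ |y ()| + |e l * z ()| := abs_add_le _ _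
        rw [mul_assoc m (e l), abs_mul m, abs_of_pos hm0]
        nlinarith
      refine h1.trans (mul_le_mul_of_nonneg_left ?_ (Real.exp_pos _).le)
      rw [neg_mul]
      rcases abs_choice (m * e l * z ()) with h | h <;> rw [h] <;>
        linarith [Real.exp_pos (m * e l * z ()), Real.exp_pos (-(m * e l * z ()))]
    have hint : ∀ a : ℝ, Integrable (fun z : Unit → ℝ => Real.exp (a * z ())) (gauss Unit) :=
      fun a => integrable_comp_eval (μ := fun _ => gaussianReal 0 1)
        (integrable_exp_mul_gaussianReal a)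
    have hI : ∫ z, Real.exp (m * N.uUp (spinLeaf.logZ spinLaw) d (move (N.amp l) y z)) ∂gauss Unit
        ≤ c * (2 * Real.exp ((m * e l) ^ 2 / 2)) := by
      refine (integral_mono hi (((hint _).add (hint _)).const_mul c) hpt).trans (le_of_eq ?_)
      simp only [Pi.add_apply]
      rw [integral_const_mul, integral_add (hint _) (hint _),
        integral_gauss_unit (fun z => Real.exp (m * e l * z)),
        integral_gauss_unit (fun z => Real.exp (-(m * e l) * z)),
        integral_exp_lin, integral_exp_lin, neg_sq]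
      ring
    refine (mul_le_mul_of_nonneg_left (Real.log_le_log (integral_exp_pos hi) hI)
      (inv_nonneg.2 hm0.le)).trans (le_of_eq ?_)
    rw [Real.log_mul (Real.exp_pos _).ne' (by positivity),
      Real.log_mul two_ne_zero (Real.exp_pos _).ne', Real.log_exp, Real.log_exp]
    clear_value C m
    field_simp
    ring

end SpinAux

theorem spinPath_path (e : ℕ → ℝ) : IsPath (spinPath K e) ∧ spinPath K e K ≤ 1 :=
  ⟨isPath_spinPath e, (sqGrad_mem e (by omega)).2⟩

theorem hasDerivAt_oneSpin (e : ℕ → ℝ) {l : ℕ} (hl : l ≤ K) :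
    HasDerivAt (fun θ => oneSpin K (Function.update e l θ))
      (e l * (1 - qTail K (spinPath K e) l)) (e l) := by
  refine (free_deriv_spin (K := K) (A := fun θ => Function.update e l θ)
    (A' := fun _ i => if i = l then 1 else 0) one_pos (fun i _ s _ => ?_)
    (fun i _ => continuousAt_const)).congr_deriv ?_
  · by_cases h : i = l
    · subst h; simpa using hasDerivAt_id' s
    · simpa [h] using hasDerivAt_const s (e i)
  · rw [Function.update_eq_self, sum_eq_single_of_mem l (by simp; omega) fun i _ h => by simp [h]]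
    simp

theorem oneSpin_tangent (e : ℕ → ℝ) {l : ℕ} (hl : l ≤ K) (he : 0 < e l) (θ : ℝ) :
    oneSpin K (Function.update e l θ) ≤ oneSpin K e +
      e l * (1 - qTail K (spinPath K e) l) * (θ - e l) + (θ - e l) ^ 2 / 2 := by
  have h := oneSpin_le (K := K) e (v := fun i => Function.update e l θ i ^ 2) fun i => sq_nonneg _
  rw [oneSpin_congr_sq (e' := Function.update e l θ) fun i => by rw [Real.sq_sqrt (sq_nonneg _)],
    sum_eq_single_of_mem l (by simp; omega) fun i _ hi => by simp [hi]] at h
  simp only [Function.update_self] at h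
  have := mul_nonneg (qTail_nonneg (K := K) (isPath_spinPath (K := K) e) l)
    (sq_nonneg (θ - e l))
  have := he.le
  linarith

theorem oneSpin_growth {q : ℕ → ℝ} (hq : IsPath q) (h1 : q K < 1) :
    ∃ γ C : ℝ, 0 < γ ∧ ∀ e : ℕ → ℝ, e (K + 1) = 0 →
      oneSpin K e ≤ (∑ l ∈ range (K + 1), e l ^ 2 * (1 - qTail K q l)) / 2 -
        γ * ∑ l ∈ range (K + 1), e l ^ 2 + C := by
  set γ := (1 - q K) / (4 * ((K : ℝ) + 1)) with hγ
  have hγ0 : 0 < γ := div_pos (by linarith) (by positivity)
  refine ⟨γ, 1 / (4 * γ) + ∑ l ∈ range (K + 1), Real.log 2 / lvl K (l + 1), hγ0, fun e he => ?_⟩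
  set N := spinNest K e
  set c := fun l => lvl K l * e l ^ 2 / 2 + Real.log 2 / lvl K l with hc
  set C0 := ∑ j ∈ range (K + 1), c (K + 1 - j) with hC0
  have hz1 : Integrable (fun x : ℝ => x ^ 2) (gaussianReal 0 1) :=
    (memLp_id_gaussianReal' 2 (by simp)).integrable_sq
  have hz : Integrable (fun z : Unit → ℝ => γ * e 0 ^ 2 + (z () ^ 2 / (4 * γ) + C0))
      (gauss Unit) :=
    (integrable_const _).add (((integrable_comp_eval (μ := fun _ : Unit => gaussianReal 0 1)
      (i := ()) hz1).div_const _).add (integrable_const _))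
  have hroot : oneSpin K e ≤ γ * e 0 ^ 2 + (1 / (4 * γ) + C0) := by
    rw [oneSpin, free_eq]
    refine (integral_mono ((integrable_root N (linB_logZ spinLaw (spinNest_good K e)
      spinLeaf_good)).integrable one_le_two) hz fun z => ?_).trans (le_of_eq ?_)
    · refine (u_le e (K + 1) le_rfl _).trans ?_
      rw [← add_assoc]
      refine add_le_add ?_ le_rfl
      show |e 0 * z ()| ≤ _
      rw [← sub_nonneg, show γ * e 0 ^ 2 + z () ^ 2 / (4 * γ) - |e 0 * z ()| =
        (2 * γ * |e 0| - |z ()|) ^ 2 / (4 * γ) by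
          rw [← sq_abs (e 0), ← sq_abs (z ()), abs_mul]; field_simp; ring]
      positivity
    · rw [integral_gauss_unit (fun z => γ * e 0 ^ 2 + (z ^ 2 / (4 * γ) + C0))]
      have h2 : ∫ x : ℝ, x ^ 2 ∂gaussianReal 0 1 = 1 := by simpa using integral_sq_sub 0
      have h3 : Integrable (fun x : ℝ => x ^ 2 / (4 * γ) + C0) (gaussianReal 0 1) :=
        (hz1.div_const _).add (integrable_const _)
      rw [integral_add (integrable_const _) h3, integral_add (hz1.div_const _) (integrable_const _),
        integral_div, h2]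
      simp
  have hC : C0 = (∑ l ∈ range (K + 1), lvl K l * e l ^ 2) / 2 +
      ∑ l ∈ range (K + 1), Real.log 2 / lvl K (l + 1) := by
    rw [hC0, ← sum_range_reflect (fun j => c (K + 1 - j))]
    have : ∀ j ∈ range (K + 1), c (K + 1 - (K + 1 - 1 - j)) = c (j + 1) := fun j hj => by
      rw [mem_range] at hj
      rw [show K + 1 - (K + 1 - 1 - j) = j + 1 by omega]
    rw [sum_congr rfl this]
    simp only [hc, sum_add_distrib, ← sum_div]
    have hs := (sum_range_succ' (fun l => lvl K l * e l ^ 2) (K + 1)).symm.trans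
      (sum_range_succ _ _)
    simp only [he, lvl, Nat.cast_zero, zero_div, zero_mul, ne_eq, OfNat.ofNat_ne_zero,
      not_false_eq_true, zero_pow, mul_zero, add_zero] at hs ⊢
    rw [hs]
  have hterm : ∑ l ∈ range (K + 1), (lvl K l * e l ^ 2 / 2 + if l = 0 then γ * e 0 ^ 2 else 0) ≤
      ∑ l ∈ range (K + 1), (e l ^ 2 * (1 - qTail K q l) / 2 - γ * e l ^ 2) := by
    refine sum_le_sum fun l hl => ?_
    rw [mem_range] at hl
    have hl' : l ≤ K := by omega
    have ht : qTail K q l ≤ ((K : ℝ) + 1 - l) * q K / ((K : ℝ) + 1) := by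
      refine div_le_div_of_nonneg_right ((sum_le_card_nsmul _ _ (q K) fun m hm => hq.1 (by
        rw [mem_Ico] at hm; omega)).trans (le_of_eq ?_)) (by positivity)
      rw [Nat.card_Ico, nsmul_eq_mul, Nat.cast_sub (by omega)]
      push_cast
      ring
    have hk : 4 * γ ≤ 1 - lvl K l - qTail K q l := by
      refine le_trans ?_ (sub_le_sub_left ht _)
      have hlr : (l : ℝ) ≤ K := by exact_mod_cast hl'
      rw [hγ, lvl, show 1 - (l : ℝ) / ((K : ℝ) + 1) - ((K : ℝ) + 1 - l) * q K / ((K : ℝ) + 1) =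
        ((K : ℝ) + 1 - l) * (1 - q K) / ((K : ℝ) + 1) by field_simp,
        show 4 * ((1 - q K) / (4 * ((K : ℝ) + 1))) = (1 - q K) / ((K : ℝ) + 1) by field_simp]
      exact div_le_div_of_nonneg_right (le_mul_of_one_le_left (by linarith) (by linarith))
        (by positivity)
    have := mul_le_mul_of_nonneg_left hk (sq_nonneg (e l))
    split_ifs with h
    · subst h; linarith
    · nlinarith [mul_nonneg hγ0.le (sq_nonneg (e l))]
  rw [sum_add_distrib, sum_ite_eq' (range (K + 1)) 0 (fun _ => γ * e 0 ^ 2), if_pos (by simp),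
    sum_sub_distrib, ← mul_sum, ← sum_div, ← sum_div] at hterm
  linarith

theorem isingEntropy_bddAbove {q : ℕ → ℝ} (hq : IsPath q) (h1 : q K < 1) :
    BddAbove (Set.range fun h : {h : ℕ → ℝ // IsPath h} =>
      isingField K h.1 + (∑ l ∈ Finset.range (K + 1), h.1 l * q l) / (2 * ((K : ℝ) + 1))) := by
  obtain ⟨γ, C, hγ, hg⟩ := oneSpin_growth hq h1
  refine ⟨C, ?_⟩
  rintro x ⟨⟨h, hh⟩, rfl⟩
  have he : ampOf K h (K + 1) = 0 := if_neg (by omega)
  have hv := value_eq (K := K) (ampOf K h) q
  rw [isingField_congr fun l hl => cumVar_ampOf hh hl,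
    sum_congr rfl fun l hl => by rw [cumVar_ampOf hh (by rw [mem_range] at hl; omega)]] at hv
  simp only [hv, he]
  nlinarith [hg _ he, sum_nonneg (s := range (K + 1)) fun l _ => sq_nonneg (ampOf K h l)]

theorem isingEntropy_ge {q h : ℕ → ℝ} (hq : IsPath q) (h1 : q K < 1) (hh : IsPath h) :
    isingField K h + (∑ l ∈ Finset.range (K + 1), h l * q l) / (2 * ((K : ℝ) + 1)) ≤
      isingEntropy K q :=
  le_ciSup (isingEntropy_bddAbove hq h1) (⟨h, hh⟩ : {h : ℕ → ℝ // IsPath h})

theorem isingEntropy_nonneg {q : ℕ → ℝ} (hq : IsPath q) (h1 : q K < 1) :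
    0 ≤ isingEntropy K q := by
  simpa [isingField_zero] using isingEntropy_ge (h := fun _ => 0) hq h1 ⟨monotone_const, le_rfl⟩

theorem isingEntropy_spinPath_le (e : ℕ → ℝ) {κ : ℝ} (hκ : 0 < κ) (hκ1 : κ ≤ 1) :
    isingEntropy K (fun l => (1 - κ) * spinPath K e l) ≤
      isingField K (cumVar K e) +
        (∑ l ∈ Finset.range (K + 1), cumVar K e l * spinPath K e l) / (2 * ((K : ℝ) + 1)) := by
  have : Nonempty {h : ℕ → ℝ // IsPath h} := ⟨⟨fun _ => 0, monotone_const, le_rfl⟩⟩
  refine ciSup_le fun ⟨h, hh⟩ => ?_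
  have hp := isPath_spinPath (K := K) e
  refine le_trans (b := isingField K h +
    (∑ l ∈ range (K + 1), h l * spinPath K e l) / (2 * ((K : ℝ) + 1))) ?_ ?_
  · refine add_le_add le_rfl (div_le_div_of_nonneg_right (sum_le_sum fun l _ => ?_) (by positivity))
    exact mul_le_mul_of_nonneg_left (mul_le_of_le_one_left (hp.2.trans (hp.1 (Nat.zero_le l)))
      (by linarith)) (hh.2.trans (hh.1 (Nat.zero_le l)))
  · have hv := value_eq (K := K) (ampOf K h) (spinPath K e)
    rw [isingField_congr fun l hl => cumVar_ampOf hh hl,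
      sum_congr rfl fun l hl => by rw [cumVar_ampOf hh (by rw [mem_range] at hl; omega)]] at hv
    rw [hv, value_eq, show ampOf K h (K + 1) = 0 from if_neg (by omega)]
    have ht := oneSpin_le (K := K) e (v := fun i => ampOf K h i ^ 2) fun i => sq_nonneg _
    rw [oneSpin_congr_sq (e' := ampOf K h) fun i => by rw [Real.sq_sqrt (sq_nonneg _)],
      sum_range_succ _ (K + 1), qTail_top, show ampOf K h (K + 1) = 0 from if_neg (by omega)] at ht
    simp only [sub_div, sub_mul, sum_sub_distrib, div_mul_eq_mul_div, ← sum_div] at ht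
    linarith

theorem isingEntropy_zero : isingEntropy K (fun _ => 0) = 0 := by
  refine le_antisymm ?_ (isingEntropy_nonneg ⟨monotone_const, le_rfl⟩ zero_lt_one)
  have h0 := isingEntropy_spinPath_le (K := K) (fun _ => 0) one_pos le_rfl
  have hc : cumVar K (fun _ => 0) = fun _ => 0 := by funext l; simp [cumVar]
  simpa [hc, isingField_zero] using h0

theorem oneSpin_refine (K : ℕ) {L : ℕ} (hL : 0 < L) (e : ℕ → ℝ) :
    oneSpin ((K + 1) * L - 1) (fun l => if l % L = 0 ∧ l ≤ (K + 1) * L then e (l / L) else 0) =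
      oneSpin K e := by
  set e' : ℕ → ℝ := fun l => if l % L = 0 ∧ l ≤ (K + 1) * L then e (l / L) else 0 with he'
  obtain ⟨K', hK'⟩ : ∃ K', (K + 1) * L = K' + 1 :=
    ⟨(K + 1) * L - 1, (Nat.succ_pred_eq_of_pos (by positivity)).symm⟩
  rw [show (K + 1) * L - 1 = K' by omega]
  have hdiv : ∀ l ≤ K', l / L ≤ K := fun l hl =>
    Nat.lt_succ_iff.1 ((Nat.div_lt_iff_lt_mul hL).2 (by rw [Nat.succ_eq_add_one]; omega))
  have hsum : ∀ l ≤ (K + 1) * L,
      ∑ i ∈ range (l + 1), e' i ^ 2 = ∑ i ∈ range (l / L + 1), e i ^ 2 := by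
    intro l hl
    induction l with
    | zero => simp [he']
    | succ l ih =>
      rw [sum_range_succ, ih (by omega)]
      simp only [he', Nat.succ_div, Nat.dvd_iff_mod_eq_zero]
      by_cases h : (l + 1) % L = 0
      · simp only [h, hl, and_self, if_true]
        rw [sum_range_succ _ (l / L + 1)]
      · simp [h]
  have hcum : ∀ l ≤ K', cumVar K' e' l = cumVar K e (l / L) := fun l hl => by
    rw [cumVar_of_le hl, cumVar_of_le (hdiv l hl), hsum l (by omega)]
  rw [oneSpin_eq, oneSpin_eq, ← show (K + 1) * L + 1 = K' + 2 by omega, hsum _ le_rfl,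
    Nat.mul_div_cancel _ hL]
  congr 1
  set φ := fun y => Real.log (Real.cosh y)
  have hK : K' / L = K := le_antisymm (hdiv K' le_rfl)
    ((Nat.le_div_iff_mul_le hL).2 (by rw [add_mul, one_mul] at hK'; omega))
  have hdes : ∀ d ≤ K',
      descend K' (cumVar K' e') φ d = descend K (cumVar K e) φ (K - (K' - d) / L) := by
    intro d hd
    induction d with
    | zero => simp [hK, descend]
    | succ d ih =>
      obtain ⟨l, hl⟩ : ∃ l, K' - d = l + 1 := ⟨K' - d - 1, by omega⟩
      rw [descend, ih (by omega), hl, hcum _ (by omega), Nat.add_sub_cancel, hcum _ (by omega),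
        show K' - (d + 1) = l by omega]
      have hle := hdiv (l + 1) (by omega)
      rw [Nat.succ_div] at hle ⊢
      by_cases h : L ∣ l + 1
      · rw [if_pos h] at hle ⊢
        obtain ⟨j, hj⟩ : ∃ j, l / L = j := ⟨_, rfl⟩
        simp only [hj] at hle ⊢
        rw [show K - j = (K - (j + 1)) + 1 by omega, descend,
          show K - (K - (j + 1)) = j + 1 by omega, Nat.add_sub_cancel, ← hj]
        have hlv : lvl K' (l + 1) = lvl K (l / L + 1) := by
          have e1 : (l + 1) / L = l / L + 1 := by rw [Nat.succ_div, if_pos h]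
          have e2 : ((l + 1 : ℕ) : ℝ) = ((l / L + 1 : ℕ) : ℝ) * L := by
            rw [← Nat.cast_mul, ← e1, Nat.div_mul_cancel h]
          have e3 : ((K' : ℝ) + 1) = ((K : ℝ) + 1) * L := by exact_mod_cast hK'.symm
          rw [lvl, lvl, e2, e3, mul_div_mul_right _ _ (Nat.cast_ne_zero.2 hL.ne')]
        rw [hlv]
      · rw [if_neg h] at hle ⊢
        funext y
        rw [add_zero, sub_self, gaussStep_zero (lvl_ne (by omega))]
  simp only [isingField, cascade, hcum 0 (Nat.zero_le _), hcum K' le_rfl, hK, Nat.zero_div]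
  have hd := hdes K' le_rfl
  rw [Nat.sub_self, Nat.zero_div, Nat.sub_zero] at hd
  rw [hd]

end Vale.Agent.P166.Parisi
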