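import Vale.Agent.P166.Parisi.Upper
import Vale.Agent.P166.Parisi.Lower
import Vale.Agent.P166.Parisi.Spin
import Vale.Agent.P166.Parisi.Spec
import Vale.Agent.P166.Universal
import Vale.Agent.P166.Variance

/-!
Module Z: from equally weighted atoms to every compactly supported spectral law.
-/

namespace Vale.Agent.P166.Parisi

open MeasureTheory Filter Topology Set
open Vale.Agent.P157.Parisi (IsPath isingEntropy)
open scoped BoundedContinuousFunction Pointwise

variable {μ ν : Measure ℝ}

/-! ### The energy term -/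

lemma chiPath_mem_Ioc {K : ℕ} {q : ℕ → ℝ} (hq : IsPath q) (h1 : q K < 1) {s : ℝ}
    (hs : s ∈ Ioo (0 : ℝ) 1) : chiPath K q s ∈ Ioc (0 : ℝ) 1 :=
  ⟨chiPath_pos hq h1 ⟨hs.1.le, hs.2⟩, (chiPath_mem hq h1.le ⟨hs.1.le, hs.2.le⟩).2⟩

lemma intervalIntegrable_rTrans [IsProbabilityMeasure μ] (hμ : IsCompact μ.support) {β : ℝ}
    (hβ : 0 < β) {K : ℕ} {q : ℕ → ℝ} (hq : IsPath q) (h1 : q K < 1) :
    IntervalIntegrable (fun s => rTrans μ (β * chiPath K q s)) volume 0 1 := by
  rw [intervalIntegrable_iff_integrableOn_Ioo_of_le zero_le_one]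
  have hcont : ContinuousOn (fun s => rTrans μ (β * chiPath K q s)) (Ioo (0 : ℝ) 1) :=
    (rTrans_continuousOn hμ).comp (continuous_const.mul (chiPath_continuous K q)).continuousOn
      fun s hs => mem_Ioi.2 (mul_pos hβ (chiPath_mem_Ioc hq h1 hs).1)
  refine IntegrableOn.of_bound measure_Ioo_lt_top
    (hcont.aestronglyMeasurable measurableSet_Ioo)
    (max |sInf μ.support| |sSup μ.support|) ?_
  rw [ae_restrict_iff' measurableSet_Ioo]
  refine Eventually.of_forall fun s hs => ?_
  obtain ⟨hlo, hhi⟩ := rTrans_mem hμ (mul_pos hβ (chiPath_mem_Ioc hq h1 hs).1)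
  exact abs_le_max_abs_abs hlo hhi

lemma energy_zero (μ : Measure ℝ) (K : ℕ) (q : ℕ → ℝ) : energy μ 0 K q = 0 := by
  simp [energy]

lemma energy_ge [IsProbabilityMeasure μ] (hμ : IsCompact μ.support) {β : ℝ} (hβ : 0 ≤ β) {K : ℕ}
    {q : ℕ → ℝ} (hq : IsPath q) (h1 : q K < 1) :
    β / 2 * sInf μ.support ≤ energy μ β K q := by
  rcases hβ.eq_or_lt with rfl | hβ
  · simp [energy_zero]
  refine mul_le_mul_of_nonneg_left ?_ (by linarith)
  have h := intervalIntegral.integral_mono_on_of_le_Ioo zero_le_one intervalIntegrable_const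
    (intervalIntegrable_rTrans hμ hβ hq h1)
    fun s hs => (rTrans_mem hμ (mul_pos hβ (chiPath_mem_Ioc hq h1 hs).1)).1
  simpa using h

/-- A pointwise bound between R-transforms passes to the energies. -/
lemma energy_le_add [IsProbabilityMeasure μ] (hμ : IsCompact μ.support) [IsProbabilityMeasure ν]
    (hν : IsCompact ν.support) {d : ℝ} (h : ∀ x ∈ Ioc (0 : ℝ) 1, rTrans ν x ≤ rTrans μ x + d)
    {K : ℕ} {q : ℕ → ℝ} (hq : IsPath q) (h1 : q K < 1) :
    energy ν 1 K q ≤ energy μ 1 K q + d / 2 := by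
  have hi := intervalIntegrable_rTrans hμ one_pos hq h1
  have hm : (∫ s in (0 : ℝ)..1, rTrans ν (1 * chiPath K q s)) ≤
      ∫ s in (0 : ℝ)..1, (rTrans μ (1 * chiPath K q s) + d) :=
    intervalIntegral.integral_mono_on_of_le_Ioo zero_le_one
      (intervalIntegrable_rTrans hν one_pos hq h1) (hi.add intervalIntegrable_const)
      fun s hs => by
        rw [one_mul]
        exact h _ (chiPath_mem_Ioc hq h1 hs)
  rw [intervalIntegral.integral_add hi intervalIntegrable_const] at hm
  simp only [intervalIntegral.integral_const, sub_zero, one_smul] at hm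
  unfold energy
  linarith

/-! ### The variational value -/

/-- The values of the variational problem. -/
def candidates (μ : Measure ℝ) (β : ℝ) : Set ℝ :=
  {v | ∃ K q, IsPath q ∧ q K < 1 ∧ v = isingEntropy K q + energy μ β K q}

lemma value_eq_sInf (μ : Measure ℝ) (β : ℝ) : value μ β = sInf (candidates μ β) := rfl

lemma candidates_nonempty (μ : Measure ℝ) (β : ℝ) : (candidates μ β).Nonempty :=
  ⟨_, 0, fun _ => 0, ⟨monotone_const, le_rfl⟩, zero_lt_one, rfl⟩

lemma candidates_bddBelow [IsProbabilityMeasure μ] (hμ : IsCompact μ.support) {β : ℝ}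
    (hβ : 0 ≤ β) : BddBelow (candidates μ β) :=
  ⟨β / 2 * sInf μ.support, by
    rintro _ ⟨K, q, hq, h1, rfl⟩
    linarith [isingEntropy_nonneg hq h1, energy_ge hμ hβ hq h1]⟩

lemma value_zero [IsProbabilityMeasure μ] (hμ : IsCompact μ.support) : value μ 0 = 0 := by
  rw [value_eq_sInf]
  refine le_antisymm ?_ (le_csInf (candidates_nonempty μ 0) ?_)
  · refine csInf_le (candidates_bddBelow hμ le_rfl)
      ⟨0, fun _ => 0, ⟨monotone_const, le_rfl⟩, zero_lt_one, ?_⟩
    rw [isingEntropy_zero, energy_zero, add_zero]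
  · rintro _ ⟨K, q, hq, h1, rfl⟩
    rw [energy_zero, add_zero]
    exact isingEntropy_nonneg hq h1

/-! ### Equally weighted atoms -/

lemma evenLaw_prob {M : ℕ} [NeZero M] {a : Fin M → ℝ} (ha : Monotone a) :
    IsProbabilityMeasure (evenLaw a) :=
  law_prob (evenAtoms a ha)

lemma evenLaw_compact {M : ℕ} [NeZero M] {a : Fin M → ℝ} (ha : Monotone a) :
    IsCompact (evenLaw a).support := by
  rw [show evenLaw a = (evenAtoms a ha).law from rfl, law_support]
  exact (finite_range _).isCompact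

/-- Raising the atoms raises the R-transform. -/
lemma rTrans_evenLaw_le {M : ℕ} [NeZero M] {a b : Fin M → ℝ} (ha : Monotone a) (hb : Monotone b)
    (hab : a ≤ b) {x : ℝ} (hx : 0 < x) : rTrans (evenLaw a) x ≤ rTrans (evenLaw b) x := by
  have := evenLaw_prob hb
  have hta : sSup (evenLaw a).support = a (topA M) := law_sSup (evenAtoms a ha)
  have htb : sSup (evenLaw b).support = b (topA M) := law_sSup (evenAtoms b hb)
  rw [rTrans, rTrans, sub_le_sub_iff_right, omegaInv_eq, omegaInv_eq]
  refine csInf_le_csInf (omegaSet_bddBelow _ _) ⟨_, omegaSet_nonempty (evenLaw_compact hb) hx⟩ ?_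
  rintro w ⟨h1, h2⟩
  rw [htb] at h1
  refine ⟨hta ▸ lt_of_le_of_lt (hab _) h1, le_trans ?_ h2⟩
  simp only [cauchy, evenLaw_integral]
  refine mul_le_mul_of_nonneg_left (Finset.sum_le_sum fun r _ => ?_) (by positivity)
  have hr : b r ≤ b (topA M) := (evenAtoms b hb).le_top r
  exact inv_anti₀ (by linarith) (by linarith [hab r])

lemma blkOf_eq {M N : ℕ} [NeZero M] {i : Fin N} {r : Fin M} (h : (r : ℕ) = (i : ℕ) * M / N) :
    blkOf i = r := by
  apply Fin.ext
  simp only [blkOf, Fin.val_ofNat, ← h, Nat.mod_eq_of_lt r.isLt]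

/-! ### The quantile sequence -/

lemma quantile_upper [IsProbabilityMeasure μ] (hμ : IsCompact μ.support) {ε : ℝ} (hε : 0 < ε) :
    ∀ᶠ N : ℕ in atTop, meanP 1 (quantileSeq μ N) ≤ value μ 1 + ε := by
  obtain ⟨_, ⟨K, q, hq, h1, rfl⟩, hv⟩ := exists_lt_of_csInf_lt (candidates_nonempty μ 1)
    (show sInf (candidates μ 1) < value μ 1 + ε / 3 by rw [← value_eq_sInf]; linarith)
  obtain ⟨M₀, hM₀⟩ := rTrans_approx hμ one_pos (show 0 < ε / 3 by linarith)
  set M := M₀ + 1
  have hmono : Monotone (qAtom μ M 1) := fun _ _ h => qAtom_mono hμ le_rfl h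
  have := evenLaw_prob hmono
  have he : energy (evenLaw (qAtom μ M 1)) 1 K q ≤ energy μ 1 K q + ε / 3 / 2 :=
    energy_le_add hμ (evenLaw_compact hmono)
      (fun x hx => by linarith [(abs_le.1 (hM₀ M (Nat.le_succ _) 1 le_rfl x hx)).2]) hq h1
  filter_upwards [atoms_upper hmono K hq h1 (show 0 < ε / 3 by linarith), eventually_ge_atTop M]
    with N hN hMN
  have hle := meanP_mono zero_le_one le_rfl (lam := quantileSeq μ N)
    (lam' := qAtom μ M 1 ∘ (blkOf : Fin N → Fin M)) fun i => by
      obtain ⟨r, hr, -, hr'⟩ := quantileSeq_between hμ (Nat.succ_pos M₀) hMN i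
      rw [Function.comp_apply, blkOf_eq hr, add_zero]
      exact hr'
  linarith

lemma quantile_lower [IsProbabilityMeasure μ] (hμ : IsCompact μ.support) {ε : ℝ} (hε : 0 < ε) :
    ∀ᶠ N : ℕ in atTop, value μ 1 ≤ meanP 1 (quantileSeq μ N) + ε := by
  obtain ⟨M₀, hM₀⟩ := rTrans_approx hμ one_pos (show 0 < ε / 2 by linarith)
  set M := M₀ + 1
  have hMr : (0 : ℝ) < M := Nat.cast_pos.2 (Nat.succ_pos M₀)
  set d := ε / 2 with hd
  -- strictly increasing atoms just above the lower discretisation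
  set a : Fin M → ℝ := fun r => qAtom μ M 0 r + d * ((r : ℕ) / (M : ℝ)) with hadef
  have hmono₀ : Monotone (qAtom μ M 0) := fun _ _ h => qAtom_mono hμ (Nat.zero_le 1) h
  have ha : StrictMono a := fun r s hrs => by
    refine add_lt_add_of_le_of_lt (hmono₀ hrs.le) (mul_lt_mul_of_pos_left ?_ (by linarith))
    exact div_lt_div_of_pos_right (Nat.cast_lt.2 hrs) hMr
  have hlow : qAtom μ M 0 ≤ a := fun r => le_add_of_nonneg_right (by positivity)
  have := evenLaw_prob ha.monotone
  have hνc := evenLaw_compact ha.monotone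
  have hval : value μ 1 - d / 2 ≤ value (evenLaw a) 1 := by
    rw [value_eq_sInf (evenLaw a)]
    refine le_csInf (candidates_nonempty _ _) ?_
    rintro _ ⟨K, q, hq, h1, rfl⟩
    have he : energy μ 1 K q ≤ energy (evenLaw a) 1 K q + d / 2 :=
      energy_le_add hνc hμ (fun x hx => by
        linarith [(abs_le.1 (hM₀ M (Nat.le_succ _) 0 (Nat.zero_le 1) x hx)).1,
          rTrans_evenLaw_le hmono₀ ha.monotone hlow hx.1]) hq h1
    have hv : value μ 1 ≤ isingEntropy K q + energy μ 1 K q :=
      csInf_le (candidates_bddBelow hμ zero_le_one) ⟨K, q, hq, h1, rfl⟩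
    linarith
  filter_upwards [atoms_lower ha (show 0 < d / 2 by linarith), eventually_ge_atTop M]
    with N hN hMN
  have hle := meanP_mono zero_le_one (show 0 ≤ d by linarith)
    (lam := a ∘ (blkOf : Fin N → Fin M)) (lam' := quantileSeq μ N) fun i => by
      obtain ⟨r, hr, hr', -⟩ := quantileSeq_between hμ (Nat.succ_pos M₀) hMN i
      rw [Function.comp_apply, blkOf_eq hr]
      have : d * ((r : ℕ) / (M : ℝ)) ≤ d * 1 := by
        refine mul_le_mul_of_nonneg_left ?_ (by linarith)
        rw [div_le_one hMr]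
        exact_mod_cast r.isLt.le
      simp only [hadef]
      linarith
  linarith

lemma meanP_one_tendsto [IsProbabilityMeasure μ] (hμ : IsCompact μ.support)
    {Λ : (N : ℕ) → Fin N → ℝ} (hΛ : Admissible μ Λ) :
    Tendsto (fun N => meanP 1 (Λ N)) atTop (𝓝 (value μ 1)) := by
  have hq : Tendsto (fun N => meanP 1 (quantileSeq μ N)) atTop (𝓝 (value μ 1)) := by
    rw [Metric.tendsto_nhds]
    intro ε hε
    filter_upwards [quantile_upper hμ (half_pos hε), quantile_lower hμ (half_pos hε)] with N h1 h2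
    rw [Real.dist_eq, abs_lt]
    constructor <;> linarith
  simpa using (meanP_sub_tendsto zero_le_one hμ hΛ (quantileSeq_admissible hμ)).add hq

/-! ### Scaling -/

lemma meanP_scale (β : ℝ) {N : ℕ} (lam : Fin N → ℝ) :
    meanP β lam = meanP 1 fun i => β * lam i := by
  have he : ∀ (U : ON N) σ, eng (fun i => β * lam i) (U : Matrix (Fin N) (Fin N) ℝ) σ
      = β * eng lam (U : Matrix (Fin N) (Fin N) ℝ) σ := fun U σ => by
    simp only [eng, Finset.mul_sum, mul_assoc]
  refine integral_congr_ae (Eventually.of_forall fun U => ?_)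
  simp only [pressure_eq, he]
  refine congrArg (fun z => 1 / (N : ℝ) * Real.log (1 / (2 : ℝ) ^ N * z))
    (Finset.sum_congr rfl fun σ _ => congrArg Real.exp ?_)
  ring

lemma pressure_zero {N : ℕ} (lam : Fin N → ℝ) (U : ON N) : pressure 0 lam U = 0 := by
  simp [pressure_eq]

lemma admissible_scale [IsProbabilityMeasure μ] {Λ : (N : ℕ) → Fin N → ℝ} (hΛ : Admissible μ Λ)
    {β : ℝ} (hβ : 0 < β) :
    Admissible (μ.map fun a => β * a) fun N i => β * Λ N i := by
  have hcont : Continuous fun a : ℝ => β * a := continuous_const.mul continuous_id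
  have himage : (fun a => β * a) '' μ.support = β • μ.support := rfl
  refine ⟨fun f => ?_, ?_, ?_⟩
  · rw [integral_map hcont.aemeasurable f.continuous.aestronglyMeasurable]
    exact hΛ.1 (f.compContinuous ⟨fun a => β * a, hcont⟩)
  · rw [support_map_mul hβ, himage, Real.sInf_smul_of_nonneg hβ.le, smul_eq_mul]
    simpa only [Real.mul_iInf_of_nonneg hβ.le] using hΛ.2.1.const_mul β
  · rw [support_map_mul hβ, himage, Real.sSup_smul_of_nonneg hβ.le, smul_eq_mul]
    simpa only [Real.mul_iSup_of_nonneg hβ.le] using hΛ.2.2.const_mul β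

lemma value_scale [IsProbabilityMeasure μ] (hμ : IsCompact μ.support) {β : ℝ} (hβ : 0 < β) :
    value (μ.map fun a => β * a) 1 = value μ β := by
  have he : ∀ K q, IsPath q → q K < 1 →
      energy (μ.map fun a => β * a) 1 K q = energy μ β K q := by
    intro K q hq h1
    have hint : (∫ s in (0 : ℝ)..1, rTrans (μ.map fun a => β * a) (1 * chiPath K q s)) =
        ∫ s in (0 : ℝ)..1, β * rTrans μ (β * chiPath K q s) := by
      rw [intervalIntegral.integral_of_le zero_le_one, intervalIntegral.integral_of_le zero_le_one,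
        integral_Ioc_eq_integral_Ioo, integral_Ioc_eq_integral_Ioo]
      refine setIntegral_congr_fun measurableSet_Ioo fun s hs => ?_
      rw [one_mul]
      exact rTrans_scale hμ hβ (chiPath_mem_Ioc hq h1 hs).1
    rw [energy, energy, hint, intervalIntegral.integral_const_mul]
    ring
  rw [value_eq_sInf, value_eq_sInf]
  congr 1
  ext v
  constructor <;>
  · rintro ⟨K, q, hq, h1, rfl⟩
    exact ⟨K, q, hq, h1, by rw [he K q hq h1]⟩

lemma meanP_tendsto [IsProbabilityMeasure μ] (hμ : IsCompact μ.support) {β : ℝ} (hβ : 0 ≤ β)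
    {Λ : (N : ℕ) → Fin N → ℝ} (hΛ : Admissible μ Λ) :
    Tendsto (fun N => meanP β (Λ N)) atTop (𝓝 (value μ β)) := by
  rcases hβ.eq_or_lt with rfl | hβ
  · rw [value_zero hμ]
    refine tendsto_const_nhds.congr fun N => ?_
    simp [meanP, pressure_zero]
  · have hcont : Continuous fun a : ℝ => β * a := continuous_const.mul continuous_id
    have : IsProbabilityMeasure (μ.map fun a => β * a) :=
      Measure.isProbabilityMeasure_map hcont.aemeasurable
    have hc : IsCompact (μ.map fun a => β * a).support := by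
      rw [support_map_mul hβ]
      exact hμ.image hcont
    simpa only [value_scale hμ hβ, ← meanP_scale] using
      meanP_one_tendsto hc (admissible_scale hΛ hβ)

/-! ### The formula -/

/-- Chebyshev's inequality for the pressure. -/
lemma tendsto_pressure_prob [IsProbabilityMeasure μ] {β c : ℝ} {Λ : (N : ℕ) → Fin N → ℝ}
    (hΛ : Admissible μ Λ) (hlim : Tendsto (fun N => meanP β (Λ N)) atTop (𝓝 c))
    {ε : ℝ} (hε : 0 < ε) :
    Tendsto (fun N => haarON N {U | ε ≤ |pressure β (Λ N) U - c|}) atTop (𝓝 0) := by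
  set D := sSup μ.support - sInf μ.support + 2 with hD
  have hspread : ∀ᶠ N : ℕ in atTop, ∀ i j, |Λ N i - Λ N j| ≤ D := by
    filter_upwards
      [hΛ.2.1.eventually (Ici_mem_nhds (show sInf μ.support - 1 < sInf μ.support by linarith)),
      hΛ.2.2.eventually (Iic_mem_nhds (show sSup μ.support < sSup μ.support + 1 by linarith))]
      with N h1 h2 i j
    have hlo : ∀ k, sInf μ.support - 1 ≤ Λ N k :=
      fun k => le_trans h1 (ciInf_le (Set.finite_range _).bddBelow k)
    have hhi : ∀ k, Λ N k ≤ sSup μ.support + 1 :=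
      fun k => le_trans (le_ciSup (Set.finite_range _).bddAbove k) h2
    rw [abs_le, hD]
    constructor <;> linarith [hlo i, hlo j, hhi i, hhi j]
  have hb : Tendsto (fun N : ℕ => ENNReal.ofReal
      (4 * (β * D) ^ 2 / ((N : ℝ) - 2) / (ε / 2) ^ 2)) atTop (𝓝 0) := by
    have h1 : Tendsto (fun N : ℕ => 4 * (β * D) ^ 2 / ((N : ℝ) - 2)) atTop (𝓝 0) :=
      tendsto_const_nhds.div_atTop
        (tendsto_atTop_add_const_right atTop (-2 : ℝ) tendsto_natCast_atTop_atTop)
    simpa using ENNReal.tendsto_ofReal (h1.div_const ((ε / 2) ^ 2))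
  refine tendsto_of_tendsto_of_tendsto_of_le_of_le' tendsto_const_nhds hb
    (Eventually.of_forall fun _ => zero_le) ?_
  filter_upwards [hspread, eventually_ge_atTop 3,
    (Metric.tendsto_nhds.1 hlim) (ε / 2) (half_pos hε)] with N hN hN3 hc
  rw [Real.dist_eq] at hc
  have hI : Integrable (fun U => (pressure β (Λ N) U - meanP β (Λ N)) ^ 2) (haarON N) :=
    integrable_of_cont (((continuous_pressure β (Λ N)).sub continuous_const).pow 2)
  have hN2 : (0 : ℝ) < (N : ℝ) - 2 := by
    have : (3 : ℝ) ≤ N := by exact_mod_cast hN3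
    linarith
  have hv := pressure_variance β (Λ N) D hN (by omega)
  have hm := mul_meas_ge_le_integral_of_nonneg (Eventually.of_forall fun U => sq_nonneg _) hI
    ((ε / 2) ^ 2)
  refine le_trans (measure_mono (t := {U : ON N |
    (ε / 2) ^ 2 ≤ (pressure β (Λ N) U - meanP β (Λ N)) ^ 2}) fun U hU => ?_) ?_
  · have hU' : ε ≤ |pressure β (Λ N) U - c| := hU
    simp only [Set.mem_ofPred_eq]
    rw [← sq_abs (pressure β (Λ N) U - _)]
    refine pow_le_pow_left₀ (by linarith) ?_ 2
    linarith [abs_sub_le (pressure β (Λ N) U) (meanP β (Λ N)) c]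
  · rw [← ENNReal.ofReal_toReal (measure_ne_top (haarON N) _)]
    refine ENNReal.ofReal_le_ofReal ((le_div_iff₀ (by positivity)).2 ?_)
    have hv' : ∫ U, (pressure β (Λ N) U - meanP β (Λ N)) ^ 2 ∂(haarON N) ≤
        4 * (β * D) ^ 2 / ((N : ℝ) - 2) := by
      rw [le_div_iff₀ hN2]; linarith
    rw [mul_comm]
    exact hm.trans hv'

/-- The limiting pressure of an orthogonally invariant Ising spin glass. -/
theorem parisi_formula (μ : Measure ℝ) [IsProbabilityMeasure μ] (hμ : IsCompact μ.support) :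
    (∃ Λ, Admissible μ Λ) ∧
      ∀ β : ℝ, 0 ≤ β → ∀ Λ : (N : ℕ) → Fin N → ℝ, Admissible μ Λ →
        Tendsto (fun N => meanP β (Λ N)) atTop (𝓝 (value μ β)) ∧
          ∀ ε > 0, Tendsto
            (fun N => haarON N {U | ε ≤ |pressure β (Λ N) U - value μ β|}) atTop (𝓝 0) :=
  ⟨⟨quantileSeq μ, quantileSeq_admissible hμ⟩, fun _ hβ _ hΛ =>
    have h := meanP_tendsto hμ hβ hΛ
    ⟨h, fun _ hε => tendsto_pressure_prob hΛ h hε⟩⟩

end Vale.Agent.P166.Parisi
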