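import Vale.Agent.P157.GaussLaw

/-!
The Poincare inequality of the standard Gaussian vector, by the interpolation of Maurey and Pisier.
-/

namespace Vale.Agent.P166.Parisi

open MeasureTheory ProbabilityTheory Finset
open Vale.Agent.P157 (gauss map_gauss_eq)

namespace GaussPoincare

variable {ι : Type} [Fintype ι]

/-- The exponential weight. -/
noncomputable def wexp (k : ℝ) (y : ι → ℝ) : ℝ := Real.exp (k * ∑ i, |y i|)

lemma integrable_exp_abs (k : ℝ) :
    Integrable (fun x : ℝ => Real.exp (k * |x|)) (gaussianReal 0 1) := by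
  refine ((integrable_exp_mul_gaussianReal k).add (integrable_exp_mul_gaussianReal (-k))).mono'
    (by fun_prop) (.of_forall fun x => ?_)
  simp only [Real.norm_eq_abs, abs_of_pos (Real.exp_pos _), Pi.add_apply]
  rcases abs_cases x with ⟨h, _⟩ | ⟨h, _⟩
  · rw [h]; exact le_add_of_nonneg_right (Real.exp_pos _).le
  · rw [h, mul_neg, neg_mul]; exact le_add_of_nonneg_left (Real.exp_pos _).le

lemma integrable_wexp (k : ℝ) : Integrable (wexp (ι := ι) k) (gauss ι) := by
  unfold wexp gauss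
  simp only [mul_sum, Real.exp_sum]
  exact Integrable.fintype_prod fun _ => integrable_exp_abs k

lemma integrable_of_bound {f : (ι → ℝ) → ℝ} (hf : Continuous f) {C k : ℝ}
    (h : ∀ y, |f y| ≤ C * wexp k y) : Integrable f (gauss ι) :=
  ((integrable_wexp k).const_mul C).mono' hf.aestronglyMeasurable (.of_forall fun y => by
    simpa [Real.norm_eq_abs] using h y)

/-- Directional derivatives with continuous coefficients give the derivative. -/
lemma hasFDerivAt_of_dir {f : (ι → ℝ) → ℝ} {g : ι → (ι → ℝ) → ℝ}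
    (hd : ∀ y v : ι → ℝ, HasDerivAt (fun t : ℝ => f fun i => y i + t * v i)
      (∑ i, v i * g i y) 0)
    (hg : ∀ i, Continuous (g i)) (y : ι → ℝ) :
    HasFDerivAt f (∑ i, g i y • (ContinuousLinearMap.proj i : (ι → ℝ) →L[ℝ] ℝ)) y := by
  rw [hasFDerivAt_iff_isLittleO_nhds_zero, Asymptotics.isLittleO_iff]
  intro ε hε
  set n := (Fintype.card ι : ℝ) + 1 with hn
  have hn0 : 0 < n := by positivity
  have hev : ∀ᶠ h in nhds (0 : ι → ℝ), ∀ i, |g i (y + h) - g i y| ≤ ε / n := by
    rw [Filter.eventually_all]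
    intro i
    have hc : Filter.Tendsto (fun h : ι → ℝ => g i (y + h)) (nhds 0) (nhds (g i y)) := by
      simpa [Function.comp_def] using ((hg i).comp (continuous_const.add continuous_id)).tendsto (0 : ι → ℝ)
    filter_upwards [hc (Metric.closedBall_mem_nhds _ (div_pos hε hn0))] with h hh
    simpa [Real.dist_eq] using hh
  obtain ⟨δ, hδ, hball⟩ := Metric.eventually_nhds_iff.1 hev
  rw [Metric.eventually_nhds_iff]
  refine ⟨δ, hδ, fun h hh => ?_⟩
  set L := ∑ i, h i * g i y with hL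
  have hline : ∀ t : ℝ, HasDerivAt (fun t : ℝ => f (fun i => y i + t * h i) - t * L)
      (∑ i, h i * (g i (fun i => y i + t * h i) - g i y)) t := by
    intro t
    have hs : HasDerivAt (fun s : ℝ => s - t) 1 t := (hasDerivAt_id t).sub_const t
    have h1 : HasDerivAt (fun s : ℝ => f fun i => (y i + t * h i) + (s - t) * h i)
        ((∑ i, h i * g i (fun i => y i + t * h i)) * 1) t :=
      HasDerivAt.comp t (h₂ := fun r : ℝ => f fun i => (y i + t * h i) + r * h i)
        (by simpa using hd (fun i => y i + t * h i) h) hs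
    have h2 : (fun s : ℝ => f fun i => (y i + t * h i) + (s - t) * h i) =
        fun s : ℝ => f fun i => y i + s * h i := by
      funext s; congr 1; funext i; ring
    rw [h2, mul_one] at h1
    have := h1.sub ((hasDerivAt_id t).mul_const L)
    simpa [hL, mul_sub, sum_sub_distrib, Pi.sub_def] using this
  have hb : ∀ t ∈ Set.Ico (0:ℝ) 1,
      ‖∑ i, h i * (g i (fun i => y i + t * h i) - g i y)‖ ≤ ε * ‖h‖ := by
    intro t ht
    have hth : dist (fun i => t * h i) (0 : ι → ℝ) < δ := by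
      refine lt_of_le_of_lt ?_ hh
      rw [dist_zero_right, dist_zero_right, pi_norm_le_iff_of_nonneg (norm_nonneg _)]
      intro i
      rw [norm_mul]
      refine le_trans ?_ (norm_le_pi_norm h i)
      refine mul_le_of_le_one_left (norm_nonneg _) ?_
      rw [Real.norm_eq_abs, abs_of_nonneg ht.1]; exact ht.2.le
    refine (norm_sum_le _ _).trans ?_
    have hi : ∀ i, ‖h i * (g i (fun i => y i + t * h i) - g i y)‖ ≤ ‖h‖ * (ε / n) := fun i => by
      rw [norm_mul]
      exact mul_le_mul (norm_le_pi_norm h i)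
        (by simpa [Real.norm_eq_abs, Pi.add_def] using hball hth i) (norm_nonneg _) (norm_nonneg _)
    refine (sum_le_sum fun i _ => hi i).trans ?_
    rw [sum_const, card_univ, nsmul_eq_mul]
    calc (Fintype.card ι : ℝ) * (‖h‖ * (ε / n)) ≤ n * (‖h‖ * (ε / n)) := by
          gcongr; simp [hn]
      _ = ε * ‖h‖ := by field_simp
  have key := norm_image_sub_le_of_norm_deriv_le_segment_01'
    (f := fun t : ℝ => f (fun i => y i + t * h i) - t * L)
    (fun t _ => (hline t).hasDerivWithinAt) hb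
  have e : f (y + h) - f y - (∑ i, g i y • (ContinuousLinearMap.proj i : (ι → ℝ) →L[ℝ] ℝ)) h =
      (f (fun i => y i + 1 * h i) - 1 * L) - (f (fun i => y i + 0 * h i) - 0 * L) := by
    have : (∑ i, g i y • (ContinuousLinearMap.proj i : (ι → ℝ) →L[ℝ] ℝ)) h = L := by
      simp [hL, mul_comm]
    rw [this]
    simp only [one_mul, zero_mul, add_zero, sub_zero]
    change f (y + h) - f y - L = f (y + h) - L - f y
    ring
  rw [e]
  exact key

variable [DecidableEq ι]

/-- The coefficients of the rotation of a pair. -/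
def rotCoef (s c : ℝ) : ι ⊕ ι → ι ⊕ ι → ℝ
  | Sum.inl i, Sum.inl k => if i = k then s else 0
  | Sum.inl i, Sum.inr k => if i = k then c else 0
  | Sum.inr i, Sum.inl k => if i = k then c else 0
  | Sum.inr i, Sum.inr k => if i = k then -s else 0

/-- Rotation invariance of a pair of independent Gaussian vectors. -/
lemma integral_rot {s c : ℝ} (hsc : s ^ 2 + c ^ 2 = 1) {h : (ι → ℝ) × (ι → ℝ) → ℝ}
    (hh : Continuous h) :
    ∫ p, h (fun i => s * p.1 i + c * p.2 i, fun i => c * p.1 i - s * p.2 i)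
        ∂(gauss ι).prod (gauss ι) =
      ∫ p, h p ∂(gauss ι).prod (gauss ι) := by
  have mp : MeasurePreserving (MeasurableEquiv.sumPiEquivProdPi fun _ : ι ⊕ ι => ℝ)
      (gauss (ι ⊕ ι)) ((gauss ι).prod (gauss ι)) :=
    measurePreserving_sumPiEquivProdPi (fun _ : ι ⊕ ι => gaussianReal 0 1)
  have hcv : ∀ F : (ι → ℝ) × (ι → ℝ) → ℝ, ∫ p, F p ∂(gauss ι).prod (gauss ι) =
      ∫ q, F (fun i => q (Sum.inl i), fun i => q (Sum.inr i)) ∂gauss (ι ⊕ ι) := fun F =>
    (mp.integral_comp' F).symm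
  have hl := map_gauss_eq (Λ := ι ⊕ ι) (rotCoef s c) (fun l k => if l = k then (1:ℝ) else 0)
    (fun t => by
      simp only [Fintype.sum_sum_type, rotCoef, mul_ite, mul_zero, sum_ite_eq', mem_univ, if_true,
        sum_const_zero, add_zero, zero_add]
      rw [← sum_add_distrib, ← sum_add_distrib]
      refine sum_congr rfl fun i _ => ?_
      linear_combination (t (Sum.inl i) ^ 2 + t (Sum.inr i) ^ 2) * hsc)
  have hm : Continuous fun q : ι ⊕ ι → ℝ => h (fun i => q (Sum.inl i), fun i => q (Sum.inr i)) :=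
    hh.comp (by fun_prop)
  have e := congrArg (fun ν : Measure (ι ⊕ ι → ℝ) =>
    ∫ q, h (fun i => q (Sum.inl i), fun i => q (Sum.inr i)) ∂ν) hl
  rw [integral_map (Measurable.aemeasurable (by fun_prop)) hm.aestronglyMeasurable,
    integral_map (Measurable.aemeasurable (by fun_prop)) hm.aestronglyMeasurable] at e
  rw [hcv, hcv]
  refine Eq.trans ?_ (e.trans ?_)
  · refine integral_congr_ae (.of_forall fun q => ?_)
    simp only [Fintype.sum_sum_type, rotCoef, mul_ite, mul_zero, sum_ite_eq, mem_univ, if_true,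
      mul_comm (q _) s, mul_comm (q _) c, mul_neg, ← sub_eq_add_neg]
  · refine integral_congr_ae (.of_forall fun q => ?_)
    simp only [mul_ite, mul_one, mul_zero, sum_ite_eq, mem_univ, if_true]

/-- The second moment of a linear form. -/
lemma integral_sq_linear (a : ι → ℝ) :
    ∫ z, (∑ i, z i * a i) ^ 2 ∂gauss ι = ∑ i, a i ^ 2 := by
  have h := map_gauss_eq (Λ := Unit) (fun _ i => a i)
    (fun _ (_ : Unit) => Real.sqrt (∑ i, a i ^ 2)) (fun s => by
      simp only [Fintype.sum_unique, mul_pow, ← mul_sum,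
        Real.sq_sqrt (sum_nonneg fun i _ => sq_nonneg (a i))])
  have e := congrArg (fun ν : Measure (Unit → ℝ) => ∫ q, q () ^ 2 ∂ν) h
  rw [integral_map (Measurable.aemeasurable (by fun_prop))
      ((continuous_apply ()).pow 2).aestronglyMeasurable,
    integral_map (Measurable.aemeasurable (by fun_prop))
      ((continuous_apply ()).pow 2).aestronglyMeasurable] at e
  simp only [Fintype.sum_unique, mul_pow, integral_mul_const,
    Real.sq_sqrt (sum_nonneg fun i _ => sq_nonneg (a i))] at e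
  have h1 : ∫ q : Unit → ℝ, q () ^ 2 ∂gauss Unit = 1 := by
    unfold Vale.Agent.P157.gauss
    rw [integral_comp_eval (μ := fun _ : Unit => gaussianReal 0 1) (i := ())
      (f := fun x : ℝ => x ^ 2) (by fun_prop)]
    have hv := variance_of_integral_eq_zero (μ := gaussianReal 0 1) (X := id) aemeasurable_id
      (by simp)
    rw [variance_id_gaussianReal] at hv
    simpa using hv.symm
  rw [e]
  show (∫ q : Unit → ℝ, q () ^ 2 ∂gauss Unit) * _ = _
  rw [h1, one_mul]

/-- Cauchy-Schwarz on an interval. -/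
lemma sq_integral_le {φ : ℝ → ℝ} (hφ : Continuous φ) {T : ℝ} (hT : 0 < T) :
    (∫ θ in (0:ℝ)..T, φ θ) ^ 2 ≤ T * ∫ θ in (0:ℝ)..T, φ θ ^ 2 := by
  set I := ∫ θ in (0:ℝ)..T, φ θ with hI
  have hnn : 0 ≤ ∫ θ in (0:ℝ)..T, (φ θ - I / T) ^ 2 :=
    intervalIntegral.integral_nonneg hT.le fun θ _ => sq_nonneg _
  have e2 : ∀ θ, (φ θ - I / T) ^ 2 = φ θ ^ 2 - 2 * (I / T) * φ θ + (I / T) ^ 2 := fun θ => by ring
  simp only [e2] at hnn
  have h1 : IntervalIntegrable (fun θ => φ θ ^ 2) volume 0 T := (hφ.pow 2).intervalIntegrable ..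
  have h2 : IntervalIntegrable (fun θ => 2 * (I / T) * φ θ) volume 0 T :=
    (continuous_const.mul hφ).intervalIntegrable ..
  rw [intervalIntegral.integral_add (h1.sub h2) intervalIntegrable_const,
    intervalIntegral.integral_sub h1 h2, intervalIntegral.integral_const_mul,
    intervalIntegral.integral_const, ← hI, smul_eq_mul, sub_zero] at hnn
  have h := mul_nonneg hT.le hnn
  have e : T * ((∫ θ in (0:ℝ)..T, φ θ ^ 2) - 2 * (I / T) * I + T * (I / T) ^ 2) =
      T * (∫ θ in (0:ℝ)..T, φ θ ^ 2) - I ^ 2 := by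
    field_simp
    ring
  linarith [h, e]

/-- The variance through a pair of independent copies. -/
lemma integral_sq_sub {μ : Measure (ι → ℝ)} [IsProbabilityMeasure μ] {f : (ι → ℝ) → ℝ}
    (hf : Continuous f) (h1 : Integrable f μ) (h2 : Integrable (fun y => f y ^ 2) μ) :
    Integrable (fun p : (ι → ℝ) × (ι → ℝ) => (f p.1 - f p.2) ^ 2) (μ.prod μ) ∧
      ∫ p, (f p.1 - f p.2) ^ 2 ∂μ.prod μ = 2 * variance f μ := by
  have e : ∀ p : (ι → ℝ) × (ι → ℝ),
      (f p.1 - f p.2) ^ 2 = f p.1 ^ 2 + f p.2 ^ 2 - 2 * (f p.1 * f p.2) := fun p => by ring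
  have i1 : Integrable (fun p : (ι → ℝ) × (ι → ℝ) => f p.1 ^ 2 + f p.2 ^ 2) (μ.prod μ) :=
    (h2.comp_fst μ).add (h2.comp_snd μ)
  have i2 := (h1.mul_prod h1).const_mul 2
  refine ⟨(i1.sub i2).congr (.of_forall fun p => (e p).symm), ?_⟩
  rw [variance_eq_sub ((memLp_two_iff_integrable_sq hf.aestronglyMeasurable).2 h2)]
  simp only [e]
  rw [integral_sub i1 i2, integral_add (h2.comp_fst μ) (h2.comp_snd μ),
    integral_fun_fst (fun y => f y ^ 2), integral_fun_snd (fun y => f y ^ 2), integral_const_mul,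
    integral_prod_mul]
  simp [Pi.pow_apply]
  ring

/-- The bound for the derivative along the interpolation. -/
lemma deriv_bound {g : ι → (ι → ℝ) → ℝ} {C k : ℝ} (hC : 0 ≤ C) (hk : 0 ≤ k)
    (hbg : ∀ i y, |g i y| ≤ C * Real.exp (k * ∑ i, |y i|)) {s c : ℝ} (hs : |s| ≤ 1) (hc : |c| ≤ 1)
    (p : (ι → ℝ) × (ι → ℝ)) :
    (∑ i, g i (fun j => s * p.1 j + c * p.2 j) * (c * p.1 i - s * p.2 i)) ^ 2 ≤
      ((Fintype.card ι : ℝ) * C) ^ 2 * (wexp (2 * (k + 1)) p.1 * wexp (2 * (k + 1)) p.2) := by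
  set S := (∑ i, |p.1 i|) + ∑ i, |p.2 i| with hS
  have ab : ∀ (a b : ℝ) (i : ι), |a| ≤ 1 → |b| ≤ 1 →
      |a * p.1 i + b * p.2 i| ≤ |p.1 i| + |p.2 i| := fun a b i ha hb => by
    refine (abs_add_le _ _).trans ?_
    rw [abs_mul, abs_mul]
    exact add_le_add (mul_le_of_le_one_left (abs_nonneg _) ha)
      (mul_le_of_le_one_left (abs_nonneg _) hb)
  have hi : ∀ i, |g i (fun j => s * p.1 j + c * p.2 j) * (c * p.1 i - s * p.2 i)| ≤
      C * Real.exp ((k + 1) * S) := fun i => by
    rw [abs_mul, add_mul, one_mul, Real.exp_add, ← mul_assoc]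
    refine mul_le_mul ((hbg i _).trans ?_) ?_ (abs_nonneg _) (by positivity)
    · gcongr
      rw [hS, ← sum_add_distrib]
      exact sum_le_sum fun i _ => ab s c i hs hc
    · refine le_trans ?_ ((le_add_of_nonneg_right zero_le_one).trans (Real.add_one_le_exp S))
      rw [sub_eq_add_neg, ← neg_mul]
      refine (ab c (-s) i hc (by rwa [abs_neg])).trans ?_
      exact add_le_add (single_le_sum (fun j _ => abs_nonneg (p.1 j)) (mem_univ i))
        (single_le_sum (fun j _ => abs_nonneg (p.2 j)) (mem_univ i))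
  have h1 := (abs_sum_le_sum_abs _ _).trans (sum_le_sum (s := univ) fun i _ => hi i)
  rw [sum_const, card_univ, nsmul_eq_mul] at h1
  refine (sq_abs _).symm.trans_le ((pow_le_pow_left₀ (abs_nonneg _) h1 2).trans_eq ?_)
  rw [mul_pow, mul_pow, wexp, wexp, ← Real.exp_add, ← Real.exp_nat_mul, hS]
  push_cast; ring_nf

/-- The derivative along the interpolation. -/
noncomputable def interpDeriv (g : ι → (ι → ℝ) → ℝ) (θ : ℝ) (p : (ι → ℝ) × (ι → ℝ)) : ℝ :=
  ∑ i, g i (fun j => Real.sin θ * p.1 j + Real.cos θ * p.2 j) *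
    (Real.cos θ * p.1 i - Real.sin θ * p.2 i)

lemma continuous_interpDeriv {g : ι → (ι → ℝ) → ℝ} (hg : ∀ i, Continuous (g i)) :
    Continuous fun q : ((ι → ℝ) × (ι → ℝ)) × ℝ => interpDeriv g q.2 q.1 := by
  refine continuous_finsetSum _ fun i _ => ((hg i).comp ?_).mul ?_ <;> fun_prop

/-- The squared increment is bounded by the squared derivative along the interpolation. -/
lemma sq_sub_le {f : (ι → ℝ) → ℝ} {g : ι → (ι → ℝ) → ℝ}
    (hd : ∀ y v : ι → ℝ, HasDerivAt (fun t : ℝ => f fun i => y i + t * v i)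
      (∑ i, v i * g i y) 0)
    (hg : ∀ i, Continuous (g i)) (p : (ι → ℝ) × (ι → ℝ)) :
    (f p.1 - f p.2) ^ 2 ≤
      Real.pi / 2 * ∫ θ in (0:ℝ)..(Real.pi / 2), interpDeriv g θ p ^ 2 := by
  have hder : ∀ θ, HasDerivAt
      (fun θ => f fun j => Real.sin θ * p.1 j + Real.cos θ * p.2 j) (interpDeriv g θ p) θ := by
    intro θ
    have hZ : HasDerivAt (fun θ => fun j => Real.sin θ * p.1 j + Real.cos θ * p.2 j)
        (fun i => Real.cos θ * p.1 i - Real.sin θ * p.2 i) θ := by
      refine hasDerivAt_pi.2 fun i => ?_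
      simpa [sub_eq_add_neg] using
        ((Real.hasDerivAt_sin θ).mul_const (p.1 i)).fun_add
          ((Real.hasDerivAt_cos θ).mul_const (p.2 i))
    have h1 := HasFDerivAt.comp_hasDerivAt (f := fun θ => fun j =>
      Real.sin θ * p.1 j + Real.cos θ * p.2 j) θ
      (hasFDerivAt_of_dir hd hg (fun j => Real.sin θ * p.1 j + Real.cos θ * p.2 j)) hZ
    have e : (∑ i, g i (fun j => Real.sin θ * p.1 j + Real.cos θ * p.2 j) •
        (ContinuousLinearMap.proj i : (ι → ℝ) →L[ℝ] ℝ))
          (fun i => Real.cos θ * p.1 i - Real.sin θ * p.2 i) = interpDeriv g θ p := by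
      simp only [interpDeriv, ContinuousLinearMap.sum_apply, ContinuousLinearMap.smul_apply,
        ContinuousLinearMap.proj_apply, smul_eq_mul]
    rw [e] at h1
    exact h1
  have hc : Continuous fun θ => interpDeriv g θ p := by
    unfold interpDeriv
    refine continuous_finsetSum _ fun i _ => ((hg i).comp ?_).mul ?_ <;> fun_prop
  have hI := intervalIntegral.integral_eq_sub_of_hasDerivAt (fun θ _ => hder θ)
    (hc.intervalIntegrable 0 (Real.pi / 2))
  simp only [Real.sin_pi_div_two, Real.cos_pi_div_two, Real.sin_zero, Real.cos_zero, one_mul,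
    zero_mul, add_zero, zero_add] at hI
  rw [← hI]
  exact sq_integral_le hc (by positivity)

/-- The Poincare inequality of the standard Gaussian vector. -/
theorem gauss_poincare {f : (ι → ℝ) → ℝ} {g : ι → (ι → ℝ) → ℝ}
    (hd : ∀ y v : ι → ℝ, HasDerivAt (fun t : ℝ => f fun i => y i + t * v i)
      (∑ i, v i * g i y) 0)
    (hg : ∀ i, Continuous (g i)) {C k : ℝ} (hk : 0 ≤ k)
    (hbf : ∀ y, |f y| ≤ C * Real.exp (k * ∑ i, |y i|))
    (hbg : ∀ i y, |g i y| ≤ C * Real.exp (k * ∑ i, |y i|)) :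
    variance f (gauss ι) ≤ Real.pi ^ 2 / 8 * ∑ i, ∫ y, g i y ^ 2 ∂gauss ι := by
  set μ := gauss ι with hμ
  set T := Real.pi / 2 with hT
  have hT0 : 0 < T := by positivity
  have hC : 0 ≤ C := nonneg_of_mul_nonneg_left ((abs_nonneg _).trans (hbf 0)) (Real.exp_pos _)
  have hFD := hasFDerivAt_of_dir hd hg
  have hfc : Continuous f := continuous_iff_continuousAt.2 fun y => (hFD y).continuousAt
  have hDc := continuous_interpDeriv hg
  have hsq : ∀ (F : (ι → ℝ) → ℝ), (∀ y, |F y| ≤ C * wexp k y) →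
      ∀ y, |F y ^ 2| ≤ C ^ 2 * wexp (2 * k) y := fun F hF y => by
    rw [abs_pow]
    refine (pow_le_pow_left₀ (abs_nonneg _) (hF y) 2).trans_eq ?_
    rw [mul_pow, wexp, wexp, ← Real.exp_nat_mul]; push_cast; ring_nf
  have hif : Integrable f μ := integrable_of_bound hfc hbf
  have hif2 : Integrable (fun y => f y ^ 2) μ := integrable_of_bound (hfc.pow 2) (hsq f hbf)
  have hig2 : ∀ i, Integrable (fun y => g i y ^ 2) μ := fun i =>
    integrable_of_bound ((hg i).pow 2) (hsq (g i) (hbg i))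
  have hbD : ∀ p θ, interpDeriv g θ p ^ 2 ≤ ((Fintype.card ι : ℝ) * C) ^ 2 *
      (wexp (2 * (k + 1)) p.1 * wexp (2 * (k + 1)) p.2) := fun p θ =>
    deriv_bound hC hk hbg (Real.abs_sin_le_one θ) (Real.abs_cos_le_one θ) p
  -- integration
  set τ : Measure ℝ := volume.restrict (Set.Ioc 0 T) with hτ
  have : IsFiniteMeasure τ := by rw [hτ]; infer_instance
  have hdom : Integrable (fun p : (ι → ℝ) × (ι → ℝ) => ((Fintype.card ι : ℝ) * C) ^ 2 *
      (wexp (2 * (k + 1)) p.1 * wexp (2 * (k + 1)) p.2)) (μ.prod μ) :=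
    ((integrable_wexp _).mul_prod (integrable_wexp _)).const_mul _
  have hjoint : Integrable (fun q : ((ι → ℝ) × (ι → ℝ)) × ℝ => interpDeriv g q.2 q.1 ^ 2)
      ((μ.prod μ).prod τ) :=
    (hdom.comp_fst τ).mono' ((continuous_interpDeriv hg).pow 2).aestronglyMeasurable (.of_forall fun q => by
      rw [Real.norm_eq_abs, abs_of_nonneg (sq_nonneg _)]; exact hbD q.1 q.2)
  obtain ⟨hint, hlhs⟩ := integral_sq_sub (μ := μ) hfc hif hif2
  have hiint : ∀ p : (ι → ℝ) × (ι → ℝ),
      ∫ θ in (0:ℝ)..T, interpDeriv g θ p ^ 2 = ∫ θ, interpDeriv g θ p ^ 2 ∂τ := fun p =>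
    intervalIntegral.integral_of_le hT0.le
  have hrhs : ∀ θ, ∫ p, interpDeriv g θ p ^ 2 ∂μ.prod μ = ∑ i, ∫ y, g i y ^ 2 ∂μ := fun θ => by
    have hh : Continuous fun p : (ι → ℝ) × (ι → ℝ) => (∑ i, g i p.1 * p.2 i) ^ 2 := by
      refine (continuous_finsetSum _ fun i _ => ((hg i).comp continuous_fst).mul ?_).pow 2
      fun_prop
    refine (integral_rot (Real.sin_sq_add_cos_sq θ) hh).trans ?_
    rw [integral_prod _ ?_]
    · simp only [mul_comm (g _ _) _, integral_sq_linear]
      exact integral_finsetSum _ fun i _ => hig2 i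
    · refine hdom.mono' hh.aestronglyMeasurable (.of_forall fun p => ?_)
      rw [Real.norm_eq_abs, abs_of_nonneg (sq_nonneg _)]
      have e : interpDeriv g T (p.1, fun i => -p.2 i) = ∑ i, g i p.1 * p.2 i := by
        simp [interpDeriv, hT]
      have := hbD (p.1, fun i => -p.2 i) T
      rw [e] at this
      simpa [wexp] using this
  have hmain : 2 * variance f μ ≤ T * (T * ∑ i, ∫ y, g i y ^ 2 ∂μ) := by
    rw [← hlhs]
    refine (integral_mono hint (hjoint.integral_prod_left.const_mul T) fun p => ?_).trans_eq ?_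
    · exact (sq_sub_le hd hg p).trans_eq (by rw [← hT, hiint p])
    · rw [integral_const_mul, integral_integral_swap hjoint]
      simp only [hrhs, integral_const, hτ, smul_eq_mul, Measure.real, Measure.restrict_apply_univ,
        Real.volume_Ioc, sub_zero, ENNReal.toReal_ofReal hT0.le]
  rw [hT] at hmain
  linarith [hmain]

end GaussPoincare

end Vale.Agent.P166.Parisi
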