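import Vale.Agent.P166.HaarTools

/-!
Module H: Haar measure on `O(N)`.
-/

namespace Vale.Agent.P166.Parisi

open MeasureTheory Filter Topology Finset Matrix MvPolynomial

variable {N : ℕ}

/-- `F' (i, j)` is the continuous derivative of `F` along the rotation of the rows `i` and `j`
(row `i` moves towards row `j`). -/
def RotDeriv (F : ON N → ℝ) (F' : Fin N × Fin N → ON N → ℝ) : Prop :=
  Continuous F ∧ (∀ a, Continuous (F' a)) ∧ (∀ i U, F' (i, i) U = 0) ∧
    ∀ (i j : Fin N) (hij : i ≠ j) (U : ON N),
      HasDerivAt (fun θ => F (rotON hij θ * U)) (F' (i, j) U) 0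

theorem integral_rotDeriv_eq_zero {F : ON N → ℝ} {F' : Fin N × Fin N → ON N → ℝ}
    (hF : RotDeriv F F') (a : Fin N × Fin N) : ∫ U, F' a U ∂haarON N = 0 := by
  obtain ⟨hc, hc', h0, hd⟩ := hF
  obtain ⟨i, j⟩ := a
  rcases eq_or_ne i j with rfl | hij
  · simp [h0]
  · exact integral_rotDeriv hd hc hc' hij

/-- The Poincaré inequality for differentiable functions invariant under one reflection. -/
theorem rot_poincare (hN : 2 < N) {F : ON N → ℝ} {F' : Fin N × Fin N → ON N → ℝ}
    (hF : RotDeriv F F') (m : Fin N) (hm : ∀ U, F (flipON m * U) = F U) :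
    ((N : ℝ) - 2) * ∫ U, (F U - ∫ V, F V ∂haarON N) ^ 2 ∂haarON N ≤
      4 * ∑ a, ∫ U, F' a U ^ 2 ∂haarON N := by
  obtain ⟨hc, hc', -, hd⟩ := hF
  have h := poincare_rot m hN hd hc hc' hm
  unfold Good at h
  set c := ∫ V, F V ∂haarON N with hcdef
  have e : (fun U => (F U - c) ^ 2) = fun U => (F U * F U - 2 * c * F U) + c ^ 2 := by
    funext U; ring
  have hI : Integrable F (haarON N) := integrable_of_cont' hc
  have hI2 : Integrable (fun U => F U * F U) (haarON N) := integrable_of_cont' (hc.mul hc)
  rw [e, integral_add (hI2.sub' (hI.const_mul _)) (integrable_const _),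
    integral_sub hI2 (hI.const_mul _), integral_const_mul, ← hcdef]
  simp only [integral_const, probReal_univ, one_smul, sq] at h ⊢
  linarith

instance instSecondCountableON (N : ℕ) : SecondCountableTopology (ON N) :=
  have : SecondCountableTopology (Matrix (Fin N) (Fin N) ℝ) :=
    inferInstanceAs (SecondCountableTopology (Fin N → Fin N → ℝ))
  IsEmbedding.subtypeVal.secondCountableTopology

/-- Haar invariance on the right under the orthogonal maps of the first `N` coordinates. -/
theorem integral_embed_right {m : ℕ} {F : ON (N + m) → ℝ} (hF : Continuous F)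
    (e : ON N → ON (N + m)) (he : Continuous e) :
    ∫ U, F U ∂haarON (N + m) = ∫ U, (∫ V, F (U * e V) ∂haarON N) ∂haarON (N + m) := by
  have hc : Continuous fun q : ON (N + m) × ON N => F (q.1 * e q.2) :=
    hF.comp (continuous_fst.mul (he.comp continuous_snd))
  rw [integral_integral_swap
    (hc.integrable_of_hasCompactSupport (HasCompactSupport.of_compactSpace _))]
  exact (integral_mul_random (haarON N) e).symm

/-- Haar measure is invariant under transposition. -/
theorem integral_transpose {F : ON N → ℝ} (hF : Continuous F) :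
    ∫ U, F U⁻¹ ∂haarON N = ∫ U, F U ∂haarON N := by
  have hinv : (haarON N).inv = haarON N := by
    have : IsProbabilityMeasure (haarON N).inv :=
      Measure.isProbabilityMeasure_map continuous_inv.aemeasurable
    have : (haarON N).inv.IsMulLeftInvariant := by infer_instance
    have h := Measure.isMulInvariant_eq_smul_of_compactSpace (haarON N).inv (haarON N)
    have h1 := congrArg (fun μ : Measure (ON N) => μ Set.univ) h
    simp only [measure_univ, Measure.smul_apply] at h1
    have hc : Measure.haarScalarFactor (haarON N).inv (haarON N) = 1 := by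
      simpa [ENNReal.smul_def] using h1.symm
    rw [h, hc, one_smul]
  have h2 : ∫ U, F U ∂(haarON N).inv = ∫ U, F U⁻¹ ∂haarON N :=
    integral_map continuous_inv.aemeasurable hF.aestronglyMeasurable
  rw [← h2, hinv]

theorem continuous_entry_mul (p c c' : Fin N) : Continuous fun U : ON N =>
    (U : Matrix (Fin N) (Fin N) ℝ) p c * (U : Matrix (Fin N) (Fin N) ℝ) p c' :=
  (continuous_subtype_val.matrix_elem p c).mul (continuous_subtype_val.matrix_elem p c')

/-- The covariance of two entries of one row. -/
theorem integral_entry_mul (p c c' : Fin N) :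
    ∫ U, (U : Matrix (Fin N) (Fin N) ℝ) p c * (U : Matrix (Fin N) (Fin N) ℝ) p c' ∂haarON N =
      if c = c' then 1 / (N : ℝ) else 0 := by
  split_ifs with hcc
  · subst hcc
    have hq : ∀ q, ∫ U, (U : Matrix (Fin N) (Fin N) ℝ) q c * (U : Matrix (Fin N) (Fin N) ℝ) q c
          ∂haarON N =
        ∫ U, (U : Matrix (Fin N) (Fin N) ℝ) p c * (U : Matrix (Fin N) (Fin N) ℝ) p c
          ∂haarON N := by
      intro q
      rw [← integral_mul_left_eq_self (μ := haarON N) (fun U : ON N =>
        (U : Matrix (Fin N) (Fin N) ℝ) q c * (U : Matrix (Fin N) (Fin N) ℝ) q c)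
        (permON (Equiv.swap p q))]
      simp [permON, PEquiv.toMatrix_toPEquiv_mul]
    have hsum : ∑ q, ∫ U, (U : Matrix (Fin N) (Fin N) ℝ) q c * (U : Matrix (Fin N) (Fin N) ℝ) q c
        ∂haarON N = 1 := by
      rw [← integral_finsetSum _ fun q _ => integrable_of_cont' (continuous_entry_mul q c c)]
      simp only [← sq, col_sq]
      simp
    simp only [hq, Finset.sum_const, Finset.card_univ, Fintype.card_fin, nsmul_eq_mul] at hsum
    rw [eq_div_iff (Nat.cast_ne_zero.2 (Fin.pos p).ne')]
    linarith
  · have h := integral_mul_right_eq_self (μ := haarON N) (fun U : ON N =>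
      (U : Matrix (Fin N) (Fin N) ℝ) p c * (U : Matrix (Fin N) (Fin N) ℝ) p c') (flipON c)
    have he : (fun U : ON N => ((U * flipON c : ON N) : Matrix (Fin N) (Fin N) ℝ) p c *
        ((U * flipON c : ON N) : Matrix (Fin N) (Fin N) ℝ) p c') = fun U : ON N =>
        -((U : Matrix (Fin N) (Fin N) ℝ) p c * (U : Matrix (Fin N) (Fin N) ℝ) p c') := by
      funext U
      simp [flipON, Matrix.mul_diagonal, Ne.symm hcc]
    rw [he, integral_neg] at h
    linarith

/-- The bilinear form of two columns on a set of coordinates. -/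
noncomputable def projP (S : Finset (Fin N)) (c c' : Fin N) : Poly N :=
  ∑ p ∈ S, X (p, c) * X (p, c')

theorem fn_projP (S : Finset (Fin N)) (c c' : Fin N) (U : ON N) :
    fn (projP S c c') U =
      ∑ p ∈ S, (U : Matrix (Fin N) (Fin N) ℝ) p c * (U : Matrix (Fin N) (Fin N) ℝ) p c' := by
  simp [projP, evM]

theorem fn_rd_projP (S : Finset (Fin N)) (c c' i j : Fin N) (U : ON N) :
    fn (rd (i, j) (projP S c c')) U =
      ((if i ∈ S then 1 else 0) - (if j ∈ S then 1 else 0)) *
        ((U : Matrix (Fin N) (Fin N) ℝ) j c * (U : Matrix (Fin N) (Fin N) ℝ) i c' +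
          (U : Matrix (Fin N) (Fin N) ℝ) i c * (U : Matrix (Fin N) (Fin N) ℝ) j c') := by
  set M := (U : Matrix (Fin N) (Fin N) ℝ) with hM
  have h : ∀ p, fn (rd (i, j) (X (p, c) * X (p, c'))) U =
      (if p = i then M j c * M p c' + M p c * M j c' else 0) -
        (if p = j then M i c * M p c' + M p c * M i c' else 0) := by
    intro p
    have hX : ∀ k l, evM M (X (k, l)) = M k l := fun k l => by simp [evM]
    have hC : ∀ r, evM M (MvPolynomial.C r) = r := fun r => by simp [evM]
    rw [fn_apply, Derivation.leibniz, rd_X, rd_X]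
    simp only [smul_eq_mul, map_add, map_mul, map_sub, hX, hC, ← hM, kd]
    split_ifs <;> ring
  rw [projP, map_sum, map_sum, ContinuousMap.sum_apply, Finset.sum_congr rfl fun p _ => h p,
    Finset.sum_sub_distrib, Finset.sum_ite_eq', Finset.sum_ite_eq']
  split_ifs <;> ring

/-- The first two moments of the projection of a column on a set of coordinates. -/
theorem integral_column_proj (hN : 2 < N) (S : Finset (Fin N)) (c c' : Fin N) :
    ∫ U, (∑ p ∈ S, (U : Matrix (Fin N) (Fin N) ℝ) p c * (U : Matrix (Fin N) (Fin N) ℝ) p c'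
        - (if c = c' then (S.card : ℝ) / N else 0)) ^ 2 ∂haarON N ≤
      16 / ((N : ℝ) - 2) := by
  have hN2 : (0:ℝ) < (N:ℝ) - 2 := by
    have : (2:ℝ) < N := by exact_mod_cast hN
    linarith
  set f : ON N → ℝ := fun U => fn (projP S c c') U with hf
  have hd : RotDeriv f (fun a U => fn (rd a (projP S c c')) U) := by
    refine ⟨(fn _).continuous, fun a => (fn _).continuous, fun i U => by simp [rd_self],
      fun i j hij U => ?_⟩
    have h1 := hasDerivAt_evM_rot hij (U : Matrix (Fin N) (Fin N) ℝ) (projP S c c') 0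
    have hid : rotM i j 0 (U : Matrix (Fin N) (Fin N) ℝ) = (U : Matrix (Fin N) (Fin N) ℝ) := by
      rw [← coe_rotON_mul hij, rotON_zero, one_mul]
    rw [hid] at h1
    simpa only [hf, fn_apply, coe_rotON_mul] using h1
  have hflip : ∀ U, f (flipON c * U) = f U := by
    intro U
    simp only [hf, fn_projP, coe_flipON_mul]
    refine Finset.sum_congr rfl fun p _ => ?_
    split_ifs <;> ring
  have hmean : ∫ U, f U ∂haarON N = if c = c' then (S.card : ℝ) / N else 0 := by
    simp only [hf, fn_projP]
    rw [integral_finsetSum _ fun p _ => integrable_of_cont' (continuous_entry_mul p c c')]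
    simp only [integral_entry_mul]
    split_ifs <;> simp [div_eq_mul_inv]
  have h := rot_poincare hN hd c hflip
  rw [hmean] at h
  simp only [hf, fn_projP] at h
  have hb : ∑ a, ∫ U, fn (rd a (projP S c c')) U ^ 2 ∂haarON N ≤ 4 := by
    rw [← integral_finsetSum _ fun a _ => integrable_of_cont'
      (g := fun U => fn (rd a (projP S c c')) U ^ 2) ((fn _).continuous.pow 2)]
    refine (integral_mono (integrable_finsetSum _ fun a _ =>
      integrable_of_cont' ((fn _).continuous.pow 2)) (integrable_const (4:ℝ)) fun U => ?_).trans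
      (le_of_eq (by simp))
    set M := (U : Matrix (Fin N) (Fin N) ℝ) with hM
    calc ∑ a, fn (rd a (projP S c c')) U ^ 2
        ≤ ∑ a : Fin N × Fin N,
          (2 * (M a.2 c ^ 2 * M a.1 c' ^ 2) + 2 * (M a.1 c ^ 2 * M a.2 c' ^ 2)) := by
          refine Finset.sum_le_sum fun a _ => ?_
          obtain ⟨i, j⟩ := a
          rw [fn_rd_projP]
          simp only [← hM]
          split_ifs <;>
            nlinarith [sq_nonneg (M j c * M i c' - M i c * M j c'),
              sq_nonneg (M j c * M i c'), sq_nonneg (M i c * M j c')]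
      _ = 4 := by
          simp only [Fintype.sum_prod_type, Finset.sum_add_distrib, ← Finset.mul_sum,
            ← Finset.sum_mul]
          simp only [hM, col_sq]
          norm_num
  rw [le_div_iff₀ hN2]
  nlinarith

end Vale.Agent.P166.Parisi
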