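import Vale.Agent.P166.Parisi.SymLin
import Vale.Agent.P166.Parisi.Haar
import Vale.Agent.P157.Parisi.Insert

/-!
Module B2, first part: symmetries of the systems and moments of one rotated spin.
-/

namespace Vale.Agent.P166.Parisi

open MeasureTheory ProbabilityTheory Finset Matrix
open Vale.Agent.P157 Vale.Agent.P157.Parisi

variable {N M m : ℕ}

namespace Sym

/-- The coefficients of the fields. -/
noncomputable def coef (U : ON N) (σ : Fin N → Bool) : FIdx N → ℝ :=
  Sum.elim (spin σ) (rotSpin U σ)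

/-- The weights of the configurations. -/
noncomputable def wgt (lam : Fin N → ℝ) (U : ON N) (σ : Fin N → Bool) : ℝ :=
  (1 / (2 : ℝ) ^ N) * Real.exp (1 / 2 * eng lam (U : Matrix (Fin N) (Fin N) ℝ) σ) / quadPart lam U

lemma glassLeaf_eq (U : ON N) : glassLeaf U = linL (coef U) := rfl

lemma quadLaw_eq (lam : Fin N → ℝ) (U : ON N) : quadLaw lam U = finLaw (wgt lam U) := rfl

lemma quadPart_pos' (lam : Fin N → ℝ) (U : ON N) : 0 < quadPart lam U := by
  unfold quadPart; positivity

lemma wgt_nonneg (lam : Fin N → ℝ) (U : ON N) (σ : Fin N → Bool) : 0 ≤ wgt lam U σ := by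
  have := quadPart_pos' lam U
  unfold wgt; positivity

lemma sum_wgt (lam : Fin N → ℝ) (U : ON N) : ∑ σ, wgt lam U σ = 1 := by
  simp only [wgt, ← Finset.sum_div, ← Finset.mul_sum]
  exact div_self (quadPart_pos' lam U).ne'

lemma prob_quad (lam : Fin N → ℝ) (U : ON N) : IsProbabilityMeasure (finLaw (wgt lam U)) :=
  prob_finLaw (wgt_nonneg lam U) (sum_wgt lam U)

lemma continuous_rotSpin (σ : Fin N → Bool) (p : Fin N) :
    Continuous fun U : ON N => rotSpin U σ p := by
  simp only [rotSpin, Matrix.mulVec, dotProduct]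
  exact continuous_finsetSum _ fun j _ =>
    (continuous_subtype_val.matrix_elem p j).mul continuous_const

lemma continuous_coef (σ : Fin N → Bool) (i : FIdx N) : Continuous fun U : ON N => coef U σ i := by
  cases i with
  | inl i => exact continuous_const
  | inr p => exact continuous_rotSpin σ p

lemma continuous_wgt (lam : Fin N → ℝ) (σ : Fin N → Bool) :
    Continuous fun U : ON N => wgt lam U σ := by
  have he : ∀ τ : Fin N → Bool, Continuous fun U : ON N =>
      Real.exp (1 / 2 * eng lam (U : Matrix (Fin N) (Fin N) ℝ) τ) := fun τ =>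
    Real.continuous_exp.comp (continuous_const.mul (continuous_eng lam τ))
  exact (continuous_const.mul (he σ)).div
    (continuous_const.mul (continuous_finsetSum _ fun τ _ => he τ))
    fun U => (quadPart_pos' lam U).ne'

lemma sum_rotSpin_sq (U : ON N) (σ : Fin N → Bool) : ∑ p, rotSpin U σ p ^ 2 = N :=
  sum_sq_spin U σ

lemma abs_coef_le (U : ON N) (σ : Fin N → Bool) (i : FIdx N) : |coef U σ i| ≤ (N : ℝ) + 1 := by
  cases i with
  | inl i =>
    simp only [coef, Sum.elim_inl, spin]
    split_ifs <;> simp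
  | inr p =>
    simp only [coef, Sum.elim_inr]
    have h : rotSpin U σ p ^ 2 ≤ N := sum_rotSpin_sq U σ ▸
      single_le_sum (f := fun p => rotSpin U σ p ^ 2) (fun _ _ => sq_nonneg _) (mem_univ p)
    rw [abs_le]
    constructor <;> nlinarith [Nat.cast_nonneg (α := ℝ) N]

lemma nest_good (K : ℕ) (S V : ℕ → Fin N → ℝ) : (glassNest K S V).Good where
  x_zero := by simp [glassNest, gridX, lvl]
  x_last := ModelFacts.gridX_top K (Nat.le_succ _)
  x_pos l hl _ := lt_min one_pos (div_pos (by exact_mod_cast hl) (by positivity))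
  x_mono l _ := min_le_min le_rfl (by unfold lvl; gcongr; simp)

lemma leaf_good (U : ON N) : (linL (coef U)).Good (|((N : ℝ) + 1)| + 1) :=
  linL_good _ (abs_coef_le U)

/-! ### Permutation matrices -/

lemma coe_permON (e : Equiv.Perm (Fin N)) (i k : Fin N) :
    (permON e : Matrix (Fin N) (Fin N) ℝ) i k = if e i = k then 1 else 0 := by
  simp [permON, PEquiv.toMatrix_apply]

lemma permON_mulVec (e : Equiv.Perm (Fin N)) (z : Fin N → ℝ) :
    (permON e : Matrix (Fin N) (Fin N) ℝ) *ᵥ z = z ∘ e := by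
  funext i; simp [Matrix.mulVec, dotProduct, coe_permON]

lemma perm_entry {e : Equiv.Perm (Fin N)} {i k : Fin N}
    (h : (permON e : Matrix (Fin N) (Fin N) ℝ) i k ≠ 0) : k = e i := by
  rw [coe_permON] at h
  by_contra hne
  exact h (if_neg (Ne.symm hne))

lemma one_entry {i k : Fin N} (h : ((1 : ON N) : Matrix (Fin N) (Fin N) ℝ) i k ≠ 0) : i = k := by
  by_contra hne
  exact h (Matrix.one_apply_ne hne)

lemma orth_left (A : ON N) :
    (A : Matrix (Fin N) (Fin N) ℝ)ᵀ * (A : Matrix (Fin N) (Fin N) ℝ) = 1 :=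
  (mem_orthogonalGroup_iff' (n := Fin N) (R := ℝ)).1 A.2

lemma orth_right (A : ON N) :
    (A : Matrix (Fin N) (Fin N) ℝ) * (A : Matrix (Fin N) (Fin N) ℝ)ᵀ = 1 :=
  (mem_orthogonalGroup_iff (n := Fin N) (R := ℝ)).1 A.2

/-! ### Changes of coordinates of the systems -/

lemma eng_conj {lam lam' : Fin N → ℝ} (B : ON N)
    (hB : ∀ i k, (B : Matrix (Fin N) (Fin N) ℝ) i k ≠ 0 → lam' i = lam k) (z : Fin N → ℝ) :
    ∑ i, lam' i * ((B : Matrix (Fin N) (Fin N) ℝ) *ᵥ z) i ^ 2 = ∑ k, lam k * z k ^ 2 := by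
  set Bm := (B : Matrix (Fin N) (Fin N) ℝ)
  have h : ∀ i, lam' i * (Bm *ᵥ z) i = (Bm *ᵥ fun k => lam k * z k) i := fun i => by
    simp only [Matrix.mulVec, dotProduct, mul_sum]
    refine sum_congr rfl fun k _ => ?_
    rcases eq_or_ne (Bm i k) 0 with h0 | h0
    · simp [h0]
    · rw [hB i k h0]; ring
  calc ∑ i, lam' i * (Bm *ᵥ z) i ^ 2
      = (Bm *ᵥ fun k => lam k * z k) ⬝ᵥ (Bm *ᵥ z) :=
        sum_congr rfl fun i _ => by rw [← h i]; ring
    _ = (fun k => lam k * z k) ⬝ᵥ z := by
        rw [Matrix.dotProduct_mulVec, ← Matrix.mulVec_transpose, Matrix.mulVec_mulVec,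
          orth_left, Matrix.one_mulVec]
    _ = _ := sum_congr rfl fun k _ => by ring

lemma rotSpin_conj (A B U : ON N) {σ τ : Fin N → Bool}
    (hT : spin τ = (A : Matrix (Fin N) (Fin N) ℝ) *ᵥ spin σ) :
    rotSpin (B * U * A⁻¹) τ = (B : Matrix (Fin N) (Fin N) ℝ) *ᵥ rotSpin U σ := by
  have hinv : ((B * U * A⁻¹ : ON N) : Matrix (Fin N) (Fin N) ℝ) =
      (B : Matrix (Fin N) (Fin N) ℝ) * (U : Matrix (Fin N) (Fin N) ℝ) *
        (A : Matrix (Fin N) (Fin N) ℝ)ᵀ := rfl
  rw [rotSpin, rotSpin, hinv, hT, Matrix.mulVec_mulVec, Matrix.mulVec_mulVec, Matrix.mul_assoc,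
    orth_left, Matrix.mul_one]

/-- The block matrix of two orthogonal maps. -/
noncomputable def blk (A B : ON N) : Matrix (FIdx N) (FIdx N) ℝ :=
  Matrix.fromBlocks (A : Matrix (Fin N) (Fin N) ℝ) 0 0 (B : Matrix (Fin N) (Fin N) ℝ)

lemma blk_left (A B : ON N) : (blk A B)ᵀ * blk A B = 1 := by
  simp [blk, Matrix.fromBlocks_transpose, Matrix.fromBlocks_multiply, orth_left,
    Matrix.fromBlocks_one]

lemma blk_right (A B : ON N) : blk A B * (blk A B)ᵀ = 1 := by
  simp [blk, Matrix.fromBlocks_transpose, Matrix.fromBlocks_multiply, orth_right,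
    Matrix.fromBlocks_one]

lemma blk_amp {A B : ON N} {s s' v v' : Fin N → ℝ}
    (hA : ∀ i k, (A : Matrix (Fin N) (Fin N) ℝ) i k ≠ 0 → s' i = s k)
    (hB : ∀ i k, (B : Matrix (Fin N) (Fin N) ℝ) i k ≠ 0 → v' i = v k) (i k : FIdx N)
    (h : blk A B i k ≠ 0) : Sum.elim s' v' i = Sum.elim s v k := by
  rcases i with i | i <;> rcases k with k | k <;> simp [blk] at h ⊢
  · exact hA i k h
  · exact hB i k h

/-- A simultaneous change of coordinates of spins and rotated spins. -/
theorem glass_transport (K : ℕ) {lam lam' : Fin N → ℝ} {S S' V V' : ℕ → Fin N → ℝ} (A B U : ON N)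
    (T : (Fin N → Bool) ≃ (Fin N → Bool))
    (hT : ∀ σ, spin (T σ) = (A : Matrix (Fin N) (Fin N) ℝ) *ᵥ spin σ)
    (hA : ∀ i k, (A : Matrix (Fin N) (Fin N) ℝ) i k ≠ 0 → ∀ l, S' l i = S l k)
    (hB : ∀ i k, (B : Matrix (Fin N) (Fin N) ℝ) i k ≠ 0 → lam' i = lam k ∧ ∀ l, V' l i = V l k) :
    glassFree K lam' S' V' (B * U * A⁻¹) = glassFree K lam S V U ∧
      ∀ (l : ℕ) (f f' : (Fin N → Bool) → ℝ), l ≤ K + 1 → (∀ σ, f' (T σ) = f σ) →
        (glassNest K S' V').mean ((glassLeaf (B * U * A⁻¹)).logZ (quadLaw lam' (B * U * A⁻¹))) l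
            ((glassNest K S' V').node (glassLeaf (B * U * A⁻¹)) (quadLaw lam' (B * U * A⁻¹)) l
              fun σ _ => f' σ) =
          (glassNest K S V).mean ((glassLeaf U).logZ (quadLaw lam U)) l
            ((glassNest K S V).node (glassLeaf U) (quadLaw lam U) l fun σ _ => f σ) ∧
        (glassNest K S' V').mean ((glassLeaf (B * U * A⁻¹)).logZ (quadLaw lam' (B * U * A⁻¹))) l
            (fun y => (glassNest K S' V').node (glassLeaf (B * U * A⁻¹))
              (quadLaw lam' (B * U * A⁻¹)) l (fun σ _ => f' σ) y ^ 2) =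
          (glassNest K S V).mean ((glassLeaf U).logZ (quadLaw lam U)) l
            (fun y => (glassNest K S V).node (glassLeaf U) (quadLaw lam U) l
              (fun σ _ => f σ) y ^ 2) := by
  set U' : ON N := B * U * A⁻¹ with hU'
  have hrot : ∀ σ, rotSpin U' (T σ) = (B : Matrix (Fin N) (Fin N) ℝ) *ᵥ rotSpin U σ :=
    fun σ => rotSpin_conj A B U (hT σ)
  have heng : ∀ σ, eng lam' (U' : Matrix (Fin N) (Fin N) ℝ) (T σ) =
      eng lam (U : Matrix (Fin N) (Fin N) ℝ) σ := fun σ => by
    simp only [eng]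
    rw [show (U' : Matrix (Fin N) (Fin N) ℝ) *ᵥ spin (T σ) = rotSpin U' (T σ) from rfl, hrot]
    exact eng_conj B (fun i k h => (hB i k h).1) _
  have hq : quadPart lam' U' = quadPart lam U := by
    simp only [quadPart]
    rw [← T.sum_comp]
    simp only [heng]
  have hw : ∀ σ, wgt lam' U' (T σ) = wgt lam U σ := fun σ => by simp only [wgt, heng, hq]
  have hc : ∀ σ, coef U' (T σ) = blk A B *ᵥ coef U σ := fun σ => by
    simp [coef, blk, hrot, hT, Matrix.fromBlocks_mulVec]
  have h := lin_transport (Nn := glassNest K S V) (Nn' := glassNest K S' V') T (blk_left A B)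
    (blk_right A B)
    ⟨rfl, rfl, fun l => blk_amp (fun i k h => hA i k h l) fun i k h => (hB i k h).2 l⟩
    (wgt_nonneg lam U) (wgt_nonneg lam' U') hc hw
  exact ⟨by simp only [glassFree, hq, glassLeaf_eq, quadLaw_eq, h.1], h.2⟩

/-- The case of a rotation of the rows. -/
theorem row_transport (K : ℕ) {lam lam' : Fin N → ℝ} (S : ℕ → Fin N → ℝ) {V V' : ℕ → Fin N → ℝ}
    (B U : ON N)
    (hB : ∀ i k, (B : Matrix (Fin N) (Fin N) ℝ) i k ≠ 0 → lam' i = lam k ∧ ∀ l, V' l i = V l k) :
    glassFree K lam' S V' (B * U) = glassFree K lam S V U ∧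
      ∀ (l : ℕ) (f : (Fin N → Bool) → ℝ), l ≤ K + 1 →
        (glassNest K S V').mean ((glassLeaf (B * U)).logZ (quadLaw lam' (B * U))) l
            ((glassNest K S V').node (glassLeaf (B * U)) (quadLaw lam' (B * U)) l fun σ _ => f σ) =
          (glassNest K S V).mean ((glassLeaf U).logZ (quadLaw lam U)) l
            ((glassNest K S V).node (glassLeaf U) (quadLaw lam U) l fun σ _ => f σ) := by
  have h := glass_transport K (S := S) (S' := S) 1 B U (Equiv.refl _)
    (fun σ => (Matrix.one_mulVec (spin σ)).symm) (fun i k h l => by rw [one_entry h]) hB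
  rw [inv_one, mul_one] at h
  exact ⟨h.1, fun l f hl => (h.2 l f f hl fun _ => rfl).1⟩

/-! ### Averages of functions of the rotated spins -/

/-- The average at level `l` of a function of the rotated spins. -/
noncomputable def gobs (K : ℕ) (lam : Fin N → ℝ) (S V : ℕ → Fin N → ℝ) (l : ℕ)
    (f : (Fin N → ℝ) → ℝ) (U : ON N) : ℝ :=
  (glassNest K S V).mean ((glassLeaf U).logZ (quadLaw lam U)) l
    ((glassNest K S V).node (glassLeaf U) (quadLaw lam U) l fun σ _ => f (rotSpin U σ))

/-- Its average over `U`. -/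
noncomputable def eobs (K : ℕ) (lam : Fin N → ℝ) (S V : ℕ → Fin N → ℝ) (l : ℕ)
    (f : (Fin N → ℝ) → ℝ) : ℝ :=
  ∫ U, gobs K lam S V l f U ∂haarON N

variable (K : ℕ) (lam : Fin N → ℝ) (S V : ℕ → Fin N → ℝ) {l : ℕ}

lemma continuous_gobs (hl : l ≤ K + 1) {f : (Fin N → ℝ) → ℝ} (hf : Continuous f) :
    Continuous (gobs K lam S V l f) :=
  continuous_mean_lin continuous_coef (continuous_wgt lam) abs_coef_le (wgt_nonneg lam)
    (sum_wgt lam) (glassNest K S V) hl
    (ptame_node_lin continuous_coef (continuous_wgt lam) abs_coef_le (wgt_nonneg lam) (sum_wgt lam)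
      (glassNest K S V) hl fun σ => hf.comp (continuous_pi fun p => continuous_rotSpin σ p))

lemma gobs_add (hl : l ≤ K + 1) (f g : (Fin N → ℝ) → ℝ) (U : ON N) :
    gobs K lam S V l (fun z => f z + g z) U = gobs K lam S V l f U + gobs K lam S V l g U := by
  simp only [gobs, glassLeaf_eq, quadLaw_eq]
  have := prob_quad lam U
  have hN := nest_good K S V
  have hL := leaf_good U
  rw [← mean_add hN hL hl (node_tame hN hL hl (obs_fin _)) (node_tame hN hL hl (obs_fin _))]
  congr 1
  funext y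
  exact node_add hN hL hl (obs_fin _) (obs_fin _) y

lemma gobs_const_mul (a : ℝ) (f : (Fin N → ℝ) → ℝ) (U : ON N) :
    gobs K lam S V l (fun z => a * f z) U = a * gobs K lam S V l f U := by
  simp only [gobs, glassLeaf_eq, quadLaw_eq]
  have := prob_quad lam U
  rw [← mean_const_mul (nest_good K S V) (leaf_good U) (μ := finLaw (wgt lam U))]
  congr 1
  funext y
  exact node_const_mul (nest_good K S V) (leaf_good U) _ _ _ y

lemma gobs_const (hl : l ≤ K + 1) (a : ℝ) (U : ON N) : gobs K lam S V l (fun _ => a) U = a := by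
  simp only [gobs, glassLeaf_eq, quadLaw_eq]
  have := prob_quad lam U
  have hN := nest_good K S V
  have hL := leaf_good U
  rw [show ((glassNest K S V).node (linL (coef U)) (finLaw (wgt lam U)) l fun _ _ => a) = fun _ => a
    from funext fun y => node_const hN hL hl a y]
  exact mean_const hN hL hl a

lemma gobs_sum (hl : l ≤ K + 1) {β : Type} (T : Finset β) (f : β → (Fin N → ℝ) → ℝ) (U : ON N) :
    gobs K lam S V l (fun z => ∑ b ∈ T, f b z) U = ∑ b ∈ T, gobs K lam S V l (f b) U := by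
  classical
  induction T using Finset.induction with
  | empty => simpa using gobs_const K lam S V hl 0 U
  | insert a T ha ih =>
    simp only [sum_insert ha]
    rw [gobs_add K lam S V hl (f a) (fun z => ∑ b ∈ T, f b z) U, ih]

lemma gobs_le (hl : l ≤ K + 1) {f : (Fin N → ℝ) → ℝ} {a : ℝ} (U : ON N)
    (h : ∀ σ, f (rotSpin U σ) ≤ a) : gobs K lam S V l f U ≤ a := by
  simp only [gobs, glassLeaf_eq, quadLaw_eq]
  have := prob_quad lam U
  have hN := nest_good K S V
  have hL := leaf_good U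
  refine (mean_mono hN hL hl (node_tame hN hL hl (obs_fin _)) (tame_const a) fun y => ?_).trans_eq
    (mean_const hN hL hl a)
  exact (node_mono hN hL hl (obs_fin _) (obs_const a) (fun σ _ => h σ) y).trans_eq
    (node_const hN hL hl a y)

lemma gobs_nonneg (hl : l ≤ K + 1) {f : (Fin N → ℝ) → ℝ} (h : ∀ z, 0 ≤ f z) (U : ON N) :
    0 ≤ gobs K lam S V l f U := by
  have h1 := gobs_le K lam S V hl (f := fun z => -1 * f z) (a := 0) U
    fun σ => by linarith [h (rotSpin U σ)]
  rw [gobs_const_mul] at h1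
  linarith

lemma eobs_add (hl : l ≤ K + 1) {f g : (Fin N → ℝ) → ℝ} (hf : Continuous f) (hg : Continuous g) :
    eobs K lam S V l (fun z => f z + g z) = eobs K lam S V l f + eobs K lam S V l g := by
  simp only [eobs, gobs_add K lam S V hl]
  exact integral_add (integrable_of_cont' (continuous_gobs K lam S V hl hf))
    (integrable_of_cont' (continuous_gobs K lam S V hl hg))

lemma eobs_const_mul (a : ℝ) (f : (Fin N → ℝ) → ℝ) :
    eobs K lam S V l (fun z => a * f z) = a * eobs K lam S V l f := by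
  simp only [eobs, gobs_const_mul, integral_const_mul]

lemma eobs_sum (hl : l ≤ K + 1) {β : Type} (T : Finset β) {f : β → (Fin N → ℝ) → ℝ}
    (hf : ∀ b, Continuous (f b)) :
    eobs K lam S V l (fun z => ∑ b ∈ T, f b z) = ∑ b ∈ T, eobs K lam S V l (f b) := by
  simp only [eobs, gobs_sum K lam S V hl]
  exact integral_finsetSum _ fun b _ => integrable_of_cont' (continuous_gobs K lam S V hl (hf b))

lemma eobs_le (hl : l ≤ K + 1) {f : (Fin N → ℝ) → ℝ} (hf : Continuous f) {a : ℝ}
    (h : ∀ (U : ON N) σ, f (rotSpin U σ) ≤ a) : eobs K lam S V l f ≤ a :=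
  (integral_mono (integrable_of_cont' (continuous_gobs K lam S V hl hf)) (integrable_const a)
    fun U => gobs_le K lam S V hl U (h U)).trans_eq (by simp)

lemma eobs_nonneg (hl : l ≤ K + 1) {f : (Fin N → ℝ) → ℝ} (h : ∀ z, 0 ≤ f z) :
    0 ≤ eobs K lam S V l f :=
  integral_nonneg fun U => gobs_nonneg K lam S V hl h U

lemma eobs_rot (hl : l ≤ K + 1) (B : ON N)
    (hB : ∀ i k, (B : Matrix (Fin N) (Fin N) ℝ) i k ≠ 0 → lam i = lam k ∧ ∀ n, V n i = V n k)
    (f : (Fin N → ℝ) → ℝ) :
    eobs K lam S V l (fun z => f ((B : Matrix (Fin N) (Fin N) ℝ) *ᵥ z)) = eobs K lam S V l f := by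
  have h : ∀ U, gobs K lam S V l f (B * U) =
      gobs K lam S V l (fun z => f ((B : Matrix (Fin N) (Fin N) ℝ) *ᵥ z)) U := fun U => by
    have e := (row_transport K S B U hB).2 l (fun σ => f (rotSpin (B * U) σ)) hl
    have e2 : (fun σ => f (rotSpin (B * U) σ)) =
        fun σ => f ((B : Matrix (Fin N) (Fin N) ℝ) *ᵥ rotSpin U σ) := by
      funext σ; simp [rotSpin, Matrix.mulVec_mulVec]
    simp only [gobs]
    rw [e]
    simp only [fun σ => congrFun e2 σ]
  simp only [eobs, ← h]
  exact integral_mul_left_eq_self _ B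

lemma eobs_swap (hl : l ≤ K + 1) {T : Finset (Fin N)}
    (hT : ∀ p ∈ T, ∀ q ∈ T, lam p = lam q ∧ ∀ n, V n p = V n q) {p q : Fin N} (hp : p ∈ T)
    (hq : q ∈ T) (g : ℝ → ℝ) :
    eobs K lam S V l (fun z => g (z q)) = eobs K lam S V l (fun z => g (z p)) := by
  have h := eobs_rot K lam S V hl (permON (Equiv.swap p q)) (fun i k hik => ?_) (fun z => g (z p))
  · simpa [permON_mulVec, Equiv.swap_apply_left] using h
  · obtain rfl := perm_entry hik
    rcases eq_or_ne i p with rfl | h1
    · rw [Equiv.swap_apply_left]; exact hT i hp q hq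
    rcases eq_or_ne i q with rfl | h2
    · rw [Equiv.swap_apply_right]; exact hT i hq p hp
    rw [Equiv.swap_apply_of_ne_of_ne h1 h2]
    exact ⟨rfl, fun _ => rfl⟩

lemma heatTop_eq (U : ON N) (p : Fin N) :
    (glassNest K S V).heatTop (glassLeaf U) (quadLaw lam U) (Sum.inr p) =
      gobs K lam S V (K + 1) (fun z => z p ^ 2) U := by
  simp only [gobs, glassLeaf_eq, quadLaw_eq]
  have := prob_quad lam U
  have hN := nest_good K S V
  have hL := leaf_good U
  show (glassNest K S V).mean _ (glassNest K S V).K _ =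
    (glassNest K S V).mean _ (glassNest K S V).K
      ((glassNest K S V).node (linL (coef U)) _ (glassNest K S V).K _)
  congr 1
  funext y
  rw [node_top hN hL, heat_top hN hL]
  congr 1
  funext σ v
  rw [vec_linL]
  simp [linL, coef]

lemma sqGrad_eq (U : ON N) (j : ℕ) (i : FIdx N) :
    (glassNest K S V).sqGrad (glassLeaf U) (quadLaw lam U) j i =
      (glassNest K S V).mean ((glassLeaf U).logZ (quadLaw lam U)) j (fun y =>
        (glassNest K S V).node (glassLeaf U) (quadLaw lam U) j (fun σ _ => coef U σ i) y ^ 2) := by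
  simp only [Nest.sqGrad, Nest.grad, glassLeaf_eq, vec_linL]

lemma continuous_sqGrad_rot {j : ℕ} (hj : j ≤ K + 1) (i : FIdx N) :
    Continuous fun U => (glassNest K S V).sqGrad (glassLeaf U) (quadLaw lam U) j i := by
  simp only [Nest.sqGrad, Nest.grad, glassLeaf_eq, quadLaw_eq, vec_linL]
  refine continuous_mean_lin continuous_coef (continuous_wgt lam) abs_coef_le (wgt_nonneg lam)
    (sum_wgt lam) (glassNest K S V) hj ?_
  simpa only [sq] using (ptame_node_lin continuous_coef (continuous_wgt lam) abs_coef_le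
    (wgt_nonneg lam) (sum_wgt lam) (glassNest K S V) hj fun σ => continuous_coef σ i).mul
    (ptame_node_lin continuous_coef (continuous_wgt lam) abs_coef_le
      (wgt_nonneg lam) (sum_wgt lam) (glassNest K S V) hj fun σ => continuous_coef σ i)

lemma continuous_heatTop_rot (p : Fin N) :
    Continuous fun U => (glassNest K S V).heatTop (glassLeaf U) (quadLaw lam U) (Sum.inr p) := by
  simp only [heatTop_eq]
  exact continuous_gobs K lam S V le_rfl ((continuous_apply p).pow 2)

end Sym

open Vale.Agent.P166.Parisi.Sym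

/-- Rotations inside sets of equal eigenvalue and equal amplitudes. -/
theorem glassFree_rot (K : ℕ) (lam : Fin N → ℝ) (S V : ℕ → Fin N → ℝ) (R U : ON N)
    (hR : ∀ p q, (R : Matrix (Fin N) (Fin N) ℝ) p q ≠ 0 → lam p = lam q ∧ ∀ l, V l p = V l q) :
    glassFree K lam S V (R * U) = glassFree K lam S V U :=
  (row_transport K S R U hR).1

theorem extFree_rot (K : ℕ) (lam : Fin N → ℝ) (S V : ℕ → Fin N → ℝ) (e : ℕ → Fin m → ℝ)
    (Φ : (Fin m → Bool) → (Fin N → ℝ) → ℝ) (R U : ON N)
    (hR : ∀ p q, (R : Matrix (Fin N) (Fin N) ℝ) p q ≠ 0 → lam p = lam q ∧ ∀ l, V l p = V l q) :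
    extFree K lam S V e Φ (R * U) =
      extFree K lam S V e (fun τ z => Φ τ ((R : Matrix (Fin N) (Fin N) ℝ) *ᵥ z)) U := by
  set Φ' : (Fin m → Bool) → (Fin N → ℝ) → ℝ :=
    fun τ z => Φ τ ((R : Matrix (Fin N) (Fin N) ℝ) *ᵥ z) with hΦ'
  have hrot : ∀ σ, rotSpin (R * U) σ = (R : Matrix (Fin N) (Fin N) ℝ) *ᵥ rotSpin U σ :=
    fun σ => by simp [rotSpin, Matrix.mulVec_mulVec]
  have hw : ∀ ω, extWeight lam Φ (R * U) ω = extWeight lam Φ' U ω := fun ω => by
    simp only [extWeight, hΦ', hrot, eng]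
    rw [show ((R * U : ON N) : Matrix (Fin N) (Fin N) ℝ) *ᵥ spin ω.1 = rotSpin (R * U) ω.1 from rfl,
      hrot, eng_conj R (fun i k h => (hR i k h).1)]
    rfl
  have hp : extPart lam Φ (R * U) = extPart lam Φ' U := by simp only [extPart, hw]
  have hpos : ∀ (Ψ : (Fin m → Bool) → (Fin N → ℝ) → ℝ) (V' : ON N) ω,
      0 ≤ extWeight lam Ψ V' ω / extPart lam Ψ V' := fun Ψ V' ω => by
    unfold extPart extWeight; positivity
  set O : Matrix (FIdx N ⊕ Fin m) (FIdx N ⊕ Fin m) ℝ := Matrix.fromBlocks (blk 1 R) 0 0 1 with hO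
  have h1 : Oᵀ * O = 1 := by
    simp [hO, Matrix.fromBlocks_transpose, Matrix.fromBlocks_multiply, blk_left,
      Matrix.fromBlocks_one]
  have h2 : O * Oᵀ = 1 := by
    simp [hO, Matrix.fromBlocks_transpose, Matrix.fromBlocks_multiply, blk_right,
      Matrix.fromBlocks_one]
  have hamp : NestRot (extNest K S V e) (extNest K S V e) O := by
    refine ⟨rfl, rfl, fun l i k h => ?_⟩
    rcases i with i | i <;> rcases k with k | k <;> simp [hO] at h
    · exact blk_amp (A := 1) (B := R) (s := S l) (s' := S l) (v := V l) (v' := V l)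
        (fun i k h => by rw [one_entry h]) (fun i k h => (hR i k h).2 l) i k h
    · have : i = k := by
        by_contra hne
        exact h (Matrix.one_apply_ne hne)
      rw [this]
  have h := (lin_transport
    (c := fun ω : (Fin N → Bool) × (Fin m → Bool) =>
      Sum.elim (Sum.elim (spin ω.1) (rotSpin U ω.1)) (spin ω.2))
    (c' := fun ω : (Fin N → Bool) × (Fin m → Bool) =>
      Sum.elim (Sum.elim (spin ω.1) (rotSpin (R * U) ω.1)) (spin ω.2))
    (Equiv.refl _) h1 h2 hamp (hpos Φ' U) (hpos Φ (R * U))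
    (fun ω => by simp [hO, blk, hrot, Matrix.fromBlocks_mulVec])
    (fun ω => by simp [hw, hp])).1
  simp only [extFree, hp]
  exact congrArg _ h

theorem glassFree_flip (K : ℕ) (lam : Fin N → ℝ) (S V : ℕ → Fin N → ℝ) (i : Fin N) (U : ON N) :
    glassFree K lam S V (flipON i * U) = glassFree K lam S V U :=
  glassFree_rot K lam S V (flipON i) U fun p q h => by
    have hpq : p = q := by
      by_contra hne
      exact h (Matrix.diagonal_apply_ne _ hne)
    rw [hpq]; exact ⟨rfl, fun _ => rfl⟩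

theorem meanFree_row_perm (K : ℕ) (lam : Fin N → ℝ) (S V : ℕ → Fin N → ℝ)
    (σ : Equiv.Perm (Fin N)) :
    meanFree K (lam ∘ σ) S (fun l => V l ∘ σ) = meanFree K lam S V := by
  have h : ∀ U, glassFree K (lam ∘ σ) S (fun l => V l ∘ σ) (permON σ * U) =
      glassFree K lam S V U := fun U =>
    (row_transport K S (permON σ) U fun i k h => by
      obtain rfl := perm_entry h; exact ⟨rfl, fun _ => rfl⟩).1
  rw [meanFree, meanFree, ← integral_mul_left_eq_self _ (permON σ)]
  simp only [h]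

theorem meanFree_col_perm (K : ℕ) (lam : Fin N → ℝ) (S V : ℕ → Fin N → ℝ)
    (σ : Equiv.Perm (Fin N)) :
    meanFree K lam (fun l => S l ∘ σ) V = meanFree K lam S V := by
  have h : ∀ U, glassFree K lam (fun l => S l ∘ σ) V (U * (permON σ)⁻¹) =
      glassFree K lam S V U := fun U => by
    have := (glass_transport K (lam := lam) (lam' := lam) (S := S) (S' := fun l => S l ∘ σ)
      (V := V) (V' := V) (permON σ) 1 U (Equiv.arrowCongr σ.symm (Equiv.refl Bool))
      (fun τ => by funext i; simp [permON_mulVec, spin, Equiv.arrowCongr])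
      (fun i k h l => by rw [perm_entry h]; rfl)
      (fun i k h => by rw [one_entry h]; exact ⟨rfl, fun _ => rfl⟩)).1
    rwa [one_mul] at this
  rw [meanFree, meanFree, ← integral_mul_right_eq_self _ (permON σ)⁻¹]
  simp only [h]

/-- Only the sizes of the atoms matter. -/
theorem free_card (P : Par) (a : Fin M → ℝ) (S : ℕ → Fin N → ℝ) {b b' : Fin N → Fin M}
    (h : ∀ r, (fiber b r).card = (fiber b' r).card) (v : GBox M P.K → ℝ) :
    P.freeS a S b v = P.freeS a S b' v := by
  obtain ⟨σ, hσ⟩ : ∃ σ : Equiv.Perm (Fin N), ∀ i, b' (σ i) = b i :=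
    ⟨Equiv.ofFiberEquiv fun r => Fintype.equivOfCardEq (by
        rw [Fintype.card_subtype, Fintype.card_subtype]; exact h r),
      fun i => Equiv.ofFiberEquiv_map _ i⟩
  have e1 : P.lamN a b v = P.lamN a b' v ∘ σ := funext fun i => by
    simp [Par.lamN, hσ]
  have e2 : P.ampN b v = fun l => P.ampN b' v l ∘ σ := funext fun l => funext fun i => by
    simp [Par.ampN, hσ]
  rw [Par.freeS, Par.freeS, e1, e2, meanFree_row_perm]

/-- The second moment of a rotated spin among interchangeable ones. -/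
theorem integral_atom_two (K : ℕ) (lam : Fin N → ℝ) (S V : ℕ → Fin N → ℝ) (T : Finset (Fin N))
    (hT : ∀ p ∈ T, ∀ q ∈ T, lam p = lam q ∧ ∀ l, V l p = V l q) {p : Fin N} (hp : p ∈ T) :
    ∫ U, (glassNest K S V).heatTop (glassLeaf U) (quadLaw lam U) (Sum.inr p) ∂haarON N ≤
      (N : ℝ) / T.card := by
  simp only [heatTop_eq]
  show eobs K lam S V (K + 1) (fun z => z p ^ 2) ≤ _
  rw [le_div_iff₀ (Nat.cast_pos.2 (card_pos.2 ⟨p, hp⟩))]
  have h2 : ∀ q ∈ T, eobs K lam S V (K + 1) (fun z => z q ^ 2) =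
      eobs K lam S V (K + 1) (fun z => z p ^ 2) := fun q hq =>
    eobs_swap K lam S V (l := K + 1) le_rfl hT hp hq (fun x : ℝ => x ^ 2)
  calc eobs K lam S V (K + 1) (fun z => z p ^ 2) * T.card
      = ∑ q ∈ T, eobs K lam S V (K + 1) (fun z => z q ^ 2) := by
        rw [sum_congr rfl h2, sum_const, nsmul_eq_mul, mul_comm]
    _ = eobs K lam S V (K + 1) (fun z => ∑ q ∈ T, z q ^ 2) :=
        (eobs_sum K lam S V (l := K + 1) le_rfl T (f := fun q (z : Fin N → ℝ) => z q ^ 2)
          fun q => (continuous_apply q).pow 2).symm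
    _ ≤ N := eobs_le K lam S V (l := K + 1) le_rfl (f := fun z : Fin N → ℝ => ∑ q ∈ T, z q ^ 2)
        (continuous_finsetSum _ fun q _ => (continuous_apply q).pow 2) fun U σ =>
          (sum_le_sum_of_subset_of_nonneg (subset_univ T) fun _ _ _ => sq_nonneg _).trans_eq
            (sum_rotSpin_sq U σ)

/-- The fourth moment. -/
theorem integral_atom_four (K : ℕ) (lam : Fin N → ℝ) (S V : ℕ → Fin N → ℝ) (T : Finset (Fin N))
    (hT : ∀ p ∈ T, ∀ q ∈ T, lam p = lam q ∧ ∀ l, V l p = V l q) {p : Fin N} (hp : p ∈ T) :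
    ∫ U, (glassNest K S V).mean ((glassLeaf U).logZ (quadLaw lam U)) 0
        ((glassNest K S V).node (glassLeaf U) (quadLaw lam U) 0
          fun σ _ => rotSpin U σ p ^ 4) ∂haarON N ≤
      3 * ((N : ℝ) / T.card) ^ 2 := by
  show eobs K lam S V 0 (fun z => z p ^ 4) ≤ _
  set A := eobs K lam S V 0 (fun z => z p ^ 4) with hA
  have h0 : (0 : ℕ) ≤ K + 1 := Nat.zero_le _
  have hA0 : 0 ≤ A := eobs_nonneg K lam S V h0 fun z => by positivity
  have h4 : ∀ q ∈ T, eobs K lam S V 0 (fun z => z q ^ 4) = A := fun q hq =>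
    eobs_swap K lam S V h0 hT hp hq (fun x => x ^ 4)
  have hc2 : ∀ i j : Fin N, Continuous fun z : Fin N → ℝ => z i ^ 2 * z j ^ 2 := fun i j =>
    ((continuous_apply i).pow 2).mul ((continuous_apply j).pow 2)
  have hc4 : ∀ i : Fin N, Continuous fun z : Fin N → ℝ => z i ^ 4 := fun i =>
    (continuous_apply i).pow 4
  have hpair : ∀ i ∈ T, ∀ j ∈ T, A / 3 ≤ eobs K lam S V 0 (fun z => z i ^ 2 * z j ^ 2) := by
    intro i hi j hj
    rcases eq_or_ne i j with rfl | hij
    · rw [show (fun z : Fin N → ℝ => z i ^ 2 * z i ^ 2) = fun z => z i ^ 4 from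
        funext fun z => by ring, h4 i hi]
      linarith
    have hrot : ∀ θ : ℝ, eobs K lam S V 0
        (fun z => (Real.cos θ * z i + Real.sin θ * z j) ^ 4) = A := fun θ => by
      rw [← h4 i hi, ← eobs_rot K lam S V h0 (rotON hij θ) (fun a c hac => ?_) (fun z => z i ^ 4)]
      · congr 1
        funext z
        have e : ((rotON hij θ : ON N) : Matrix (Fin N) (Fin N) ℝ) *ᵥ z = fun a =>
            ∑ c, rotM i j θ 1 a c * z c := rfl
        rw [e]
        simp [rotM, Matrix.one_apply, add_mul, sum_add_distrib]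
      · have hac' : rotM i j θ 1 a c ≠ 0 := hac
        by_cases hai : a = i
        · subst hai
          have : c = a ∨ c = j := by
            by_contra hc
            push Not at hc
            exact hac' (by simp [rotM, Matrix.one_apply, Ne.symm hc.1, Ne.symm hc.2])
          rcases this with rfl | rfl
          · exact ⟨rfl, fun _ => rfl⟩
          · exact hT a hi c hj
        by_cases haj : a = j
        · subst haj
          have : c = i ∨ c = a := by
            by_contra hc
            push Not at hc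
            exact hac' (by simp [rotM, Matrix.one_apply, hai, Ne.symm hc.1, Ne.symm hc.2])
          rcases this with rfl | rfl
          · exact hT a hj c hi
          · exact ⟨rfl, fun _ => rfl⟩
        · have : a = c := by
            by_contra hne
            exact hac' (by simp [rotM, Matrix.one_apply, hai, haj, hne])
          rw [this]; exact ⟨rfl, fun _ => rfl⟩
    have hfun : (fun z : Fin N → ℝ =>
        (Real.cos (Real.pi / 4) * z i + Real.sin (Real.pi / 4) * z j) ^ 4 +
          (Real.cos (-(Real.pi / 4)) * z i + Real.sin (-(Real.pi / 4)) * z j) ^ 4) =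
        fun z => (1 / 2) * z i ^ 4 + (3 * (z i ^ 2 * z j ^ 2) + (1 / 2) * z j ^ 4) := by
      funext z
      have h2 := Real.sq_sqrt (show (0:ℝ) ≤ 2 by norm_num)
      rw [Real.cos_neg, Real.sin_neg, Real.cos_pi_div_four, Real.sin_pi_div_four]
      linear_combination (Real.sqrt 2 ^ 2 + 2) *
        ((z i ^ 4 + 6 * z i ^ 2 * z j ^ 2 + z j ^ 4) / 8) * h2
    have hsum := eobs_add K lam S V h0
      (f := fun z => (Real.cos (Real.pi / 4) * z i + Real.sin (Real.pi / 4) * z j) ^ 4)
      (g := fun z => (Real.cos (-(Real.pi / 4)) * z i + Real.sin (-(Real.pi / 4)) * z j) ^ 4)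
      (by fun_prop) (by fun_prop)
    rw [hrot, hrot, hfun, eobs_add K lam S V h0 (f := fun z => (1 / 2) * z i ^ 4)
      (g := fun z => 3 * (z i ^ 2 * z j ^ 2) + (1 / 2) * z j ^ 4) (continuous_const.mul (hc4 i))
      ((continuous_const.mul (hc2 i j)).add (continuous_const.mul (hc4 j))),
      eobs_add K lam S V h0 (f := fun z => 3 * (z i ^ 2 * z j ^ 2))
      (g := fun z => (1 / 2) * z j ^ 4) (continuous_const.mul (hc2 i j))
      (continuous_const.mul (hc4 j)),
      eobs_const_mul, eobs_const_mul, eobs_const_mul, h4 i hi, h4 j hj] at hsum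
    linarith
  have hk : (0 : ℝ) < T.card := Nat.cast_pos.2 (card_pos.2 ⟨p, hp⟩)
  have htot : (T.card : ℝ) ^ 2 * (A / 3) ≤ (N : ℝ) ^ 2 := by
    calc (T.card : ℝ) ^ 2 * (A / 3) = ∑ _i ∈ T, ∑ _j ∈ T, A / 3 := by
          simp [sum_const, nsmul_eq_mul]; ring
      _ ≤ ∑ i ∈ T, ∑ j ∈ T, eobs K lam S V 0 (fun z => z i ^ 2 * z j ^ 2) :=
          sum_le_sum fun i hi => sum_le_sum fun j hj => hpair i hi j hj
      _ = eobs K lam S V 0 (fun z => (∑ i ∈ T, z i ^ 2) ^ 2) := by
          simp only [sq (∑ i ∈ T, _), sum_mul_sum]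
          rw [eobs_sum K lam S V h0 T fun i => continuous_finsetSum _ fun j _ => hc2 i j]
          exact sum_congr rfl fun i _ => (eobs_sum K lam S V h0 T fun j => hc2 i j).symm
      _ ≤ (N : ℝ) ^ 2 := eobs_le K lam S V h0
          ((continuous_finsetSum _ fun i _ => (continuous_apply i).pow 2).pow 2) fun U σ =>
            pow_le_pow_left₀ (sum_nonneg fun _ _ => sq_nonneg _)
              ((sum_le_sum_of_subset_of_nonneg (subset_univ T) fun _ _ _ => sq_nonneg _).trans_eq
                (sum_rotSpin_sq U σ)) 2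
  rw [div_pow, mul_div_assoc', le_div_iff₀ (by positivity)]
  linarith

end Vale.Agent.P166.Parisi
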