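import Vale.Agent.P166.Parisi.Basics
import Vale.Agent.P166.Parisi.SymmBase
import Vale.Agent.P157.Parisi.Insert

/-!
Elementary facts on the systems on a box of parameters.
-/

namespace Vale.Agent.P166.Parisi

open MeasureTheory ProbabilityTheory Finset Matrix
open Vale.Agent.P157 Vale.Agent.P157.Parisi

variable {N M : ℕ}

namespace ParAux

open Vale.Agent.P166.Parisi.Sym

/-! ### Positivity of means -/

section positive

variable {ι : Type} [Fintype ι] {Ω κ : Type} [Fintype κ] [MeasurableSpace Ω]
variable {Nn : Nest ι} {L : Leaf Ω κ ι} {μ : Measure Ω} [IsProbabilityMeasure μ] {B : ℝ}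

lemma integral_pos_of_forall {α : Type*} [MeasurableSpace α] {ν : Measure α}
    [IsProbabilityMeasure ν] {f : α → ℝ} (hi : Integrable f ν) (hp : ∀ x, 0 < f x) :
    0 < ∫ x, f x ∂ν := by
  rw [integral_pos_iff_support_of_nonneg (fun x => (hp x).le) hi,
    show Function.support f = Set.univ from Set.eq_univ_of_forall fun x => (hp x).ne']
  simp

lemma mean_pos (hN : Nn.Good) (hL : L.Good B) {l : ℕ} (hl : l ≤ Nn.K) {f : (ι → ℝ) → ℝ}
    (hf : Parisi.Tame f) (hp : ∀ y, 0 < f y) : 0 < Nn.mean (L.logZ μ) l f := by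
  induction l generalizing f with
  | zero =>
    refine integral_pos_of_forall ?_ fun z => hp _
    convert (hf.comp_move (Nn.amp 0) 0).integrable using 3 with z
    funext i
    simp [move]
  | succ l ih =>
    refine ih (by omega) (avg_tame hN hL (by omega) hf) fun y => ?_
    have hu := linGrowth_u (μ := μ) hN hL (l + 1)
    exact div_pos (integral_pos_of_forall (((hu.exp_tame _).mul hf).comp_move _ y).integrable
      fun z => mul_pos (Real.exp_pos _) (hp _)) (stepDen_pos hu _ _ y)

end positive

lemma mean_nonneg' {ι : Type} [Fintype ι] (Nn : Nest ι) (U : (ι → ℝ) → ℝ) (l : ℕ)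
    {f : (ι → ℝ) → ℝ} (h : ∀ y, 0 ≤ f y) : 0 ≤ Nn.mean U l f := by
  induction l generalizing f with
  | zero => exact integral_nonneg fun z => h _
  | succ l ih =>
    exact ih fun y => div_nonneg
      (integral_nonneg fun z => mul_nonneg (Real.exp_pos _).le (h _))
      (integral_nonneg fun z => (Real.exp_pos _).le)

lemma move_zero {ι : Type} {s : ι → ℝ} (hs : ∀ i, s i = 0) (y z : ι → ℝ) : move s y z = y := by
  funext i; simp [move, hs i]

lemma avg_zero_amp {ι : Type} [Fintype ι] (Nn : Nest ι) (U : (ι → ℝ) → ℝ) {l : ℕ}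
    (h : ∀ i, Nn.amp (l + 1) i = 0) (f : (ι → ℝ) → ℝ) (y : ι → ℝ) : Nn.avg U l f y = f y := by
  simp only [Nest.avg, tilt, move_zero h, integral_const, probReal_univ, one_smul]
  field_simp

/-! ### The system at a fixed rotation -/

variable {K : ℕ} (lam : Fin N → ℝ) (S V : ℕ → Fin N → ℝ) (U : ON N)

lemma abs_gibbs_spin_lt (i : Fin N) (y : FIdx N → ℝ) :
    (glassLeaf U).gibbs (quadLaw lam U) ((glassLeaf U).vec (Sum.inl i)) y ^ 2 < 1 := by
  rw [glassLeaf_eq, quadLaw_eq, vec_linL, gibbs_linL (wgt_nonneg lam U), linG]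
  set d := fun σ => wgt lam U σ * Real.exp (coef U σ ⬝ᵥ y)
  have hd : ∀ σ, 0 < d σ := fun σ => mul_pos (by
    have := quadPart_pos' lam U
    unfold wgt; positivity) (Real.exp_pos _)
  have hden : 0 < ∑ σ, d σ := sum_pos (fun σ _ => hd σ) univ_nonempty
  have hs : ∀ σ : Fin N → Bool, |coef U σ (Sum.inl i)| ≤ 1 := fun σ => by
    simp only [coef, Sum.elim_inl, spin]
    split_ifs <;> simp
  have e : ∀ σ, wgt lam U σ * (Real.exp (coef U σ ⬝ᵥ y) * coef U σ (Sum.inl i)) =
      d σ * coef U σ (Sum.inl i) := fun σ => (mul_assoc _ _ _).symm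
  simp only [e]
  have h1 : ∑ σ, d σ * coef U σ (Sum.inl i) < ∑ σ, d σ := by
    refine sum_lt_sum (fun σ _ => mul_le_of_le_one_right (hd σ).le (abs_le.1 (hs σ)).2)
      ⟨fun _ => false, mem_univ _, ?_⟩
    have : coef U (fun _ => false) (Sum.inl i) = -1 := by simp [coef, spin]
    rw [this]
    linarith [hd fun _ => false]
  have h2 : -∑ σ, d σ < ∑ σ, d σ * coef U σ (Sum.inl i) := by
    rw [← sum_neg_distrib]
    refine sum_lt_sum (fun σ _ => ?_) ⟨fun _ => true, mem_univ _, ?_⟩
    · nlinarith [(abs_le.1 (hs σ)).1, hd σ]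
    · have : coef U (fun _ => true) (Sum.inl i) = 1 := by simp [coef, spin]
      rw [this]
      linarith [hd fun _ => true]
  rw [sq_lt_one_iff_abs_lt_one, abs_lt, lt_div_iff₀ hden, div_lt_one hden]
  exact ⟨by linarith, h1⟩

/-- Facts on the mean squares at a fixed rotation. -/
lemma glass_facts (K : ℕ) :
    (∀ l ≤ K + 1, ∀ i, 0 ≤ (glassNest K S V).sqGrad (glassLeaf U) (quadLaw lam U) l i) ∧
    (∀ l l', l ≤ l' → l' ≤ K + 1 → ∀ i,
      (glassNest K S V).sqGrad (glassLeaf U) (quadLaw lam U) l i ≤
        (glassNest K S V).sqGrad (glassLeaf U) (quadLaw lam U) l' i) ∧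
    (∀ l ≤ K + 1, ∀ i, (glassNest K S V).sqGrad (glassLeaf U) (quadLaw lam U) l i ≤
      (glassNest K S V).heatTop (glassLeaf U) (quadLaw lam U) i) ∧
    (∀ l ≤ K + 1, ∀ i : Fin N,
      (glassNest K S V).sqGrad (glassLeaf U) (quadLaw lam U) l (Sum.inl i) < 1) ∧
    ∀ l ≤ K + 1, ∑ p, (glassNest K S V).sqGrad (glassLeaf U) (quadLaw lam U) l (Sum.inr p) =
      ∑ i, (glassNest K S V).sqGrad (glassLeaf U) (quadLaw lam U) l (Sum.inl i) := by
  have : IsProbabilityMeasure (quadLaw lam U) := prob_quad lam U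
  have hN := nest_good K S V
  have hL : (glassLeaf U).Good (|((N : ℝ) + 1)| + 1) := leaf_good U
  set Nn := glassNest K S V
  set L := glassLeaf U
  set μ := quadLaw lam U
  have hg : ∀ l ≤ K + 1, ∀ i, Parisi.Tame fun y => Nn.grad L μ l i y ^ 2 := fun l hl i =>
    (grad_tame hN hL hl i).sq
  have hmono : ∀ l l', l ≤ l' → l' ≤ K + 1 → ∀ i, Nn.sqGrad L μ l i ≤ Nn.sqGrad L μ l' i :=
    fun l l' h h' i => sqGrad_mono hN hL h h' i
  refine ⟨fun l hl i => ?_, hmono, fun l hl i => ?_, fun l hl i => ?_, fun l hl => ?_⟩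
  · exact le_trans (le_of_eq (mean_const (μ := μ) hN hL hl 0).symm)
      (mean_mono hN hL hl (tame_const 0) (hg l hl i) fun y => sq_nonneg _)
  · refine le_trans (hmono l (K + 1) hl le_rfl i) ?_
    refine mean_mono hN hL le_rfl (hg _ le_rfl i) (heat_tame hN hL (l := K + 1) le_rfl i) fun y => ?_
    have h := node_sq_ge (μ := μ) hN hL (le_refl Nn.K) (vec_obs hN hL i) y
    refine h.trans (le_of_eq ?_)
    show Nn.node L μ Nn.K _ y = Nn.heat L μ Nn.K i y
    rw [node_top hN hL, heat_top hN hL]
    congr 1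
    funext σ v
    simp [L, glassLeaf]
  · refine lt_of_le_of_lt (hmono l (K + 1) hl le_rfl _) ?_
    have hpos := mean_pos (μ := μ) hN hL (le_refl (K + 1))
      (f := fun y => 1 + -1 * Nn.grad L μ (K + 1) (Sum.inl i) y ^ 2)
      ((tame_const 1).add ((hg _ le_rfl _).const_mul (-1))) fun y => by
        have := abs_gibbs_spin_lt lam U i y
        have e : Nn.grad L μ (K + 1) (Sum.inl i) = L.gibbs μ (L.vec (Sum.inl i)) := grad_top hN hL _
        rw [e]
        linarith
    rw [mean_add hN hL (le_refl (K + 1)) (tame_const 1) ((hg _ le_rfl _).const_mul (-1)),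
      mean_const hN hL (le_refl (K + 1)), mean_const_mul hN hL] at hpos
    show Nn.mean (L.logZ μ) (K + 1) _ < 1
    linarith
  · simp only [Nest.sqGrad]
    rw [← ModelFacts.mean_finsetSum hN hL hl univ fun p _ => hg l hl _,
      ← ModelFacts.mean_finsetSum hN hL hl univ fun p _ => hg l hl _]
    congr 1
    funext y
    exact sum_grad_rot K lam S V U hl y

lemma sum_atomSet {b : Fin N → Fin M} (r : Fin M) (f : FIdx N → ℝ) :
    ∑ i ∈ atomSet b r, f i = ∑ p ∈ fiber b r, f (Sum.inr p) :=
  sum_image fun _ _ _ _ h => Sum.inr_injective h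

lemma sum_atoms {b : Fin N → Fin M} (f : Fin N → ℝ) : ∑ r, ∑ p ∈ fiber b r, f p = ∑ p, f p :=
  sum_fiberwise_of_maps_to (fun p _ => mem_univ (b p)) f

section par

variable (P : Par) (a : Fin M → ℝ) (s : ℕ → ℝ) (b : Fin N → Fin M) (v : GBox M P.K → ℝ)

lemma ovl_eq (r : Fin M) (l : ℕ) :
    P.ovl a s b v r l = ∫ U, (∑ p ∈ fiber b r,
      (glassNest P.K (fun l _ => s l) (P.ampN b v)).sqGrad (glassLeaf U)
        (quadLaw (P.lamN a b v) U) l (Sum.inr p)) / N ∂haarON N := by
  simp only [Par.ovl, Nest.ovl, sum_atomSet, Par.nest]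

lemma diag_eq (r : Fin M) :
    P.diag a s b v r = ∫ U, (∑ p ∈ fiber b r,
      (glassNest P.K (fun l _ => s l) (P.ampN b v)).heatTop (glassLeaf U)
        (quadLaw (P.lamN a b v) U) (Sum.inr p)) / N ∂haarON N := by
  simp only [Par.diag, sum_atomSet, Par.nest]

lemma integrable_ovl {l : ℕ} (hl : l ≤ P.K + 1) (T : Finset (Fin N)) :
    Integrable (fun U => (∑ p ∈ T,
      (glassNest P.K (fun l _ => s l) (P.ampN b v)).sqGrad (glassLeaf U)
        (quadLaw (P.lamN a b v) U) l (Sum.inr p)) / N) (haarON N) :=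
  integrable_of_cont' ((continuous_finsetSum _ fun _ _ =>
    continuous_sqGrad_rot _ _ _ _ hl _).div_const _)

lemma integrable_diag (T : Finset (Fin N)) :
    Integrable (fun U => (∑ p ∈ T,
      (glassNest P.K (fun l _ => s l) (P.ampN b v)).heatTop (glassLeaf U)
        (quadLaw (P.lamN a b v) U) (Sum.inr p)) / N) (haarON N) :=
  integrable_of_cont' ((continuous_finsetSum _ fun _ _ =>
    continuous_heatTop_rot _ _ _ _ _).div_const _)

lemma sum_ovl {l : ℕ} (hl : l ≤ P.K + 1) :
    ∑ r, P.ovl a s b v r l = ∫ U, (∑ p,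
      (glassNest P.K (fun l _ => s l) (P.ampN b v)).sqGrad (glassLeaf U)
        (quadLaw (P.lamN a b v) U) l (Sum.inr p)) / N ∂haarON N := by
  simp only [ovl_eq]
  rw [← integral_finsetSum _ fun r _ => integrable_ovl P a s b v hl _]
  simp only [← sum_div, sum_atoms]

lemma continuous_lamN (p : Fin N) :
    Continuous fun v : GBox M P.K → ℝ => P.lamN a b v p :=
  continuous_const.add (continuous_const.mul (continuous_apply _))

lemma continuous_ampN (l : ℕ) (p : Fin N) :
    Continuous fun v : GBox M P.K → ℝ => P.ampN b v l p := by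
  simp only [Par.ampN, Par.etaV]
  split_ifs with h1 h2
  · exact continuous_const
  · exact continuous_const.mul (continuous_const.add (continuous_apply _))
  · exact continuous_const

lemma continuous_lam_joint : Continuous fun x : (GBox M P.K → ℝ) × ON N => P.lamN a b x.1 :=
  (continuous_pi fun p => continuous_lamN P a b p).comp continuous_fst

lemma continuous_amp_joint : Continuous fun x : (GBox M P.K → ℝ) × ON N => P.ampN b x.1 :=
  (continuous_pi fun l => continuous_pi fun p => continuous_ampN P b l p).comp continuous_fst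

lemma continuous_integral_haar {X : Type} [TopologicalSpace X] [FirstCountableTopology X]
    [LocallyCompactSpace X] {F : X → ON N → ℝ} (hF : Continuous (Function.uncurry F)) :
    Continuous fun x => ∫ U, F x U ∂haarON N := by
  simpa using continuous_parametric_integral_of_continuous (μ := haarON N) hF
    (isCompact_univ (X := ON N))

end par

end ParAux

open ParAux Vale.Agent.P166.Parisi.Sym

variable (P : Par) (a : Fin M → ℝ) (s : ℕ → ℝ) (b : Fin N → Fin M) (v : GBox M P.K → ℝ)

theorem ovl_facts (hN : 0 < N) :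
    (∀ r l, 0 ≤ P.ovl a s b v r l) ∧
      (∀ r l l', l ≤ l' → l' ≤ P.K + 1 → P.ovl a s b v r l ≤ P.ovl a s b v r l') ∧
      (∀ r l, l ≤ P.K + 1 → P.ovl a s b v r l ≤ P.diag a s b v r) ∧
      ∑ r, P.diag a s b v r = 1 := by
  have hf := fun U => glass_facts (P.lamN a b v) (fun l _ => s l) (P.ampN b v) U P.K
  refine ⟨fun r l => ?_, fun r l l' h h' => ?_, fun r l h => ?_, ?_⟩
  · rw [ovl_eq]
    refine integral_nonneg fun U => div_nonneg (sum_nonneg fun p _ => ?_) (Nat.cast_nonneg _)
    exact mean_nonneg' _ _ _ fun y => sq_nonneg _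
  · rw [ovl_eq, ovl_eq]
    refine integral_mono (integrable_ovl P a s b v (h.trans h') _) (integrable_ovl P a s b v h' _)
      fun U => div_le_div_of_nonneg_right (sum_le_sum fun p _ => (hf U).2.1 l l' h h' _)
        (Nat.cast_nonneg _)
  · rw [ovl_eq, diag_eq]
    exact integral_mono (integrable_ovl P a s b v h _) (integrable_diag P a s b v _)
      fun U => div_le_div_of_nonneg_right (sum_le_sum fun p _ => (hf U).2.2.1 l h _)
        (Nat.cast_nonneg _)
  · simp only [diag_eq]
    rw [← integral_finsetSum _ fun r _ => integrable_diag P a s b v _]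
    simp only [← sum_div, sum_atoms, (sum_heatTop _ _ _ _ _).1]
    simp [hN.ne']

theorem qhat_path (hN : 0 < N) : IsPath (P.qhat a s b v) ∧ P.qhat a s b v P.K ≤ 1 := by
  obtain ⟨h0, hmono, hle, hsum⟩ := ovl_facts P a s b v hN
  refine ⟨⟨fun i j hij => sum_le_sum fun r _ => hmono r _ _ (by omega) (by omega),
    sum_nonneg fun r _ => h0 r _⟩, ?_⟩
  rw [← hsum]
  exact sum_le_sum fun r _ => hle r _ (by omega)

theorem qhat_lt_one (hN : 0 < N) : P.qhat a s b v P.K < 1 := by
  rw [Par.qhat, min_self, sum_ovl P a s b v (Nat.le_succ _)]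
  have hN' : (0 : ℝ) < N := Nat.cast_pos.2 hN
  set g := fun U : ON N => (∑ p, (glassNest P.K (fun l _ => s l) (P.ampN b v)).sqGrad
    (glassLeaf U) (quadLaw (P.lamN a b v) U) P.K (Sum.inr p)) / (N : ℝ) with hg
  have hi : Integrable g (haarON N) := integrable_ovl P a s b v (Nat.le_succ _) univ
  have hlt : ∀ U, g U < 1 := fun U => by
    simp only [hg]
    obtain ⟨-, -, -, hlt, hrot⟩ :=
      glass_facts (P.lamN a b v) (fun l _ => s l) (P.ampN b v) U P.K
    rw [div_lt_one hN', hrot P.K (Nat.le_succ _)]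
    calc _ < ∑ _i : Fin N, (1 : ℝ) :=
          sum_lt_sum_of_nonempty ⟨⟨0, hN⟩, mem_univ _⟩ fun i _ => hlt P.K (Nat.le_succ _) i
      _ = _ := by simp
  have := integral_pos_of_forall (ν := haarON N) (f := fun U => 1 - g U)
    ((integrable_const _).sub hi) fun U => sub_pos.2 (hlt U)
  rw [integral_sub (integrable_const _) hi] at this
  simpa using this

theorem ovl_low (hs : ∀ l, 1 ≤ l → l ≤ P.L0 → s l = 0) (hL : P.L0 ≤ P.K) (r : Fin M) {l : ℕ}
    (hl : l ≤ P.L0) : P.ovl a s b v r l = P.ovl a s b v r 0 := by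
  induction l with
  | zero => rfl
  | succ l ih =>
    rw [← ih (by omega), ovl_eq, ovl_eq]
    have hz : ∀ i, (glassNest P.K (fun l _ => s l) (P.ampN b v)).amp (l + 1) i = 0 := by
      intro i
      cases i with
      | inl i => exact hs _ (by omega) hl
      | inr p =>
        show P.ampN b v (l + 1) p = 0
        rw [Par.ampN, Par.etaV, dif_pos (by omega), if_pos ⟨by omega, hl⟩]
    congr 1
    funext U
    congr 1
    refine sum_congr rfl fun p _ => ?_
    have : IsProbabilityMeasure (quadLaw (P.lamN a b v) U) := prob_quad _ U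
    have hgood := nest_good P.K (fun l _ => s l) (P.ampN b v)
    have hgr := grad_succ (μ := quadLaw (P.lamN a b v) U) hgood
      (show (glassLeaf U).Good _ from leaf_good U)
      (show l < (glassNest P.K (fun l _ => s l) (P.ampN b v)).K by
        show l < P.K + 1
        omega) (Sum.inr p)
    simp only [Nest.sqGrad, Nest.mean]
    congr 1
    funext y
    rw [avg_zero_amp _ _ hz, hgr, avg_zero_amp _ _ hz]

theorem continuous_ovl_box (r : Fin M) {l : ℕ} (hl : l ≤ P.K + 1) :
    Continuous fun v => P.ovl a s b v r l := by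
  simp only [ovl_eq]
  exact continuous_integral_haar ((continuous_finsetSum _ fun p _ =>
    Lin.continuous_glass_sqGrad (T := (GBox M P.K → ℝ) × ON N) (continuous_lam_joint P a b)
      (continuous_const (y := fun l (_ : Fin N) => s l)) (continuous_amp_joint P b) continuous_snd
      P.K hl _).div_const _)

theorem continuous_diag_box (r : Fin M) : Continuous fun v => P.diag a s b v r := by
  simp only [diag_eq]
  exact continuous_integral_haar ((continuous_finsetSum _ fun p _ =>
    Lin.continuous_glass_heatTop (T := (GBox M P.K → ℝ) × ON N) (continuous_lam_joint P a b)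
      (continuous_const (y := fun l (_ : Fin N) => s l)) (continuous_amp_joint P b) continuous_snd
      P.K _).div_const _)

theorem continuous_free_box (S : ℕ → Fin N → ℝ) : Continuous fun v => P.freeS a S b v := by
  have hc : Continuous (Function.uncurry fun (v : GBox M P.K → ℝ) (U : ON N) =>
      glassFree P.K (P.lamN a b v) S (P.ampN b v) U) := by
    simp only [Function.uncurry_def, Lin.glassFree_eq]
    exact Lin.continuous_glass_root (T := (GBox M P.K → ℝ) × ON N) (continuous_lam_joint P a b)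
      (continuous_const (y := S)) (continuous_amp_joint P b) continuous_snd P.K
  exact continuous_integral_haar hc

theorem hasDerivAt_atoms (t : ℝ) :
    HasDerivAt (fun t => P.free (fun r => t * a r) s b v)
      ((N : ℝ) / 2 * ∑ r, a r * P.diag (fun r => t * a r) s b v r) t := by
  set S : ℕ → Fin N → ℝ := fun l _ => s l
  set V := P.ampN b v
  have h := hasDerivAt_meanFree P.K (P.lamN (fun r => t * a r) b v) (fun p => a (b p)) S
    (fun _ _ => 0) V (fun _ _ => 0)
  simp only [zero_mul, mul_zero, add_zero, sum_const_zero] at h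
  have he : (fun u : ℝ => P.free (fun r => u * a r) s b v) = fun u =>
      meanFree P.K (fun p => P.lamN (fun r => t * a r) b v p + (u - t) * a (b p)) S V := by
    funext u
    simp only [Par.free, Par.freeS]
    congr 1
    funext p
    simp only [Par.lamN, Par.lamV]
    ring
  rw [he]
  refine ((h.congr_deriv ?_).comp_of_eq t ((hasDerivAt_id t).sub_const t) (by simp)).congr_deriv
    (mul_one _)
  rcases Nat.eq_zero_or_pos N with hN0 | hN
  · subst hN0
    simp
  simp only [diag_eq]
  rw [mul_sum]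
  simp only [← integral_const_mul]
  rw [← integral_finsetSum _ fun r _ => ((integrable_diag P _ s b v _).const_mul _).const_mul _]
  congr 1
  funext U
  rw [← sum_atoms (b := b), mul_sum]
  refine sum_congr rfl fun r _ => ?_
  have hN' : (N : ℝ) ≠ 0 := (Nat.cast_pos.2 hN).ne'
  field_simp
  rw [mul_sum]
  refine sum_congr rfl fun p hp => ?_
  rw [fiber, mem_filter] at hp
  rw [hp.2]

theorem hasDerivAt_spin {l : ℕ} (hl : l ≤ P.K) :
    HasDerivAt (fun θ => P.free a (Function.update s l θ) b v)
      ((N : ℝ) * s l * (1 - qTail P.K (P.qhat a s b v) l)) (s l) := by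
  rcases Nat.eq_zero_or_pos N with hN0 | hN
  · subst hN0
    have : (fun θ => P.free a (Function.update s l θ) b v) = fun _ => P.free a s b v := by
      funext θ
      simp only [Par.free, Par.freeS]
      congr 1
      funext i p
      exact p.elim0
    rw [this]
    simpa using hasDerivAt_const (s l) (P.free a s b v)
  set lam := P.lamN a b v
  set S : ℕ → Fin N → ℝ := fun m _ => s m
  set V := P.ampN b v
  have h := hasDerivAt_meanFree P.K lam (fun _ => 0) S (fun m _ => if m = l then 1 else 0) V
    (fun _ _ => 0)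
  simp only [zero_mul, mul_zero, add_zero, sum_const_zero, zero_add] at h
  have he : (fun u : ℝ => P.free a (Function.update s l u) b v) = fun u =>
      meanFree P.K lam (fun m p => S m p + (u - s l) * if m = l then 1 else 0) V := by
    funext u
    simp only [Par.free, Par.freeS]
    congr 1
    funext m p
    by_cases hm : m = l
    · subst hm; simp [S]
    · simp [S, hm]
  rw [he]
  refine ((h.congr_deriv ?_).comp_of_eq (s l) ((hasDerivAt_id (s l)).sub_const (s l))
    (by simp)).congr_deriv (mul_one _)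
  have hN' : (N : ℝ) ≠ 0 := (Nat.cast_pos.2 hN).ne'
  set G := fun (j : ℕ) (U : ON N) => (∑ p,
    (glassNest P.K S V).sqGrad (glassLeaf U) (quadLaw lam U) j (Sum.inr p)) / (N : ℝ) with hG
  have hGi : ∀ j ∈ Ico l (P.K + 1), Integrable (G j) (haarON N) := fun j hj => by
    rw [mem_Ico] at hj
    exact integrable_ovl P a s b v (by omega) univ
  have hq : ∀ j ∈ Ico l (P.K + 1), P.qhat a s b v j = ∫ U, G j U ∂haarON N := fun j hj => by
    rw [mem_Ico] at hj
    rw [Par.qhat, min_eq_left (by omega), sum_ovl P a s b v (by omega)]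
  have hint : ∀ U, ∑ m ∈ range (P.K + 2), ∑ p : Fin N, (if m = l then (1 : ℝ) else 0) * S m p *
      ampTail (glassNest P.K S V) (glassLeaf U) (quadLaw lam U) m (Sum.inl p) =
      (N : ℝ) * s l * (1 - (∑ j ∈ Ico l (P.K + 1), G j U) / ((P.K : ℝ) + 1)) := by
    intro U
    rw [sum_eq_single_of_mem l (by simp; omega) fun m _ hm => by simp [hm]]
    simp only [if_pos, one_mul, S, ← mul_sum, ampTail, sum_sub_distrib,
      (sum_heatTop _ _ _ _ _).2, sum_const, card_univ, Fintype.card_fin, nsmul_eq_mul, mul_one]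
    show s l * ((N : ℝ) - ∑ p : Fin N, ∑ j ∈ Icc l (P.K + 1), _) = _
    rw [sum_comm, ← Finset.Ico_add_one_right_eq_Icc, sum_Ico_succ_top (by omega),
      ModelFacts.w_top P.K _ rfl]
    simp only [zero_mul, sum_const_zero, add_zero]
    have e : ∀ j ∈ Ico l (P.K + 1), ∑ p : Fin N, (glassNest P.K S V).w j *
        (glassNest P.K S V).sqGrad (glassLeaf U) (quadLaw lam U) j (Sum.inl p) =
        (N : ℝ) * G j U / ((P.K : ℝ) + 1) := fun j hj => by
      rw [mem_Ico] at hj
      rw [← mul_sum, ModelFacts.w_of_le P.K _ rfl (by omega),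
        ← (glass_facts lam S V U P.K).2.2.2.2 j (by omega)]
      simp only [hG]
      field_simp
    rw [sum_congr rfl e, ← sum_div, ← mul_sum]
    ring
  simp only [hint]
  have hsum : Integrable (fun U => (∑ j ∈ Ico l (P.K + 1), G j U) / ((P.K : ℝ) + 1)) (haarON N) :=
    (integrable_finsetSum _ hGi).div_const _
  rw [integral_const_mul, integral_sub (integrable_const _) hsum, integral_div,
    integral_finsetSum _ hGi, qTail, sum_congr rfl hq]
  simp

end Vale.Agent.P166.Parisi
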