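import Vale.Agent.P166.Parisi.ConcBox

/-!
Module C: the pinning error is small on average over the box.
-/

set_option linter.unusedSectionVars false

namespace Vale.Agent.P166.Parisi

open MeasureTheory ProbabilityTheory Finset Filter Topology Matrix
open Vale.Agent.P157 Vale.Agent.P157.Parisi

namespace ConcAux

variable {M N : ℕ} {P : Par} (a : Fin M → ℝ) (s : ℕ → ℝ) (b : Fin N → Fin M)

/-! ### Continuity in the point of the box and the rotation -/

lemma ptame_glass_heat {T : Type} [TopologicalSpace T] [FirstCountableTopology T]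
    {lam : T → Fin N → ℝ} {U : T → ON N} {S V : T → ℕ → Fin N → ℝ} (hlam : Continuous lam)
    (hU : Continuous U) (hS : ∀ m i, Continuous fun t => S t m i)
    (hV : ∀ m i, Continuous fun t => V t m i) (K : ℕ) {l : ℕ} (hl : l ≤ K + 1) (i : FIdx N) :
    PTame fun t =>
      (glassNest K (S t) (V t)).heat (glassLeaf (U t)) (quadLaw (lam t) (U t)) l i := by
  refine levels_induction (P := fun l => PTame fun t =>
    (glassNest K (S t) (V t)).heat (glassLeaf (U t)) (quadLaw (lam t) (U t)) l i) ?_
    (fun m hm ih => ?_) hl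
  · have h : (fun t => (glassNest K (S t) (V t)).heat (glassLeaf (U t)) (quadLaw (lam t) (U t))
        (K + 1) i) = fun t => (glassNest K (S t) (V t)).node (glassLeaf (U t))
          (quadLaw (lam t) (U t)) (K + 1) (fun σ y => (glassLeaf (U t)).vec i σ y ^ 2) := by
      funext t y
      have : IsProbabilityMeasure (quadLaw (lam t) (U t)) := quadLaw_prob _ _
      have hG := glassNest_good K (S t) (V t)
      have h1 := heat_top (μ := quadLaw (lam t) (U t)) hG (glassLeaf_good (U t)) i y
      have h2 := node_top (μ := quadLaw (lam t) (U t)) hG (glassLeaf_good (U t))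
        (fun σ y => (glassLeaf (U t)).vec i σ y ^ 2)
      rw [show (glassNest K (S t) (V t)).K = K + 1 from rfl] at h1 h2
      rw [h1, h2]
      simp [glassLeaf]
    rw [h]
    exact ptame_glass_node hlam hU hS hV K le_rfl
      (f := fun t σ y => (glassLeaf (U t)).vec i σ y ^ 2) fun σ => by
        simp only [glass_vec]
        exact ptame_param ((continuous_coef hU σ i).pow 2)
  · have h : (fun t => (glassNest K (S t) (V t)).heat (glassLeaf (U t)) (quadLaw (lam t) (U t))
        m i) = fun t y => (glassNest K (S t) (V t)).avg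
          ((glassLeaf (U t)).logZ (quadLaw (lam t) (U t))) m
            ((glassNest K (S t) (V t)).heat (glassLeaf (U t)) (quadLaw (lam t) (U t)) (m + 1) i) y -
        (gridX K (m + 1 + 1) - gridX K (m + 1)) * (glassNest K (S t) (V t)).avg
          ((glassLeaf (U t)).logZ (quadLaw (lam t) (U t))) m (fun v =>
            (glassNest K (S t) (V t)).grad (glassLeaf (U t)) (quadLaw (lam t) (U t)) (m + 1) i v *
            (glassNest K (S t) (V t)).grad (glassLeaf (U t)) (quadLaw (lam t) (U t)) (m + 1) i v)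
          y := by
      funext t y
      have : IsProbabilityMeasure (quadLaw (lam t) (U t)) := quadLaw_prob _ _
      rw [heat_succ (μ := quadLaw (lam t) (U t)) (glassNest_good K (S t) (V t))
        (glassLeaf_good (U t)) (show m < (glassNest K (S t) (V t)).K from hm) i y]
      simp only [sq]
      rfl
    rw [h]
    exact (ptame_glass_avg hlam hU hS hV K hm ih).sub ((ptame_glass_avg hlam hU hS hV K hm
      ((ptame_glass_grad hlam hU hS hV K hm i).mul
        (ptame_glass_grad hlam hU hS hV K hm i))).const_mul _)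

section box

/-- The mean absolute deviation of the heat quantity of one rotation. -/
noncomputable def gH (P : Par) (r : Fin M) (l : ℕ) (v : GBox M P.K → ℝ) (U : ON N) : ℝ :=
  (P.nest s b v).heatDev (glassLeaf U) (quadLaw (P.lamN a b v) U) (atomSet b r) N l

/-- The variance of the squared norm of one rotation. -/
noncomputable def gV (P : Par) (r : Fin M) (v : GBox M P.K → ℝ) (U : ON N) : ℝ :=
  (P.nest s b v).mean ((glassLeaf U).logZ (quadLaw (P.lamN a b v) U)) P.K fun y =>
    (P.nest s b v).node (glassLeaf U) (quadLaw (P.lamN a b v) U) P.K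
        (fun σ y => atomSq b U r σ y ^ 2) y -
      (P.nest s b v).node (glassLeaf U) (quadLaw (P.lamN a b v) U) P.K (atomSq b U r) y ^ 2

lemma continuous_mean_box {l : ℕ} (hl : l ≤ P.K + 1)
    {f : (GBox M P.K → ℝ) × ON N → (FIdx N → ℝ) → ℝ} (hf : PTame f) :
    Continuous fun q : (GBox M P.K → ℝ) × ON N => (P.nest s b q.1).mean
      ((glassLeaf q.2).logZ (quadLaw (P.lamN a b q.1) q.2)) l (f q) :=
  continuous_glass_mean (lam := fun q : (GBox M P.K → ℝ) × ON N => P.lamN a b q.1)
    (U := fun q => q.2) (S := fun _ l _ => s l) (V := fun q => P.ampN b q.1)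
    (continuous_lamN_pair a b) continuous_snd (fun _ _ => continuous_const)
    (continuous_ampN_pair b) P.K hl hf

lemma ptame_node_box {l : ℕ} (hl : l ≤ P.K + 1)
    {f : (GBox M P.K → ℝ) × ON N → (Fin N → Bool) → (FIdx N → ℝ) → ℝ}
    (hf : ∀ σ, PTame fun q y => f q σ y) :
    PTame fun q : (GBox M P.K → ℝ) × ON N =>
      (P.nest s b q.1).node (glassLeaf q.2) (quadLaw (P.lamN a b q.1) q.2) l (f q) :=
  ptame_glass_node (lam := fun q : (GBox M P.K → ℝ) × ON N => P.lamN a b q.1)
    (U := fun q => q.2) (S := fun _ l _ => s l) (V := fun q => P.ampN b q.1)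
    (continuous_lamN_pair a b) continuous_snd (fun _ _ => continuous_const)
    (continuous_ampN_pair b) P.K hl hf

lemma continuous_gH (r : Fin M) {l : ℕ} (hl : l ≤ P.K + 1) :
    Continuous fun q : (GBox M P.K → ℝ) × ON N => gH a s b P r l q.1 q.2 := by
  have hs : PTame fun q : (GBox M P.K → ℝ) × ON N =>
      (P.nest s b q.1).heatSum (glassLeaf q.2) (quadLaw (P.lamN a b q.1) q.2) (atomSet b r) N l := by
    have h := (ptame_sum (atomSet b r) fun i _ => ptame_glass_heat
      (lam := fun q : (GBox M P.K → ℝ) × ON N => P.lamN a b q.1)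
      (U := fun q => q.2) (S := fun _ l _ => s l) (V := fun q => P.ampN b q.1)
      (continuous_lamN_pair a b) continuous_snd (fun _ _ => continuous_const)
      (continuous_ampN_pair b) P.K hl i).const_mul (N : ℝ)⁻¹
    simp only [inv_mul_eq_div] at h
    exact h
  exact continuous_mean_box a s b hl
    (hs.sub (ptame_param (continuous_mean_box a s b hl hs))).abs

lemma ptame_atomSq (r : Fin M) :
    ∀ σ, PTame fun (q : (GBox M P.K → ℝ) × ON N) (y : FIdx N → ℝ) => atomSq b q.2 r σ y :=
  fun σ => ptame_param ((continuous_finsetSum _ fun p _ =>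
    (continuous_rotSpin_comp continuous_snd σ p).pow 2).div_const _)

lemma continuous_gV (r : Fin M) :
    Continuous fun q : (GBox M P.K → ℝ) × ON N => gV a s b P r q.1 q.2 := by
  refine continuous_mean_box a s b (Nat.le_succ _) ((ptame_node_box a s b (Nat.le_succ _)
    (f := fun q σ y => atomSq b q.2 r σ y ^ 2) fun σ => ?_).sub ?_)
  · have := (ptame_atomSq (P := P) b r σ).mul (ptame_atomSq (P := P) b r σ)
    simpa only [sq] using this
  · have h := ptame_node_box a s b (Nat.le_succ P.K) (f := fun q => atomSq b q.2 r)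
      (ptame_atomSq b r)
    simpa only [sq] using h.mul h

/-! ### The three averaged estimates -/

lemma tau_d (hN : 0 < N) (c : ℝ) {e : ℝ} (he : e ≠ 0) :
    c / Real.sqrt N / (e * tauN N) = c / e * tauN N := by
  obtain ⟨t0, -, t2, -⟩ := tauN_facts hN
  have hs : Real.sqrt (N : ℝ) ≠ 0 := (Real.sqrt_pos.2 (Nat.cast_pos.2 hN)).ne'
  field_simp
  linear_combination -c * t2

lemma heat_dev (hP : P.Ok) (M : ℕ) (smax : ℝ) :
    ∃ C : ℝ, ∀ {N : ℕ}, 3 ≤ N → ∀ (a : Fin M → ℝ) (s : ℕ → ℝ), P.SpinOk smax s →
      ∀ (b : Fin N → Fin M) (r : Fin M), ∀ l ∈ Ioc P.L0 P.K,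
        ∫ v, ∫ U, gH a s b P r l v U ∂haarON N ∂cubeLaw (GBox M P.K) ≤ C * tauN N := by
  set K := P.K
  set η := P.eta
  have h0 : 0 < η := hP.eta_pos
  have hξ : (0 : ℝ) < 1 / ((K : ℝ) + 1) := by positivity
  obtain ⟨C, hC⟩ := heatDev_integral_le (K + 1) η (2 * η) (1 / ((K : ℝ) + 1)) 1 h0 (by linarith) hξ
  set A := max |smax| 3
  have hA0 : 0 ≤ A := (abs_nonneg _).trans (le_max_left _ _)
  refine ⟨|C| * (4 * A / η + η / 2 + 1) / η, fun {N} hN a s hs b r l hl => ?_⟩
  rw [mem_Ioc] at hl
  have hN0 : 0 < N := by omega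
  obtain ⟨t0, t1, t2, -⟩ := tauN_facts hN0
  have hmv : Mv P (l + 1) := ⟨by omega, fun h => by omega⟩
  refine cube_haar_le (continuous_gH a s b r (by omega)) fun U => ?_
  have hU : Continuous fun v : GBox M P.K → ℝ => gH a s b P r l v U :=
    (continuous_gH a s b r (by omega)).comp (continuous_id.prodMk continuous_const)
  refine (Box.cube_integral_le hU (crd P (l + 1) hmv.1 r) (a := η) (b := 2 * η)
    (M := |C| * (4 * A / η + η / 2 + 1) * tauN N) (by linarith) fun v hv => ?_).trans (le_of_eq ?_)
  swap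
  · field_simp
    ring
  have hμ : IsProbabilityMeasure (quadLaw (P.lamN a b v) U) := quadLaw_prob _ U
  have he : ∀ σ : ℝ, gH a s b P r l
      (Function.update v (crd P (l + 1) hmv.1 r) ((σ - η) / (2 * η - η))) U =
      ((P.nest s b v).withAmp (atomSet b r) (l + 1) σ).heatDev (glassLeaf U)
        (quadLaw (P.lamN a b v) U) (atomSet b r) N l := fun σ => by
    rw [gH, nest_update hP s b hmv r v σ, crd, lamN_update]
  simp only [he]
  set d := η / 2 * tauN N with hd
  have hd0 : 0 < d := by positivity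
  have hdη : d ≤ η / 2 := mul_le_of_le_one_right (by linarith) t1
  have hNr : (1 : ℝ) ≤ N := by exact_mod_cast hN0
  have hcurv : (glassLeaf U).CurvLower (atomSet b r) 1 := by
    obtain ⟨-, h2⟩ := curvLower_glass U (atomSet b r)
    exact ⟨zero_le_one, fun ω y w hw => le_trans (by
      simp only [zero_mul, neg_zero, one_mul, neg_nonpos]
      exact sum_nonneg fun _ _ => sq_nonneg _) (h2 ω y w hw)⟩
  have hcard : ((atomSet b r).card : ℝ) ≤ 1 * N := by
    rw [one_mul, atomSet, rotSet, card_image_of_injective _ Sum.inr_injective]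
    exact_mod_cast (card_le_univ _).trans_eq (Fintype.card_fin N)
  have hb : ∀ ω y, |∑ i ∈ atomSet b r, ((∑ j, (glassLeaf U).φ2 j ((glassLeaf U).loc ω y j) *
      (glassLeaf U).a ω j i ^ 2) + (glassLeaf U).vec i ω y ^ 2)| ≤ 1 * N := by
    intro ω y
    have e : ∀ i : FIdx N, (∑ j, (glassLeaf U).φ2 j ((glassLeaf U).loc ω y j) *
        (glassLeaf U).a ω j i ^ 2) = 0 := fun i => sum_eq_zero fun j _ => by simp [glassLeaf]
    simp only [e, zero_add, one_mul]
    rw [abs_of_nonneg (sum_nonneg fun _ _ => sq_nonneg _), atomSet, rotSet,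
      sum_image Sum.inr_injective.injOn]
    simp only [glass_vec, Sum.elim_inr]
    exact (sum_le_sum_of_subset_of_nonneg (subset_univ _) fun _ _ _ => sq_nonneg _).trans_eq
      (sum_rotSpin_sq U ω)
  refine (hC (P.nest s b v) (glassLeaf U) (quadLaw (P.lamN a b v) U) (atomSet b r) ((N : ℝ) + 1)
    (N : ℝ) (2 * A / Real.sqrt N) d l hμ (glassLeaf_good U) (glassNest_good _ _ _) le_rfl
    (by show l < K + 1; omega) ?_ hNr hcard hd0 hdη hcurv hb fun σ hσ => ?_).trans ?_
  · intro j hj _
    show _ ≤ gridX K j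
    rw [gridX, lvl]
    refine le_min ?_ ?_
    · rw [div_le_one (by positivity)]
      linarith [Nat.cast_nonneg (α := ℝ) K]
    · gcongr
      exact_mod_cast hj
  · rw [← nest_update hP s b hmv r v σ]
    have hw := inBox_update hv (crd P (l + 1) hmv.1 r) (box_point hP hdη hσ)
    refine (glass_root_dev P.K (P.lamN a b v) _ _ U (A := A) fun p => ⟨?_, ?_⟩).trans_eq ?_
    · exact ((hs.1 0).trans (le_abs_self _)).trans (le_max_left _ _)
    · refine ((abs_etaV_le hP hw 0 (b p)).trans ?_).trans (le_max_right _ _)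
      linarith [hP.eta_le]
    · have := Real.sqrt_pos.2 (show (0 : ℝ) < N by linarith)
      field_simp
      rw [Real.sq_sqrt (by linarith)]
  · refine (mul_le_mul_of_nonneg_right (le_abs_self C) (by positivity)).trans ?_
    rw [mul_assoc |C|]
    refine mul_le_mul_of_nonneg_left ?_ (abs_nonneg C)
    rw [hd, tau_d hN0 _ (by positivity)]
    have e : 1 / Real.sqrt N = tauN N ^ 2 := by
      rw [div_eq_iff (Real.sqrt_pos.2 (by linarith)).ne']
      exact t2.symm
    rw [e]
    have : tauN N ^ 2 ≤ tauN N := by nlinarith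
    have e2 : 2 * A / (η / 2) = 4 * A / η := by ring
    rw [e2]
    nlinarith

lemma deriv_dev (hP : P.Ok) (M : ℕ) (Λ smax : ℝ) :
    ∃ C : ℝ, ∀ {N : ℕ}, 3 ≤ N → ∀ (a : Fin M → ℝ), (∀ r, |a r| ≤ Λ) → ∀ (s : ℕ → ℝ),
      P.SpinOk smax s → ∀ (b : Fin N → Fin M) (r : Fin M) (l : ℕ), Mv P l →
        ∫ v, ∫ U, |gT P a s b r l v U - mT P a s b r l v| ∂haarON N ∂cubeLaw (GBox M P.K) ≤
          C * tauN N := by
  set η := P.eta
  have h0 : 0 < η := hP.eta_pos
  obtain ⟨Q, hQ0, hQ⟩ := glassFree_dev P.K (|Λ| + 2) (5 / 2)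
  refine ⟨(8 * Q / η + 6) / η, fun {N} hN a ha s hs b r l hl => ?_⟩
  have hN0 : 0 < N := by omega
  obtain ⟨t0, t1, t2, -⟩ := tauN_facts hN0
  have hNr : (0 : ℝ) < N := Nat.cast_pos.2 hN0
  set d := η / 2 * tauN N with hd
  have hd0 : 0 < d := by positivity
  have hdη : d ≤ η / 2 := mul_le_of_le_one_right (by linarith) t1
  have hcF : Continuous fun q : (GBox M P.K → ℝ) × ON N =>
      |gT P a s b r l q.1 q.2 - mT P a s b r l q.1| :=
    ((continuous_gT a s b r l).sub ((continuous_mT a s b r l).comp continuous_fst)).abs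
  have hc := continuous_haar hcF
  refine (Box.cube_integral_le hc (crd P l hl.1 r) (a := η) (b := 2 * η)
    (M := (8 * Q / η + 6) * tauN N) (by linarith) fun v hv => ?_).trans (le_of_eq ?_)
  swap
  · field_simp
    ring
  set w : ℝ → GBox M P.K → ℝ := fun σ =>
    Function.update v (crd P l hl.1 r) ((σ - η) / (2 * η - η)) with hw
  set φ : ℝ → ℝ := fun σ => σ * ((N : ℝ) * mT P a s b r l (w σ))
  have hφc : Continuous φ := continuous_free_deriv_line a s b hl.1 r v
  have hbox : ∀ σ ∈ Set.Icc (η - d) (2 * η + d), InBox (w σ) := fun σ hσ =>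
    inBox_update hv _ (box_point hP hdη hσ)
  have hdev : ∀ σ ∈ Set.Icc (η - d) (2 * η + d),
      Integrable (fun U => |gF P a s b (w σ) U - P.free a s b (w σ)|) (haarON N) ∧
        ∫ U, |gF P a s b (w σ) U - P.free a s b (w σ)| ∂haarON N ≤ Q * Real.sqrt N := fun σ hσ =>
    ⟨integrable_of_cont (((continuous_gF (P := P) a s b).comp
      (continuous_const.prodMk continuous_id)).sub continuous_const).abs,
      hQ hN _ _ _ (fun p => abs_lamN_le hP ha b (hbox σ hσ) p)
        fun m p => (abs_etaV_le hP (hbox σ hσ) m (b p)).trans (by linarith [hP.eta_le])⟩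
  have hpt : ∀ σ ∈ Set.Icc η (2 * η),
      ∫ U, |gT P a s b r l (w σ) U - mT P a s b r l (w σ)| ∂haarON N ≤
        1 / (η * N) * (4 * (Q * Real.sqrt N) / d + (φ (σ + d) - φ (σ - d))) := by
    intro σ hσ
    have hσ0 : 0 < σ := h0.trans_le hσ.1
    have m1 : σ + d ∈ Set.Icc (η - d) (2 * η + d) := ⟨by linarith [hσ.1], by linarith [hσ.2]⟩
    have m2 : σ ∈ Set.Icc (η - d) (2 * η + d) := ⟨by linarith [hσ.1], by linarith [hσ.2]⟩
    have m3 : σ - d ∈ Set.Icc (η - d) (2 * η + d) := ⟨by linarith [hσ.1], by linarith [hσ.2]⟩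
    have hi : Integrable (fun U => |gT P a s b r l (w σ) U - mT P a s b r l (w σ)|) (haarON N) :=
      integrable_of_cont (((continuous_gT a s b r l).comp
        (continuous_const.prodMk continuous_id)).sub continuous_const).abs
    have key : ∀ U, η * N * |gT P a s b r l (w σ) U - mT P a s b r l (w σ)| ≤
        (|gF P a s b (w (σ + d)) U - P.free a s b (w (σ + d))| +
          2 * |gF P a s b (w σ) U - P.free a s b (w σ)| +
          |gF P a s b (w (σ - d)) U - P.free a s b (w (σ - d))|) / d + (φ (σ + d) - φ (σ - d)) := by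
      intro U
      refine le_trans ?_ (line_le (f := fun σ => gF P a s b (w σ) U)
        (g := fun σ => P.free a s b (w σ)) (f' := fun σ => gX P a s b r l (w σ) U) (g' := φ)
        (hasDerivAt_gF a s b hP hl r v U) (hasDerivAt_free_line a s b hP hN0 hl r v)
        (gX_monotone a s b hP hl r v U) (free_deriv_monotone a s b hP hN0 hl r v) hd0 σ)
      simp only [φ]
      rw [gX_eq a s b hN0 r hl.1, hw, etaV_line hP hl, ← mul_sub, ← mul_sub, abs_mul, abs_mul,
        Nat.abs_cast, abs_of_pos hσ0, ← mul_assoc]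
      exact mul_le_mul_of_nonneg_right (mul_le_mul_of_nonneg_right hσ.1 hNr.le) (abs_nonneg _)
    rw [one_div, ← div_eq_inv_mul, le_div_iff₀ (by positivity), mul_comm, ← integral_const_mul]
    obtain ⟨i1, b1⟩ := hdev _ m1
    obtain ⟨i2, b2⟩ := hdev _ m2
    obtain ⟨i3, b3⟩ := hdev _ m3
    refine (integral_mono (hi.const_mul _) ((((i1.fun_add (i2.const_mul 2)).fun_add i3).div_const d).fun_add
      (integrable_const _)) key).trans ?_
    rw [integral_add (((i1.fun_add (i2.const_mul 2)).fun_add i3).div_const d) (integrable_const _),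
      integral_div, integral_add (i1.fun_add (i2.const_mul 2)) i3,
      integral_add i1 (i2.const_mul 2), integral_const_mul]
    simp only [integral_const, probReal_univ, one_smul]
    refine add_le_add (div_le_div_of_nonneg_right ?_ hd0.le) le_rfl
    linarith
  have hgc : Continuous fun σ : ℝ => ∫ U, |gT P a s b r l (w σ) U - mT P a s b r l (w σ)| ∂haarON N :=
    hc.comp ((continuous_const (y := v)).update (crd P l hl.1 r)
      ((continuous_id.sub continuous_const).div_const _))
  have ip : Continuous fun σ => φ (σ + d) - φ (σ - d) :=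
    (hφc.comp (continuous_add_const d)).sub (hφc.comp (continuous_sub_right d))
  refine (intervalIntegral.integral_mono_on (by linarith) (hgc.intervalIntegrable _ _)
    ((((continuous_const (y := 4 * (Q * Real.sqrt N) / d)).fun_add ip).const_mul
      (1 / (η * N))).intervalIntegrable _ _) hpt).trans ?_
  rw [intervalIntegral.integral_const_mul, intervalIntegral.integral_add intervalIntegrable_const
    (ip.intervalIntegrable _ _), intervalIntegral.integral_const, smul_eq_mul]
  have hosc := osc_integral (a := η) (b := 2 * η) (G := 3 * N) hφc hd0.le (by linarith) fun x hx =>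
    free_deriv_bound a s b hP hN0 hl r v (σ := x)
      ⟨by linarith [hx.1], by linarith [hx.2, hP.eta_le]⟩
  calc 1 / (η * N) * ((2 * η - η) * (4 * (Q * Real.sqrt N) / d) + _)
      ≤ 1 / (η * N) * ((2 * η - η) * (4 * (Q * Real.sqrt N) / d) + 4 * (3 * (N : ℝ)) * d) :=
        mul_le_mul_of_nonneg_left (add_le_add le_rfl hosc) (by positivity)
    _ = (8 * Q / η + 6) * tauN N := by
        have hs2 := Real.sq_sqrt hNr.le
        have hs0 := Real.sqrt_pos.2 hNr
        have e : Real.sqrt N / (N : ℝ) / tauN N = tauN N := by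
          field_simp
          linear_combination (Real.sqrt (N : ℝ)) * (-t2) + tauN N ^ 2 * hs2
        rw [hd]
        calc _ = 8 * Q / η * (Real.sqrt N / (N : ℝ) / tauN N) + 6 * tauN N := by field_simp; ring
          _ = _ := by rw [e]; ring

lemma leaf_dev (hP : P.Ok) (hN : 0 < N) (r : Fin M) :
    ∫ v, ∫ U, gV a s b P r v U ∂haarON N ∂cubeLaw (GBox M P.K) ≤ 2 / (P.du * N) := by
  refine cube_haar_le (continuous_gV a s b r) fun U => ?_
  have hU : Continuous fun v : GBox M P.K → ℝ => gV a s b P r v U :=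
    (continuous_gV a s b r).comp (continuous_id.prodMk continuous_const)
  refine (Box.cube_integral_le hU (Sum.inl r) (a := (0 : ℝ)) (b := 1) (M := 2 / (P.du * N))
    one_pos fun v _ => ?_).trans (le_of_eq (by norm_num))
  obtain ⟨lam0, h1⟩ : ∃ lam0 : Fin N → ℝ, ∀ t,
      P.lamN a b (Function.update v (Sum.inl r) t) =
        fun p => lam0 p + t * (if b p = r then P.du else 0) :=
    ⟨P.lamN a b (Function.update v (Sum.inl r) 0), fun t => funext fun p => by
      by_cases h : b p = r
      · simp [Par.lamN, Par.lamV, h]; ring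
      · simp [Par.lamN, Par.lamV, h]⟩
  have h2 : ∀ t, P.nest s b (Function.update v (Sum.inl r) t) = P.nest s b v := fun t => by
    have : P.ampN b (Function.update v (Sum.inl r) t) = P.ampN b v := by
      funext m p
      simp only [Par.ampN, Par.etaV]
      split_ifs <;> simp
    rw [Par.nest, Par.nest, this]
  simp only [sub_zero, div_one, gV, h1, h2]
  exact leaf_avg P.K _ (fun l _ => s l) (P.ampN b v) U b r hP.du_pos hN

/-! ### One rotation -/

variable (v : GBox M P.K → ℝ) (U : ON N)

/-- The random part of the pinning error of atom `r`. -/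
noncomputable def rnd (P : Par) (r : Fin M) (v : GBox M P.K → ℝ) (U : ON N) : ℝ :=
  (∑ l ∈ Ioc P.L0 P.K, gH a s b P r l v U) +
    ∑ l ∈ Ioc P.L0 (P.K + 1), |gT P a s b r l v U - mT P a s b r l v|

lemma gT_step (r : Fin M) {l : ℕ} (hl : l ≤ P.K) :
    gQ P a s b r l v U = ((P.K : ℝ) + 1) * (gT P a s b r (l + 1) v U - gT P a s b r l v U) ∧
      P.ovl a s b v r l = ((P.K : ℝ) + 1) * (mT P a s b r (l + 1) v - mT P a s b r l v) := by
  have hK : (P.K : ℝ) + 1 ≠ 0 := by positivity
  have e : ∀ f : ℕ → ℝ, (∑ m ∈ Icc l P.K, f m) = f l + ∑ m ∈ Icc (l + 1) P.K, f m := fun f => by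
    rw [← insert_Icc_add_one_left_eq_Icc hl, sum_insert (by simp)]
  constructor <;>
  · simp only [gT, mT, e]
    field_simp
    ring

lemma gH_nonneg (r : Fin M) (l : ℕ) : 0 ≤ gH a s b P r l v U :=
  Lin.mean_nonneg _ fun _ => abs_nonneg _

lemma rnd_ge (r : Fin M) {l : ℕ} (hl : l ∈ Ioc P.L0 P.K) :
    (l < P.K → gH a s b P r l v U + gH a s b P r (l + 1) v U +
        (|gT P a s b r l v U - mT P a s b r l v| +
          |gT P a s b r (l + 1) v U - mT P a s b r (l + 1) v|) ≤ rnd a s b P r v U) ∧
      gH a s b P r l v U + |gT P a s b r (l + 1) v U - mT P a s b r (l + 1) v| ≤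
        rnd a s b P r v U := by
  rw [mem_Ioc] at hl
  have hH : ∀ I : Finset ℕ, I ⊆ Ioc P.L0 P.K →
      ∑ m ∈ I, gH a s b P r m v U ≤ ∑ m ∈ Ioc P.L0 P.K, gH a s b P r m v U := fun I hI =>
    sum_le_sum_of_subset_of_nonneg hI fun m _ _ => gH_nonneg a s b v U r m
  have hT : ∀ I : Finset ℕ, I ⊆ Ioc P.L0 (P.K + 1) →
      ∑ m ∈ I, |gT P a s b r m v U - mT P a s b r m v| ≤
        ∑ m ∈ Ioc P.L0 (P.K + 1), |gT P a s b r m v U - mT P a s b r m v| := fun I hI =>
    sum_le_sum_of_subset_of_nonneg hI fun m _ _ => abs_nonneg _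
  refine ⟨fun hlK => ?_, ?_⟩
  · have h1 := hH {l, l + 1} fun m hm => by
      simp only [mem_insert, mem_singleton] at hm; rw [mem_Ioc]; omega
    have h2 := hT {l, l + 1} fun m hm => by
      simp only [mem_insert, mem_singleton] at hm; rw [mem_Ioc]; omega
    rw [sum_pair (by omega)] at h1 h2
    exact add_le_add h1 h2
  · have h1 := hH {l} fun m hm => by rw [mem_singleton] at hm; rw [mem_Ioc]; omega
    have h2 := hT {l + 1} fun m hm => by rw [mem_singleton] at hm; rw [mem_Ioc]; omega
    rw [sum_singleton] at h1 h2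
    exact add_le_add h1 h2

variable {v}

lemma level_le (hP : P.Ok) (hN : 0 < N) (hv : ∀ k, v k ∈ Set.Icc (0 : ℝ) 1) (r : Fin M) {l : ℕ}
    (hl : l ∈ Ioc P.L0 P.K) :
    (P.nest s b v).mean ((glassLeaf U).logZ (quadLaw (P.lamN a b v) U)) l (fun y =>
        |(P.nest s b v).sqSum (glassLeaf U) (quadLaw (P.lamN a b v) U) (atomSet b r) l y / N -
          P.ovl a s b v r l|) +
      (P.nest s b v).mean ((glassLeaf U).logZ (quadLaw (P.lamN a b v) U)) l (fun y =>
        (P.nest s b v).covNorm (glassLeaf U) (quadLaw (P.lamN a b v) U) (atomSet b r) l y / N) ≤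
      ((P.K : ℝ) + 1) * rnd a s b P r v U +
        3 * (gQ P a s b r (l + 1) v U - gQ P a s b r l v U) +
        ((P.K : ℝ) + 1) / P.eta * tauN N +
        (if l = P.K then gD P a s b r v U + P.ovl a s b v r l else 0) := by
  obtain ⟨hge, -⟩ := rnd_ge a s b v U r hl
  have hrnd : 0 ≤ rnd a s b P r v U :=
    add_nonneg (sum_nonneg fun m _ => gH_nonneg a s b v U r m) (sum_nonneg fun m _ => abs_nonneg _)
  rw [mem_Ioc] at hl
  have : IsProbabilityMeasure (quadLaw (P.lamN a b v) U) := quadLaw_prob _ U
  set G := P.nest s b v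
  set μ := quadLaw (P.lamN a b v) U
  set L := glassLeaf U
  set R := atomSet b r
  have hG : G.Good := glassNest_good _ _ _
  have hL : L.Good ((N : ℝ) + 1) := glassLeaf_good U
  have hlK : l < G.K := show l < P.K + 1 by omega
  have hNr : (0 : ℝ) < N := Nat.cast_pos.2 hN
  have hK1 : (0 : ℝ) < (P.K : ℝ) + 1 := by positivity
  have hq : gQ P a s b r l v U ≤ gQ P a s b r (l + 1) v U :=
    div_le_div_of_nonneg_right (sum_le_sum fun i _ =>
      sqGrad_mono (μ := μ) hG hL (Nat.le_succ l) hlK i) hNr.le
  have ts : Tame (G.sqSum L μ R l) := Pin.tame_sqSum hG hL hlK.le R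
  have td : Tame fun y => G.sqSum L μ R l y / N := by
    simpa only [inv_mul_eq_div] using ts.const_mul (N : ℝ)⁻¹
  have tg : Tame fun y => |G.sqSum L μ R l y / N - gQ P a s b r l v U| :=
    (Tame.sub td (tame_const _)).abs
  have step1 : G.mean (L.logZ μ) l (fun y => |G.sqSum L μ R l y / N - P.ovl a s b v r l|) ≤
      G.mean (L.logZ μ) l (fun y => |G.sqSum L μ R l y / N - gQ P a s b r l v U|) +
        |gQ P a s b r l v U - P.ovl a s b v r l| := by
    refine (mean_mono hG hL hlK.le (Tame.sub td (tame_const _)).abs (tg.add (tame_const _))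
      fun y => abs_sub_le _ _ _).trans_eq ?_
    rw [mean_add hG hL hlK.le tg (tame_const _), mean_const hG hL hlK.le]
  have hσ : 0 < P.etaV v (l + 1) r := hP.eta_pos.trans_le
    (le_etaV hP hv (l := l + 1) ⟨by omega, fun h => by omega⟩ r)
  have hamp : ∀ i ∈ R, G.amp (l + 1) i = P.etaV v (l + 1) r := fun i hi => by
    obtain ⟨p, hp, rfl⟩ := mem_image.1 hi
    show P.etaV v (l + 1) (b p) = _
    rw [(mem_filter.1 hp).2]
  have hT : ∀ ω y, ∑ i ∈ R, L.vec i ω y ^ 2 ≤ (N : ℝ) := fun ω y => by
    simp only [R, L, atomSet, rotSet, sum_image Sum.inr_injective.injOn, glass_vec, Sum.elim_inr]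
    exact (sum_le_sum_of_subset_of_nonneg (subset_univ _) fun _ _ _ => sq_nonneg _).trans_eq
      (sum_rotSpin_sq U ω)
  have hx : 1 / ((P.K : ℝ) + 1) ≤ G.x (l + 1) := by
    show _ ≤ gridX P.K (l + 1)
    rw [ModelFacts.gridX_of_le P.K (by omega), lvl]
    gcongr
    exact_mod_cast Nat.succ_pos l
  have step2 : G.mean (L.logZ μ) l (fun y => G.covNorm L μ R l y / N) ≤
      (gQ P a s b r (l + 1) v U - gQ P a s b r l v U) + ((P.K : ℝ) + 1) / P.eta * tauN N := by
    obtain ⟨t0, t1, t2, -⟩ := tauN_facts hN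
    have hgap : ∀ y, G.gap L μ R l y ≤ N := fun y => by
      have h1 := avg_mono hG hL (μ := μ) hlK (Pin.tame_sqSum hG hL hlK R) (tame_const (N : ℝ))
        (fun w => (Pin.sqSum_le hG hL (μ := μ) hlK hT w).1.trans
          (Pin.sqSum_le hG hL (μ := μ) hlK hT w).2) y
      rw [avg_const hG hL hlK] at h1
      have h2 : 0 ≤ G.sqSum L μ R l y := sum_nonneg fun i _ => sq_nonneg _
      simp only [Nest.gap]
      linarith
    have hb : ∀ y, G.covNorm L μ R l y / N ≤
        (N : ℝ)⁻¹ * G.gap L μ R l y + ((P.K : ℝ) + 1) / P.eta * tauN N := fun y => by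
      have h := covNorm_le hG hL (μ := μ) hlK (curvLower_glass U R) hσ hamp hT y
      rw [zero_mul, zero_div, Real.sqrt_zero, add_zero] at h
      refine (div_le_div_of_nonneg_right h hNr.le).trans ?_
      rw [add_div, div_eq_inv_mul (G.gap L μ R l y)]
      refine add_le_add le_rfl ?_
      have hσx : P.eta / ((P.K : ℝ) + 1) ≤ P.etaV v (l + 1) r * G.x (l + 1) := by
        rw [← mul_one_div]
        exact mul_le_mul (le_etaV hP hv (l := l + 1) ⟨by omega, fun h => by omega⟩ r) hx
          (by positivity) hσ.le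
      calc Real.sqrt (G.gap L μ R l y) / (P.etaV v (l + 1) r * G.x (l + 1)) / N
          ≤ Real.sqrt N / (P.eta / ((P.K : ℝ) + 1)) / N :=
            div_le_div_of_nonneg_right (div_le_div₀ (Real.sqrt_nonneg _)
              (Real.sqrt_le_sqrt (hgap y)) (div_pos hP.eta_pos hK1) hσx) hNr.le
        _ = ((P.K : ℝ) + 1) / P.eta * tauN N ^ 2 := by
            have hes : Real.sqrt N / (N : ℝ) = tauN N ^ 2 := by
              rw [div_eq_iff hNr.ne']
              nth_rewrite 2 [← Real.mul_self_sqrt hNr.le]
              rw [← mul_assoc, t2, one_mul]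
            rw [← hes]
            field_simp
        _ ≤ _ := mul_le_mul_of_nonneg_left (by nlinarith)
            (div_nonneg hK1.le hP.eta_pos.le)
    have tc : Tame fun y => G.covNorm L μ R l y / N := by
      simpa only [inv_mul_eq_div] using (Pin.tame_covNorm hG hL hlK.le R).const_mul (N : ℝ)⁻¹
    refine (mean_mono hG hL hlK.le tc (((Pin.tame_gap hG hL hlK R).const_mul _).add (tame_const _))
      hb).trans_eq ?_
    rw [mean_add hG hL hlK.le ((Pin.tame_gap hG hL hlK R).const_mul _) (tame_const _),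
      mean_const_mul hG hL, mean_const hG hL hlK.le, mean_gap hG hL hlK, mul_sub, ← div_eq_inv_mul,
      ← div_eq_inv_mul]
    rfl
  split_ifs with hlast
  · subst hlast
    have hd : G.mean (L.logZ μ) P.K (fun y => |G.sqSum L μ R P.K y / N - P.ovl a s b v r P.K|) ≤
        gQ P a s b r P.K v U + P.ovl a s b v r P.K := by
      have ho : 0 ≤ P.ovl a s b v r P.K :=
        integral_nonneg fun U => (gQ_mem a s b r (Nat.le_succ _) v U).1
      refine (mean_mono hG hL hlK.le (Tame.sub td (tame_const _)).abs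
        ((ts.const_mul (N : ℝ)⁻¹).add (tame_const (P.ovl a s b v r P.K)))
        fun y => (abs_sub _ _).trans ?_).trans_eq ?_
      · rw [abs_of_nonneg ho, abs_of_nonneg (div_nonneg
          (show 0 ≤ G.sqSum L μ R P.K y from sum_nonneg fun _ _ => sq_nonneg _) hNr.le),
          ← div_eq_inv_mul]
      · have e : G.mean (L.logZ μ) P.K (G.sqSum L μ R P.K) = ∑ i ∈ R, G.sqGrad L μ P.K i :=
          Pin.mean_sum hG hL hlK.le R fun i _ => (grad_tame hG hL hlK.le i).sq
        rw [mean_add hG hL hlK.le (ts.const_mul _) (tame_const _), mean_const_mul hG hL,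
          mean_const hG hL hlK.le, e, ← div_eq_inv_mul]
        rfl
    have := (gQ_mem a s b r (Nat.le_succ P.K) v U).2
    nlinarith [mul_nonneg hK1.le hrnd]
  · have hlt : l < P.K := by omega
    have hw : G.w (l + 1) = ((P.K : ℝ) + 1)⁻¹ :=
      ModelFacts.w_of_le P.K _ rfl (by omega)
    have hd := sqSum_dev hG hL (μ := μ) hlK (hw.symm ▸ inv_pos.2 hK1) R hNr
    rw [hw, div_inv_eq_mul] at hd
    have e : |gQ P a s b r l v U - P.ovl a s b v r l| ≤ ((P.K : ℝ) + 1) *
        (|gT P a s b r l v U - mT P a s b r l v| +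
          |gT P a s b r (l + 1) v U - mT P a s b r (l + 1) v|) := by
      obtain ⟨e1, e2⟩ := gT_step a s b v U r (by omega : l ≤ P.K)
      rw [e1, e2, ← mul_sub, abs_mul, abs_of_pos hK1]
      refine mul_le_mul_of_nonneg_left ?_ hK1.le
      rw [abs_le]
      constructor <;> linarith [le_abs_self (gT P a s b r l v U - mT P a s b r l v),
        neg_abs_le (gT P a s b r l v U - mT P a s b r l v),
        le_abs_self (gT P a s b r (l + 1) v U - mT P a s b r (l + 1) v),
        neg_abs_le (gT P a s b r (l + 1) v U - mT P a s b r (l + 1) v)]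
    have hge' := mul_le_mul_of_nonneg_left (hge hlt) hK1.le
    change G.mean (L.logZ μ) l (fun y => |G.sqSum L μ R l y / N - gQ P a s b r l v U|) ≤
      (gH a s b P r l v U + gH a s b P r (l + 1) v U) * ((P.K : ℝ) + 1) +
        2 * (gQ P a s b r (l + 1) v U - gQ P a s b r l v U) at hd
    linarith

lemma diag_le (hP : P.Ok) (r : Fin M) :
    (P.nest s b v).mean ((glassLeaf U).logZ (quadLaw (P.lamN a b v) U)) P.K (fun y =>
      |(P.nest s b v).node (glassLeaf U) (quadLaw (P.lamN a b v) U) P.K (atomSq b U r) y -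
        P.diag a s b v r|) ≤ rnd a s b P r v U := by
  obtain ⟨-, hge⟩ := rnd_ge a s b v U r (l := P.K) (mem_Ioc.2 ⟨hP.L0_le, le_rfl⟩)
  refine le_trans ?_ hge
  have : IsProbabilityMeasure (quadLaw (P.lamN a b v) U) := quadLaw_prob _ U
  set G := P.nest s b v
  set μ := quadLaw (P.lamN a b v) U
  set L := glassLeaf U
  set R := atomSet b r
  have hG : G.Good := glassNest_good _ _ _
  have hL : L.Good ((N : ℝ) + 1) := glassLeaf_good U
  have hK : P.K < G.K := Nat.lt_succ_self _
  have ho : ∀ i, Obs fun ω v => L.vec i ω v ^ 2 := fun i => by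
    simpa only [sq] using (vec_obs hG hL i).mul (vec_obs hG hL i)
  have hheat : ∀ i y, G.heat L μ P.K i y = G.node L μ P.K (fun ω v => L.vec i ω v ^ 2) y := by
    intro i y
    have htop : G.heat L μ (P.K + 1) i = G.node L μ (P.K + 1) (fun ω v => L.vec i ω v ^ 2) := by
      funext z
      have h1 := heat_top (μ := μ) hG hL i z
      have h2 := node_top (μ := μ) hG hL (fun ω v => L.vec i ω v ^ 2)
      rw [show G.K = P.K + 1 from rfl] at h1 h2
      rw [h1, h2]
      simp [L, glassLeaf]
    rw [heat_succ hG hL hK, ModelFacts.w_top P.K G rfl, zero_mul, sub_zero, htop,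
      node_succ hG hL hK]
  have hnode : ∀ y, G.node L μ P.K (atomSq b U r) y = G.heatSum L μ R N P.K y := by
    intro y
    have e : atomSq b U r = fun ω v => (N : ℝ)⁻¹ * ∑ i ∈ R, L.vec i ω v ^ 2 := by
      funext ω v
      simp only [atomSq, R, L, atomSet, rotSet, sum_image Sum.inr_injective.injOn, glass_vec,
        Sum.elim_inr, div_eq_inv_mul]
    rw [e, node_const_mul hG hL, node_sum hG hL hK.le R ho, Nest.heatSum,
      sum_congr rfl fun i _ => hheat i y]
    exact (div_eq_inv_mul _ _).symm
  have hm : G.mean (L.logZ μ) P.K (G.heatSum L μ R N P.K) = gD P a s b r v U := by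
    have e : ∀ i, G.heatTop L μ i = G.mean (L.logZ μ) P.K (G.heat L μ P.K i) := fun i => by
      show G.mean (L.logZ μ) P.K (G.avg (L.logZ μ) P.K (G.heat L μ (P.K + 1) i)) = _
      congr 1
      funext y
      rw [heat_succ hG hL hK, ModelFacts.w_top P.K G rfl, zero_mul, sub_zero]
    rw [show G.heatSum L μ R N P.K = fun y => (N : ℝ)⁻¹ * ∑ i ∈ R, G.heat L μ P.K i y from
      funext fun y => by rw [Nest.heatSum, div_eq_inv_mul], mean_const_mul hG hL,
      Pin.mean_sum hG hL hK.le R fun i _ => heat_tame hG hL hK.le i, ← div_eq_inv_mul,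
      ← sum_congr rfl fun i _ => e i]
    rfl
  have ts : Tame (G.heatSum L μ R N P.K) := by
    have := (tame_sum R fun i _ => heat_tame hG hL (μ := μ) hK.le i).const_mul (N : ℝ)⁻¹
    simp only [inv_mul_eq_div] at this
    exact this
  have eT : gT P a s b r (P.K + 1) v U - mT P a s b r (P.K + 1) v =
      gD P a s b r v U - P.diag a s b v r := by simp [gT, mT]
  simp only [hnode]
  refine (mean_mono hG hL hK.le (Tame.sub ts (tame_const _)).abs
    ((Tame.sub ts (tame_const _)).abs.add (tame_const _))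
    fun y => abs_sub_le _ (gD P a s b r v U) _).trans_eq ?_
  rw [mean_add hG hL hK.le (Tame.sub ts (tame_const _)).abs (tame_const _),
    mean_const hG hL hK.le, ← eT]
  show _ = G.mean (L.logZ μ) P.K _ + _
  rw [hm]

end box

end ConcAux

open ConcAux

/-- The pinning error is small on average. -/
theorem pin_small (M : ℕ) : ∃ C₀ : ℝ, ∀ P : Par, P.Ok → ∀ Λ smax ε : ℝ, 0 < ε →
    ∀ᶠ N : ℕ in atTop, ∀ a : Fin M → ℝ, (∀ r, |a r| ≤ Λ) → ∀ s, P.SpinOk smax s →
      ∀ b : Fin N → Fin M,
        Integrable (fun v => P.pinErr a s b v) (cubeLaw (GBox M P.K)) ∧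
          ∫ v, P.pinErr a s b v ∂cubeLaw (GBox M P.K) ≤ C₀ / ((P.K : ℝ) + 1) + ε := by
  refine ⟨5, fun P hP Λ smax ε hε => ?_⟩
  obtain ⟨C₁, hC₁⟩ := heat_dev hP M smax
  obtain ⟨C₂, hC₂⟩ := deriv_dev hP M Λ smax
  set K1 := (P.K : ℝ) + 1
  set CR := ((Ioc P.L0 P.K).card : ℝ) * C₁ + ((Ioc P.L0 (P.K + 1)).card : ℝ) * C₂
  set CC := (M : ℝ) * ((K1 + 1) * CR + K1 / P.eta + 2 / P.du)
  filter_upwards [(tendsto_tauN CC).eventually (eventually_le_nhds hε), eventually_ge_atTop 3]
    with N hεN hN a ha s hs b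
  have hN0 : 0 < N := by omega
  have hK1 : 0 < K1 := by positivity
  -- continuity
  have cH := fun r l (hl : l ∈ Ioc P.L0 P.K) =>
    continuous_gH (P := P) a s b r (l := l) (by have := (mem_Ioc.1 hl).2; omega)
  have cT : ∀ r l, Continuous fun q : (GBox M P.K → ℝ) × ON N =>
      |gT P a s b r l q.1 q.2 - mT P a s b r l q.1| := fun r l => ((continuous_gT (P := P) a s b r l).sub
    ((continuous_mT a s b r l).comp continuous_fst)).abs
  have cR : ∀ r, Continuous fun q : (GBox M P.K → ℝ) × ON N => rnd a s b P r q.1 q.2 := fun r =>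
    (continuous_finsetSum _ (cH r)).add (continuous_finsetSum _ fun l _ => cT r l)
  have cV := fun r => continuous_gV (P := P) a s b r
  have co : ∀ r l, l ≤ P.K + 1 → Continuous fun v => P.ovl a s b v r l := fun r l hl =>
    continuous_haar (continuous_gQ a s b r hl)
  have cA : ∀ l ∈ Ioc P.L0 P.K, Continuous fun q : (GBox M P.K → ℝ) × ON N => ∑ r,
      ((P.nest s b q.1).mean ((glassLeaf q.2).logZ (quadLaw (P.lamN a b q.1) q.2)) l (fun y =>
        |(P.nest s b q.1).sqSum (glassLeaf q.2) (quadLaw (P.lamN a b q.1) q.2) (atomSet b r) l y /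
          N - P.ovl a s b q.1 r l|) +
      (P.nest s b q.1).mean ((glassLeaf q.2).logZ (quadLaw (P.lamN a b q.1) q.2)) l (fun y =>
        (P.nest s b q.1).covNorm (glassLeaf q.2) (quadLaw (P.lamN a b q.1) q.2) (atomSet b r) l y /
          N)) := by
    intro l hl
    have hl' : l ≤ P.K + 1 := by have := (mem_Ioc.1 hl).2; omega
    refine continuous_finsetSum _ fun r _ => ?_
    have h1 := (ptame_glass_sqSum (lam := fun q : (GBox M P.K → ℝ) × ON N => P.lamN a b q.1)
      (U := fun q => q.2) (S := fun _ l _ => s l) (V := fun q => P.ampN b q.1)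
      (continuous_lamN_pair a b) continuous_snd (fun _ _ => continuous_const)
      (continuous_ampN_pair b) P.K hl' (atomSet b r)).const_mul (N : ℝ)⁻¹
    have h2 := (ptame_glass_covNorm (lam := fun q : (GBox M P.K → ℝ) × ON N => P.lamN a b q.1)
      (U := fun q => q.2) (S := fun _ l _ => s l) (V := fun q => P.ampN b q.1)
      (continuous_lamN_pair a b) continuous_snd (fun _ _ => continuous_const)
      (continuous_ampN_pair b) P.K hl' (atomSet b r)).const_mul (N : ℝ)⁻¹
    simp only [inv_mul_eq_div] at h1 h2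
    exact (continuous_mean_box a s b hl'
      (h1.sub (ptame_param ((co r l hl').comp continuous_fst))).abs).add
        (continuous_mean_box a s b hl' h2)
  have cD : Continuous fun q : (GBox M P.K → ℝ) × ON N => ∑ r,
      (P.nest s b q.1).mean ((glassLeaf q.2).logZ (quadLaw (P.lamN a b q.1) q.2)) P.K (fun y =>
        |(P.nest s b q.1).node (glassLeaf q.2) (quadLaw (P.lamN a b q.1) q.2) P.K
          (atomSq b q.2 r) y - P.diag a s b q.1 r|) :=
    continuous_finsetSum _ fun r _ => continuous_mean_box a s b (Nat.le_succ _)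
      ((ptame_node_box a s b (Nat.le_succ _) (f := fun q => atomSq b q.2 r)
        (ptame_atomSq b r)).sub
        (ptame_param ((continuous_haar (continuous_gD a s b r)).comp continuous_fst))).abs
  have hpc : Continuous fun v => P.pinErr a s b v :=
    (((continuous_finsetSum _ fun l hl => continuous_haar (cA l hl)).div_const _).add
      (continuous_haar cD)).add (continuous_haar (continuous_finsetSum _ fun r _ => cV r))
  refine ⟨Box.integrable_cube hpc, ?_⟩
  -- the bound at a point of the cube
  have hpt : ∀ v, (∀ k, v k ∈ Set.Icc (0 : ℝ) 1) → P.pinErr a s b v ≤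
      (∑ r, ((K1 + 1) * ∫ U, rnd a s b P r v U ∂haarON N + ∫ U, gV a s b P r v U ∂haarON N)) +
        ((M : ℝ) * (K1 / P.eta) * tauN N + 5 / K1) := by
    intro v hv
    have iR : ∀ r, Integrable (fun U => rnd a s b P r v U) (haarON N) := fun r =>
      integrable_slice (cR r) v
    have iV : ∀ r, Integrable (fun U => gV a s b P r v U) (haarON N) := fun r =>
      integrable_slice (cV r) v
    have iQ : ∀ r, Integrable (fun U => gQ P a s b r P.K v U) (haarON N) := fun r =>
      integrable_slice (continuous_gQ a s b r (Nat.le_succ _)) v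
    have iA : ∀ l ∈ Ioc P.L0 P.K, Integrable _ (haarON N) := fun l hl =>
      integrable_slice (cA l hl) v
    have iD : Integrable _ (haarON N) := integrable_slice cD v
    have hpin : P.pinErr a s b v = (∫ U, ((∑ l ∈ Ioc P.L0 P.K, ∑ r,
        ((P.nest s b v).mean ((glassLeaf U).logZ (quadLaw (P.lamN a b v) U)) l (fun y =>
          |(P.nest s b v).sqSum (glassLeaf U) (quadLaw (P.lamN a b v) U) (atomSet b r) l y / N -
            P.ovl a s b v r l|) +
        (P.nest s b v).mean ((glassLeaf U).logZ (quadLaw (P.lamN a b v) U)) l (fun y =>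
          (P.nest s b v).covNorm (glassLeaf U) (quadLaw (P.lamN a b v) U) (atomSet b r) l y / N)))
          / K1 + ∑ r,
        (P.nest s b v).mean ((glassLeaf U).logZ (quadLaw (P.lamN a b v) U)) P.K (fun y =>
          |(P.nest s b v).node (glassLeaf U) (quadLaw (P.lamN a b v) U) P.K (atomSq b U r) y -
            P.diag a s b v r|)) ∂haarON N) + ∑ r, ∫ U, gV a s b P r v U ∂haarON N := by
      rw [integral_add ((integrable_finsetSum _ iA).div_const _) iD, integral_div,
        integral_finsetSum _ iA, ← integral_finsetSum _ fun r _ => iV r]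
      rfl
    have hovl : ∑ r, P.ovl a s b v r P.K ≤ 1 := by
      show ∑ r, ∫ U, gQ P a s b r P.K v U ∂haarON N ≤ 1
      rw [← integral_finsetSum _ fun r _ => iQ r]
      refine (integral_mono (integrable_finsetSum _ fun r _ => iQ r) (integrable_const 1)
        fun U => ?_).trans_eq (by simp)
      exact (sum_le_sum fun r _ => (gQ_mem a s b r (Nat.le_succ _) v U).2).trans_eq
        (sum_gD a s b hN0 v U)
    have hU : ∀ U, (∑ l ∈ Ioc P.L0 P.K, ∑ r,
        ((P.nest s b v).mean ((glassLeaf U).logZ (quadLaw (P.lamN a b v) U)) l (fun y =>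
          |(P.nest s b v).sqSum (glassLeaf U) (quadLaw (P.lamN a b v) U) (atomSet b r) l y / N -
            P.ovl a s b v r l|) +
        (P.nest s b v).mean ((glassLeaf U).logZ (quadLaw (P.lamN a b v) U)) l (fun y =>
          (P.nest s b v).covNorm (glassLeaf U) (quadLaw (P.lamN a b v) U) (atomSet b r) l y / N)))
          / K1 + ∑ r,
        (P.nest s b v).mean ((glassLeaf U).logZ (quadLaw (P.lamN a b v) U)) P.K (fun y =>
          |(P.nest s b v).node (glassLeaf U) (quadLaw (P.lamN a b v) U) P.K (atomSq b U r) y -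
            P.diag a s b v r|) ≤
        (∑ r, (K1 + 1) * rnd a s b P r v U) + ((M : ℝ) * (K1 / P.eta) * tauN N + 5 / K1) := by
      intro U
      have hlev : ∀ r, ∑ l ∈ Ioc P.L0 P.K,
          ((P.nest s b v).mean ((glassLeaf U).logZ (quadLaw (P.lamN a b v) U)) l (fun y =>
            |(P.nest s b v).sqSum (glassLeaf U) (quadLaw (P.lamN a b v) U) (atomSet b r) l y / N -
              P.ovl a s b v r l|) +
          (P.nest s b v).mean ((glassLeaf U).logZ (quadLaw (P.lamN a b v) U)) l (fun y =>
            (P.nest s b v).covNorm (glassLeaf U) (quadLaw (P.lamN a b v) U) (atomSet b r) l y / N))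
          ≤ K1 * (K1 * rnd a s b P r v U + K1 / P.eta * tauN N) +
            (4 * gD P a s b r v U + P.ovl a s b v r P.K) := by
        intro r
        refine (sum_le_sum fun l hl => level_le a s b U hP hN0 hv r hl).trans ?_
        rw [sum_add_distrib, sum_add_distrib, sum_add_distrib, ← mul_sum (a := (3 : ℝ)),
          sum_ite_eq' (Ioc P.L0 P.K) P.K fun l => gD P a s b r v U + P.ovl a s b v r l,
          if_pos (mem_Ioc.2 ⟨hP.L0_le, le_rfl⟩)]
        have h1 : ∑ l ∈ Ioc P.L0 P.K, (gQ P a s b r (l + 1) v U - gQ P a s b r l v U) ≤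
            gD P a s b r v U := by
          rw [← Finset.Ico_add_one_add_one_eq_Ioc,
            sum_Ico_sub (fun l => gQ P a s b r l v U) (by have := hP.L0_le; omega)]
          linarith [(gQ_mem a s b r (le_refl (P.K + 1)) v U).2,
            (gQ_mem a s b r (show P.L0 + 1 ≤ P.K + 1 by have := hP.L0_le; omega) v U).1]
        have hR0 : 0 ≤ rnd a s b P r v U :=
          add_nonneg (sum_nonneg fun m _ => gH_nonneg a s b v U r m)
            (sum_nonneg fun m _ => abs_nonneg _)
        have h2 := levels_sum_le (K := P.K) (I := Ioc P.L0 P.K)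
          (fun m hm => mem_range.2 (Nat.lt_succ_of_le (mem_Ioc.1 hm).2))
          (K1 * rnd a s b P r v U) (mul_nonneg hK1.le hR0)
        have h3 := levels_sum_le (K := P.K) (I := Ioc P.L0 P.K)
          (fun m hm => mem_range.2 (Nat.lt_succ_of_le (mem_Ioc.1 hm).2))
          (K1 / P.eta * tauN N)
          (mul_nonneg (div_nonneg hK1.le hP.eta_pos.le) (tauN_facts hN0).1.le)
        nlinarith
      rw [sum_comm]
      refine (add_le_add (div_le_div_of_nonneg_right (sum_le_sum fun r _ => hlev r) hK1.le)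
        (sum_le_sum fun r _ => diag_le a s b U hP r)).trans ?_
      rw [sum_add_distrib, add_div, ← mul_sum, mul_div_cancel_left₀ _ hK1.ne', sum_add_distrib,
        sum_add_distrib, sum_const, card_univ, Fintype.card_fin, nsmul_eq_mul, ← mul_sum, ← mul_sum,
        ← mul_sum, sum_gD a s b hN0 v U]
      have h5 : (4 * 1 + ∑ r, P.ovl a s b v r P.K) / K1 ≤ 5 / K1 :=
        div_le_div_of_nonneg_right (by linarith) hK1.le
      linarith
    rw [hpin, sum_add_distrib]
    have h := integral_mono (((integrable_finsetSum _ iA).div_const _).fun_add iD)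
      ((integrable_finsetSum _ fun r _ => (iR r).const_mul (K1 + 1)).fun_add (integrable_const _)) hU
    rw [integral_add (integrable_finsetSum _ fun r _ => (iR r).const_mul (K1 + 1))
      (integrable_const _), integral_finsetSum _ fun r _ => (iR r).const_mul (K1 + 1),
      integral_const, probReal_univ, one_smul] at h
    simp only [integral_const_mul] at h
    linarith
  -- averaging
  have cW : ∀ r, Continuous fun v : GBox M P.K → ℝ =>
      (K1 + 1) * ∫ U, rnd a s b P r v U ∂haarON N + ∫ U, gV a s b P r v U ∂haarON N := fun r =>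
    (continuous_const.mul (continuous_haar (cR r))).add (continuous_haar (cV r))
  have iW := Box.integrable_cube (continuous_finsetSum univ fun r _ => cW r)
  refine (integral_mono_ae (Box.integrable_cube hpc) (iW.fun_add (integrable_const _))
    (Box.ae_mem_cube.mono hpt)).trans ?_
  rw [integral_add iW (integrable_const _), integral_finsetSum _ fun r _ =>
    Box.integrable_cube (cW r), integral_const, probReal_univ, one_smul]
  have hr : ∀ r, ∫ v, ((K1 + 1) * ∫ U, rnd a s b P r v U ∂haarON N + ∫ U, gV a s b P r v U ∂haarON N)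
      ∂cubeLaw (GBox M P.K) ≤ ((K1 + 1) * CR + 2 / P.du) * tauN N := by
    intro r
    rw [integral_add ((Box.integrable_cube (continuous_haar (cR r))).const_mul _)
      (Box.integrable_cube (continuous_haar (cV r))), integral_const_mul,
      add_mul ((K1 + 1) * CR) (2 / P.du) (tauN N), mul_assoc (K1 + 1) CR (tauN N)]
    refine add_le_add (mul_le_mul_of_nonneg_left ?_ (by positivity))
      ((leaf_dev a s b hP hN0 r).trans ?_)
    · have e : ∀ v, ∫ U, rnd a s b P r v U ∂haarON N =
          (∑ l ∈ Ioc P.L0 P.K, ∫ U, gH a s b P r l v U ∂haarON N) +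
            ∑ l ∈ Ioc P.L0 (P.K + 1), ∫ U, |gT P a s b r l v U - mT P a s b r l v| ∂haarON N := by
        intro v
        simp only [rnd]
        rw [integral_add (integrable_finsetSum _ fun l hl => integrable_slice (cH r l hl) v)
          (integrable_finsetSum _ fun l _ => integrable_slice (cT r l) v),
          integral_finsetSum _ fun l hl => integrable_slice (cH r l hl) v,
          integral_finsetSum _ fun l _ => integrable_slice (cT r l) v]
      simp only [e]
      have i1 : ∀ l ∈ Ioc P.L0 P.K, Integrable (fun v => ∫ U, gH a s b P r l v U ∂haarON N)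
          (cubeLaw (GBox M P.K)) := fun l hl => Box.integrable_cube (continuous_haar (cH r l hl))
      have i2 : ∀ l ∈ Ioc P.L0 (P.K + 1),
          Integrable (fun v => ∫ U, |gT P a s b r l v U - mT P a s b r l v| ∂haarON N)
            (cubeLaw (GBox M P.K)) := fun l _ => Box.integrable_cube (continuous_haar (cT r l))
      rw [integral_add (integrable_finsetSum _ i1) (integrable_finsetSum _ i2),
        integral_finsetSum _ i1, integral_finsetSum _ i2, add_mul, mul_assoc, mul_assoc]
      refine add_le_add ((sum_le_sum fun l hl => hC₁ hN a s hs b r l hl).trans_eq ?_)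
        ((sum_le_sum fun l hl => hC₂ hN a ha s hs b r l ?_).trans_eq ?_)
      · rw [sum_const, nsmul_eq_mul]
      · rw [mem_Ioc] at hl
        exact ⟨hl.2, fun h => by omega⟩
      · rw [sum_const, nsmul_eq_mul]
    · rw [mul_comm P.du, ← div_div, div_mul_eq_mul_div]
      refine div_le_div_of_nonneg_right ?_ hP.du_pos.le
      rw [div_eq_mul_one_div]
      exact mul_le_mul_of_nonneg_left (tauN_facts hN0).2.2.2 zero_le_two
  have h := (sum_le_sum fun r _ => hr r).trans_eq (by
    rw [sum_const, card_univ, Fintype.card_fin, nsmul_eq_mul] :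
    ∑ _r : Fin M, ((K1 + 1) * CR + 2 / P.du) * tauN N = (M : ℝ) * (((K1 + 1) * CR + 2 / P.du) * tauN N))
  have e : (M : ℝ) * (((K1 + 1) * CR + 2 / P.du) * tauN N) + (M : ℝ) * (K1 / P.eta) * tauN N =
      CC * tauN N := by
    simp only [CC]
    ring
  linarith

end Vale.Agent.P166.Parisi
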