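import Vale.Agent.P166.Parisi.LoopRot

/-!
The derivatives of the mean products along the rotations, summed over two sets of coordinates, are
the entries of the loop equations up to the deviations.
-/

set_option linter.unusedSectionVars false

namespace Vale.Agent.P166.Parisi.Loop

open MeasureTheory ProbabilityTheory Finset
open Vale.Agent.P157 Vale.Agent.P157.Parisi

variable {ι : Type} [Fintype ι] {Ω κ : Type} [Fintype κ] [MeasurableSpace Ω]
variable {N : Nest ι} {L : Leaf Ω κ ι} {μ : Measure Ω} [IsProbabilityMeasure μ] {B : ℝ}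

/-- The entry of the loop equations at level `l`. -/
noncomputable def lvlVal (N : Nest ι) (m : ℕ) (p q c dS dT : ℝ) (aS aT : ℕ → ℝ) (l : ℕ) : ℝ :=
  p * aT l - q * aS l + c * (dS * aT l + dT * aS l - N.x (l + 1) * (aS l * aT l) -
    aS l * ∑ j ∈ Ioc l m, N.w j * aT j - aT l * ∑ j ∈ Ioc l m, N.w j * aS j -
    ∑ j ∈ range (l + 1), N.w j * (aS j * aT j))

/-- The entry of the loop equations at the leaf. -/
noncomputable def topVal (N : Nest ι) (m : ℕ) (p q c dS dT : ℝ) (aS aT : ℕ → ℝ) : ℝ :=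
  p * dT - q * dS + c * (dS * dT - ∑ j ∈ range (m + 1), N.w j * (aS j * aT j))

variable (hN : N.Good) (hL : L.Good B) {n : ℝ} (hn : 0 < n)
variable {S T R : Finset ι} (hS : ∀ ω y, ∑ i ∈ S, L.vec i ω y ^ 2 ≤ n)
variable (hT : ∀ ω y, ∑ i ∈ T, L.vec i ω y ^ 2 ≤ n) (hSR : S ⊆ R) (hTR : T ⊆ R)

include hN in
lemma x_mem {l : ℕ} (hl : l ≤ N.K + 1) : 0 ≤ N.x l ∧ N.x l ≤ 1 := by
  constructor
  · induction l with
    | zero => rw [hN.x_zero]
    | succ j ih => exact (ih (by omega)).trans (hN.x_mono j (by omega))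
  · induction hl using Nat.decreasingInduction with
    | self => rw [hN.x_last]
    | of_succ j hj ih => exact (hN.x_mono j (Nat.lt_succ_iff.1 hj)).trans ih

include hN in
lemma w_sum_le {A : Finset ℕ} (hA : A ⊆ range (N.K + 1)) : ∑ j ∈ A, N.w j ≤ 1 := by
  refine (sum_le_sum_of_subset_of_nonneg hA fun j hj _ =>
    sub_nonneg.2 (hN.x_mono j (Nat.lt_succ_iff.1 (mem_range.1 hj)))).trans_eq ?_
  rw [sum_range_sub N.x, hN.x_last, hN.x_zero, sub_zero]

include hN hL in
lemma mean_mat {l : ℕ} (hl : l ≤ N.K) {f : ι → ι → (ι → ℝ) → ℝ} (hf : ∀ i k, Tame (f i k)) :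
    (∑ i ∈ S, ∑ k ∈ T, N.mean (L.logZ μ) l (f i k)) / n ^ 2 =
      N.mean (L.logZ μ) l fun y => (∑ i ∈ S, ∑ k ∈ T, f i k y) / n ^ 2 := by
  have hR := reg (μ := μ) hN hL
  simp only [div_eq_inv_mul]
  rw [mean_mul'', mean_sum'' hR hl S fun i _ => tame_sum T fun k _ => hf i k]
  congr 1
  exact sum_congr rfl fun i _ => (mean_sum'' hR hl T fun k _ => hf i k).symm

include hN hL in
lemma pair_mat {l j : ℕ} (h : l ≤ j) (hl : l ≤ N.K) {f : ι → ι → (ι → ℝ) → (ι → ℝ) → ℝ}
    (hf : ∀ i k, Ker (f i k)) :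
    (∑ i ∈ S, ∑ k ∈ T, pair N (L.logZ μ) l j (f i k)) / n ^ 2 =
      pair N (L.logZ μ) l j fun y w => (∑ i ∈ S, ∑ k ∈ T, f i k y w) / n ^ 2 := by
  have hR := reg (μ := μ) hN hL
  simp only [div_eq_inv_mul]
  rw [pair_mul h, pair_sum hR h hl S fun i _ => ker_sum T fun k _ => hf i k]
  congr 1
  exact sum_congr rfl fun i _ => (pair_sum hR h hl T fun k _ => hf i k).symm

include hN hL in
lemma dObs_sum {l : ℕ} (hl : l ≤ N.K) (c : ℝ) (S T : Finset ι) :
    (∑ i ∈ S, ∑ k ∈ T,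
        N.mean (L.logZ μ) l (fun y => N.grad L μ l k y * dObs N L μ c l i k y)) / n ^ 2 =
      N.mean (L.logZ μ) l (fun y => (∑ i ∈ S, ∑ k ∈ T,
          N.grad L μ l k y * N.down (L.logZ μ) l (oDer L μ c i k) y) / n ^ 2) -
      N.x (l + 1) * N.mean (L.logZ μ) l (fun y => (∑ i ∈ S, ∑ k ∈ T,
          N.grad L μ l i y * N.grad L μ l k y * N.down (L.logZ μ) l (hDer L μ c i k) y) / n ^ 2) -
      ∑ j ∈ Ioc l N.K, N.w j * pair N (L.logZ μ) l j (fun y v => (∑ i ∈ S, ∑ k ∈ T,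
          N.grad L μ j i v * N.grad L μ l k y * N.down (L.logZ μ) j (hDer L μ c i k) v) / n ^ 2) := by
  have hR := reg (μ := μ) hN hL
  have tG : ∀ k, Tame (N.grad L μ l k) := fun k => grad_tame hN hL hl k
  have tO : ∀ i k, Tame (N.down (L.logZ μ) l (oDer L μ c i k)) :=
    fun i k => down_tame' hR hl (oDer_tame hN hL c i k)
  have tD : ∀ j, j ≤ N.K → ∀ i k, Tame (N.down (L.logZ μ) j (hDer L μ c i k)) :=
    fun j hj i k => down_tame' hR hj (hDer_tame hN hL c i k)
  have tS : ∀ i k, ∀ j ∈ Ioc l N.K, Tame fun y => N.grad L μ l k y * (N.w j *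
      chain N (L.logZ μ) l j
        (fun v => N.grad L μ j i v * N.down (L.logZ μ) j (hDer L μ c i k) v) y) :=
    fun i k j hj => (tG k).mul ((chain_tame hR (mem_Ioc.1 hj).1.le
      ((grad_tame hN hL (mem_Ioc.1 hj).2 i).mul (tD j (mem_Ioc.1 hj).2 i k))).const_mul _)
  have e : ∀ i k, N.mean (L.logZ μ) l (fun y => N.grad L μ l k y * dObs N L μ c l i k y) =
      N.mean (L.logZ μ) l (fun y => N.grad L μ l k y * N.down (L.logZ μ) l (oDer L μ c i k) y) -
        N.x (l + 1) * N.mean (L.logZ μ) l (fun y =>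
          N.grad L μ l i y * N.grad L μ l k y * N.down (L.logZ μ) l (hDer L μ c i k) y) -
        ∑ j ∈ Ioc l N.K, N.w j * pair N (L.logZ μ) l j (fun y v =>
          N.grad L μ j i v * N.grad L μ l k y * N.down (L.logZ μ) j (hDer L μ c i k) v) := by
    intro i k
    have e1 : (fun y => N.grad L μ l k y * dObs N L μ c l i k y) = fun y =>
        N.grad L μ l k y * N.down (L.logZ μ) l (oDer L μ c i k) y -
          N.x (l + 1) *
            (N.grad L μ l i y * N.grad L μ l k y * N.down (L.logZ μ) l (hDer L μ c i k) y) -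
          ∑ j ∈ Ioc l N.K, N.grad L μ l k y * (N.w j * chain N (L.logZ μ) l j
            (fun v => N.grad L μ j i v * N.down (L.logZ μ) j (hDer L μ c i k) v) y) := by
      funext y; rw [dObs, ← mul_sum]; ring
    have t1 := (tG k).mul (tO i k)
    have t2 := (((tG i).mul (tG k)).mul (tD l hl i k)).const_mul (N.x (l + 1))
    rw [e1, mean_sub'' hR hl (t1.sub t2) (tame_sum _ (tS i k)), mean_sub'' hR hl t1 t2, mean_mul'',
      mean_sum'' hR hl _ (tS i k)]
    refine congrArg₂ _ rfl (sum_congr rfl fun j hj => ?_)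
    rw [pair, ← mean_mul'']
    refine congrArg _ (funext fun y => ?_)
    beta_reduce
    rw [show (fun v => N.grad L μ j i v * N.grad L μ l k y * N.down (L.logZ μ) j (hDer L μ c i k) v) =
      fun v => N.grad L μ l k y * (N.grad L μ j i v * N.down (L.logZ μ) j (hDer L μ c i k) v) from
      funext fun v => by ring, chain_mul (mem_Ioc.1 hj).1.le]
    ring
  simp only [e, sum_sub_distrib, sub_div]
  refine congrArg₂ _ (congrArg₂ _ (mean_mat hN hL hl fun i k => (tG k).mul (tO i k)) ?_) ?_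
  · simp only [← mul_sum, mul_div_assoc]
    rw [mean_mat hN hL hl fun i k => ((tG i).mul (tG k)).mul (tD l hl i k)]
  · rw [sum_congr rfl (fun i (_ : i ∈ S) => sum_comm), sum_comm, sum_div]
    refine sum_congr rfl fun j hj => ?_
    simp only [← mul_sum, mul_div_assoc]
    rw [pair_mat hN hL (mem_Ioc.1 hj).1.le hl fun i k =>
      ((ker_snd (grad_tame hN hL (mem_Ioc.1 hj).2 i)).mul (ker_fst (tG k))).mul
        (ker_snd (tD j (mem_Ioc.1 hj).2 i k))]

include hN hL hn hS hT in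
lemma crude_lower {j l : ℕ} (h : j ≤ l) (hl : l ≤ N.K) (aS aT : ℝ) (haS : |aS| ≤ 1)
    (haT : |aT| ≤ 1) :
    |pair N (L.logZ μ) j l (fun y v => (∑ i ∈ S, ∑ k ∈ T,
        N.grad L μ l i v * N.grad L μ l k v * two N L μ j i k y) / n ^ 2) - aS * aT| ≤ 2 := by
  have hR := reg (μ := μ) hN hL
  have hj : j ≤ N.K := h.trans hl
  have hk : Ker fun y v => (∑ i ∈ S, ∑ k ∈ T,
      N.grad L μ l i v * N.grad L μ l k v * two N L μ j i k y) / n ^ 2 := by
    simpa only [div_eq_inv_mul] using (ker_sum S fun i _ => ker_sum T fun k _ =>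
      ((ker_snd (grad_tame (μ := μ) hN hL hl i)).mul (ker_snd (grad_tame (μ := μ) hN hL hl k))).mul
        (ker_fst (two_tame (μ := μ) hN hL hj i k))).const_mul (n ^ 2)⁻¹
  have h1 := abs_pair_sub_le hR h hj 0 hk (ker_fst (tame_const 1)) fun y v => by
    rw [sub_zero]
    exact (bilin_two (μ := μ) hN hL hn hS hT hj (sqSum_le_n (μ := μ) hN hL hn hS hl v).1
      (sqSum_le_n (μ := μ) hN hL hn hT hl v).1 y).2
  rw [sub_zero, pair_fst hR h, mean_const'' hR] at h1
  refine (abs_sub _ _).trans ?_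
  rw [abs_mul]
  nlinarith [abs_nonneg aS, abs_nonneg aT]

include hN hL hn hS hT in
lemma crude_two {j : ℕ} (hj : j ≤ N.K) (aS aT : ℝ) (haS : |aS| ≤ 1) (haT : |aT| ≤ 1) :
    |N.mean (L.logZ μ) j (fun y => (∑ i ∈ S, ∑ k ∈ T, two N L μ j i k y ^ 2) / n ^ 2) - aS * aT| ≤
      2 := by
  have hR := reg (μ := μ) hN hL
  have ht : Tame fun y => (∑ i ∈ S, ∑ k ∈ T, two N L μ j i k y ^ 2) / n ^ 2 := by
    simpa only [div_eq_inv_mul] using (tame_sum S fun i _ => tame_sum T fun k _ =>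
      (two_tame (μ := μ) hN hL hj i k).sq).const_mul (n ^ 2)⁻¹
  have h1 := abs_mean_le hR hj ht (tame_const 1) fun y => by
    rw [abs_div, abs_of_pos (by positivity : 0 < n ^ 2), div_le_one (by positivity),
      abs_of_nonneg (sum_nonneg fun _ _ => sum_nonneg fun _ _ => sq_nonneg _)]
    exact two_sq_le hN hL hn hS hT hj y
  rw [mean_const'' hR] at h1
  refine (abs_sub _ _).trans ?_
  rw [abs_mul]
  nlinarith [abs_nonneg aS, abs_nonneg aT]

lemma sum_weight_le {A : Finset ℕ} {w f g : ℕ → ℝ} {a b : ℝ} (hw : ∀ j ∈ A, 0 ≤ w j)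
    (h : ∀ j ∈ A, |f j - g j| ≤ a * w j + b) :
    |∑ j ∈ A, w j * f j - ∑ j ∈ A, w j * g j| ≤ a * ∑ j ∈ A, w j * w j + b * ∑ j ∈ A, w j := by
  rw [← sum_sub_distrib, mul_sum, mul_sum, ← sum_add_distrib]
  refine (abs_sum_le_sum_abs _ _).trans (sum_le_sum fun j hj => ?_)
  rw [← mul_sub, abs_mul, abs_of_nonneg (hw j hj)]
  have := mul_le_mul_of_nonneg_left (h j hj) (hw j hj)
  linarith

/-- A weighted sum of errors split into a multiple of the error and a constant. -/
lemma abs_weight_le {A : Finset ℕ} {w f g E : ℕ → ℝ} {k b : ℝ} (hb : 0 ≤ b)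
    (hw : ∀ j ∈ A, 0 ≤ w j) (hA : ∑ j ∈ A, w j ≤ 1) (h : ∀ j ∈ A, |f j - g j| ≤ k * E j + b) :
    |∑ j ∈ A, w j * f j - ∑ j ∈ A, w j * g j| ≤ k * ∑ j ∈ A, w j * E j + b := by
  rw [← sum_sub_distrib]
  refine (abs_sum_le_sum_abs _ _).trans ?_
  calc ∑ j ∈ A, |w j * f j - w j * g j| ≤ ∑ j ∈ A, (k * (w j * E j) + w j * b) := by
        refine sum_le_sum fun j hj => ?_
        rw [← mul_sub, abs_mul, abs_of_nonneg (hw j hj)]
        have := mul_le_mul_of_nonneg_left (h j hj) (hw j hj)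
        linarith
    _ ≤ _ := by
        rw [sum_add_distrib, ← mul_sum, ← sum_mul]
        exact add_le_add le_rfl (mul_le_of_le_one_left hb hA)

variable {m L0 : ℕ} (hm : N.K = m + 1) (hw : N.w (m + 1) = 0) {c dS dT φ δS δT H τ t : ℝ}
variable {aS aT : ℕ → ℝ} (haS : ∀ j, |aS j| ≤ 1) (haT : ∀ j, |aT j| ≤ 1)
variable (hdS : |dS| ≤ 1) (hdT : |dT| ≤ 1) (hp : (S.card : ℝ) ≤ n) (hp' : (T.card : ℝ) ≤ n)
variable (hφ : N.mean (L.logZ μ) N.K (fieldLen n R) ≤ φ)
variable (hδS : N.mean (L.logZ μ) N.K (L.gibbs μ fun ω v => |lsq L n S ω v - dS|) ≤ δS)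
variable (hδT : N.mean (L.logZ μ) N.K (L.gibbs μ fun ω v => |lsq L n T ω v - dT|) ≤ δT)
variable (hH : ∀ A ⊆ Ioc L0 m,
  ∑ j ∈ A, N.w j * (eta N L μ n S (aS j) j + eta N L μ n T (aT j) j) ≤ H)
variable (hτ : ∑ j ∈ range (L0 + 1), N.w j ≤ τ) (ht : 0 < t)

include hN hL hn hS hT hSR hTR hm hw haS haT hdS hdT hp hp' hφ hδS hδT hH hτ ht in
/-- The summed derivative at a level with fields. -/
theorem lvl_bound {l : ℕ} (hl0 : L0 < l) (hl : l ≤ m) :
    |(∑ i ∈ S, ∑ k ∈ T, lvlDer N L μ c l i k) / n ^ 2 -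
        lvlVal N m ((S.card : ℝ) / n) ((T.card : ℝ) / n) c dS dT aS aT l| ≤
      (1 + |c|) * (7 * (eta N L μ n S (aS l) l + eta N L μ n T (aT l) l) + (δS + δT) +
        (3 + 1 / (2 * t)) * H + 2 * τ + t) + 20 * φ := by
  have hR := reg (μ := μ) hN hL
  have hl' : l ≤ N.K := by omega
  have hw0 : ∀ j, j ≤ N.K → 0 ≤ N.w j := fun j hj => sub_nonneg.2 (hN.x_mono j hj)
  have hφ0 : 0 ≤ φ := by
    have h := mean_mono'' hR N.K (tame_const 0) (tame_fieldLen (n := n) R)
      fun y => div_nonneg (Real.sqrt_nonneg _) (Real.sqrt_nonneg _)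
    rw [mean_const'' hR] at h
    exact h.trans hφ
  -- the split of the derivative
  have e : (∑ i ∈ S, ∑ k ∈ T, lvlDer N L μ c l i k) / n ^ 2 =
      (∑ i ∈ S, ∑ k ∈ T,
          N.mean (L.logZ μ) l (fun y => N.grad L μ l k y * dObs N L μ c l i k y)) / n ^ 2 -
        (∑ k ∈ T, ∑ i ∈ S,
          N.mean (L.logZ μ) l (fun y => N.grad L μ l i y * dObs N L μ (-c) l k i y)) / n ^ 2 +
        N.x l * N.mean (L.logZ μ) l (fun y => (∑ i ∈ S, ∑ k ∈ T,
          N.grad L μ l i y * N.grad L μ l k y * N.down (L.logZ μ) l (hDer L μ c i k) y) / n ^ 2) -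
        ∑ j ∈ range l, N.w j * pair N (L.logZ μ) j l (fun y v => (∑ i ∈ S, ∑ k ∈ T,
          N.grad L μ l i v * N.grad L μ l k v * N.down (L.logZ μ) j (hDer L μ c i k) y) / n ^ 2) := by
    simp only [lvlDer, sum_sub_distrib, sum_add_distrib, sub_div, add_div]
    refine congrArg₂ _ (congrArg₂ _ (congrArg₂ _ rfl (congrArg (· / n ^ 2) sum_comm)) ?_) ?_
    · simp only [← mul_sum, mul_div_assoc]
      rw [mean_mat hN hL hl' fun i k => ((grad_tame hN hL hl' i).mul (grad_tame hN hL hl' k)).mul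
        (down_tame' hR hl' (hDer_tame hN hL c i k))]
    · rw [sum_congr rfl (fun i (_ : i ∈ S) => sum_comm), sum_comm, sum_div]
      refine sum_congr rfl fun j hj => ?_
      have hjl : j ≤ l := (mem_range.1 hj).le
      simp only [← mul_sum, mul_div_assoc]
      rw [← pair_mat hN hL hjl (hjl.trans hl') fun i k =>
        ((ker_snd (grad_tame hN hL hl' i)).mul (ker_snd (grad_tame hN hL hl' k))).mul
          (ker_fst (down_tame' hR (hjl.trans hl') (hDer_tame hN hL c i k)))]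
      refine congrArg (N.w j * ·) (congrArg (· / n ^ 2) ?_)
      refine sum_congr rfl fun i _ => sum_congr rfl fun k _ => ?_
      rw [← pair_prod hjl]
      simp only [mul_comm (N.down (L.logZ μ) j _ _)]
  rw [e, dObs_sum hN hL hl' c S T, dObs_sum hN hL hl' (-c) T S]
  -- the estimates
  set η := fun j => eta N L μ n S (aS j) j + eta N L μ n T (aT j) j with hη
  have eS : ∀ j, j ≤ N.K → 0 ≤ eta N L μ n S (aS j) j := fun j hj => eta_nonneg hN hL hn hj S _
  have eT : ∀ j, j ≤ N.K → 0 ≤ eta N L μ n T (aT j) j := fun j hj => eta_nonneg hN hL hn hj T _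
  have o1 := obs_term (μ := μ) hN hL hn hS hT hSR hTR hl' c dS (aT l) φ δS hdS hp hφ hδS
  have o2 := obs_term (μ := μ) hN hL hn hT hS hTR hSR hl' (-c) dT (aS l) φ δT hdT hp' hφ hδT
  have s1 := same_term (μ := μ) hN hL hn hS hT hSR hTR hl' c _ _ φ hφ
    (same_level (μ := μ) hN hL hn hS hT hl' (aS l) (aT l) (haT l))
  have s2 := same_term (μ := μ) hN hL hn hT hS hTR hSR hl' (-c) _ _ φ hφ
    (same_level (μ := μ) hN hL hn hT hS hl' (aT l) (aS l) (haS l))
  rw [abs_neg] at o2 s2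
  obtain ⟨hx0, hx1⟩ := x_mem hN (show l + 1 ≤ N.K + 1 by omega)
  obtain ⟨hx0', hx1'⟩ := x_mem hN (show l ≤ N.K + 1 by omega)
  have hhi : ∀ j ∈ Ioc l m, j ∈ Ioc L0 m ∧ l ≤ j ∧ j ≤ N.K := fun j hj => by
    simp only [mem_Ioc] at hj ⊢; omega
  have wI : ∀ j ∈ Ioc l m, 0 ≤ N.w j := fun j hj => hw0 j (hhi j hj).2.2
  have wIs : ∑ j ∈ Ioc l m, N.w j ≤ 1 :=
    w_sum_le hN fun j hj => mem_range.2 (by have := (hhi j hj).2.2; omega)
  have hsub : Ioc l m ⊆ Ioc L0 m := fun j hj => (hhi j hj).1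
  have h1 : |∑ j ∈ Ioc l m, N.w j * pair N (L.logZ μ) l j (fun y v => (∑ i ∈ S, ∑ k ∈ T,
      N.grad L μ j i v * N.grad L μ l k y * N.down (L.logZ μ) j (hDer L μ c i k) v) / n ^ 2) -
      ∑ j ∈ Ioc l m, N.w j * (c * (aS j * aT l))| ≤
      |c| * (H + eta N L μ n T (aT l) l) + 2 * φ := by
    refine (abs_weight_le (k := |c|) (b := 2 * φ) (E := fun j => η j + eta N L μ n T (aT l) l) (by positivity)
      wI wIs fun j hj => higher_term (μ := μ) hN hL hn hS hT hSR hTR (hhi j hj).2.1 (hhi j hj).2.2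
        c _ _ φ hφ (higher_level hN hL hn hS hT (hhi j hj).2.1 (hhi j hj).2.2 (aS j) (aT j) (aT l)
          (haS j))).trans ?_
    refine add_le_add (mul_le_mul_of_nonneg_left ?_ (abs_nonneg c)) le_rfl
    simp only [mul_add, sum_add_distrib, ← sum_mul]
    exact add_le_add (hH _ hsub) (mul_le_of_le_one_left (eT l hl') wIs)
  have h2 : |∑ j ∈ Ioc l m, N.w j * pair N (L.logZ μ) l j (fun y v => (∑ i ∈ T, ∑ k ∈ S,
      N.grad L μ j i v * N.grad L μ l k y * N.down (L.logZ μ) j (hDer L μ (-c) i k) v) / n ^ 2) -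
      ∑ j ∈ Ioc l m, N.w j * (-c * (aT j * aS l))| ≤
      |c| * (H + eta N L μ n S (aS l) l) + 2 * φ := by
    refine (abs_weight_le (k := |c|) (b := 2 * φ) (E := fun j => η j + eta N L μ n S (aS l) l) (by positivity)
      wI wIs fun j hj => ?_).trans ?_
    · have := higher_term (μ := μ) hN hL hn hT hS hTR hSR (hhi j hj).2.1 (hhi j hj).2.2 (-c) _ _ φ hφ
        (higher_level hN hL hn hT hS (hhi j hj).2.1 (hhi j hj).2.2 (aT j) (aS j) (aS l) (haT j))
      rw [abs_neg] at this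
      refine this.trans (le_of_eq ?_)
      simp only [η]; ring
    refine add_le_add (mul_le_mul_of_nonneg_left ?_ (abs_nonneg c)) le_rfl
    simp only [mul_add, sum_add_distrib, ← sum_mul]
    exact add_le_add (hH _ hsub) (mul_le_of_le_one_left (eS l hl') wIs)
  have h3 : |∑ j ∈ range l, N.w j * pair N (L.logZ μ) j l (fun y v => (∑ i ∈ S, ∑ k ∈ T,
      N.grad L μ l i v * N.grad L μ l k v * N.down (L.logZ μ) j (hDer L μ c i k) y) / n ^ 2) -
      ∑ j ∈ range l, N.w j * (c * (aS j * aT j))| ≤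
      |c| * (2 * τ + (1 + 1 / (2 * t)) * H + t) + 2 * φ := by
    have wR : ∀ j ∈ range l, 0 ≤ N.w j := fun j hj => hw0 j (by have := mem_range.1 hj; omega)
    have hsR : range l ⊆ range (N.K + 1) := range_subset_range.2 (by omega)
    refine (abs_weight_le (k := |c|) (b := 2 * φ)
      (E := fun j => if j ≤ L0 then 2 else (1 + 1 / (2 * t)) * η j + t)
      (by positivity) wR (w_sum_le hN hsR) fun j hj => ?_).trans ?_
    · have hjl : j ≤ l := (mem_range.1 hj).le
      refine lower_term (μ := μ) hN hL hn hS hT hSR hTR hjl hl' c _ _ φ hφ ?_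
      split_ifs with hj0
      · exact crude_lower hN hL hn hS hT hjl hl' _ _ (haS j) (haT j)
      · exact lower_level hN hL hn hS hT hjl hl' _ _ (haT j) ht
    refine add_le_add (mul_le_mul_of_nonneg_left ?_ (abs_nonneg c)) le_rfl
    simp only [mul_ite, sum_ite]
    have hlo : ∑ j ∈ (range l).filter (fun j => j ≤ L0), N.w j * 2 ≤ 2 * τ := by
      rw [← sum_mul, mul_comm]
      refine mul_le_mul_of_nonneg_left ((sum_le_sum_of_subset_of_nonneg (fun j hj => ?_)
        fun j hj _ => hw0 j (by have := mem_range.1 hj; omega)).trans hτ) zero_le_two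
      simp only [mem_filter, mem_range] at hj ⊢; omega
    have hhigh : ∑ j ∈ (range l).filter (fun j => ¬j ≤ L0), N.w j * ((1 + 1 / (2 * t)) * η j + t) ≤
        (1 + 1 / (2 * t)) * H + t := by
      simp only [mul_add, sum_add_distrib, ← sum_mul, mul_left_comm (N.w _), ← mul_sum]
      refine add_le_add (mul_le_mul_of_nonneg_left (hH _ fun j hj => ?_) (by positivity))
        (mul_le_of_le_one_left ht.le (w_sum_le hN ((filter_subset _ _).trans hsR)))
      simp only [mem_filter, mem_range, mem_Ioc] at hj ⊢; omega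
    linarith
  have a1 : ∀ {X v E x : ℝ}, |X - v| ≤ E → 0 ≤ x → x ≤ 1 → |x * X - x * v| ≤ E :=
    fun {X v E x} h h0 hx => by
      rw [← mul_sub, abs_mul, abs_of_nonneg h0]
      exact (mul_le_of_le_one_left (abs_nonneg _) hx).trans h
  have b1 := a1 s1 hx0 hx1
  have b2 := a1 s2 hx0 hx1
  have b3 := a1 s1 hx0' hx1'
  have htop : ∀ f : ℕ → ℝ, ∑ j ∈ Ioc l N.K, N.w j * f j = ∑ j ∈ Ioc l m, N.w j * f j := fun f => by
    rw [hm, sum_Ioc_succ_top hl, hw, zero_mul, add_zero]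
  simp only [htop]
  have ev : lvlVal N m ((S.card : ℝ) / n) ((T.card : ℝ) / n) c dS dT aS aT l =
      (((S.card : ℝ) / n * aT l + c * (dS * aT l)) - N.x (l + 1) * (c * (aS l * aT l)) -
          ∑ j ∈ Ioc l m, N.w j * (c * (aS j * aT l))) -
        (((T.card : ℝ) / n * aS l + -c * (dT * aS l)) - N.x (l + 1) * (-c * (aT l * aS l)) -
          ∑ j ∈ Ioc l m, N.w j * (-c * (aT j * aS l))) +
        N.x l * (c * (aS l * aT l)) - ∑ j ∈ range l, N.w j * (c * (aS j * aT j)) := by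
    have e1 : ∀ (r : ℝ) (f g : ℕ → ℝ) (u : ℝ), ∑ j ∈ Ioc l m, N.w j * (r * (f j * u)) =
        r * u * ∑ j ∈ Ioc l m, N.w j * f j := fun r f g u => by
      rw [mul_sum]; exact sum_congr rfl fun j _ => by ring
    rw [lvlVal, e1 c aS aS, e1 (-c) aT aT, sum_range_succ]
    simp only [mul_left_comm (N.w _) c, ← mul_sum]
    rw [show N.x l = N.x (l + 1) - N.w l by rw [Nest.w]; ring]
    ring
  rw [ev]
  have hη0 : 0 ≤ η l := add_nonneg (eS l hl') (eT l hl')
  have hH0 : 0 ≤ H := by simpa using hH ∅ (empty_subset _)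
  have hτ0 : 0 ≤ τ :=
    le_trans (sum_nonneg fun j hj => hw0 j (by have := mem_range.1 hj; omega)) hτ
  have hdev : ∀ (S : Finset ι) (d δ : ℝ), Obs (lsq L n S) →
      N.mean (L.logZ μ) N.K (L.gibbs μ fun ω v => |lsq L n S ω v - d|) ≤ δ → 0 ≤ δ := by
    intro S d δ ho h
    have oa := obs_abs_sub (a := d) (N := N) hN hL ho
    have h0 := mean_mono'' hR N.K (tame_const 0) (tame_gibbs (μ := μ) hL oa) fun v => by
      simp only [← node_top (μ := μ) hN hL]
      refine (node_const (μ := μ) hN hL le_rfl 0 v).symm.trans_le ?_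
      exact node_mono hN hL le_rfl (obs_const 0) oa (fun ω w => abs_nonneg _) v
    rw [mean_const'' hR] at h0
    exact h0.trans h
  have dS0 : 0 ≤ δS := hdev S dS δS (obs_lsq hN hL hn hS) hδS
  have dT0 : 0 ≤ δT := hdev T dT δT (obs_lsq hN hL hn hT) hδT
  have hG0 : 0 ≤ eta N L μ n S (aS l) l := eS l hl'
  have hG1 : 0 ≤ eta N L μ n T (aT l) l := eT l hl'
  have n1 : 0 ≤ (1 + |c|) * (1 / (2 * t) * H) := by positivity
  have n2 : 0 ≤ 1 / (2 * t) * H := by positivity
  simp only [η] at hη0 h1 h2 h3 ⊢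
  rw [abs_le] at o1 o2 b1 b2 b3 h1 h2 h3 ⊢
  simp only [add_mul, one_mul, mul_add] at *
  constructor <;> linarith

include hN hL hn hS hT hSR hTR hm hw haS haT hdS hdT hp hp' hφ hδS hδT hH hτ ht in
/-- The summed derivative at the leaf. -/
theorem top_bound (hL0 : L0 ≤ m) :
    |(∑ i ∈ S, ∑ k ∈ T, topDer N L μ c i k) / n ^ 2 -
        topVal N m ((S.card : ℝ) / n) ((T.card : ℝ) / n) c dS dT aS aT| ≤
      (1 + |c|) * (δS + δT + 2 * τ + 2 * H) + 4 * φ := by
  have hR := reg (μ := μ) hN hL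
  have hw0 : ∀ j, j ≤ N.K → 0 ≤ N.w j := fun j hj => sub_nonneg.2 (hN.x_mono j hj)
  have hj' : ∀ j ∈ range (N.K + 1), j ≤ N.K := fun j hj => Nat.lt_succ_iff.1 (mem_range.1 hj)
  have e : (∑ i ∈ S, ∑ k ∈ T, topDer N L μ c i k) / n ^ 2 =
      N.mean (L.logZ μ) N.K (fun y => (∑ i ∈ S, ∑ k ∈ T,
          N.down (L.logZ μ) N.K (pDer L μ c i k) y) / n ^ 2) -
        ∑ j ∈ range (m + 1), N.w j * N.mean (L.logZ μ) j (fun y => (∑ i ∈ S, ∑ k ∈ T,
          two N L μ j i k y * N.down (L.logZ μ) j (hDer L μ c i k) y) / n ^ 2) := by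
    simp only [topDer, sum_sub_distrib, sub_div]
    refine congrArg₂ _ ?_ ?_
    · simp only [down_top le_rfl]
      exact mean_mat hN hL le_rfl fun i k => pDer_tame hN hL c i k
    · rw [sum_congr rfl (fun i (_ : i ∈ S) => sum_comm), sum_comm, sum_div, hm,
        sum_range_succ _ (m + 1), hw]
      simp only [zero_mul, sum_const_zero, zero_div, add_zero]
      refine sum_congr rfl fun j hj => ?_
      have : j ≤ N.K := by have := mem_range.1 hj; omega
      simp only [← mul_sum, mul_div_assoc]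
      rw [mean_mat hN hL this fun i k =>
        (two_tame hN hL this i k).mul (down_tame' hR this (hDer_tame hN hL c i k))]
  rw [e]
  have h1 := prod_term (μ := μ) hN hL hn hS hT hSR hTR le_rfl c dS dT φ δS δT hdT hp hp' hφ hδS hδT
  have wR : ∀ j ∈ range (m + 1), 0 ≤ N.w j := fun j hj => hw0 j (by have := mem_range.1 hj; omega)
  have hsR : range (m + 1) ⊆ range (N.K + 1) := range_subset_range.2 (by omega)
  have hφ0 : 0 ≤ φ := by
    have h := mean_mono'' hR N.K (tame_const 0) (tame_fieldLen (n := n) R)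
      fun y => div_nonneg (Real.sqrt_nonneg _) (Real.sqrt_nonneg _)
    rw [mean_const'' hR] at h
    exact h.trans hφ
  have h2 : |∑ j ∈ range (m + 1), N.w j * N.mean (L.logZ μ) j (fun y => (∑ i ∈ S, ∑ k ∈ T,
      two N L μ j i k y * N.down (L.logZ μ) j (hDer L μ c i k) y) / n ^ 2) -
      ∑ j ∈ range (m + 1), N.w j * (c * (aS j * aT j))| ≤ |c| * (2 * τ + 2 * H) + 2 * φ := by
    refine (abs_weight_le (k := |c|) (b := 2 * φ)
      (E := fun j => if j ≤ L0 then 2 else
        2 * (eta N L μ n S (aS j) j + eta N L μ n T (aT j) j))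
      (by positivity) wR (w_sum_le hN hsR) fun j hj => ?_).trans ?_
    · have hj : j ≤ N.K := by have := mem_range.1 hj; omega
      refine two_term (μ := μ) hN hL hn hS hT hSR hTR hj c _ _ φ hφ ?_
      split_ifs with hj0
      · exact crude_two hN hL hn hS hT hj _ _ (haS j) (haT j)
      · exact two_sq hN hL hn hS hT hj _ _ (haT j)
    refine add_le_add (mul_le_mul_of_nonneg_left ?_ (abs_nonneg c)) le_rfl
    simp only [mul_ite, sum_ite]
    simp only [mul_left_comm (N.w _) 2, mul_comm (N.w _) 2, ← mul_sum]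
    refine add_le_add (mul_le_mul_of_nonneg_left ((sum_le_sum_of_subset_of_nonneg (fun j hj => ?_)
        fun j hj _ => hw0 j (by have := mem_range.1 hj; omega)).trans hτ) zero_le_two)
      (mul_le_mul_of_nonneg_left (hH _ fun j hj => ?_) zero_le_two)
    · simp only [mem_filter, mem_range] at hj ⊢; omega
    · simp only [mem_filter, mem_range, mem_Ioc] at hj ⊢; omega
  have ev : topVal N m ((S.card : ℝ) / n) ((T.card : ℝ) / n) c dS dT aS aT =
      ((S.card : ℝ) / n * dT - (T.card : ℝ) / n * dS + c * (dS * dT)) -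
        ∑ j ∈ range (m + 1), N.w j * (c * (aS j * aT j)) := by
    simp only [topVal, mul_left_comm (N.w _) c, ← mul_sum]; ring
  rw [ev]
  have hτ0 : 0 ≤ τ :=
    le_trans (sum_nonneg fun j hj => hw0 j (by have := mem_range.1 hj; omega)) hτ
  have hH0 : 0 ≤ H := by simpa using hH ∅ (empty_subset _)
  rw [abs_le] at h1 h2 ⊢
  simp only [add_mul, one_mul, mul_add] at *
  constructor <;> linarith

end Vale.Agent.P166.Parisi.Loop
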