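import Vale.Agent.P166.Parisi.LoopCont
import Vale.Agent.P166.Parisi.LoopSum
import Vale.Agent.P166.Parisi.BasicsPar

/-!
Module L1: the loop equations of the atoms up to the pinning error, by invariance of the Haar
measure under the rotations of a coordinate of one atom towards a coordinate of another.
-/

set_option linter.unusedSectionVars false

namespace Vale.Agent.P166.Parisi

open MeasureTheory ProbabilityTheory Finset Filter Topology
open Vale.Agent.P157 Vale.Agent.P157.Parisi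

namespace LoopMain

open Loop

variable {N M : ℕ}

section point

variable (P : Par) (a : Fin M → ℝ) (s : ℕ → ℝ) (b : Fin N → Fin M) (v : GBox M P.K → ℝ)

/-- The integrand of the deviation at level `l`. -/
noncomputable def lvlE (l : ℕ) (U : ON N) : ℝ :=
  ∑ r, ((P.nest s b v).mean ((glassLeaf U).logZ (quadLaw (P.lamN a b v) U)) l (fun y =>
      |(P.nest s b v).sqSum (glassLeaf U) (quadLaw (P.lamN a b v) U) (atomSet b r) l y / N -
        P.ovl a s b v r l|) +
    (P.nest s b v).mean ((glassLeaf U).logZ (quadLaw (P.lamN a b v) U)) l (fun y =>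
      (P.nest s b v).covNorm (glassLeaf U) (quadLaw (P.lamN a b v) U) (atomSet b r) l y / N))

/-- The integrand of the deviation of the squared norms. -/
noncomputable def diagE (U : ON N) : ℝ :=
  ∑ r, (P.nest s b v).mean ((glassLeaf U).logZ (quadLaw (P.lamN a b v) U)) P.K (fun y =>
    |(P.nest s b v).node (glassLeaf U) (quadLaw (P.lamN a b v) U) P.K (atomSq b U r) y -
      P.diag a s b v r|)

/-- The integrand of their variance. -/
noncomputable def varE (U : ON N) : ℝ :=
  ∑ r, (P.nest s b v).mean ((glassLeaf U).logZ (quadLaw (P.lamN a b v) U)) P.K (fun y =>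
    (P.nest s b v).node (glassLeaf U) (quadLaw (P.lamN a b v) U) P.K
        (fun σ y => atomSq b U r σ y ^ 2) y -
      (P.nest s b v).node (glassLeaf U) (quadLaw (P.lamN a b v) U) P.K (atomSq b U r) y ^ 2)

lemma nonneg_E (hN : 0 < N) (l : ℕ) (U : ON N) :
    0 ≤ lvlE P a s b v l U ∧ 0 ≤ diagE P a s b v U ∧ 0 ≤ varE P a s b v U := by
  have := quadLaw_prob (P.lamN a b v) U
  refine ⟨sum_nonneg fun r _ => add_nonneg (ParAux.mean_nonneg' _ _ _ fun y => abs_nonneg _)
    (ParAux.mean_nonneg' _ _ _ fun y => div_nonneg (Real.sqrt_nonneg _) (Nat.cast_nonneg _)),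
    sum_nonneg fun r _ => ParAux.mean_nonneg' _ _ _ fun y => abs_nonneg _,
    sum_nonneg fun r _ => ParAux.mean_nonneg' _ _ _ fun y => sub_nonneg.2 ?_⟩
  have hgood : (P.nest s b v).Good := glassNest_good _ _ _
  have hN' : (0 : ℝ) < N := Nat.cast_pos.2 hN
  have hS : ∀ σ y, ∑ i ∈ atomSet b r, (glassLeaf U).vec i σ y ^ 2 ≤ (N : ℝ) := fun σ y => by
    rw [ParAux.sum_atomSet]
    simp only [vec_eq]
    exact (sum_le_univ_sum_of_nonneg fun p => sq_nonneg _).trans (Lin.sum_sq_rotSpin U σ).le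
  have ho : Obs (atomSq b U r) := by
    have e : atomSq b U r = lsq (glassLeaf U) (N : ℝ) (atomSet b r) := by
      funext σ y
      simp only [atomSq, lsq, ParAux.sum_atomSet, vec_eq]
      rfl
    rw [e]; exact obs_lsq hgood (glassLeaf_good U) hN' hS
  exact node_sq_ge (μ := quadLaw (P.lamN a b v) U) hgood (glassLeaf_good U)
    (show P.K ≤ (P.nest s b v).K from Nat.le_succ _) ho y

lemma continuous_E {l : ℕ} (hl : l ≤ P.K + 1) :
    Continuous (lvlE P a s b v l) ∧ Continuous (diagE P a s b v) ∧ Continuous (varE P a s b v) := by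
  have hU := plin_glass (P.lamN a b v)
  have hl' : l ≤ (P.nest s b v).K := hl
  have hK : P.K ≤ (P.nest s b v).K := Nat.le_succ _
  have hf : ∀ r, Continuous fun (U : ON N) (σ : Fin N → Bool) =>
      (∑ p ∈ fiber b r, rotSpin U σ p ^ 2) / (N : ℝ) := fun r => continuous_pi fun σ =>
    (continuous_finsetSum _ fun p _ =>
      ((continuous_apply p).comp (Lin.continuous_rotSpin σ)).pow 2).div_const _
  have hq : ∀ r, PTame fun U : ON N =>
      (P.nest s b v).node (glassLeaf U) (quadLaw (P.lamN a b v) U) P.K (atomSq b U r) :=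
    fun r => ptame_node' P.K _ _ _ (Nat.le_succ _) (hf r)
  refine ⟨continuous_finsetSum _ fun r _ => ?_, continuous_finsetSum _ fun r _ => ?_,
    continuous_finsetSum _ fun r _ => ?_⟩
  · refine (continuous_mean' hU hl' ?_).add (continuous_mean' hU hl' ?_)
    · have h := (((ptame_sqSum' P.K (P.lamN a b v) (fun l _ => s l) (P.ampN b v) hl
        (atomSet b r)).const_mul (N : ℝ)⁻¹).sub
        (ptame_param (g := fun _ : ON N => P.ovl a s b v r l) continuous_const)).abs
      simp only [← div_eq_inv_mul] at h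
      exact h
    · have h := (ptame_covNorm' P.K (P.lamN a b v) (fun l _ => s l) (P.ampN b v) hl
        (atomSet b r)).const_mul (N : ℝ)⁻¹
      simp only [← div_eq_inv_mul] at h
      exact h
  · exact continuous_mean' hU hK
      ((hq r).sub (ptame_param (g := fun _ : ON N => P.diag a s b v r) continuous_const)).abs
  · have h2 : PTame fun U : ON N => (P.nest s b v).node (glassLeaf U) (quadLaw (P.lamN a b v) U) P.K
        (fun σ y => atomSq b U r σ y ^ 2) :=
      ptame_node' P.K _ _ _ (Nat.le_succ _)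
        (f := fun U σ => ((∑ p ∈ fiber b r, rotSpin U σ p ^ 2) / (N : ℝ)) ^ 2)
        ((continuous_pi fun σ => ((continuous_apply σ).comp (hf r)).pow 2))
    have h := h2.sub ((hq r).mul (hq r))
    simp only [← sq] at h
    exact continuous_mean' hU hK h

lemma pinErr_eq : P.pinErr a s b v =
    (∑ l ∈ Ioc P.L0 P.K, ∫ U, lvlE P a s b v l U ∂haarON N) / ((P.K : ℝ) + 1) +
      (∫ U, diagE P a s b v U ∂haarON N) + ∫ U, varE P a s b v U ∂haarON N := rfl

lemma amp_le (hv : ∀ k, v k ∈ Set.Icc (0 : ℝ) 1) (he : 0 ≤ P.eta) (l : ℕ) (p : Fin N) :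
    |P.ampN b v l p| ≤ 2 * P.eta := by
  simp only [Par.ampN, Par.etaV]
  split_ifs with h1 h2
  · simpa using mul_nonneg zero_le_two he
  · obtain ⟨h0, h3⟩ := hv (Sum.inr (⟨l, Nat.lt_succ_of_le h1⟩, b p))
    rw [abs_mul, abs_of_nonneg he, abs_of_nonneg (by linarith), mul_comm 2]
    exact mul_le_mul_of_nonneg_left (by linarith) he
  · simpa using mul_nonneg zero_le_two he

/-- The mean length of the fields. -/
lemma field_le (hP : P.Ok) (hv : ∀ k, v k ∈ Set.Icc (0 : ℝ) 1) (hN : 0 < N) (U : ON N) :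
    (P.nest s b v).mean ((glassLeaf U).logZ (quadLaw (P.lamN a b v) U)) (P.K + 1)
        (fieldLen (N : ℝ) (univ.image (Sum.inr : Fin N → FIdx N))) ≤
      5 * (((P.K : ℝ) + 2) * P.eta) := by
  have := quadLaw_prob (P.lamN a b v) U
  have hgood : (P.nest s b v).Good := glassNest_good _ _ _
  have hR := reg (μ := quadLaw (P.lamN a b v) U) hgood (glassLeaf_good U)
  have hN' : (0 : ℝ) < N := Nat.cast_pos.2 hN
  have he := hP.eta_pos
  have hK2 : (0 : ℝ) < (P.K : ℝ) + 2 := by positivity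
  set φ := 5 * (((P.K : ℝ) + 2) * P.eta) with hφ
  have hφ0 : 0 < φ := by positivity
  have hsum := down_field_sq_le P.K (P.lamN a b v) (fun l _ => s l) (P.ampN b v) U
    (A := 2 * P.eta) fun l p => amp_le P b v hv he.le l p
  change (P.nest s b v).mean _ 0 ((P.nest s b v).down _ 0 _) ≤ _ at hsum
  rw [Loop.mean_down (N := P.nest s b v) (Nat.zero_le _),
    show (P.nest s b v).K = P.K + 1 from rfl] at hsum
  have tq : Parisi.Tame fun y : FIdx N → ℝ => ∑ p, y (Sum.inr p) ^ 2 :=
    tame_sum _ fun p _ => (tame_coord _).sq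
  have h1 := mean_mono'' hR (P.K + 1) (tame_fieldLen (n := (N : ℝ)) _)
    ((tq.const_mul (2 * φ * N)⁻¹).add (tame_const (φ / 2))) fun y => by
      refine (le_abs_self _).trans ((half_sq _ hφ0).trans_eq ?_)
      rw [fieldLen, div_pow, Real.sq_sqrt (sum_nonneg fun _ _ => sq_nonneg _),
        Real.sq_sqrt hN'.le, sum_image fun _ _ _ _ h => Sum.inr_injective h]
      field_simp
  rw [mean_add'' hR (show P.K + 1 ≤ (P.nest s b v).K from le_rfl) (tq.const_mul _) (tame_const _), mean_mul'', mean_const'' hR] at h1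
  refine h1.trans ?_
  have h2 := mul_le_mul_of_nonneg_left hsum (by positivity : 0 ≤ (2 * φ * N)⁻¹)
  have hA : (2 * P.eta) ^ 2 * (1 + (2 * P.eta) ^ 2) ≤ 20 * P.eta ^ 2 := by
    nlinarith [hP.eta_le, mul_le_mul hP.eta_le hP.eta_le he.le zero_le_one, sq_nonneg P.eta]
  have h3 : (2 * φ * N)⁻¹ * (((P.K : ℝ) + 2) ^ 2 * (2 * P.eta) ^ 2 * (1 + (2 * P.eta) ^ 2) * N) ≤
      2 * (((P.K : ℝ) + 2) * P.eta) := by
    rw [inv_mul_le_iff₀ (by positivity), hφ]
    have h4 := mul_le_mul_of_nonneg_left hA (by positivity : 0 ≤ ((P.K : ℝ) + 2) ^ 2 * N)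
    nlinarith
  have h5 : 0 ≤ ((P.K : ℝ) + 2) * P.eta := by positivity
  linarith

end point

/-! ### The entries of the defect -/

section entries

variable (P : Par) (a : Fin M → ℝ) (s : ℕ → ℝ) (b : Fin N → Fin M) (v : GBox M P.K → ℝ)
variable (r r₀ : Fin M)

/-- The coefficient of the product. -/
noncomputable def cD : ℝ := P.lamV a v r - P.lamV a v r₀

/-- The overlaps at the levels of the grid. -/
noncomputable def aqv (x : Fin M) (j : ℕ) : ℝ := if j ≤ P.K then P.ovl a s b v x j else 0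

/-- The proportion as a count of coordinates. -/
noncomputable def cardF (x : Fin M) : ℝ := ((atomSet b x).card : ℝ) / (N : ℝ)

/-- The entry at level `l`. -/
noncomputable def lEnt (l : ℕ) : ℝ :=
  lvlVal (P.nest s b v) P.K (cardF b r) (cardF b r₀) (cD P a v r r₀) (P.diag a s b v r)
    (P.diag a s b v r₀) (aqv P a s b v r) (aqv P a s b v r₀) l

/-- The entry at the leaf. -/
noncomputable def tEnt : ℝ :=
  topVal (P.nest s b v) P.K (cardF b r) (cardF b r₀) (cD P a v r r₀) (P.diag a s b v r)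
    (P.diag a s b v r₀) (aqv P a s b v r) (aqv P a s b v r₀)

/-- The weighted deviations of the levels with fields. -/
noncomputable def sumE (U : ON N) : ℝ :=
  (∑ l ∈ Ioc P.L0 P.K, lvlE P a s b v l U) / ((P.K : ℝ) + 1)

/-- The deviations of the squared norms, with a free parameter. -/
noncomputable def normE (t : ℝ) (U : ON N) : ℝ :=
  diagE P a s b v U + varE P a s b v U / (2 * t) + t

/-- The derivative summed over the two atoms. -/
noncomputable def lSum (l : ℕ) (U : ON N) : ℝ :=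
  (∑ i ∈ atomSet b r, ∑ k ∈ atomSet b r₀,
    lvlDer (P.nest s b v) (glassLeaf U) (quadLaw (P.lamN a b v) U) (cD P a v r r₀) l i k) /
      (N : ℝ) ^ 2

/-- The same at the leaf. -/
noncomputable def tSum (U : ON N) : ℝ :=
  (∑ i ∈ atomSet b r, ∑ k ∈ atomSet b r₀,
    topDer (P.nest s b v) (glassLeaf U) (quadLaw (P.lamN a b v) U) (cD P a v r r₀) i k) / (N : ℝ) ^ 2

lemma atom_sq_le (x : Fin M) (U : ON N) (σ : Fin N → Bool) (y : FIdx N → ℝ) :
    ∑ i ∈ atomSet b x, (glassLeaf U).vec i σ y ^ 2 ≤ (N : ℝ) := by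
  rw [ParAux.sum_atomSet]
  simp only [vec_eq]
  exact (sum_le_univ_sum_of_nonneg fun p => sq_nonneg _).trans (Lin.sum_sq_rotSpin U σ).le

lemma card_atomSet (x : Fin M) : ((atomSet b x).card : ℝ) = (fiber b x).card := by
  rw [atomSet, rotSet, card_image_of_injective _ Sum.inr_injective]

lemma card_atom_le (x : Fin M) : ((atomSet b x).card : ℝ) ≤ (N : ℝ) := by
  rw [card_atomSet]
  exact_mod_cast (card_le_univ _).trans_eq (Fintype.card_fin N)

lemma diag_aqv (hN : 0 < N) :
    (∀ x, |P.diag a s b v x| ≤ 1) ∧ ∀ x j, |aqv P a s b v x j| ≤ 1 := by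
  obtain ⟨ho, -, hod, hsum⟩ := ovl_facts P a s b v hN
  have hd0 : ∀ x, 0 ≤ P.diag a s b v x := fun x => (ho x 0).trans (hod x 0 (Nat.zero_le _))
  have hd1 : ∀ x, |P.diag a s b v x| ≤ 1 := fun x => by
    rw [abs_of_nonneg (hd0 x), ← hsum]
    exact single_le_sum (fun y _ => hd0 y) (mem_univ x)
  refine ⟨hd1, fun x j => ?_⟩
  rw [aqv]; split_ifs with hj
  · rw [abs_of_nonneg (ho x j)]
    exact (hod x j (by omega)).trans ((le_abs_self _).trans (hd1 x))
  · simp

lemma nest_x {l : ℕ} (hl : l ≤ P.K + 1) : (P.nest s b v).x l = (gridOf P.K).x l := by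
  show min 1 (lvl P.K l) = lvl P.K l
  refine min_eq_right ?_
  rw [lvl, div_le_one (by positivity)]
  exact_mod_cast hl

lemma nest_w {l : ℕ} (hl : l ≤ P.K) :
    (P.nest s b v).w l = (gridOf P.K).w l ∧ (P.nest s b v).w l = 1 / ((P.K : ℝ) + 1) := by
  have e : (P.nest s b v).w l = (gridOf P.K).w l := by
    rw [Nest.w, Grid.w, nest_x P s b v (by omega : l ≤ P.K + 1),
      nest_x P s b v (by omega : l + 1 ≤ P.K + 1)]
  refine ⟨e, e.trans ?_⟩
  simp only [Grid.w, gridOf, lvl]
  push_cast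
  field_simp
  ring

lemma nest_w_top : (P.nest s b v).w (P.K + 1) = 0 := by
  have hgood : (P.nest s b v).Good := glassNest_good _ _ _
  have h1 : (P.nest s b v).x (P.K + 1) = 1 := by
    rw [nest_x P s b v le_rfl]; exact (gridOf P.K).x_last
  rw [Nest.w, h1, show (P.nest s b v).x (P.K + 1 + 1) = 1 from hgood.x_last, sub_self]

lemma sum_w_low (hL0 : P.L0 < P.K) :
    ∑ j ∈ range (P.L0 + 1), (P.nest s b v).w j = ((P.L0 : ℝ) + 1) / ((P.K : ℝ) + 1) := by
  rw [sum_congr rfl fun j hj => (nest_w P s b v (by have := mem_range.1 hj; omega)).2, sum_const,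
    card_range, nsmul_eq_mul]
  push_cast; ring

lemma continuous_sums :
    (∀ l ≤ P.K + 1, Continuous (lSum P a s b v r r₀ l)) ∧ Continuous (tSum P a s b v r r₀) :=
  ⟨fun l hl => (continuous_finsetSum _ fun i _ => continuous_finsetSum _ fun k _ =>
      continuous_lvlDer P.K (P.lamN a b v) (fun l _ => s l) (P.ampN b v) hl _ i k).div_const _,
    (continuous_finsetSum _ fun i _ => continuous_finsetSum _ fun k _ =>
      continuous_topDer P.K (P.lamN a b v) (fun l _ => s l) (P.ampN b v) _ i k).div_const _⟩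

lemma pair_case (hr : r ≠ r₀) {i k : FIdx N} (hi : i ∈ atomSet b r) (hk : k ∈ atomSet b r₀) :
    ∃ p q : Fin N, i = Sum.inr p ∧ k = Sum.inr q ∧ p ≠ q ∧
      P.lamN a b v p - P.lamN a b v q = cD P a v r r₀ := by
  obtain ⟨p, hp, rfl⟩ := mem_image.1 hi
  obtain ⟨q, hq, rfl⟩ := mem_image.1 hk
  simp only [fiber, mem_filter] at hp hq
  refine ⟨p, q, rfl, rfl, fun h => hr ?_, ?_⟩
  · rw [← hp.2, ← hq.2, h]
  · simp only [Par.lamN, hp.2, hq.2, cD]

lemma integral_sums (hr : r ≠ r₀) :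
    (∀ l ≤ P.K + 1, ∫ U, lSum P a s b v r r₀ l U ∂haarON N = 0) ∧
      ∫ U, tSum P a s b v r r₀ U ∂haarON N = 0 := by
  constructor
  · intro l hl
    have hc' : ∀ i k, Continuous fun U : ON N => lvlDer (P.nest s b v) (glassLeaf U)
        (quadLaw (P.lamN a b v) U) (cD P a v r r₀) l i k := fun i k =>
      continuous_lvlDer P.K (P.lamN a b v) (fun l _ => s l) (P.ampN b v) hl _ i k
    simp only [lSum]
    rw [integral_div, integral_finsetSum _ fun i _ =>
      integrable_of_cont' (continuous_finsetSum _ fun k _ => hc' i k), sum_eq_zero, zero_div]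
    intro i hi
    rw [integral_finsetSum _ fun k _ => integrable_of_cont' (hc' i k), sum_eq_zero]
    intro k hk
    obtain ⟨p, q, rfl, rfl, hpq, hceq⟩ := pair_case P a b v r r₀ hr hi hk
    rw [← hceq]
    exact integral_lvlDer P.K (P.lamN a b v) (fun l _ => s l) (P.ampN b v) hpq hl
  · have hc' : ∀ i k, Continuous fun U : ON N => topDer (P.nest s b v) (glassLeaf U)
        (quadLaw (P.lamN a b v) U) (cD P a v r r₀) i k := fun i k =>
      continuous_topDer P.K (P.lamN a b v) (fun l _ => s l) (P.ampN b v) _ i k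
    simp only [tSum]
    rw [integral_div, integral_finsetSum _ fun i _ =>
      integrable_of_cont' (continuous_finsetSum _ fun k _ => hc' i k), sum_eq_zero, zero_div]
    intro i hi
    rw [integral_finsetSum _ fun k _ => integrable_of_cont' (hc' i k), sum_eq_zero]
    intro k hk
    obtain ⟨p, q, rfl, rfl, hpq, hceq⟩ := pair_case P a b v r r₀ hr hi hk
    rw [← hceq]
    exact integral_topDer P.K (P.lamN a b v) (fun l _ => s l) (P.ampN b v) hpq

/-- The deviations of the two atoms are at most those of all atoms. -/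
lemma pair_E (hr : r ≠ r₀) (hN : 0 < N) (U : ON N) :
    (∀ j ≤ P.K,
      eta (P.nest s b v) (glassLeaf U) (quadLaw (P.lamN a b v) U) (N : ℝ) (atomSet b r)
          (aqv P a s b v r j) j +
        eta (P.nest s b v) (glassLeaf U) (quadLaw (P.lamN a b v) U) (N : ℝ) (atomSet b r₀)
          (aqv P a s b v r₀ j) j ≤ lvlE P a s b v j U) ∧
    ddev (P.nest s b v) (glassLeaf U) (quadLaw (P.lamN a b v) U) (N : ℝ) (atomSet b r)
          (P.diag a s b v r) P.K +
        ddev (P.nest s b v) (glassLeaf U) (quadLaw (P.lamN a b v) U) (N : ℝ) (atomSet b r₀)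
          (P.diag a s b v r₀) P.K ≤ diagE P a s b v U ∧
    dvar (P.nest s b v) (glassLeaf U) (quadLaw (P.lamN a b v) U) (N : ℝ) (atomSet b r) P.K +
        dvar (P.nest s b v) (glassLeaf U) (quadLaw (P.lamN a b v) U) (N : ℝ) (atomSet b r₀) P.K ≤
      varE P a s b v U := by
  classical
  have := quadLaw_prob (P.lamN a b v) U
  have hgood : (P.nest s b v).Good := glassNest_good _ _ _
  have hlsq : ∀ x, lsq (glassLeaf U) (N : ℝ) (atomSet b x) = atomSq b U x := fun x => by
    funext σ y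
    simp only [atomSq, lsq, ParAux.sum_atomSet, vec_eq]
    rfl
  refine ⟨fun j hj => ?_, ?_, ?_⟩
  · simp only [eta, asq, aqv, hj, if_true]
    refine le_trans (le_of_eq ?_) (sum_le_sum_of_subset_of_nonneg (subset_univ {r, r₀})
      fun x _ _ => add_nonneg (ParAux.mean_nonneg' _ _ _ fun y => abs_nonneg _)
        (ParAux.mean_nonneg' _ _ _ fun y => div_nonneg (Real.sqrt_nonneg _) (Nat.cast_nonneg _)))
    rw [sum_pair hr]
  · simp only [ddev, hlsq]
    refine le_trans (le_of_eq ?_) (sum_le_sum_of_subset_of_nonneg (subset_univ {r, r₀})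
      fun x _ _ => ParAux.mean_nonneg' _ _ _ fun y => abs_nonneg _)
    rw [sum_pair hr]
  · simp only [dvar, hlsq]
    refine le_trans (le_of_eq ?_) (sum_le_sum_of_subset_of_nonneg (subset_univ {r, r₀})
      fun x _ _ => ParAux.mean_nonneg' _ _ _ fun y => sub_nonneg.2 ?_)
    · rw [sum_pair hr]
    · exact node_sq_ge hgood (glassLeaf_good U) (show P.K ≤ (P.nest s b v).K from Nat.le_succ _)
        (by rw [← hlsq]; exact obs_lsq hgood (glassLeaf_good U) (Nat.cast_pos.2 hN) (atom_sq_le b x U)) y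

/-- The estimate at a fixed rotation. -/
theorem defect_point (hP : P.Ok) (hv : ∀ k, v k ∈ Set.Icc (0 : ℝ) 1) (hN : 0 < N) (hr : r ≠ r₀)
    {t : ℝ} (ht : 0 < t) (U : ON N) :
    |tSum P a s b v r r₀ U - tEnt P a s b v r r₀| +
        ∑ l ∈ Ioc P.L0 P.K, (P.nest s b v).w l * |lSum P a s b v r r₀ l U - lEnt P a s b v r r₀ l| ≤
      (1 + |cD P a v r r₀|) * ((12 + 1 / (2 * t)) * sumE P a s b v U + 2 * normE P a s b v t U +
        4 * (((P.L0 : ℝ) + 1) / ((P.K : ℝ) + 1)) + t) + 24 * (5 * (((P.K : ℝ) + 2) * P.eta)) := by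
  classical
  obtain ⟨hE, hEd, hEv⟩ := pair_E P a s b v r r₀ hr hN U
  obtain ⟨hd1, haq1⟩ := diag_aqv P a s b v hN
  have hprob := quadLaw_prob (P.lamN a b v) U
  have hL := glassLeaf_good U
  have hgood : (P.nest s b v).Good := glassNest_good _ _ _
  have hN' : (0 : ℝ) < N := Nat.cast_pos.2 hN
  set η := fun j => eta (P.nest s b v) (glassLeaf U) (quadLaw (P.lamN a b v) U) (N : ℝ) (atomSet b r)
      (aqv P a s b v r j) j +
    eta (P.nest s b v) (glassLeaf U) (quadLaw (P.lamN a b v) U) (N : ℝ) (atomSet b r₀)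
      (aqv P a s b v r₀ j) j with hη
  have hH : ∀ A ⊆ Ioc P.L0 P.K, ∑ j ∈ A, (P.nest s b v).w j * η j ≤ sumE P a s b v U := fun A hA => by
    simp only [sumE, sum_div]
    refine (sum_le_sum fun j hj => (?_ : _ ≤ lvlE P a s b v j U / ((P.K : ℝ) + 1))).trans
      (sum_le_sum_of_subset_of_nonneg hA fun j _ _ =>
        div_nonneg (nonneg_E P a s b v hN j U).1 (by positivity))
    have hj' : j ≤ P.K := (mem_Ioc.1 (hA hj)).2
    rw [(nest_w P s b v hj').2, one_div_mul_eq_div]
    exact div_le_div_of_nonneg_right (hE j hj') (by positivity)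
  set δ := fun x => ddev (P.nest s b v) (glassLeaf U) (quadLaw (P.lamN a b v) U) (N : ℝ) (atomSet b x)
      (P.diag a s b v x) P.K +
    dvar (P.nest s b v) (glassLeaf U) (quadLaw (P.lamN a b v) U) (N : ℝ) (atomSet b x) P.K / (2 * t) +
    t / 2 with hδdef
  have hδ : ∀ x, (P.nest s b v).mean ((glassLeaf U).logZ (quadLaw (P.lamN a b v) U)) (P.nest s b v).K
      ((glassLeaf U).gibbs (quadLaw (P.lamN a b v) U)
        fun ω y => |lsq (glassLeaf U) (N : ℝ) (atomSet b x) ω y - P.diag a s b v x|) ≤ δ x :=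
    fun x => leaf_dev hgood hL hN' (atom_sq_le b x U) (Nat.le_succ _) _ ht
  have hδsum : δ r + δ r₀ ≤ normE P a s b v t U := by
    have h3 := div_le_div_of_nonneg_right hEv (by positivity : 0 ≤ 2 * t)
    rw [add_div] at h3
    simp only [δ, normE]
    linarith
  set R := univ.image (Sum.inr : Fin N → FIdx N) with hR
  have hSR : ∀ x, atomSet b x ⊆ R := fun x => image_subset_image (subset_univ _)
  set φ := 5 * (((P.K : ℝ) + 2) * P.eta) with hφdef
  have hφ : (P.nest s b v).mean ((glassLeaf U).logZ (quadLaw (P.lamN a b v) U)) (P.nest s b v).K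
      (fieldLen (N : ℝ) R) ≤ φ :=
    field_le P a s b v hP hv hN U
  have hL0 := hP.L0_le
  set τ := ((P.L0 : ℝ) + 1) / ((P.K : ℝ) + 1) with hτdef
  have hτ := (sum_w_low P s b v hL0).le
  set c := cD P a v r r₀ with hc
  set H := sumE P a s b v U with hHdef
  have htop : |tSum P a s b v r r₀ U - tEnt P a s b v r r₀| ≤
      (1 + |c|) * (δ r + δ r₀ + 2 * τ + 2 * H) + 4 * φ :=
    top_bound hgood hL hN' (atom_sq_le b r U) (atom_sq_le b r₀ U) (hSR r) (hSR r₀) (m := P.K)
      (L0 := P.L0) rfl (nest_w_top P s b v) (t := t) (haq1 r) (haq1 r₀) (hd1 r) (hd1 r₀)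
      (card_atom_le b r) (card_atom_le b r₀) hφ (hδ r) (hδ r₀) hH hτ ht hL0.le
  have hlev : ∀ l ∈ Ioc P.L0 P.K, |lSum P a s b v r r₀ l U - lEnt P a s b v r r₀ l| ≤
      (1 + |c|) * (7 * η l + (δ r + δ r₀) + (3 + 1 / (2 * t)) * H + 2 * τ + t) + 20 * φ :=
    fun l hl => lvl_bound hgood hL hN' (atom_sq_le b r U) (atom_sq_le b r₀ U) (hSR r) (hSR r₀)
      (m := P.K) (L0 := P.L0) rfl (nest_w_top P s b v) (t := t) (haq1 r) (haq1 r₀) (hd1 r) (hd1 r₀)
      (card_atom_le b r) (card_atom_le b r₀) hφ (hδ r) (hδ r₀) hH hτ ht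
      (mem_Ioc.1 hl).1 (mem_Ioc.1 hl).2
  have hwI : ∀ l ∈ Ioc P.L0 P.K, 0 ≤ (P.nest s b v).w l := fun l hl => by
    rw [(nest_w P s b v (mem_Ioc.1 hl).2).2]; positivity
  have hwS : ∑ l ∈ Ioc P.L0 P.K, (P.nest s b v).w l ≤ 1 :=
    w_sum_le hgood fun l hl => mem_range.2 (by
      have := (mem_Ioc.1 hl).2
      show l < P.K + 1 + 1
      omega)
  have hH0 : 0 ≤ H := by simpa using hH ∅ (empty_subset _)
  have hφ0 : 0 ≤ φ := mul_nonneg (by norm_num) (mul_nonneg (by positivity) hP.eta_pos.le)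
  have hτ0 : 0 ≤ τ := by positivity
  set G := 1 + |c| with hGdef
  have hG0 : 0 ≤ G := by positivity
  set Dn := normE P a s b v t U with hDn
  have hD0 : 0 ≤ Dn := by
    have h := nonneg_E P a s b v hN 0 U
    have := div_nonneg h.2.2 (by positivity : 0 ≤ 2 * t)
    simp only [Dn, normE]; linarith [h.2.1]
  set Z := Dn + (3 + 1 / (2 * t)) * H + 2 * τ + t with hZ
  have hZ0 : 0 ≤ G * Z + 20 * φ := by positivity
  have h4 : ∑ l ∈ Ioc P.L0 P.K, (P.nest s b v).w l *
      |lSum P a s b v r r₀ l U - lEnt P a s b v r r₀ l| ≤ G * (7 * H) + (G * Z + 20 * φ) := by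
    calc _ ≤ ∑ l ∈ Ioc P.L0 P.K, (G * 7 * ((P.nest s b v).w l * η l) +
          (P.nest s b v).w l * (G * Z + 20 * φ)) := by
          refine sum_le_sum fun l hl => ?_
          refine (mul_le_mul_of_nonneg_left (hlev l hl) (hwI l hl)).trans ?_
          have := mul_le_mul_of_nonneg_left hδsum (mul_nonneg (hwI l hl) hG0)
          simp only [hZ]
          linarith
      _ ≤ _ := by
          rw [sum_add_distrib, ← mul_sum, ← sum_mul]
          exact add_le_add ((mul_le_mul_of_nonneg_left (a := G * 7) (hH _ subset_rfl)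
              (by positivity)).trans_eq (mul_assoc _ _ _))
            (mul_le_of_le_one_left hZ0 hwS)
  have h5 : G * (δ r + δ r₀ + 2 * τ + 2 * H) ≤ G * (Dn + 2 * τ + 2 * H) :=
    mul_le_mul_of_nonneg_left (by linarith) hG0
  simp only [hZ] at h4
  linarith

/-- The estimate after integration. -/
theorem defect_int (hP : P.Ok) (hv : ∀ k, v k ∈ Set.Icc (0 : ℝ) 1) (hN : 0 < N) (hr : r ≠ r₀)
    {t : ℝ} (ht : 0 < t) :
    |tEnt P a s b v r r₀| +
        ∑ l ∈ Ioc P.L0 P.K, (P.nest s b v).w l * |lEnt P a s b v r r₀ l| ≤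
      (1 + |cD P a v r r₀|) * ((12 + 1 / (2 * t)) * (∫ U, sumE P a s b v U ∂haarON N) +
        2 * ((∫ U, diagE P a s b v U ∂haarON N) + (∫ U, varE P a s b v U ∂haarON N) / (2 * t) + t) +
        4 * (((P.L0 : ℝ) + 1) / ((P.K : ℝ) + 1)) + t) + 24 * (5 * (((P.K : ℝ) + 2) * P.eta)) := by
  obtain ⟨hXc, hXdc⟩ := continuous_sums P a s b v r r₀
  obtain ⟨hzero, hzerod⟩ := integral_sums P a s b v r r₀ hr
  obtain ⟨-, hDc, hVc⟩ := continuous_E P a s b v (Nat.zero_le (P.K + 1))
  set G := 1 + |cD P a v r r₀|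
  set τ := ((P.L0 : ℝ) + 1) / ((P.K : ℝ) + 1)
  set φ := 5 * (((P.K : ℝ) + 2) * P.eta)
  have iD := integrable_of_cont' hDc
  have iV := integrable_of_cont' hVc
  have hle : ∀ l ∈ Ioc P.L0 P.K, l ≤ P.K + 1 := fun l hl => by
    have := (mem_Ioc.1 hl).2; omega
  have hHc : Continuous (sumE P a s b v) := (continuous_finsetSum _ fun l hl =>
    (continuous_E P a s b v (hle l hl)).1).div_const _
  have hDc' : Continuous (normE P a s b v t) := (hDc.add (hVc.div_const _)).add continuous_const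
  have cE : Continuous fun U =>
      G * ((12 + 1 / (2 * t)) * sumE P a s b v U + 2 * normE P a s b v t U + 4 * τ + t) + 24 * φ :=
    (continuous_const.mul ((((continuous_const.mul hHc).add
      (continuous_const.mul hDc')).add continuous_const).add continuous_const)).add continuous_const
  have hrhs : ∫ U, (G * ((12 + 1 / (2 * t)) * sumE P a s b v U + 2 * normE P a s b v t U +
        4 * τ + t) + 24 * φ) ∂haarON N =
      G * ((12 + 1 / (2 * t)) * (∫ U, sumE P a s b v U ∂haarON N) +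
        2 * ((∫ U, diagE P a s b v U ∂haarON N) + (∫ U, varE P a s b v U ∂haarON N) / (2 * t) + t) +
        4 * τ + t) + 24 * φ := by
    have i0 : Integrable (fun U => (12 + 1 / (2 * t)) * sumE P a s b v U) (haarON N) :=
      integrable_of_cont' (continuous_const.mul hHc)
    have i0' : Integrable (fun U => 2 * normE P a s b v t U) (haarON N) :=
      integrable_of_cont' (continuous_const.mul hDc')
    have i2 : Integrable (fun U =>
        (12 + 1 / (2 * t)) * sumE P a s b v U + 2 * normE P a s b v t U + 4 * τ) (haarON N) :=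
      (i0.add i0').add (integrable_const _)
    have i3 : Integrable (fun U => G * ((12 + 1 / (2 * t)) * sumE P a s b v U +
        2 * normE P a s b v t U + 4 * τ + t)) (haarON N) := (i2.add (integrable_const t)).const_mul G
    have i4 : Integrable (fun U => diagE P a s b v U + varE P a s b v U / (2 * t)) (haarON N) :=
      iD.add (iV.div_const _)
    have eD : ∫ U, normE P a s b v t U ∂haarON N = (∫ U, diagE P a s b v U ∂haarON N) +
        (∫ U, varE P a s b v U ∂haarON N) / (2 * t) + t := by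
      simp only [normE]
      rw [integral_add i4 (integrable_const _), integral_add iD (iV.div_const _), integral_div]
      simp
    rw [integral_add i3 (integrable_const _), integral_const_mul,
      integral_add i2 (integrable_const _), integral_add (f := fun U =>
        (12 + 1 / (2 * t)) * sumE P a s b v U + 2 * normE P a s b v t U) (i0.add i0') (integrable_const _),
      integral_add i0 i0', integral_const_mul, integral_const_mul, eD]
    simp
  have habs : ∀ {X : ON N → ℝ}, Continuous X → ∫ U, X U ∂haarON N = 0 → ∀ V : ℝ,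
      |V| ≤ ∫ U, |X U - V| ∂haarON N := fun {X} hX h0 V => by
    refine le_trans (le_of_eq ?_) (abs_integral_le_integral_abs (f := fun U => X U - V))
    rw [integral_sub (integrable_of_cont' hX) (integrable_const V), h0]
    simp
  have c1 : Continuous fun U => |tSum P a s b v r r₀ U - tEnt P a s b v r r₀| :=
    (hXdc.sub continuous_const).abs
  have c2 : ∀ l ∈ Ioc P.L0 P.K, Continuous fun U => (P.nest s b v).w l *
      |lSum P a s b v r r₀ l U - lEnt P a s b v r r₀ l| := fun l hl =>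
    continuous_const.mul ((hXc l (hle l hl)).sub continuous_const).abs
  rw [← hrhs]
  refine le_trans ?_ (integral_mono (integrable_of_cont' (c1.add (continuous_finsetSum _ c2)))
    (integrable_of_cont' cE) (defect_point P a s b v r r₀ hP hv hN hr ht))
  simp only [Pi.add_apply]
  rw [integral_add (integrable_of_cont' c1) (integrable_of_cont' (continuous_finsetSum _ c2)),
    integral_finsetSum _ fun l hl => integrable_of_cont' (c2 l hl)]
  refine add_le_add (habs hXdc hzerod _) (sum_le_sum fun l hl => ?_)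
  rw [integral_const_mul]
  exact mul_le_mul_of_nonneg_left (habs (hXc l (hle l hl)) (hzero l (hle l hl)) _)
    (by rw [(nest_w P s b v (mem_Ioc.1 hl).2).2]; positivity)

/-- The crude bound at one level. -/
theorem lEnt_le (hN : 0 < N) {l : ℕ} (hl : l ≤ P.K) :
    |lEnt P a s b v r r₀ l| ≤ 8 * (1 + |cD P a v r r₀|) := by
  obtain ⟨hd1, haq1⟩ := diag_aqv P a s b v hN
  set Nn := P.nest s b v
  have hgood : Nn.Good := glassNest_good _ _ _
  have hK : Nn.K = P.K + 1 := rfl
  have hN' : (0 : ℝ) < N := Nat.cast_pos.2 hN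
  obtain ⟨hx0, hx1⟩ := x_mem hgood (show l + 1 ≤ Nn.K + 1 by omega)
  have hsumle : ∀ (A : Finset ℕ), (∀ j ∈ A, j ≤ P.K) → ∀ f : ℕ → ℝ, (∀ j, |f j| ≤ 1) →
      |∑ j ∈ A, Nn.w j * f j| ≤ 1 := fun A hA f hf => by
    refine (abs_sum_le_sum_abs _ _).trans ((sum_le_sum fun j hj => (?_ : _ ≤ Nn.w j)).trans
      (w_sum_le hgood fun j hj => mem_range.2 (by have := hA j hj; omega)))
    have h0 : 0 ≤ Nn.w j := sub_nonneg.2 (hgood.x_mono j (by have := hA j hj; omega))
    rw [abs_mul, abs_of_nonneg h0]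
    exact mul_le_of_le_one_right h0 (hf j)
  have hm1 : ∀ x y : ℝ, |x| ≤ 1 → |y| ≤ 1 → |x * y| ≤ 1 := fun x y hx hy => by
    rw [abs_mul]; exact mul_le_one₀ hx (abs_nonneg _) hy
  have hp1 : ∀ x, |cardF b x| ≤ 1 := fun x => by
    rw [cardF, abs_of_nonneg (by positivity), div_le_one hN']; exact card_atom_le b x
  have t1 := abs_le.1 (hm1 _ _ (hp1 r) (haq1 r₀ l))
  have t2 := abs_le.1 (hm1 _ _ (hp1 r₀) (haq1 r l))
  have t3 := abs_le.1 (hm1 _ _ (hd1 r) (haq1 r₀ l))
  have t4 := abs_le.1 (hm1 _ _ (hd1 r₀) (haq1 r l))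
  have t5 := abs_le.1 (hm1 _ _ (show |Nn.x (l + 1)| ≤ 1 by rwa [abs_of_nonneg hx0])
    (hm1 _ _ (haq1 r l) (haq1 r₀ l)))
  have t6 := abs_le.1 (hm1 _ _ (haq1 r l) (hsumle (Ioc l P.K) (fun j hj => (mem_Ioc.1 hj).2)
    (aqv P a s b v r₀) (haq1 r₀)))
  have t7 := abs_le.1 (hm1 _ _ (haq1 r₀ l) (hsumle (Ioc l P.K) (fun j hj => (mem_Ioc.1 hj).2)
    (aqv P a s b v r) (haq1 r)))
  have t8 := abs_le.1 (hsumle (range (l + 1)) (fun j hj => by have := mem_range.1 hj; omega)
    (fun j => aqv P a s b v r j * aqv P a s b v r₀ j) fun j => hm1 _ _ (haq1 r j) (haq1 r₀ j))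
  rw [lEnt, lvlVal]
  refine (abs_add_le _ _).trans ?_
  rw [abs_mul]
  refine (add_le_add (show _ ≤ (2 : ℝ) from ?_)
    (mul_le_mul_of_nonneg_left (show _ ≤ (6 : ℝ) from ?_) (abs_nonneg _))).trans ?_
  · rw [abs_le]; constructor <;> linarith
  · rw [abs_le]; constructor <;> linarith
  · have := abs_nonneg (cD P a v r r₀); linarith

/-- The norm of the defect in the entries. -/
theorem nrm_loop (hL0 : P.L0 < P.K) :
    SMat.nrm (gridOf P.K) (P.loopMat a s b v r r₀) = |tEnt P a s b v r r₀| +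
      (∑ l ∈ range (P.L0 + 1), (P.nest s b v).w l * |lEnt P a s b v r r₀ l| +
        ∑ l ∈ Ioc P.L0 P.K, (P.nest s b v).w l * |lEnt P a s b v r r₀ l|) := by
  have hsumeq : ∀ (A : Finset ℕ), (∀ j ∈ A, j ≤ P.K) → ∀ f g : ℕ → ℝ, (∀ j ∈ A, f j = g j) →
      ∑ j ∈ A, (gridOf P.K).w j * f j = ∑ j ∈ A, (P.nest s b v).w j * g j := fun A hA f g hfg =>
    sum_congr rfl fun j hj => by rw [(nest_w P s b v (hA j hj)).1, hfg j hj]
  have hfr : ∀ x, frac b x = cardF b x := fun x => by rw [frac, cardF, card_atomSet]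
  have hq : ∀ x j, j ≤ P.K → P.ovl a s b v x j = aqv P a s b v x j := fun x j hj => by
    rw [aqv, if_pos hj]
  have hdval : (P.loopMat a s b v r r₀).d = -tEnt P a s b v r r₀ := by
    have e := hsumeq (range (P.K + 1)) (fun j hj => by have := mem_range.1 hj; omega)
      (fun j => P.ovl a s b v r j * P.ovl a s b v r₀ j)
      (fun j => aqv P a s b v r j * aqv P a s b v r₀ j) fun j hj => by
        have : j ≤ P.K := by have := mem_range.1 hj; omega
        rw [hq r j this, hq r₀ j this]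
    simp only [Par.loopMat, Par.atomMat, SMat.add, SMat.smul, SMat.mul, tEnt, topVal, hfr]
    rw [show (gridOf P.K).K = P.K from rfl, e, cD]
    ring
  have hqval : ∀ l, l ≤ P.K → (P.loopMat a s b v r r₀).q l = -lEnt P a s b v r r₀ l := fun l hl => by
    have e := hsumeq (range (l + 1)) (fun j hj => by have := mem_range.1 hj; omega)
      (fun j => P.ovl a s b v r j * P.ovl a s b v r₀ j)
      (fun j => aqv P a s b v r j * aqv P a s b v r₀ j) fun j hj => by
        have : j ≤ P.K := by have := mem_range.1 hj; omega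
        rw [hq r j this, hq r₀ j this]
    have e' : ∀ x, ∑ j ∈ Ioc l P.K, (gridOf P.K).w j * P.ovl a s b v x j =
        ∑ j ∈ Ioc l P.K, (P.nest s b v).w j * aqv P a s b v x j := fun x =>
      hsumeq (Ioc l P.K) (fun j hj => (mem_Ioc.1 hj).2) _ _ fun j hj => hq x j (mem_Ioc.1 hj).2
    simp only [Par.loopMat, Par.atomMat, SMat.add, SMat.smul, SMat.mul, SMat.above, lEnt, lvlVal, hfr]
    rw [show (gridOf P.K).K = P.K from rfl, e, e' r, e' r₀, hq r l hl, hq r₀ l hl,
      ← nest_x P s b v (by omega : l + 1 ≤ P.K + 1), cD]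
    ring
  rw [SMat.nrm, hdval, abs_neg, show (gridOf P.K).K = P.K from rfl]
  congr 1
  have hsplit : range (P.K + 1) = range (P.L0 + 1) ∪ Ioc P.L0 P.K := by
    ext j; simp only [mem_range, mem_union, mem_Ioc]; omega
  rw [← sum_union (disjoint_left.2 fun j hj => by simp only [mem_range, mem_Ioc] at *; omega),
    ← hsplit]
  refine sum_congr rfl fun l hl => ?_
  have : l ≤ P.K := by have := mem_range.1 hl; omega
  rw [← (nest_w P s b v this).1, hqval l this, abs_neg]

/-- The defect for two different atoms. -/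
theorem defect_ne (hP : P.Ok) {Λ : ℝ} (ha : ∀ x, |a x| ≤ Λ)
    (hv : ∀ k, v k ∈ Set.Icc (0 : ℝ) 1) (hN : 0 < N) (hr : r ≠ r₀) :
    SMat.nrm (gridOf P.K) (P.loopMat a s b v r r₀) ≤
      369 * (1 + Λ) * (Real.sqrt (P.pinErr a s b v) + P.pinErr a s b v +
        ((P.L0 : ℝ) + 1) / ((P.K : ℝ) + 1) + ((P.K : ℝ) + 2) ^ 3 * P.eta) := by
  have hlamV : ∀ x, |P.lamV a v x| ≤ Λ + 1 := fun x => by
    obtain ⟨h0, h1⟩ := hv (Sum.inl x)
    refine (abs_add_le _ _).trans (add_le_add (ha x) ?_)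
    rw [abs_mul, abs_of_pos hP.du_pos, abs_of_nonneg h0]
    exact (mul_le_of_le_one_right hP.du_pos.le h1).trans hP.du_le
  have hΛ : 0 ≤ Λ := (abs_nonneg _).trans (ha r)
  have hG : 1 + |cD P a v r r₀| ≤ 3 * (1 + Λ) := by
    have := (abs_sub (P.lamV a v r) (P.lamV a v r₀)).trans (add_le_add (hlamV r) (hlamV r₀))
    rw [cD]; linarith
  have hG1 : 1 ≤ 1 + |cD P a v r r₀| := le_add_of_nonneg_right (abs_nonneg _)
  have he3 : 0 < ((P.K : ℝ) + 2) ^ 3 * P.eta := mul_pos (by positivity) hP.eta_pos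
  have hint := fun t ht => defect_int P a s b v r r₀ hP hv hN hr (t := t) ht
  have hπ : P.pinErr a s b v = (∫ U, sumE P a s b v U ∂haarON N) +
      (∫ U, diagE P a s b v U ∂haarON N) + ∫ U, varE P a s b v U ∂haarON N := by
    rw [pinErr_eq]
    simp only [sumE]
    rw [integral_div, integral_finsetSum _ fun l hl => integrable_of_cont'
      (continuous_E P a s b v (show l ≤ P.K + 1 by have := (mem_Ioc.1 hl).2; omega)).1]
  have h0 : 0 ≤ ∫ U, sumE P a s b v U ∂haarON N := integral_nonneg fun U =>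
    div_nonneg (sum_nonneg fun l _ => (nonneg_E P a s b v hN l U).1) (by positivity)
  have d0 : 0 ≤ ∫ U, diagE P a s b v U ∂haarON N :=
    integral_nonneg fun U => (nonneg_E P a s b v hN 0 U).2.1
  have v0 : 0 ≤ ∫ U, varE P a s b v U ∂haarON N :=
    integral_nonneg fun U => (nonneg_E P a s b v hN 0 U).2.2
  have hlow : ∑ l ∈ range (P.L0 + 1), (P.nest s b v).w l * |lEnt P a s b v r r₀ l| ≤
      8 * (1 + |cD P a v r r₀|) * (((P.L0 : ℝ) + 1) / ((P.K : ℝ) + 1)) := by
    rw [← sum_w_low P s b v hP.L0_le, mul_sum]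
    refine sum_le_sum fun l hl => ?_
    have : l ≤ P.K := by have := mem_range.1 hl; have := hP.L0_le; omega
    rw [mul_comm (8 * _)]
    exact mul_le_mul_of_nonneg_left (lEnt_le P a s b v r r₀ hN this)
      (by rw [(nest_w P s b v this).2]; positivity)
  have hτ0 : 0 ≤ ((P.L0 : ℝ) + 1) / ((P.K : ℝ) + 1) := by positivity
  have hφ3 : 24 * (5 * (((P.K : ℝ) + 2) * P.eta)) ≤ 120 * (((P.K : ℝ) + 2) ^ 3 * P.eta) := by
    have h1 : (P.K : ℝ) + 2 ≤ ((P.K : ℝ) + 2) ^ 3 :=
      le_self_pow₀ (by linarith [Nat.cast_nonneg (α := ℝ) P.K]) three_ne_zero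
    have := mul_le_mul_of_nonneg_right h1 hP.eta_pos.le
    linarith
  rw [nrm_loop P a s b v r r₀ hP.L0_le]
  generalize hp : P.pinErr a s b v = π₀ at hπ ⊢
  generalize ((P.K : ℝ) + 2) ^ 3 * P.eta = e3 at he3 hφ3 ⊢
  set t := Real.sqrt π₀ + e3 with ht_def
  have ht : 0 < t := add_pos_of_nonneg_of_pos (Real.sqrt_nonneg _) he3
  have hmain := hint t ht
  generalize (∫ U, sumE P a s b v U ∂haarON N) = h at hπ h0 hmain
  generalize (∫ U, diagE P a s b v U ∂haarON N) = dd at hπ d0 hmain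
  generalize (∫ U, varE P a s b v U ∂haarON N) = lv at hπ v0 hmain
  generalize ((P.L0 : ℝ) + 1) / ((P.K : ℝ) + 1) = τ at hlow hτ0 hmain ⊢
  generalize 1 + |cD P a v r r₀| = G at hG hG1 hlow hmain
  generalize 24 * (5 * (((P.K : ℝ) + 2) * P.eta)) = φ at hφ3 hmain
  have hs0 : 0 ≤ Real.sqrt π₀ := Real.sqrt_nonneg _
  have hsq : π₀ ≤ Real.sqrt π₀ * t := by
    calc π₀ = Real.sqrt π₀ * Real.sqrt π₀ := (Real.mul_self_sqrt (by linarith)).symm
      _ ≤ _ := mul_le_mul_of_nonneg_left (le_add_of_nonneg_right he3.le) hs0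
  have b1 : 1 / (2 * t) * h ≤ Real.sqrt π₀ / 2 := by
    rw [one_div_mul_eq_div, div_le_iff₀ (by positivity)]
    linarith
  have b2 : lv / (2 * t) ≤ Real.sqrt π₀ / 2 := by
    rw [div_le_iff₀ (by positivity)]
    linarith
  have hin : (12 + 1 / (2 * t)) * h + 2 * (dd + lv / (2 * t) + t) + 4 * τ + t ≤
      14 * π₀ + 5 * Real.sqrt π₀ + 4 * τ + 3 * e3 := by
    rw [add_mul]
    simp only [ht_def] at b1 b2 ⊢
    linarith
  have h1 := mul_le_mul_of_nonneg_left hin (zero_le_one.trans hG1)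
  have g1 := mul_le_mul_of_nonneg_right hG1 he3.le
  have g2 := mul_nonneg (zero_le_one.trans hG1) (show 0 ≤ π₀ by linarith)
  have g3 := mul_nonneg (zero_le_one.trans hG1) hs0
  have g4 := mul_nonneg (zero_le_one.trans hG1) hτ0
  have hX : 0 ≤ Real.sqrt π₀ + π₀ + τ + e3 := by linarith
  have h2 := mul_le_mul_of_nonneg_right hG hX
  linarith

end entries

end LoopMain

open LoopMain in
/-- Module L1: the loop equations up to the pinning error. -/
theorem loop_defect (M : ℕ) : ∃ C : ℝ, ∀ P : Par, P.Ok → ∀ Λ : ℝ, ∀ a : Fin M → ℝ,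
    (∀ r, |a r| ≤ Λ) → ∀ s : ℕ → ℝ, (∀ l, 1 ≤ l → l ≤ P.L0 → s l = 0) →
      ∀ N : ℕ, 0 < N → ∀ b : Fin N → Fin M, ∀ v : GBox M P.K → ℝ,
        (∀ k, v k ∈ Set.Icc (0 : ℝ) 1) → ∀ r r₀,
          SMat.nrm (gridOf P.K) (P.loopMat a s b v r r₀) ≤
            C * (1 + Λ) * (Real.sqrt (P.pinErr a s b v) + P.pinErr a s b v +
              ((P.L0 : ℝ) + 1) / ((P.K : ℝ) + 1) + ((P.K : ℝ) + 2) ^ 3 * P.eta) := by
  refine ⟨369, fun P hP Λ a ha s _ N hN b v hv r r₀ => ?_⟩
  by_cases hr : r = r₀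
  · subst hr
    have hΛ : 0 ≤ Λ := (abs_nonneg _).trans (ha r)
    have hπ : 0 ≤ P.pinErr a s b v := by
      rw [pinErr_eq]
      exact add_nonneg (add_nonneg (div_nonneg (sum_nonneg fun l _ =>
        integral_nonneg fun U => (nonneg_E P a s b v hN l U).1) (by positivity))
        (integral_nonneg fun U => (nonneg_E P a s b v hN 0 U).2.1))
        (integral_nonneg fun U => (nonneg_E P a s b v hN 0 U).2.2)
    have he := hP.eta_pos
    have e0 : SMat.nrm (gridOf P.K) (P.loopMat a s b v r r) = 0 := by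
      simp [SMat.nrm, Par.loopMat, SMat.add, SMat.smul]
    rw [e0]
    positivity
  · exact defect_ne P a s b v r r₀ hP ha hv hN hr

end Vale.Agent.P166.Parisi
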