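import Vale.Agent.P166.Parisi.LoopSolve
import Vale.Agent.P166.Parisi.Conc
import Vale.Agent.P166.Parisi.BasicsPar
import Vale.Agent.P166.Parisi.LoopDefect

/-!
Module L2: the overlaps of the atoms are the exact solution of the loop equations for their total.
-/

namespace Vale.Agent.P166.Parisi

open MeasureTheory ProbabilityTheory Finset Filter Topology
open Vale.Agent.P157.Parisi (cubeLaw)

variable {M : ℕ}

/-- Module L2: the overlaps are the exact solution for their total. -/
theorem atom_close [NeZero M] (Λ : ℝ) {ε : ℝ} (hε : 0 < ε) :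
    ∃ τ > 0, ∀ P : Par, P.Ok → ((P.L0 : ℝ) + 1) / ((P.K : ℝ) + 1) ≤ τ → P.du ≤ τ →
      ((P.K : ℝ) + 2) ^ 3 * P.eta ≤ τ → ∀ smax C : ℝ, ∀ᶠ N : ℕ in atTop,
        ∀ (a : Fin M → ℝ) (ha : Monotone a), (∀ r, |a r| ≤ Λ) → ∀ s, P.SpinOk smax s →
          ∀ b : Fin N → Fin M, Bal C b →
            Integrable (fun v => P.atomDist a s b v ha) (cubeLaw (GBox M P.K)) ∧
              ∫ v, P.atomDist a s b v ha ∂cubeLaw (GBox M P.K) ≤ ε :=
  atom_close_of (loop_defect M) (pin_small M)
    (fun P a s b v hN => ovl_facts P a s b v hN) (fun P a s b v hN => qhat_path P a s b v hN)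
    (fun P a s b r _ hl => continuous_ovl_box P a s b r hl)
    (fun P a s b r => continuous_diag_box P a s b r) Λ hε

end Vale.Agent.P166.Parisi
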