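import Vale.Agent.P166.Parisi.Basics.Glass
import Vale.Agent.P166.Parisi.GaussPoincare

/-!
Module B1, second half: the mean free energy, the squared fields and the deviation at the root.
-/

set_option linter.unusedSectionVars false

namespace Vale.Agent.P166.Parisi

open MeasureTheory ProbabilityTheory Finset Matrix
open Vale.Agent.P157 Vale.Agent.P157.Parisi
namespace FieldStep

section general

variable {ι Ω κ : Type} [Fintype ι] [Fintype κ] [MeasurableSpace Ω] {Nn : Nest ι} {L : Leaf Ω κ ι}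
  {μ : Measure Ω} [IsProbabilityMeasure μ] {B : ℝ}

/-- One step of the average of a squared coordinate. -/
lemma avg_coord_sq (hN : Nn.Good) (hL : L.Good B) {l : ℕ} (hl : l < Nn.K) (i : ι) (y : ι → ℝ) :
    Nn.avg (L.logZ μ) l (fun v => v i ^ 2) y = y i ^ 2 +
      2 * (Nn.x (l + 1) * Nn.amp (l + 1) i ^ 2) * (y i * Nn.grad L μ l i y) +
      Nn.amp (l + 1) i ^ 2 *
        (1 + Nn.x (l + 1) * Nn.amp (l + 1) i ^ 2 * Nn.heat L μ l i y) := by
  classical
  set x := Nn.x (l + 1)
  set s := Nn.amp (l + 1)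
  set u := Nn.u (L.logZ μ) (l + 1) with hu
  have hE : Tame fun z => Real.exp (x * u (move s y z)) :=
    ((linGrowth_u (μ := μ) hN hL (l + 1)).exp_tame x).comp_move s y
  set D := ∫ z, Real.exp (x * u (move s y z)) ∂gauss ι
  have hD : D ≠ 0 := (stepDen_pos (linGrowth_u (μ := μ) hN hL (l + 1)) x s y).ne'
  set I1 := ∫ z, Real.exp (x * u (move s y z)) * z i ∂gauss ι
  set I2 := ∫ z, Real.exp (x * u (move s y z)) * (z i * z i) ∂gauss ι
  have h1 : I1 / D = x * s i * Nn.grad L μ l i y := tilt_z hN hL hl i y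
  have h2 : I2 / D = 1 + x * s i * s i *
      (Nn.hess L μ l i i y + x * Nn.grad L μ l i y * Nn.grad L μ l i y) :=
    (tilt_z_z hN hL hl i i y).trans (by rw [if_pos rfl])
  have e : ∫ z, Real.exp (x * u (move s y z)) * move s y z i ^ 2 ∂gauss ι =
      y i ^ 2 * D + 2 * y i * s i * I1 + s i ^ 2 * I2 := by
    have t1 := (hE.const_mul (y i ^ 2)).integrable
    have t2 := ((hE.mul (tame_coord i)).const_mul (2 * y i * s i)).integrable
    have t3 := ((hE.mul ((tame_coord i).mul (tame_coord i))).const_mul (s i ^ 2)).integrable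
    have key := integral_add (t1.add t2) t3
    simp only [Pi.add_apply] at key
    rw [integral_add t1 t2, integral_const_mul, integral_const_mul, integral_const_mul] at key
    rw [← key]
    exact integral_congr_ae (.of_forall fun z => by simp only [move]; ring)
  show (∫ z, Real.exp (x * u (move s y z)) * move s y z i ^ 2 ∂gauss ι) / D = _
  rw [e, add_div, add_div, mul_div_assoc _ D, div_self hD, mul_div_assoc _ I1, h1,
    mul_div_assoc _ I2, h2]
  simp only [Nest.heat]
  ring

lemma mean_heat_le (hN : Nn.Good) (hL : L.Good B) {l : ℕ} (hl : l ≤ Nn.K) (i : ι)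
    (h0 : ∀ j ≤ Nn.K, 0 ≤ Nn.sqGrad L μ j i) :
    Nn.mean (L.logZ μ) l (Nn.heat L μ l i) ≤ Nn.heatTop L μ i := by
  rw [mean_heat hN hL hl]
  refine sub_le_self _ (sum_nonneg fun j hj => ?_)
  exact mul_nonneg (sub_nonneg.2 (hN.x_mono j (mem_Icc.1 hj).2)) (h0 j (mem_Icc.1 hj).2)

/-- Growth of the mean square of one coordinate over one level. -/
lemma mean_coord_sq_succ (hN : Nn.Good) (hL : L.Good B) {l : ℕ} (hl : l < Nn.K) (i : ι) {ε A T : ℝ}
    (hε : 0 < ε) (hx : Nn.x (l + 1) ≤ 1) (hA : Nn.amp (l + 1) i ^ 2 ≤ A)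
    (hg : ∀ j ≤ Nn.K, 0 ≤ Nn.sqGrad L μ j i) (hT : 0 ≤ T) (hHT : Nn.heatTop L μ i ≤ T) :
    Nn.mean (L.logZ μ) (l + 1) (fun v => v i ^ 2) ≤
      (1 + ε) * Nn.mean (L.logZ μ) l (fun v => v i ^ 2) +
        A ^ 2 / ε * Nn.sqGrad L μ l i + A * (1 + A * T) := by
  set x := Nn.x (l + 1)
  set a := Nn.amp (l + 1) i ^ 2 with ha
  have hx0 : 0 ≤ x := (x_succ_pos hN hl).le
  have ha0 : 0 ≤ a := sq_nonneg _
  have hA0 : 0 ≤ A := ha0.trans hA
  show Nn.mean (L.logZ μ) l (Nn.avg (L.logZ μ) l fun v => v i ^ 2) ≤ _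
  have hc : Tame fun v : ι → ℝ => v i ^ 2 := (tame_coord i).sq
  have t1 : Tame fun v => (1 + ε) * v i ^ 2 := hc.const_mul _
  have t2 : Tame fun v => A ^ 2 / ε * Nn.grad L μ l i v ^ 2 :=
    ((grad_tame hN hL hl.le i).sq).const_mul _
  have t3 : Tame fun v => a + x * a ^ 2 * Nn.heat L μ l i v :=
    (tame_const a).add ((heat_tame hN hL hl.le i).const_mul _)
  refine (mean_mono hN hL hl.le (avg_tame hN hL hl hc) ((t1.add t2).add t3) fun v => ?_).trans ?_
  · rw [avg_coord_sq hN hL hl i v, ← ha]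
    set g := Nn.grad L μ l i v
    have hxa : (x * a) ^ 2 ≤ A ^ 2 :=
      pow_le_pow_left₀ (mul_nonneg hx0 ha0) ((mul_le_of_le_one_left ha0 hx).trans hA) 2
    have hy : 2 * (x * a) * (v i * g) ≤ ε * v i ^ 2 + A ^ 2 / ε * g ^ 2 := by
      have h4 : (x * a) ^ 2 / ε * g ^ 2 ≤ A ^ 2 / ε * g ^ 2 :=
        mul_le_mul_of_nonneg_right (div_le_div_of_nonneg_right hxa hε.le) (sq_nonneg _)
      have h5 : 0 ≤ (ε * v i - x * a * g) ^ 2 / ε := div_nonneg (sq_nonneg _) hε.le
      have h6 : (ε * v i - x * a * g) ^ 2 / ε =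
          ε * v i ^ 2 + (x * a) ^ 2 / ε * g ^ 2 - 2 * (x * a) * (v i * g) := by
        field_simp
        ring
      linarith
    linarith
  · rw [mean_add hN hL hl.le (t1.add t2) t3, mean_add hN hL hl.le t1 t2,
      mean_add hN hL hl.le (tame_const a) ((heat_tame hN hL hl.le i).const_mul _),
      mean_const_mul hN hL, mean_const_mul hN hL, mean_const_mul hN hL, mean_const hN hL hl.le]
    show _ + _ * Nn.sqGrad L μ l i + _ ≤ _
    have hh := (mean_heat_le hN hL hl.le i hg).trans hHT
    have h1 : x * a ^ 2 * Nn.mean (L.logZ μ) l (Nn.heat L μ l i) ≤ A * (A * T) := by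
      refine (mul_le_mul_of_nonneg_left hh (by positivity)).trans ?_
      rw [← mul_assoc A]
      refine mul_le_mul_of_nonneg_right ?_ hT
      exact (mul_le_of_le_one_left (by positivity) hx).trans (by nlinarith)
    linarith

end general

end FieldStep

open Lin FieldStep

variable {N M m : ℕ}

namespace Lin

lemma continuous_glassFree_U (K : ℕ) (lam : Fin N → ℝ) (S V : ℕ → Fin N → ℝ) :
    Continuous (glassFree K lam S V) :=
  Continuous.comp
    (g := fun x : (Fin N → ℝ) × (ℕ → Fin N → ℝ) × (ℕ → Fin N → ℝ) × ON N =>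
      glassFree K x.1 x.2.1 x.2.2.1 x.2.2.2)
    (f := fun U => (lam, S, V, U))
    (continuous_glassFree K) ((continuous_const (y := lam)).prodMk
      ((continuous_const (y := S)).prodMk ((continuous_const (y := V)).prodMk continuous_id)))

lemma integrable_glassFree (K : ℕ) (lam : Fin N → ℝ) (S V : ℕ → Fin N → ℝ) :
    Integrable (glassFree K lam S V) (haarON N) :=
  integrable_of_cont (continuous_glassFree_U K lam S V)

lemma heatTop_nonneg (K : ℕ) (lam : Fin N → ℝ) (S V : ℕ → Fin N → ℝ) (U : ON N) (i : FIdx N) :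
    0 ≤ (glassNest K S V).heatTop (glassLeaf U) (quadLaw lam U) i :=
  have h := ampTail_mem K lam S V U (Nat.zero_le (K + 1)) i
  h.1.trans h.2

lemma heatTop_le (K : ℕ) (lam : Fin N → ℝ) (S V : ℕ → Fin N → ℝ) (U : ON N) (i : FIdx N) :
    (glassNest K S V).heatTop (glassLeaf U) (quadLaw lam U) i ≤ (N : ℝ) + 1 := by
  obtain ⟨h1, h2⟩ := sum_heatTop K lam S V U
  rcases i with i | p
  · rw [h2]
    exact le_add_of_nonneg_left (Nat.cast_nonneg N)
  · refine (single_le_sum (fun q _ => heatTop_nonneg K lam S V U (Sum.inr q)) (mem_univ p)).trans ?_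
    rw [h1]
    linarith

lemma abs_ampTail_le (K : ℕ) (lam : Fin N → ℝ) (S V : ℕ → Fin N → ℝ) (U : ON N) {l : ℕ}
    (hl : l ≤ K + 1) (i : FIdx N) :
    |ampTail (glassNest K S V) (glassLeaf U) (quadLaw lam U) l i| ≤ (N : ℝ) + 1 := by
  have h := ampTail_mem K lam S V U hl i
  rw [abs_of_nonneg h.1]
  exact h.2.trans (heatTop_le K lam S V U i)

/-- A bound on the derivative gives a bound on the increment over the unit interval. -/
lemma path_bound {g g' : ℝ → ℝ} (hg : ∀ t, HasDerivAt g (g' t) t) {c : ℝ}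
    (hb : ∀ t, 0 < t → t < 1 → g' t ≤ c * t) : g 1 ≤ g 0 + c / 2 := by
  have hd : ∀ t, HasDerivAt (fun t => g t - c / 2 * t ^ 2) (g' t - c * t) t := fun t =>
    ((hg t).sub ((hasDerivAt_pow 2 t).const_mul (c / 2))).congr_deriv (by push_cast; ring)
  obtain ⟨ξ, hξ, he⟩ := exists_hasDerivAt_eq_slope _ _ (zero_lt_one' ℝ)
    (continuous_iff_continuousAt.2 fun t => (hd t).continuousAt).continuousOn fun t _ => hd t
  have := hb ξ hξ.1 hξ.2
  simp at he
  linarith

lemma wVal_le_add {Ω ι : Type} [Fintype Ω] [Nonempty Ω] [Fintype ι] {b c c' : Ω → ℝ}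
    (hb : ∀ ω, 0 < b ω) (A : Ω → ι → ℝ) {r : ℝ} (h : ∀ ω, c ω ≤ c' ω + r) (y : ι → ℝ) :
    wVal b c A y ≤ wVal b c' A y + r := by
  have hp := sum_pos' hb fun ω => c' ω + ∑ i, A ω i * y i
  rw [wVal, wVal, ← Real.log_exp r, ← Real.log_mul hp.ne' (Real.exp_pos r).ne', sum_mul]
  refine Real.log_le_log (sum_pos' hb _) (sum_le_sum fun ω _ => ?_)
  rw [mul_assoc, ← Real.exp_add]
  exact mul_le_mul_of_nonneg_left (Real.exp_le_exp.2 (by linarith [h ω])) (hb ω).le

lemma sqGrad_nonneg (K : ℕ) (lam : Fin N → ℝ) (S V : ℕ → Fin N → ℝ) (U : ON N) {l : ℕ}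
    (hl : l ≤ K + 1) (i : FIdx N) :
    0 ≤ (glassNest K S V).sqGrad (glassLeaf U) (quadLaw lam U) l i := by
  rw [Nest.sqGrad, glassLeaf_eq, quadLaw_eq, ← mean_logZ gB_pos (glassNest_good K S V) _ _ hl]
  exact Lin.mean_nonneg l fun y => sq_nonneg _

lemma sqGrad_le_heatTop (K : ℕ) (lam : Fin N → ℝ) (S V : ℕ → Fin N → ℝ) (U : ON N) {l : ℕ}
    (hl : l ≤ K + 1) (i : FIdx N) :
    (glassNest K S V).sqGrad (glassLeaf U) (quadLaw lam U) l i ≤
      (glassNest K S V).heatTop (glassLeaf U) (quadLaw lam U) i := by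
  have := quadLaw_prob lam U
  have hN := glassNest_good K S V
  refine (sqGrad_mono hN (glassLeaf_good U) hl (le_refl (glassNest K S V).K) i).trans ?_
  rw [glassLeaf_eq, quadLaw_eq, heatTop_wLaw gB_pos hN, Nest.sqGrad,
    show K + 1 = (glassNest K S V).K from rfl, ← mean_logZ gB_pos hN _ _ le_rfl]
  simp only [grad_wLaw gB_pos hN _ _ le_rfl, down_top (N := glassNest K S V) le_rfl]
  exact Lin.mean_mono (linGrowth_wVal gB_pos _ _) _ (Tame.sq (tame_wAvg gB_pos _ _ _))
    (tame_wAvg gB_pos _ _ _) (wAvg_sq_le gB_pos _ _)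

end Lin

theorem hasDerivAt_meanFree (K : ℕ) (lam dlam : Fin N → ℝ) (S dS V dV : ℕ → Fin N → ℝ) :
    HasDerivAt (fun t : ℝ => meanFree K (fun p => lam p + t * dlam p)
        (fun l p => S l p + t * dS l p) (fun l p => V l p + t * dV l p))
      (∫ U, (1 / 2 * ∑ p, dlam p *
          (glassNest K S V).heatTop (glassLeaf U) (quadLaw lam U) (Sum.inr p) +
        ∑ l ∈ range (K + 2), ∑ p,
          (dS l p * S l p * ampTail (glassNest K S V) (glassLeaf U) (quadLaw lam U) l (Sum.inl p) +
            dV l p * V l p *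
              ampTail (glassNest K S V) (glassLeaf U) (quadLaw lam U) l (Sum.inr p))) ∂haarON N)
      0 := by
  set lt : ℝ → Fin N → ℝ := fun t p => lam p + t * dlam p
  set St : ℝ → ℕ → Fin N → ℝ := fun t l p => S l p + t * dS l p
  set Vt : ℝ → ℕ → Fin N → ℝ := fun t l p => V l p + t * dV l p
  set F' : ℝ → ON N → ℝ := fun t U => 1 / 2 * ∑ p, dlam p *
          (glassNest K (St t) (Vt t)).heatTop (glassLeaf U) (quadLaw (lt t) U) (Sum.inr p) +
        ∑ l ∈ range (K + 2), ∑ p,
          (dS l p * St t l p *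
              ampTail (glassNest K (St t) (Vt t)) (glassLeaf U) (quadLaw (lt t) U) l (Sum.inl p) +
            dV l p * Vt t l p *
              ampTail (glassNest K (St t) (Vt t)) (glassLeaf U) (quadLaw (lt t) U) l (Sum.inr p))
    with hF'
  have hd : ∀ U t, HasDerivAt (fun t => glassFree K (lt t) (St t) (Vt t) U) (F' t U) t := by
    intro U t
    have h := hasDerivAt_glassFree K (lt t) dlam (St t) dS (Vt t) dV U
    rw [← sub_self t] at h
    refine (h.comp_sub_const t t).congr_of_eventuallyEq (.of_forall fun s => ?_)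
    simp only [lt, St, Vt]
    congr 1 <;> funext <;> ring
  set R := 1 / 2 * ∑ p, |dlam p| * ((N : ℝ) + 1) + ∑ l ∈ range (K + 2), ∑ p,
    (|dS l p| * (|S l p| + |dS l p|) * ((N : ℝ) + 1) +
      |dV l p| * (|V l p| + |dV l p|) * ((N : ℝ) + 1))
  have hR : ∀ U, ∀ t ∈ Metric.ball (0:ℝ) 1, ‖F' t U‖ ≤ R := by
    intro U t ht
    have ht' : |t| ≤ 1 := by
      rw [Metric.mem_ball, Real.dist_eq, sub_zero] at ht
      exact ht.le
    have hb : ∀ a b : ℝ, |a + t * b| ≤ |a| + |b| := fun a b =>
      (abs_add_le _ _).trans (add_le_add le_rfl (by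
        rw [abs_mul]; exact mul_le_of_le_one_left (abs_nonneg _) ht'))
    rw [Real.norm_eq_abs, hF']
    refine (abs_add_le _ _).trans (add_le_add ?_ ?_)
    · rw [abs_mul, abs_of_pos (by norm_num : (0:ℝ) < 1 / 2)]
      refine mul_le_mul_of_nonneg_left ((abs_sum_le_sum_abs _ _).trans
        (sum_le_sum fun p _ => ?_)) (by norm_num)
      rw [abs_mul, abs_of_nonneg (heatTop_nonneg K _ _ _ U _)]
      exact mul_le_mul_of_nonneg_left (heatTop_le K _ _ _ U _) (abs_nonneg _)
    · refine (abs_sum_le_sum_abs _ _).trans (sum_le_sum fun l hl => (abs_sum_le_sum_abs _ _).trans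
        (sum_le_sum fun p _ => (abs_add_le _ _).trans ?_))
      have hl' : l ≤ K + 1 := Nat.lt_succ_iff.1 (mem_range.1 hl)
      simp only [abs_mul]
      exact add_le_add
        (mul_le_mul (mul_le_mul_of_nonneg_left (hb _ _) (abs_nonneg _))
          (abs_ampTail_le K _ _ _ U hl' _) (abs_nonneg _) (by positivity))
        (mul_le_mul (mul_le_mul_of_nonneg_left (hb _ _) (abs_nonneg _))
          (abs_ampTail_le K _ _ _ U hl' _) (abs_nonneg _) (by positivity))
  have hF'c : Continuous (F' 0) := by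
    simp only [hF']
    refine (continuous_const.mul (continuous_finsetSum _ fun p _ => continuous_const.mul
      (continuous_glass_heatTop continuous_const continuous_const continuous_const continuous_id K
        _))).add (continuous_finsetSum _ fun l _ => continuous_finsetSum _ fun p _ => ?_)
    exact (continuous_const.mul (continuous_glass_ampTail continuous_const continuous_const
      continuous_const continuous_id K _)).add (continuous_const.mul
        (continuous_glass_ampTail continuous_const continuous_const continuous_const continuous_id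
          K _))
  have h := (hasDerivAt_integral_of_dominated_loc_of_deriv_le (μ := haarON N)
    (F := fun t U => glassFree K (lt t) (St t) (Vt t) U) (F' := F') (bound := fun _ => R)
    (Metric.ball_mem_nhds (0:ℝ) one_pos)
    (.of_forall fun t => (continuous_glassFree_U K _ _ _).aestronglyMeasurable)
    (integrable_glassFree K _ _ _) hF'c.aestronglyMeasurable (.of_forall hR) (integrable_const _)
    (.of_forall fun U t _ => hd U t)).2
  refine h.congr_deriv (integral_congr_ae (.of_forall fun U => ?_))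
  simp [hF', lt, St, Vt]

theorem meanFree_zero (K : ℕ) (lam : Fin N → ℝ) :
    meanFree K lam (fun _ _ => 0) (fun _ _ => 0) = N * meanP 1 lam := by
  rw [meanFree, meanP, ← integral_const_mul]
  refine integral_congr_ae (.of_forall fun U => ?_)
  show glassFree K lam (fun _ _ => 0) (fun _ _ => 0) U = (N : ℝ) * pressure 1 lam U
  rw [glassFree_eq, root_zero_amp (glassNest_good K _ _) _ (fun l _ i => by
    rcases i with i | i <;> rfl), pressure_eq]
  have h : wVal (gB N) (gC lam U) (gA U) 0 = Real.log (quadPart lam U) := by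
    simp [quadPart_eq, wVal, wSum]
  rw [h]
  rcases Nat.eq_zero_or_pos N with rfl | hN
  · simp [quadPart, eng]
  · rw [← mul_assoc, mul_one_div_cancel (Nat.cast_ne_zero.2 hN.ne'), one_mul]
    rfl

theorem meanFree_const_zero (K : ℕ) (c : ℝ) (s : ℕ → ℝ) :
    meanFree (N := N) K (fun _ => c) (fun l _ => s l) (fun _ _ => 0) =
      N * (c / 2 + oneSpin K s) := by
  set Nn := glassNest (N := N) K (fun l _ => s l) (fun _ _ => 0)
  have hN : Nn.Good := glassNest_good K _ _
  have h0 : ∀ U : ON N, glassFree K (fun _ => c) (fun l _ => s l) (fun _ _ => 0) U =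
      N * (c / 2 + oneSpin K s) := by
    intro U
    have e1 : wVal (gB N) (gC (fun _ => c) U) (gA U) =
        fun y => wVal (gB N) (fun _ => 0) (gA U) y + c / 2 * N := by
      funext y
      have hc : gC (fun _ => c) U = fun _ => c / 2 * N := funext fun σ => by
        simp only [gC, eng, ← mul_sum]
        rw [show ∑ l, ((U : Matrix (Fin N) (Fin N) ℝ) *ᵥ spin σ) l ^ 2 = N from sum_sq_spin U σ]
        ring
      rw [hc]
      refine le_antisymm (wVal_le_add gB_pos _ (fun _ => by simp) y) ?_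
      linarith [wVal_le_add (c := fun _ => 0) (c' := fun _ => c / 2 * N) (r := -(c / 2 * N)) gB_pos
        (gA U) (fun _ => by simp) y]
    have hs : wSum (gB N) (fun _ => 0) = 1 := by simp [wSum, gB, Fintype.card_pi]
    have hprob := wLaw_prob (gB_pos (N := N)) fun _ => 0
    rw [glassFree_eq, e1, Lin.root_add_const hN (linGrowth_wVal gB_pos _ _),
      ← free_eq_root gB_pos hN, hs, Real.log_one, zero_add,
      free_spins N Nn _ _ hN (linLeaf_good' _) Function.Embedding.inl fun y hy => ?_]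
    · have hs' : ∀ i : Fin N, (⟨Nn.K, Nn.x, fun l _ => Nn.amp l (Function.Embedding.inl i)⟩ :
          Nest Unit).free spinLeaf spinLaw = oneSpin K s := fun i => rfl
      rw [Finset.sum_congr rfl fun i _ => hs' i]
      simp only [sum_const, card_univ, Fintype.card_fin, nsmul_eq_mul]
      ring
    · have hy' : ∀ p, y (Sum.inr p) = 0 := fun p => hy _ fun l _ => rfl
      have h := logZ_wLaw gB_pos (gA U) (fun _ => 0) y
      rw [hs, Real.log_one, add_zero] at h
      rw [h, wVal]
      simp only [zero_add, Fintype.sum_sum_type, gA, Sum.elim_inl, Sum.elim_inr, hy', mul_zero,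
        sum_const_zero, add_zero, gB]
      rw [sum_spins, Real.log_prod fun i _ => (Real.cosh_pos _).ne']
      rfl
  rw [meanFree]
  simp [h0]

theorem meanFree_lam_lip (K : ℕ) {lam lam' : Fin N → ℝ} (S V : ℕ → Fin N → ℝ) {d : ℝ}
    (h : ∀ p, |lam p - lam' p| ≤ d) :
    |meanFree K lam S V - meanFree K lam' S V| ≤ d / 2 * N := by
  have key : ∀ l l' : Fin N → ℝ, (∀ p, |l p - l' p| ≤ d) →
      meanFree K l S V ≤ meanFree K l' S V + d / 2 * N := by
    intro l l' hll
    have hp : ∀ U, glassFree K l S V U ≤ glassFree K l' S V U + d / 2 * N := by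
      intro U
      rw [glassFree_eq, glassFree_eq]
      refine root_le_add (glassNest_good K S V) (linGrowth_wVal gB_pos _ _)
        (linGrowth_wVal gB_pos _ _) (wVal_le_add gB_pos _ fun σ => ?_)
      have hs : ∑ p, (l p - l' p) * rotSpin U σ p ^ 2 ≤ d * N := by
        rw [← sum_sq_rotSpin U σ, mul_sum]
        exact sum_le_sum fun p _ =>
          mul_le_mul_of_nonneg_right (abs_le.1 (hll p)).2 (sq_nonneg _)
      simp only [sub_mul, sum_sub_distrib] at hs
      simp only [gC, eng]
      simp only [rotSpin] at hs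
      linarith
    have := integral_mono (integrable_glassFree K l S V)
      ((integrable_glassFree K l' S V).add (integrable_const _)) hp
    simp only [Pi.add_apply] at this
    rw [integral_add (integrable_glassFree K l' S V) (integrable_const _)] at this
    simpa [meanFree] using this
  have h1 := key lam lam' h
  have h2 := key lam' lam fun p => by rw [abs_sub_comm]; exact h p
  exact abs_sub_le_iff.2 ⟨by linarith, by linarith⟩

theorem meanFree_amp_mono (K : ℕ) (lam : Fin N → ℝ) {S S' V V' : ℕ → Fin N → ℝ}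
    (hS : ∀ l p, |S l p| ≤ |S' l p|) (hV : ∀ l p, |V l p| ≤ |V' l p|) :
    meanFree K lam S V ≤ meanFree K lam S' V' := by
  refine integral_mono (integrable_glassFree K lam S V) (integrable_glassFree K lam S' V') fun U => ?_
  rw [glassFree_eq, glassFree_eq]
  refine root_amp_mono gB_pos (N := glassNest K S V) (glassNest_good K S V) (gA U) (gC lam U)
    (a := glassAmp S V) (a' := glassAmp S' V') fun l _ i => ?_
  rcases i with i | i
  · exact hS l i
  · exact hV l i

namespace Lin

/-- Switching on the amplitudes gives at most half their squares times the weights. -/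
lemma glassFree_switch (K : ℕ) (lam : Fin N → ℝ) (S dS V dV : ℕ → Fin N → ℝ) (U : ON N) {c : ℝ}
    (hb : ∀ t : ℝ, 0 < t → t < 1 →
      ∑ l ∈ range (K + 2), ∑ p,
        (dS l p * (S l p + t * dS l p) * ampTail (glassNest K (fun l p => S l p + t * dS l p)
              fun l p => V l p + t * dV l p) (glassLeaf U) (quadLaw lam U) l (Sum.inl p) +
          dV l p * (V l p + t * dV l p) * ampTail (glassNest K (fun l p => S l p + t * dS l p)
              fun l p => V l p + t * dV l p) (glassLeaf U) (quadLaw lam U) l (Sum.inr p)) ≤ c * t) :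
    glassFree K lam (fun l p => S l p + dS l p) (fun l p => V l p + dV l p) U ≤
      glassFree K lam S V U + c / 2 := by
  set St : ℝ → ℕ → Fin N → ℝ := fun t l p => S l p + t * dS l p
  set Vt : ℝ → ℕ → Fin N → ℝ := fun t l p => V l p + t * dV l p
  have hd : ∀ t, HasDerivAt (fun t => glassFree K lam (St t) (Vt t) U)
      (∑ l ∈ range (K + 2), ∑ p,
        (dS l p * St t l p * ampTail (glassNest K (St t) (Vt t)) (glassLeaf U) (quadLaw lam U) l
            (Sum.inl p) +
          dV l p * Vt t l p * ampTail (glassNest K (St t) (Vt t)) (glassLeaf U) (quadLaw lam U) l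
            (Sum.inr p))) t := by
    intro t
    have h := hasDerivAt_glassFree K lam (fun _ => 0) (St t) dS (Vt t) dV U
    rw [← sub_self t] at h
    refine ((h.comp_sub_const t t).congr_deriv (by simp)).congr_of_eventuallyEq
      (.of_forall fun s => ?_)
    simp only [St, Vt]
    congr 1 <;> funext <;> ring
  simpa [St, Vt] using path_bound hd hb

lemma sum_amp_le (N K : ℕ) {V : ℕ → Fin N → ℝ} {A : ℕ → ℝ} (hV : ∀ l p, |V l p| ≤ A l)
    {T : ℕ → Fin N → ℝ} {H : Fin N → ℝ} (hT : ∀ l ≤ K + 1, ∀ p, 0 ≤ T l p ∧ T l p ≤ H p)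
    (hH : ∑ p, H p = N) {t : ℝ} (ht : 0 < t) :
    ∑ l ∈ range (K + 2), ∑ p, V l p * (t * V l p) * T l p ≤
      (N : ℝ) * (∑ l ∈ range (K + 2), A l ^ 2) * t := by
  rw [mul_assoc, sum_mul, mul_sum]
  refine sum_le_sum fun l hl => ?_
  rw [← hH, sum_mul]
  refine sum_le_sum fun p _ => ?_
  have hl' : l ≤ K + 1 := Nat.lt_succ_iff.1 (mem_range.1 hl)
  have h1 : V l p ^ 2 ≤ A l ^ 2 :=
    (sq_abs (V l p)).symm.trans_le (pow_le_pow_left₀ (abs_nonneg _) (hV l p) 2)
  have h2 := mul_le_mul (mul_le_mul_of_nonneg_right h1 ht.le) (hT l hl' p).2 (hT l hl' p).1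
    (by positivity)
  linarith

end Lin

theorem meanFree_amp_le (K : ℕ) (lam : Fin N → ℝ) (S V : ℕ → Fin N → ℝ) {A : ℕ → ℝ}
    (hV : ∀ l p, |V l p| ≤ A l) :
    meanFree K lam S V ≤ meanFree K lam S (fun _ _ => 0) +
      (N : ℝ) / 2 * ∑ l ∈ range (K + 2), A l ^ 2 := by
  have hp : ∀ U, glassFree K lam S V U ≤ glassFree K lam S (fun _ _ => 0) U +
      (N : ℝ) / 2 * ∑ l ∈ range (K + 2), A l ^ 2 := by
    intro U
    have h := glassFree_switch K lam S (fun _ _ => 0) (fun _ _ => 0) V U
      (c := (N : ℝ) * ∑ l ∈ range (K + 2), A l ^ 2) fun t ht _ => by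
        simp only [zero_mul, zero_add, mul_zero, add_zero]
        exact sum_amp_le N K hV
          (T := fun l p => ampTail (glassNest K S fun l p => t * V l p) (glassLeaf U)
            (quadLaw lam U) l (Sum.inr p))
          (H := fun p => (glassNest K S fun l p => t * V l p).heatTop (glassLeaf U)
            (quadLaw lam U) (Sum.inr p))
          (fun l hl p => ampTail_mem K lam S (fun l p => t * V l p) U hl (Sum.inr p))
          (sum_heatTop K lam S (fun l p => t * V l p) U).1 ht
    simp only [add_zero, zero_add] at h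
    linarith
  have := integral_mono (integrable_glassFree K lam S V)
    ((integrable_glassFree K lam S fun _ _ => 0).add (integrable_const _)) hp
  simp only [Pi.add_apply] at this
  rw [integral_add (integrable_glassFree K lam S _) (integrable_const _)] at this
  simpa [meanFree] using this

theorem meanFree_spin_le (K : ℕ) (lam : Fin N → ℝ) (S V : ℕ → Fin N → ℝ) {A : ℕ → ℝ}
    (hS : ∀ l p, |S l p| ≤ A l) :
    meanFree K lam S V ≤ meanFree K lam (fun _ _ => 0) V +
      (N : ℝ) / 2 * ∑ l ∈ range (K + 2), A l ^ 2 := by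
  have hp : ∀ U, glassFree K lam S V U ≤ glassFree K lam (fun _ _ => 0) V U +
      (N : ℝ) / 2 * ∑ l ∈ range (K + 2), A l ^ 2 := by
    intro U
    have h := glassFree_switch K lam (fun _ _ => 0) S V (fun _ _ => 0) U
      (c := (N : ℝ) * ∑ l ∈ range (K + 2), A l ^ 2) fun t ht _ => by
        simp only [zero_mul, zero_add, mul_zero, add_zero]
        exact sum_amp_le N K hS
          (T := fun l p => ampTail (glassNest K (fun l p => t * S l p) V) (glassLeaf U)
            (quadLaw lam U) l (Sum.inl p))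
          (H := fun _ => 1)
          (fun l hl p => ⟨(ampTail_mem K lam (fun l p => t * S l p) V U hl (Sum.inl p)).1,
            ((ampTail_mem K lam (fun l p => t * S l p) V U hl (Sum.inl p)).2).trans_eq
              ((sum_heatTop K lam (fun l p => t * S l p) V U).2 p)⟩)
          (by simp) ht
    simp only [add_zero, zero_add] at h
    linarith
  have := integral_mono (integrable_glassFree K lam S V)
    ((integrable_glassFree K lam (fun _ _ => 0) V).add (integrable_const _)) hp
  simp only [Pi.add_apply] at this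
  rw [integral_add (integrable_glassFree K lam _ V) (integrable_const _)] at this
  simpa [meanFree] using this

theorem down_field_sq_le (K : ℕ) (lam : Fin N → ℝ) (S V : ℕ → Fin N → ℝ) (U : ON N) {A : ℝ}
    (hV : ∀ l p, |V l p| ≤ A) :
    (glassNest K S V).mean ((glassLeaf U).logZ (quadLaw lam U)) 0
        ((glassNest K S V).down ((glassLeaf U).logZ (quadLaw lam U)) 0
          fun y => ∑ p, y (Sum.inr p) ^ 2) ≤
      ((K : ℝ) + 2) ^ 2 * A ^ 2 * (1 + A ^ 2) * N := by
  have := quadLaw_prob lam U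
  set Nn := glassNest K S V with hNn
  set L := glassLeaf U
  set μ := quadLaw lam U
  have hN : Nn.Good := glassNest_good K S V
  have hL : L.Good ((N : ℝ) + 1) := glassLeaf_good U
  rw [Lin.mean_down (Nat.zero_le _)]
  have hamp : ∀ l p, Nn.amp l (Sum.inr p) ^ 2 ≤ A ^ 2 := fun l p =>
    (sq_abs (V l p)).symm.trans_le (pow_le_pow_left₀ (abs_nonneg _) (hV l p) 2)
  set B := A ^ 2 * (1 + A ^ 2) * N
  have hsq : ∀ p : Fin N, Tame fun y : FIdx N → ℝ => y (Sum.inr p) ^ 2 :=
    fun p => (tame_coord (Sum.inr p)).sq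
  have key : ∀ l, l ≤ Nn.K →
      ∑ p, Nn.mean (L.logZ μ) l (fun y => y (Sum.inr p) ^ 2) ≤ ((l : ℝ) + 1) ^ 2 * B := by
    intro l
    induction l with
    | zero =>
      intro _
      have hp : ∀ p, Nn.mean (L.logZ μ) 0 (fun y => y (Sum.inr p) ^ 2) =
          Nn.amp 0 (Sum.inr p) ^ 2 := by
        intro p
        have h := GaussPoincare.integral_sq_linear
          (Pi.single (Sum.inr p : FIdx N) (Nn.amp 0 (Sum.inr p)))
        simp [Pi.single_apply, ite_pow] at h
        simpa [Nest.mean, mul_pow, mul_comm] using h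
      simp only [hp]
      refine (sum_le_sum fun p _ => hamp 0 p).trans ?_
      simp [B]
      nlinarith [sq_nonneg A, sq_nonneg (A ^ 2), (Nat.cast_nonneg N : (0:ℝ) ≤ N)]
    | succ l ih =>
      intro hl
      have hl' : l < Nn.K := hl
      set ε : ℝ := 1 / ((l : ℝ) + 1) with hε
      have hε0 : 0 < ε := by positivity
      have hlK : l ≤ K + 1 := Nat.le_of_succ_le hl
      refine (sum_le_sum fun p _ => mean_coord_sq_succ hN hL hl' (Sum.inr p) hε0
        ((gridX_facts K).2.2.2.2 _) (hamp (l + 1) p)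
        (fun j hj => sqGrad_nonneg K lam S V U hj _)
        (heatTop_nonneg K lam S V U _) le_rfl).trans ?_
      simp only [mul_add, mul_one, sum_add_distrib, ← mul_sum, sum_const, card_univ,
        Fintype.card_fin, nsmul_eq_mul]
      have hg : ∑ p, Nn.sqGrad L μ l (Sum.inr p) ≤ N :=
        (sum_le_sum fun p _ => sqGrad_le_heatTop K lam S V U hlK _).trans_eq
          (sum_heatTop K lam S V U).1
      rw [(sum_heatTop K lam S V U).1]
      have h1 := mul_le_mul_of_nonneg_left (ih (Nat.le_of_succ_le hl))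
        (by positivity : (0:ℝ) ≤ 1 + ε)
      have h2 := mul_le_mul_of_nonneg_left hg (by positivity : (0:ℝ) ≤ (A ^ 2) ^ 2 / ε)
      have e1 : (1 + ε) * (((l : ℝ) + 1) ^ 2 * B) = ((l : ℝ) + 2) * ((l : ℝ) + 1) * B := by
        rw [hε]
        field_simp
        ring
      have e2 : (A ^ 2) ^ 2 / ε = ((l : ℝ) + 1) * (A ^ 2) ^ 2 := by
        rw [hε, div_div_eq_mul_div, div_one, mul_comm]
      rw [e1] at h1
      rw [e2] at h2
      push_cast
      rw [e2]
      have h3 : ((l : ℝ) + 1) * (A ^ 2) ^ 2 * N ≤ ((l : ℝ) + 1) * B := by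
        simp only [B, mul_assoc]
        refine mul_le_mul_of_nonneg_left ?_ (by positivity)
        nlinarith [mul_nonneg (sq_nonneg A) (Nat.cast_nonneg N : (0:ℝ) ≤ N)]
      simp only [B] at h1 h2 h3 ⊢
      nlinarith [h1, h2, h3]
  rw [show Nn.mean (L.logZ μ) Nn.K (fun y => ∑ p, y (Sum.inr p) ^ 2) =
    ∑ p, Nn.mean (L.logZ μ) Nn.K (fun y => y (Sum.inr p) ^ 2) from
      mean_finsum hN hL le_rfl univ fun p _ => hsq p]
  refine (key Nn.K le_rfl).trans_eq ?_
  simp [hNn, glassNest, B]
  ring

theorem glass_root_dev (K : ℕ) (lam : Fin N → ℝ) (S V : ℕ → Fin N → ℝ) (U : ON N) {A : ℝ}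
    (hA : ∀ p, |S 0 p| ≤ A ∧ |V 0 p| ≤ A) :
    (glassNest K S V).mean ((glassLeaf U).logZ (quadLaw lam U)) 0 (fun y =>
      |(glassNest K S V).u ((glassLeaf U).logZ (quadLaw lam U)) 0 y -
        (glassNest K S V).free (glassLeaf U) (quadLaw lam U)|) ≤ 2 * A * Real.sqrt N := by
  have := quadLaw_prob lam U
  set Nn := glassNest K S V with hNn
  set L := glassLeaf U
  set μ := quadLaw lam U
  have hN : Nn.Good := glassNest_good K S V
  have hL : L.Good ((N : ℝ) + 1) := glassLeaf_good U
  set u := Nn.u (L.logZ μ) 0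
  set a := Nn.amp 0
  set f : (FIdx N → ℝ) → ℝ := fun z => u fun i => a i * z i
  set g : FIdx N → (FIdx N → ℝ) → ℝ := fun i z => a i * Nn.grad L μ 0 i (fun j => a j * z j)
  have hd : ∀ y v : FIdx N → ℝ, HasDerivAt (fun t : ℝ => f fun i => y i + t * v i)
      (∑ i, v i * g i y) 0 := by
    intro y v
    refine ((hasDerivAt_u hN hL (Nat.zero_le _) (fun i => a i * y i)
      fun i => a i * v i).congr_deriv (sum_congr rfl fun i _ => by simp only [g]; ring)
      ).congr_of_eventuallyEq (.of_forall fun t => ?_)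
    exact congrArg u (funext fun i => by ring)
  have hft : Tame f := by
    have h := (u_tame (μ := μ) hN hL 0).comp_move a 0
    have e : ∀ z, move a 0 z = fun i => a i * z i := fun z => funext fun i => zero_add _
    simpa only [f, u, e] using h
  obtain ⟨C, k, hC, hk, hbf⟩ := hft.bound
  set Bg : ℝ := (Fintype.card Unit : ℝ) * ((N : ℝ) + 1) * ((N : ℝ) + 1)
  set D := C + (∑ i, |a i|) * Bg
  have hbg : ∀ i y, |g i y| ≤ D * Real.exp (k * ∑ i, |y i|) := fun i y => by
    refine le_trans ?_ (le_mul_of_one_le_right (by positivity)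
      (Real.one_le_exp (mul_nonneg hk (l1_nonneg y))))
    simp only [g, abs_mul]
    exact (mul_le_mul (single_le_sum (f := fun j => |a j|) (fun _ _ => abs_nonneg _) (mem_univ i))
      (grad_bound hN hL (Nat.zero_le _) i _) (abs_nonneg _)
        (sum_nonneg fun _ _ => abs_nonneg _)).trans (le_add_of_nonneg_left hC)
  have hgc : ∀ i, Continuous (g i) := fun i =>
    continuous_const.mul ((grad_tame hN hL (Nat.zero_le _) i).1.comp (by fun_prop))
  have hvar := GaussPoincare.gauss_poincare hd hgc hk (fun y => (hbf y).trans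
    (mul_le_mul_of_nonneg_right (le_add_of_nonneg_right (by positivity)) (Real.exp_pos _).le)) hbg
  have hS : ∑ i, ∫ y, g i y ^ 2 ∂gauss (FIdx N) ≤ 2 * N * A ^ 2 := by
    have e : ∀ i, ∫ y, g i y ^ 2 ∂gauss (FIdx N) = a i ^ 2 * Nn.sqGrad L μ 0 i := fun i => by
      simp only [g, mul_pow, integral_const_mul]
      rfl
    have ha : ∀ i, a i ^ 2 ≤ A ^ 2 := fun i => by
      refine (sq_abs (a i)).symm.trans_le (pow_le_pow_left₀ (abs_nonneg _) ?_ 2)
      rcases i with i | i
      · exact (hA i).1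
      · exact (hA i).2
    simp only [e]
    refine (sum_le_sum fun i _ => mul_le_mul (ha i) (sqGrad_le_heatTop K lam S V U (Nat.zero_le _) i)
      (sqGrad_nonneg K lam S V U (Nat.zero_le _) i) (sq_nonneg A)).trans_eq ?_
    rw [Fintype.sum_sum_type, ← mul_sum, ← mul_sum, (sum_heatTop K lam S V U).1]
    simp only [(sum_heatTop K lam S V U).2]
    simp
    ring
  have hfree : Nn.free L μ = ∫ z, f z ∂gauss (FIdx N) := rfl
  show ∫ z, |f z - Nn.free L μ| ∂gauss (FIdx N) ≤ _
  rw [hfree]
  set e := ∫ z, f z ∂gauss (FIdx N)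
  have hh : Tame fun z => |f z - e| := (hft.sub (tame_const e)).abs
  have hsq : (∫ z, |f z - e| ∂gauss (FIdx N)) ^ 2 ≤ variance f (gauss (FIdx N)) := by
    have h := variance_nonneg (fun z => |f z - e|) (gauss (FIdx N))
    rw [variance_eq_sub hh.memLp_two] at h
    rw [variance_eq_integral hft.1.aemeasurable]
    simp only [Pi.pow_apply, sq_abs] at h
    linarith
  have hπ : Real.pi ^ 2 / 8 ≤ 2 := by nlinarith [Real.pi_lt_four, Real.pi_pos]
  have hb : (∫ z, |f z - e| ∂gauss (FIdx N)) ^ 2 ≤ (2 * A * Real.sqrt N) ^ 2 := by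
    rw [mul_pow, mul_pow, Real.sq_sqrt (Nat.cast_nonneg N)]
    have := mul_le_mul hπ hS (sum_nonneg fun i _ => integral_nonneg fun _ => sq_nonneg _)
      (by norm_num)
    linarith
  refine (le_abs_self _).trans ((sq_le_sq.1 hb).trans_eq (abs_of_nonneg ?_))
  rcases Nat.eq_zero_or_pos N with h0 | h0
  · simp [h0]
  · have := (abs_nonneg _).trans (hA ⟨0, h0⟩).1
    positivity

end Vale.Agent.P166.Parisi
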