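import Vale.Agent.P157.Parisi.CalcBasic
import Vale.Agent.P166.Parisi.GaussPoincare

/-!
Module P: dependence of the recursion on a parameter in the leaf; Gaussian concentration at the
root.
-/

set_option linter.unusedSectionVars false

namespace Vale.Agent.P166.Parisi

open MeasureTheory ProbabilityTheory Finset Filter Topology
open Vale.Agent.P157 Vale.Agent.P157.Parisi

variable {ι : Type} [Fintype ι]

/-- `U' t` is the derivative in `t` of the leaf `U t`, with linear growth, near `t₀`. -/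
def LeafFamily (U U' : ℝ → (ι → ℝ) → ℝ) (t₀ : ℝ) : Prop :=
  ∃ r C : ℝ, 0 < r ∧
    (∀ t, |t - t₀| < r → Continuous (U t) ∧ Continuous (U' t)) ∧
    (∀ t, |t - t₀| < r → ∀ y, HasDerivAt (fun t => U t y) (U' t y) t ∧
      |U t y| ≤ C * (1 + ∑ i, |y i|) ∧ |U' t y| ≤ C * (1 + ∑ i, |y i|)) ∧
    ∀ y, ContinuousAt (fun t => U' t y) t₀

/-- `f'` is the derivative in `t` of `f`, with exponential growth, near `t₀`. -/
def TameFamily (f f' : ℝ → (ι → ℝ) → ℝ) (t₀ : ℝ) : Prop :=
  ∃ r C k : ℝ, 0 < r ∧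
    (∀ t, |t - t₀| < r → Continuous (f t) ∧ Continuous (f' t)) ∧
    (∀ t, |t - t₀| < r → ∀ y, HasDerivAt (fun t => f t y) (f' t y) t ∧
      |f t y| ≤ C * Real.exp (k * ∑ i, |y i|) ∧ |f' t y| ≤ C * Real.exp (k * ∑ i, |y i|)) ∧
    ∀ y, ContinuousAt (fun t => f' t y) t₀

variable {N : Nest ι}

/-- Averages of a function of the state at level `l` down to level `l - d`. -/
noncomputable def Nest.chainUp (N : Nest ι) (U : (ι → ℝ) → ℝ) (l : ℕ) (f : (ι → ℝ) → ℝ) :
    ℕ → (ι → ℝ) → ℝ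
  | 0 => f
  | d + 1 => N.avg U (l - (d + 1)) (Nest.chainUp N U l f d)

namespace Param

/-! ### Bounds which are uniform in the functions -/

lemma step_den_lower (m : ℝ) (s : ι → ℝ) (C k : ℝ) (hk : 0 ≤ k) :
    ∃ a b : ℝ, 0 < a ∧ 0 ≤ b ∧ ∀ u : (ι → ℝ) → ℝ, Continuous u →
      (∀ v, |u v| ≤ C + k * l1 v) → ∀ y,
        a * Real.exp (-(b * l1 y)) ≤ ∫ z, Real.exp (m * u (move s y z)) ∂gauss ι := by
  have i1 := integrable_exp_l1 (ι := ι) (-(|m| * k * l1 s))
  refine ⟨Real.exp (-(|m| * C)) * ∫ z, Real.exp (-(|m| * k * l1 s) * l1 z) ∂gauss ι, |m| * k,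
    mul_pos (Real.exp_pos _) (integral_exp_pos i1), by positivity, fun u hc hu y => ?_⟩
  have hC : 0 ≤ C := by
    have := (abs_nonneg _).trans (hu (fun _ => 0))
    simpa [l1] using this
  have hl : LinGrowth u := ⟨hc, C, k, hC, hk, hu⟩
  rw [mul_right_comm, ← integral_const_mul]
  refine integral_mono (i1.const_mul _) (integrable_exp_move hl m s y) fun z => ?_
  rw [← Real.exp_add, ← Real.exp_add]
  refine Real.exp_le_exp.2 ?_
  have h1 := mul_le_mul_of_nonneg_left (hu (move s y z)) (abs_nonneg m)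
  have h2 := mul_le_mul_of_nonneg_left (l1_move_le s y z) (mul_nonneg (abs_nonneg m) hk)
  have h3 := neg_abs_le (m * u (move s y z))
  rw [abs_mul] at h3
  linarith

lemma exp_move_bound {m C k D j : ℝ} (hk : 0 ≤ k) (hD : 0 ≤ D) (hj : 0 ≤ j) {u f : (ι → ℝ) → ℝ}
    (hu : ∀ v, |u v| ≤ C + k * l1 v) (hf : ∀ v, |f v| ≤ D * Real.exp (j * l1 v)) (s y z : ι → ℝ) :
    |Real.exp (m * u (move s y z)) * f (move s y z)| ≤
      Real.exp (|m| * C) * D * Real.exp ((|m| * k + j) * l1 y) *
        Real.exp ((|m| * k + j) * l1 s * l1 z) := by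
  rw [abs_mul, abs_of_pos (Real.exp_pos _)]
  have h1 : m * u (move s y z) ≤ |m| * C + |m| * k * l1 (move s y z) := by
    refine (le_abs_self _).trans ?_
    rw [abs_mul]
    have := mul_le_mul_of_nonneg_left (hu (move s y z)) (abs_nonneg m)
    linarith
  calc Real.exp (m * u (move s y z)) * |f (move s y z)|
      ≤ Real.exp (|m| * C + |m| * k * l1 (move s y z)) *
          (D * Real.exp (j * l1 (move s y z))) :=
        mul_le_mul (Real.exp_le_exp.2 h1) (hf _) (abs_nonneg _) (Real.exp_pos _).le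
    _ = Real.exp (|m| * C) * D * Real.exp ((|m| * k + j) * l1 (move s y z)) := by
        rw [Real.exp_add, add_mul, Real.exp_add]; ring
    _ ≤ Real.exp (|m| * C) * D * Real.exp ((|m| * k + j) * (l1 y + l1 s * l1 z)) := by
        gcongr; exact l1_move_le s y z
    _ = _ := by rw [mul_add, Real.exp_add]; ring_nf

lemma stepAvg_bound (m : ℝ) (s : ι → ℝ) (C k D j : ℝ) (hk : 0 ≤ k) (hD : 0 ≤ D) (hj : 0 ≤ j) :
    ∃ D' j' : ℝ, 0 ≤ D' ∧ 0 ≤ j' ∧ ∀ u f : (ι → ℝ) → ℝ, Continuous u → Continuous f →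
      (∀ v, |u v| ≤ C + k * l1 v) → (∀ v, |f v| ≤ D * Real.exp (j * l1 v)) →
      ∀ y, |stepAvg m s u f y| ≤ D' * Real.exp (j' * l1 y) := by
  obtain ⟨a, b, ha, hb, hlow⟩ := step_den_lower m s C k hk
  set I := ∫ z, Real.exp ((|m| * k + j) * l1 s * l1 z) ∂gauss ι
  have hI : 0 ≤ I := integral_nonneg fun z => (Real.exp_pos _).le
  refine ⟨Real.exp (|m| * C) * D * I / a, |m| * k + j + b, by positivity, by positivity,
    fun u f hc hf hu hfb y => ?_⟩
  have hnum := norm_integral_le_of_norm_le (μ := gauss ι) ((integrable_exp_l1 _).const_mul _)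
    (f := fun z => Real.exp (m * u (move s y z)) * f (move s y z))
    (.of_forall fun z => (Real.norm_eq_abs _).trans_le (exp_move_bound hk hD hj hu hfb s y z))
  rw [integral_const_mul, Real.norm_eq_abs] at hnum
  have hden := hlow u hc hu y
  have hp : 0 < a * Real.exp (-(b * l1 y)) := by positivity
  simp only [stepAvg, tilt, abs_div, abs_of_pos (hp.trans_le hden)]
  refine (div_le_div₀ (by positivity) hnum hp hden).trans_eq ?_
  rw [add_mul _ b, Real.exp_add, Real.exp_neg]
  field_simp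
  rfl

lemma stepLog_bound (m : ℝ) (s : ι → ℝ) (C k : ℝ) (hk : 0 ≤ k) :
    ∃ C' k' : ℝ, 0 ≤ C' ∧ 0 ≤ k' ∧ ∀ u : (ι → ℝ) → ℝ, Continuous u →
      (∀ v, |u v| ≤ C + k * l1 v) → ∀ y, |stepLog m s u y| ≤ C' + k' * l1 y := by
  obtain ⟨a, b, ha, hb, hlow⟩ := step_den_lower m s C k hk
  set I := Real.exp (|m| * C) * ∫ z, Real.exp (|m| * k * l1 s * l1 z) ∂gauss ι
  have hI : 0 < I := mul_pos (Real.exp_pos _) (integral_exp_pos (integrable_exp_l1 _))
  refine ⟨|m⁻¹| * (|Real.log a| + |Real.log I|), |m⁻¹| * (|m| * k + b), by positivity, by positivity,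
    fun u hc hu y => ?_⟩
  have h1 := hlow u hc hu y
  have hp : 0 < a * Real.exp (-(b * l1 y)) := by positivity
  have h2 : ∫ z, Real.exp (m * u (move s y z)) ∂gauss ι ≤ I * Real.exp (|m| * k * l1 y) := by
    have := norm_integral_le_of_norm_le (μ := gauss ι) ((integrable_exp_l1 _).const_mul _)
      (f := fun z => Real.exp (m * u (move s y z)) * 1)
      (.of_forall fun z => (Real.norm_eq_abs _).trans_le
        (exp_move_bound (j := 0) (D := 1) (f := fun _ => 1) hk zero_le_one le_rfl hu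
          (fun v => by simp) s y z))
    simp only [mul_one, add_zero, integral_const_mul, Real.norm_eq_abs] at this
    refine ((le_abs_self _).trans this).trans_eq ?_
    ring
  have e1 := Real.log_le_log hp h1
  have e2 := Real.log_le_log (hp.trans_le h1) h2
  rw [Real.log_mul ha.ne' (Real.exp_ne_zero _), Real.log_exp] at e1
  rw [Real.log_mul hI.ne' (Real.exp_ne_zero _), Real.log_exp] at e2
  rw [stepLog, abs_mul, mul_assoc, ← mul_add]
  refine mul_le_mul_of_nonneg_left ?_ (abs_nonneg _)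
  have := le_abs_self (Real.log I)
  have := neg_abs_le (Real.log a)
  have := abs_nonneg (Real.log I)
  have := abs_nonneg (Real.log a)
  have := mul_nonneg (mul_nonneg (abs_nonneg m) hk) (l1_nonneg y)
  have := mul_nonneg hb (l1_nonneg y)
  rw [abs_le]
  constructor <;> linarith

/-! ### Families -/

/-- `f'` is the derivative of `f` on the ball, with a common exponential bound. -/
def Fam (f f' : ℝ → (ι → ℝ) → ℝ) (t₀ r : ℝ) : Prop :=
  ∃ C k : ℝ, 0 ≤ C ∧ 0 ≤ k ∧ ∀ t, |t - t₀| < r →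
    Continuous (f t) ∧ Continuous (f' t) ∧
    ∀ y, HasDerivAt (fun t => f t y) (f' t y) t ∧
      |f t y| ≤ C * Real.exp (k * l1 y) ∧ |f' t y| ≤ C * Real.exp (k * l1 y)

/-- A family with, in addition, a common linear bound. -/
def LFam (u u' : ℝ → (ι → ℝ) → ℝ) (t₀ r : ℝ) : Prop :=
  Fam u u' t₀ r ∧
    ∃ C k : ℝ, 0 ≤ C ∧ 0 ≤ k ∧ ∀ t, |t - t₀| < r → ∀ y, |u t y| ≤ C + k * l1 y

lemma Fam.tame {f f' : ℝ → (ι → ℝ) → ℝ} {t₀ r : ℝ} (h : Fam f f' t₀ r) {t : ℝ}
    (ht : |t - t₀| < r) : Tame (f t) ∧ Tame (f' t) := by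
  obtain ⟨C, k, -, -, h⟩ := h
  exact ⟨tame_of_bound (h t ht).1 fun y => ((h t ht).2.2 y).2.1,
    tame_of_bound (h t ht).2.1 fun y => ((h t ht).2.2 y).2.2⟩

lemma LFam.linGrowth {u u' : ℝ → (ι → ℝ) → ℝ} {t₀ r : ℝ} (h : LFam u u' t₀ r) {t : ℝ}
    (ht : |t - t₀| < r) : LinGrowth (u t) := by
  obtain ⟨⟨A, l, -, -, h1⟩, C, k, hC, hk, h2⟩ := h
  exact ⟨(h1 t ht).1, C, k, hC, hk, h2 t ht⟩

lemma Fam.mono {f f' : ℝ → (ι → ℝ) → ℝ} {t₀ r r' : ℝ} (h : Fam f f' t₀ r) (hr : r' ≤ r) :
    Fam f f' t₀ r' := by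
  obtain ⟨C, k, hC, hk, h⟩ := h
  exact ⟨C, k, hC, hk, fun t ht => h t (ht.trans_le hr)⟩

lemma fam_of_tameFamily {f f' : ℝ → (ι → ℝ) → ℝ} {t₀ : ℝ} (h : TameFamily f f' t₀) :
    ∃ r, 0 < r ∧ Fam f f' t₀ r := by
  obtain ⟨r, C, k, hr, hc, hd, -⟩ := h
  have hle : ∀ y : ι → ℝ, C * Real.exp (k * ∑ i, |y i|) ≤ max C 0 * Real.exp (max k 0 * l1 y) :=
    fun y => mul_le_mul (le_max_left _ _)
      (Real.exp_le_exp.2 (mul_le_mul_of_nonneg_right (le_max_left _ _) (l1_nonneg y)))
      (Real.exp_pos _).le (le_max_right _ _)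
  exact ⟨r, hr, max C 0, max k 0, le_max_right _ _, le_max_right _ _, fun t ht =>
    ⟨(hc t ht).1, (hc t ht).2, fun y => ⟨(hd t ht y).1, (hd t ht y).2.1.trans (hle y),
      (hd t ht y).2.2.trans (hle y)⟩⟩⟩

lemma lfam_of_leafFamily {U U' : ℝ → (ι → ℝ) → ℝ} {t₀ : ℝ} (h : LeafFamily U U' t₀) :
    ∃ r, 0 < r ∧ LFam U U' t₀ r := by
  obtain ⟨r, C, hr, hc, hd, -⟩ := h
  have hC : 0 ≤ C := by
    have := (abs_nonneg _).trans (hd t₀ (by simpa using hr) fun _ => 0).2.1
    simpa using this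
  have hlin : ∀ y : ι → ℝ, C * (1 + ∑ i, |y i|) ≤ C * Real.exp (1 * l1 y) := fun y => by
    refine mul_le_mul_of_nonneg_left ?_ hC
    rw [one_mul, add_comm]
    exact Real.add_one_le_exp _
  refine ⟨r, hr, ⟨C, 1, hC, zero_le_one, fun t ht => ⟨(hc t ht).1, (hc t ht).2, fun y =>
    ⟨(hd t ht y).1, (hd t ht y).2.1.trans (hlin y), (hd t ht y).2.2.trans (hlin y)⟩⟩⟩,
    C, C, hC, hC, fun t ht y => (hd t ht y).2.1.trans_eq ?_⟩
  rw [l1]; ring

section step

variable {u u' f f' : ℝ → (ι → ℝ) → ℝ} {t₀ r : ℝ} (m : ℝ) (s : ι → ℝ)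

/-- The derivative of the numerator of one step. -/
lemma hasDerivAt_num (hu : LFam u u' t₀ r) (hf : Fam f f' t₀ r) {t : ℝ} (ht : |t - t₀| < r)
    (y : ι → ℝ) :
    HasDerivAt (fun t => ∫ z, Real.exp (m * u t (move s y z)) * f t (move s y z) ∂gauss ι)
      (∫ z, Real.exp (m * u t (move s y z)) *
        (f' t (move s y z) + m * (f t (move s y z) * u' t (move s y z))) ∂gauss ι) t := by
  obtain ⟨⟨A, a, hA, ha, hU⟩, C, k, hC, hk, hlin⟩ := hu
  obtain ⟨D, j, hD, hj, hF⟩ := hf
  have hr' : 0 < r - |t - t₀| := by linarith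
  have hin : ∀ t', |t' - t| < r - |t - t₀| → |t' - t₀| < r := fun t' h => by
    have := abs_sub_le t' t t₀
    linarith
  set E := Real.exp (|m| * C) * (D + |m| * (D * A)) * Real.exp ((|m| * k + (j + a)) * l1 y)
  have hD' : 0 ≤ D + |m| * (D * A) := by positivity
  have hG : ∀ t', |t' - t₀| < r → ∀ v,
      |f t' v| ≤ (D + |m| * (D * A)) * Real.exp ((j + a) * l1 v) ∧
      |f' t' v + m * (f t' v * u' t' v)| ≤ (D + |m| * (D * A)) * Real.exp ((j + a) * l1 v) := by
    intro t' h v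
    obtain ⟨-, hf1, hf2⟩ := (hF t' h).2.2 v
    have hu2 := ((hU t' h).2.2 v).2.2
    have e1 : Real.exp (j * l1 v) ≤ Real.exp ((j + a) * l1 v) :=
      Real.exp_le_exp.2 (mul_le_mul_of_nonneg_right (le_add_of_nonneg_right ha) (l1_nonneg v))
    have e2 : |f t' v| ≤ D * Real.exp ((j + a) * l1 v) :=
      hf1.trans (mul_le_mul_of_nonneg_left e1 hD)
    have e3 : |f' t' v| ≤ D * Real.exp ((j + a) * l1 v) :=
      hf2.trans (mul_le_mul_of_nonneg_left e1 hD)
    have e4 : |m * (f t' v * u' t' v)| ≤ |m| * (D * A) * Real.exp ((j + a) * l1 v) := by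
      rw [abs_mul, abs_mul, mul_assoc]
      refine mul_le_mul_of_nonneg_left ((mul_le_mul hf1 hu2 (abs_nonneg _) (by positivity)).trans_eq
        ?_) (abs_nonneg _)
      rw [add_mul, Real.exp_add]; ring
    have : 0 ≤ |m| * (D * A) * Real.exp ((j + a) * l1 v) := by positivity
    rw [add_mul D]
    exact ⟨by linarith, (abs_add_le _ _).trans (by linarith)⟩
  have h0 : |t - t₀| < r := ht
  refine hasDerivAt_gauss_integral (C := E) (k := (|m| * k + (j + a)) * l1 s) hr'
    (F := fun t' z => Real.exp (m * u t' (move s y z)) * f t' (move s y z))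
    (F' := fun t' z => Real.exp (m * u t' (move s y z)) *
      (f' t' (move s y z) + m * (f t' (move s y z) * u' t' (move s y z))))
    (fun t' h => ?_) ?_ (fun t' h z => ?_) (fun z => ?_) (fun t' h z => ?_)
  · exact ((Real.continuous_exp.comp (continuous_const.mul (hU t' (hin t' h)).1)).mul
      (hF t' (hin t' h)).1).comp (continuous_move_right s y)
  · exact ((Real.continuous_exp.comp (continuous_const.mul (hU t h0).1)).mul
      ((hF t h0).2.1.add (continuous_const.mul ((hF t h0).1.mul (hU t h0).2.1)))).comp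
        (continuous_move_right s y)
  · refine ((((hU t' (hin t' h)).2.2 (move s y z)).1.const_mul m).exp.fun_mul
      ((hF t' (hin t' h)).2.2 (move s y z)).1).congr_deriv ?_
    ring
  · exact exp_move_bound hk hD' (by positivity) (hlin t h0) (fun v => (hG t h0 v).1) s y z
  · exact exp_move_bound hk hD' (by positivity) (hlin t' (hin t' h))
      (f := fun v => f' t' v + m * (f t' v * u' t' v)) (fun v => (hG t' (hin t' h) v).2) s y z

lemma fam_one : Fam (fun _ (_ : ι → ℝ) => (1 : ℝ)) (fun _ _ => 0) t₀ r :=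
  ⟨1, 0, zero_le_one, le_rfl, fun t _ => ⟨continuous_const, continuous_const,
    fun y => ⟨hasDerivAt_const t 1, by simp, by simp⟩⟩⟩

/-- The derivative of the tilted average of one step. -/
lemma hasDerivAt_stepAvg (hu : LFam u u' t₀ r) (hf : Fam f f' t₀ r) {t : ℝ} (ht : |t - t₀| < r)
    (y : ι → ℝ) :
    HasDerivAt (fun t => stepAvg m s (u t) (f t) y)
      (stepAvg m s (u t) (f' t) y + m * (stepAvg m s (u t) (fun v => f t v * u' t v) y -
        stepAvg m s (u t) (f t) y * stepAvg m s (u t) (u' t) y)) t := by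
  have hl := hu.linGrowth ht
  have hE := hl.exp_tame m
  have hp := stepDen_pos hl m s y
  have h1 := hasDerivAt_num m s hu hf ht y
  have h2 := hasDerivAt_num m s hu (fam_one (t₀ := t₀) (r := r)) ht y
  simp only [mul_one, zero_add, one_mul] at h2
  refine (h1.fun_div h2 hp.ne').congr_deriv ?_
  have tf := hf.tame ht
  have tu := hu.1.tame ht
  have i1 := ((hE.mul tf.2).comp_move s y).integrable
  have i2 := (((hE.mul (tf.1.mul tu.2)).comp_move s y).integrable).const_mul m
  have e1 : ∫ z, Real.exp (m * u t (move s y z)) *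
        (f' t (move s y z) + m * (f t (move s y z) * u' t (move s y z))) ∂gauss ι =
      (∫ z, Real.exp (m * u t (move s y z)) * f' t (move s y z) ∂gauss ι) +
        m * ∫ z, Real.exp (m * u t (move s y z)) * (f t (move s y z) * u' t (move s y z))
          ∂gauss ι := by
    rw [← integral_const_mul, ← integral_add i1 i2]
    exact integral_congr_ae (.of_forall fun z => by ring)
  have e2 : ∫ z, Real.exp (m * u t (move s y z)) * (m * u' t (move s y z)) ∂gauss ι =
      m * ∫ z, Real.exp (m * u t (move s y z)) * u' t (move s y z) ∂gauss ι := by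
    rw [← integral_const_mul]
    exact integral_congr_ae (.of_forall fun z => by ring)
  rw [e1, e2]
  simp only [stepAvg, tilt]
  field_simp
  ring

/-- The derivative of one step of the recursion. -/
lemma hasDerivAt_stepLog (hu : LFam u u' t₀ r) (hm : m ≠ 0) {t : ℝ} (ht : |t - t₀| < r)
    (y : ι → ℝ) :
    HasDerivAt (fun t => stepLog m s (u t) y) (stepAvg m s (u t) (u' t) y) t := by
  have hl := hu.linGrowth ht
  have hp := stepDen_pos hl m s y
  have h2 := hasDerivAt_num m s hu (fam_one (t₀ := t₀) (r := r)) ht y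
  simp only [mul_one, zero_add, one_mul] at h2
  refine ((h2.log hp.ne').const_mul m⁻¹).congr_deriv ?_
  have e2 : ∫ z, Real.exp (m * u t (move s y z)) * (m * u' t (move s y z)) ∂gauss ι =
      m * ∫ z, Real.exp (m * u t (move s y z)) * u' t (move s y z) ∂gauss ι := by
    rw [← integral_const_mul]
    exact integral_congr_ae (.of_forall fun z => by ring)
  rw [e2]
  simp only [stepAvg, tilt]
  field_simp

lemma lfam_stepLog (hu : LFam u u' t₀ r) (hm : m ≠ 0) :
    LFam (fun t => stepLog m s (u t)) (fun t => stepAvg m s (u t) (u' t)) t₀ r := by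
  obtain ⟨⟨A, a, hA, ha, hU⟩, C, k, hC, hk, hlin⟩ := id hu
  obtain ⟨D', j', hD', hj', hav⟩ := stepAvg_bound m s C k A a hk hA ha
  obtain ⟨C', k', hC', hk', hlog⟩ := stepLog_bound m s C k hk
  refine ⟨⟨C' + k' + D', 1 + j', by positivity, by positivity, fun t ht => ⟨?_, ?_, fun y =>
    ⟨hasDerivAt_stepLog m s hu hm ht y, ?_, ?_⟩⟩⟩, C', k', hC', hk', fun t ht y => ?_⟩
  · exact (linGrowth_stepLog (hu.linGrowth ht) m s).1
  · exact (tame_stepAvg (hu.linGrowth ht) m s (hu.1.tame ht).2).1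
  · refine (hlog _ (hU t ht).1 (hlin t ht) y).trans ?_
    have hl := l1_nonneg y
    have h1 : l1 y + 1 ≤ Real.exp ((1 + j') * l1 y) :=
      (Real.add_one_le_exp _).trans (Real.exp_le_exp.2 (le_mul_of_one_le_left hl (by linarith)))
    calc C' + k' * l1 y ≤ (C' + k' + D') * (l1 y + 1) := by
          have := mul_nonneg hC' hl
          have := mul_nonneg hD' hl
          linarith
      _ ≤ _ := mul_le_mul_of_nonneg_left h1 (by positivity)
  · refine (hav _ _ (hU t ht).1 (hU t ht).2.1 (hlin t ht) (fun v => ((hU t ht).2.2 v).2.2) y).trans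
      (mul_le_mul (by linarith) (Real.exp_le_exp.2 ?_) (Real.exp_pos _).le (by positivity))
    exact mul_le_mul_of_nonneg_right (by linarith) (l1_nonneg y)
  · exact hlog _ (hU t ht).1 (hlin t ht) y

lemma fam_stepAvg (hu : LFam u u' t₀ r) (hf : Fam f f' t₀ r) :
    Fam (fun t => stepAvg m s (u t) (f t))
      (fun t y => stepAvg m s (u t) (f' t) y + m * (stepAvg m s (u t) (fun v => f t v * u' t v) y -
        stepAvg m s (u t) (f t) y * stepAvg m s (u t) (u' t) y)) t₀ r := by
  obtain ⟨⟨A, a, hA, ha, hU⟩, C, k, hC, hk, hlin⟩ := id hu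
  obtain ⟨D, j, hD, hj, hF⟩ := id hf
  obtain ⟨D₁, j₁, hD₁, hj₁, hb₁⟩ := stepAvg_bound m s C k (D + D * A + A) (j + a) hk
    (by positivity) (by positivity)
  refine ⟨D₁ + |m| * (D₁ + D₁ * D₁) + D₁, j₁ + j₁, by positivity, by positivity,
    fun t ht => ⟨?_, ?_, fun y => ?_⟩⟩
  · exact (tame_stepAvg (hu.linGrowth ht) m s (hf.tame ht).1).1
  · have hl := hu.linGrowth ht
    have tf := hf.tame ht
    have tu := hu.1.tame ht
    exact ((tame_stepAvg hl m s tf.2).add (((tame_stepAvg hl m s (tf.1.mul tu.2)).sub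
      ((tame_stepAvg hl m s tf.1).mul (tame_stepAvg hl m s tu.2))).const_mul m)).1
  · refine ⟨hasDerivAt_stepAvg m s hu hf ht y, ?_⟩
    have ee : ∀ {x : ℝ} (v : ι → ℝ), x ≤ j + a → Real.exp (x * l1 v) ≤ Real.exp ((j + a) * l1 v) :=
      fun v hx => Real.exp_le_exp.2 (mul_le_mul_of_nonneg_right hx (l1_nonneg v))
    have hDA : 0 ≤ D * A := mul_nonneg hD hA
    have hB : ∀ g : (ι → ℝ) → ℝ, Continuous g →
        (∀ v, |g v| ≤ (D + D * A + A) * Real.exp ((j + a) * l1 v)) →
          |stepAvg m s (u t) g y| ≤ D₁ * Real.exp (j₁ * l1 y) :=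
      fun g hg hb => hb₁ _ _ (hU t ht).1 hg (hlin t ht) hb y
    have b1 := hB (f t) (hF t ht).1 fun v => ((hF t ht).2.2 v).2.1.trans
      (mul_le_mul (by linarith) (ee v (by linarith)) (Real.exp_pos _).le (by positivity))
    have b2 := hB (f' t) (hF t ht).2.1 fun v => ((hF t ht).2.2 v).2.2.trans
      (mul_le_mul (by linarith) (ee v (by linarith)) (Real.exp_pos _).le (by positivity))
    have b3 := hB (u' t) (hU t ht).2.1 fun v => ((hU t ht).2.2 v).2.2.trans
      (mul_le_mul (by linarith) (ee v (by linarith)) (Real.exp_pos _).le (by positivity))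
    have b4 := hB (fun v => f t v * u' t v) ((hF t ht).1.mul (hU t ht).2.1) fun v => by
      rw [abs_mul]
      refine (mul_le_mul ((hF t ht).2.2 v).2.1 ((hU t ht).2.2 v).2.2 (abs_nonneg _)
        (by positivity)).trans ?_
      rw [mul_mul_mul_comm, ← Real.exp_add, ← add_mul]
      exact mul_le_mul_of_nonneg_right (by linarith) (Real.exp_pos _).le
    set R := Real.exp ((j₁ + j₁) * l1 y) with hR
    have hR1 : Real.exp (j₁ * l1 y) ≤ R :=
      Real.exp_le_exp.2 (mul_le_mul_of_nonneg_right (by linarith) (l1_nonneg y))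
    have hD1R : 0 ≤ D₁ * R := by positivity
    have hmR : 0 ≤ |m| * (D₁ + D₁ * D₁) * R := by positivity
    have b1' := b1.trans (mul_le_mul_of_nonneg_left hR1 hD₁)
    have b2' := b2.trans (mul_le_mul_of_nonneg_left hR1 hD₁)
    have b4' := b4.trans (mul_le_mul_of_nonneg_left hR1 hD₁)
    refine ⟨b1'.trans ?_, ?_⟩
    · linarith
    · have h13 : |stepAvg m s (u t) (f t) y * stepAvg m s (u t) (u' t) y| ≤ D₁ * D₁ * R := by
        rw [abs_mul]
        refine (mul_le_mul b1 b3 (abs_nonneg _) (by positivity)).trans_eq ?_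
        rw [hR, add_mul, Real.exp_add]; ring
      refine (abs_add_le _ _).trans ?_
      rw [abs_mul]
      have := mul_le_mul_of_nonneg_left ((abs_sub _ _).trans (add_le_add b4' h13)) (abs_nonneg m)
      linarith

end step

/-! ### Along the hierarchy -/

lemma lfam_u (hN : N.Good) {U U' : ℝ → (ι → ℝ) → ℝ} {t₀ r : ℝ} (hU : LFam U U' t₀ r) {l : ℕ}
    (hl : l ≤ N.K) : LFam (fun t => N.u (U t) l) (fun t => N.down (U t) l (U' t)) t₀ r := by
  induction hl using Nat.decreasingInduction with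
  | self =>
    simp only [u_top le_rfl, down_top le_rfl]
    exact hU
  | of_succ l hl ih =>
    simp only [u_succ hl, down_succ hl, avg_eq_stepAvg]
    exact lfam_stepLog _ _ ih (hN.x_pos _ (by omega) (by omega)).ne'

lemma fam_avg (hN : N.Good) {U U' f f' : ℝ → (ι → ℝ) → ℝ} {t₀ r : ℝ} (hU : LFam U U' t₀ r)
    (hf : Fam f f' t₀ r) {l : ℕ} (hl : l < N.K) :
    Fam (fun t => N.avg (U t) l (f t))
      (fun t y => N.avg (U t) l (f' t) y + N.x (l + 1) *
        (N.avg (U t) l (fun v => f t v * N.down (U t) (l + 1) (U' t) v) y -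
          N.avg (U t) l (f t) y * N.down (U t) l (U' t) y)) t₀ r := by
  have h := fam_stepAvg (N.x (l + 1)) (N.amp (l + 1)) (lfam_u hN hU (l := l + 1) hl) hf
  simp only [← avg_eq_stepAvg, ← down_succ hl] at h
  exact h

lemma chainUp_succ (U : (ι → ℝ) → ℝ) (l : ℕ) (f : (ι → ℝ) → ℝ) (d : ℕ) :
    Nest.chainUp N U (l + 1) f (d + 1) = Nest.chainUp N U l (N.avg U l f) d := by
  induction d with
  | zero => simp [Nest.chainUp]
  | succ d ih =>
    show N.avg U (l + 1 - (d + 1 + 1)) (Nest.chainUp N U (l + 1) f (d + 1)) =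
      N.avg U (l - (d + 1)) (Nest.chainUp N U l (N.avg U l f) d)
    rw [ih, Nat.succ_sub_succ]

lemma mean_add' {U : (ι → ℝ) → ℝ} (hN : ∀ l, l ≤ N.K → LinGrowth (N.u U l)) {l : ℕ}
    (hl : l ≤ N.K) {f g : (ι → ℝ) → ℝ} (hf : Tame f) (hg : Tame g) :
    N.mean U l (fun v => f v + g v) = N.mean U l f + N.mean U l g := by
  induction l generalizing f g with
  | zero =>
    have e : ∀ h : (ι → ℝ) → ℝ, Tame h →
        Integrable (fun z => h fun i => N.amp 0 i * z i) (gauss ι) := fun h hh => by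
      convert (hh.comp_move (N.amp 0) 0).integrable using 3 with z
      funext i
      simp [move]
    exact integral_add (e f hf) (e g hg)
  | succ l ih =>
    have hl' := hN (l + 1) hl
    simp only [Nest.mean]
    rw [show N.avg U l (fun v => f v + g v) = fun y => N.avg U l f y + N.avg U l g y from
      funext fun y => stepAvg_add hl' _ _ hf hg y]
    exact ih (by omega) (tame_stepAvg hl' _ _ hf) (tame_stepAvg hl' _ _ hg)

lemma mean_const_mul' {U : (ι → ℝ) → ℝ} (l : ℕ) (c : ℝ) (f : (ι → ℝ) → ℝ) :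
    N.mean U l (fun v => c * f v) = c * N.mean U l f := by
  induction l generalizing f with
  | zero => exact integral_const_mul c _
  | succ l ih =>
    simp only [Nest.mean]
    rw [show N.avg U l (fun v => c * f v) = fun y => c * N.avg U l f y from
      funext fun y => stepAvg_const_mul _ _ _ c f y]
    exact ih _

lemma hasDerivAt_mean (hN : N.Good) {U U' : ℝ → (ι → ℝ) → ℝ} {t₀ r : ℝ} (hr : 0 < r)
    (hU : LFam U U' t₀ r) {l : ℕ} (hl : l ≤ N.K) {f f' : ℝ → (ι → ℝ) → ℝ}
    (hf : Fam f f' t₀ r) :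
    HasDerivAt (fun t => N.mean (U t) l (f t))
      (N.mean (U t₀) l (f' t₀) +
        N.x l * N.mean (U t₀) l (fun v => f t₀ v * N.down (U t₀) l (U' t₀) v) -
        ∑ j ∈ range l, N.w j * N.mean (U t₀) j
          (fun v => N.down (U t₀) j (U' t₀) v * Nest.chainUp N (U t₀) l (f t₀) (l - j) v))
      t₀ := by
  have h0 : |t₀ - t₀| < r := by simpa using hr
  induction l generalizing f f' with
  | zero =>
    obtain ⟨C, k, hC, hk, h⟩ := hf
    simp only [Nest.mean, hN.x_zero, zero_mul, add_zero, range_zero, sum_empty, sub_zero]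
    have hb : ∀ g : (ι → ℝ) → ℝ, (∀ v, |g v| ≤ C * Real.exp (k * l1 v)) → ∀ z : ι → ℝ,
        |g fun i => N.amp 0 i * z i| ≤ C * Real.exp (k * l1 (N.amp 0) * ∑ i, |z i|) := by
      intro g hg z
      refine (hg _).trans (mul_le_mul_of_nonneg_left (Real.exp_le_exp.2 ?_) hC)
      rw [mul_assoc]
      exact mul_le_mul_of_nonneg_left (l1_scale_le _ _) hk
    exact hasDerivAt_gauss_integral hr
      (F := fun t z => f t fun i => N.amp 0 i * z i)
      (F' := fun t z => f' t fun i => N.amp 0 i * z i)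
      (fun t ht => (h t ht).1.comp (by fun_prop)) ((h t₀ h0).2.1.comp (by fun_prop))
      (fun t ht z => ((h t ht).2.2 _).1) (hb _ fun v => ((h t₀ h0).2.2 v).2.1)
      (fun t ht => hb _ fun v => ((h t ht).2.2 v).2.2)
  | succ l ih =>
    have hlK : l < N.K := hl
    have h := ih hlK.le (fam_avg hN hU hf hlK)
    simp only [Nest.mean]
    refine h.congr_deriv ?_
    set u₀ := U t₀
    set D := N.down u₀ l (U' t₀)
    set D' := N.down u₀ (l + 1) (U' t₀)
    set g := N.avg u₀ l (f t₀)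
    have hlin : ∀ m, m ≤ N.K → LinGrowth (N.u u₀ m) := fun m hm =>
      (lfam_u hN hU hm).linGrowth h0
    have hl1 := hlin (l + 1) hl
    have tf := hf.tame h0
    have tD : Tame D := ((lfam_u hN hU hlK.le).1.tame h0).2
    have tD' : Tame D' := ((lfam_u hN hU hl).1.tame h0).2
    have t1 : Tame (N.avg u₀ l (f' t₀)) := tame_stepAvg hl1 _ _ tf.2
    have t2 : Tame (N.avg u₀ l fun v => f t₀ v * D' v) := tame_stepAvg hl1 _ _ (tf.1.mul tD')
    have t3 : Tame fun v => g v * D v := (tame_stepAvg hl1 _ _ tf.1).mul tD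
    have hg' : N.mean u₀ l (fun y => N.avg u₀ l (f' t₀) y + N.x (l + 1) *
          (N.avg u₀ l (fun v => f t₀ v * D' v) y - g y * D y)) =
        N.mean u₀ l (N.avg u₀ l (f' t₀)) + N.x (l + 1) *
          (N.mean u₀ l (N.avg u₀ l fun v => f t₀ v * D' v) - N.mean u₀ l fun v => g v * D v) := by
      rw [mean_add' hlin hlK.le t1 ((t2.sub t3).const_mul _), mean_const_mul']
      congr 2
      have e : (fun y => N.avg u₀ l (fun v => f t₀ v * D' v) y - g y * D y) =
          fun y => N.avg u₀ l (fun v => f t₀ v * D' v) y + (-1) * (g y * D y) := by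
        funext y; ring
      rw [e, mean_add' hlin hlK.le t2 (t3.const_mul _), mean_const_mul']
      ring
    have hsum : ∀ j ∈ range l, Nest.chainUp N u₀ (l + 1) (f t₀) (l + 1 - j) =
        Nest.chainUp N u₀ l g (l - j) := fun j hj => by
      rw [Nat.succ_sub (mem_range.1 hj).le]
      exact chainUp_succ _ _ _ _
    rw [hg', sum_range_succ]
    have e0 : Nest.chainUp N u₀ (l + 1) (f t₀) (l + 1 - l) = g := by
      simp [Nest.chainUp, g]
    rw [e0, sum_congr rfl (fun j hj => show N.w j * N.mean u₀ j (fun v => N.down u₀ j (U' t₀) v *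
        Nest.chainUp N u₀ (l + 1) (f t₀) (l + 1 - j) v) = N.w j * N.mean u₀ j (fun v =>
        N.down u₀ j (U' t₀) v * Nest.chainUp N u₀ l g (l - j) v) by rw [hsum j hj])]
    have hDg : (fun v => N.down u₀ l (U' t₀) v * g v) = fun v => g v * D v :=
      funext fun v => mul_comm _ _
    simp only [hDg, Nest.w]
    ring

end Param

open Param

theorem hasDerivAt_u_param (hN : N.Good) {U U' : ℝ → (ι → ℝ) → ℝ} {t₀ : ℝ}
    (hU : LeafFamily U U' t₀) {l : ℕ} (hl : l ≤ N.K) (y : ι → ℝ) :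
    HasDerivAt (fun t => N.u (U t) l y) (N.down (U t₀) l (U' t₀) y) t₀ := by
  obtain ⟨r, hr, h⟩ := lfam_of_leafFamily hU
  obtain ⟨⟨C, k, -, -, h'⟩, -⟩ := lfam_u hN h hl
  exact ((h' t₀ (by simpa using hr)).2.2 y).1

theorem hasDerivAt_avg_param (hN : N.Good) {U U' f f' : ℝ → (ι → ℝ) → ℝ} {t₀ : ℝ}
    (hU : LeafFamily U U' t₀) (hf : TameFamily f f' t₀) {l : ℕ} (hl : l < N.K) (y : ι → ℝ) :
    HasDerivAt (fun t => N.avg (U t) l (f t) y)
      (N.avg (U t₀) l (f' t₀) y + N.x (l + 1) *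
        (N.avg (U t₀) l (fun v => f t₀ v * N.down (U t₀) (l + 1) (U' t₀) v) y -
          N.avg (U t₀) l (f t₀) y * N.down (U t₀) l (U' t₀) y)) t₀ := by
  obtain ⟨r₁, hr₁, h₁⟩ := lfam_of_leafFamily hU
  obtain ⟨r₂, hr₂, h₂⟩ := fam_of_tameFamily hf
  have hU' : LFam U U' t₀ (min r₁ r₂) :=
    ⟨h₁.1.mono (min_le_left _ _), by
      obtain ⟨C, k, hC, hk, h⟩ := h₁.2
      exact ⟨C, k, hC, hk, fun t ht => h t (ht.trans_le (min_le_left _ _))⟩⟩
  obtain ⟨C, k, -, -, h'⟩ := fam_avg hN hU' (h₂.mono (min_le_right _ _)) hl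
  exact ((h' t₀ (by simp [hr₁, hr₂])).2.2 y).1

theorem hasDerivAt_mean_param (hN : N.Good) {U U' f f' : ℝ → (ι → ℝ) → ℝ} {t₀ : ℝ}
    (hU : LeafFamily U U' t₀) (hf : TameFamily f f' t₀) {l : ℕ} (hl : l ≤ N.K) :
    HasDerivAt (fun t => N.mean (U t) l (f t))
      (N.mean (U t₀) l (f' t₀) +
        N.x l * N.mean (U t₀) l (fun v => f t₀ v * N.down (U t₀) l (U' t₀) v) -
        ∑ j ∈ range l, N.w j * N.mean (U t₀) j
          (fun v => N.down (U t₀) j (U' t₀) v * Nest.chainUp N (U t₀) l (f t₀) (l - j) v))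
      t₀ := by
  obtain ⟨r₁, hr₁, h₁⟩ := lfam_of_leafFamily hU
  obtain ⟨r₂, hr₂, h₂⟩ := fam_of_tameFamily hf
  have hU' : LFam U U' t₀ (min r₁ r₂) :=
    ⟨h₁.1.mono (min_le_left _ _), by
      obtain ⟨C, k, hC, hk, h⟩ := h₁.2
      exact ⟨C, k, hC, hk, fun t ht => h t (ht.trans_le (min_le_left _ _))⟩⟩
  exact hasDerivAt_mean hN (lt_min hr₁ hr₂) hU' hl (h₂.mono (min_le_right _ _))

/-- Poincare's inequality for the standard Gaussian, with constant `π² / 4`. -/
theorem gauss_poincare {F : (ι → ℝ) → ℝ} {G : ι → (ι → ℝ) → ℝ} (hF : Continuous F)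
    (hG : ∀ i, Continuous (G i))
    (hd : ∀ y v : ι → ℝ, HasDerivAt (fun t : ℝ => F fun i => y i + t * v i) (∑ i, v i * G i y) 0)
    {A : ℝ} (hA : ∀ y, ∑ i, G i y ^ 2 ≤ A) :
    ∫ z, (F z - ∫ z', F z' ∂gauss ι) ^ 2 ∂gauss ι ≤ Real.pi ^ 2 / 4 * A := by
  classical
  have hA0 : 0 ≤ A := (sum_nonneg fun i _ => sq_nonneg _).trans (hA 0)
  have hGb : ∀ i y, |G i y| ≤ Real.sqrt A := fun i y => by
    rw [← Real.sqrt_sq_eq_abs]
    exact Real.sqrt_le_sqrt
      ((single_le_sum (f := fun j => G j y ^ 2) (fun j _ => sq_nonneg _) (mem_univ i)).trans (hA y))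
  have hFb : ∀ y, |F y| ≤ |F 0| + Real.sqrt A * l1 y := fun y => by
    have hline : ∀ t : ℝ, HasDerivAt (fun t : ℝ => F fun i => t * y i)
        (∑ i, y i * G i fun i => t * y i) t := fun t => by
      have := GradOf.line (u := F) (g := G) hd 0 y t
      simpa using this
    have h := norm_image_sub_le_of_norm_deriv_le_segment_01'
      (f := fun t : ℝ => F fun i => t * y i) (C := Real.sqrt A * l1 y)
      (fun t _ => (hline t).hasDerivWithinAt) fun t _ => by
        rw [Real.norm_eq_abs, l1, mul_sum]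
        refine (abs_sum_le_sum_abs _ _).trans (sum_le_sum fun i _ => ?_)
        rw [abs_mul, mul_comm]
        exact mul_le_mul_of_nonneg_right (hGb i _) (abs_nonneg _)
    simp only [one_mul, zero_mul, Real.norm_eq_abs] at h
    have := abs_sub_abs_le_abs_sub (F fun i => y i) (F fun _ => 0)
    change |F y| - |F 0| ≤ _ at this
    change |F y - F 0| ≤ _ at h
    change |F y| ≤ _
    linarith [show |F (fun i => y i) - F (fun _ => 0)| = |F y - F 0| from rfl]
  set C := |F 0| + Real.sqrt A with hC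
  have hsA := Real.sqrt_nonneg A
  have hl : ∀ y : ι → ℝ, (1:ℝ) + l1 y ≤ Real.exp (1 * ∑ i, |y i|) := fun y => by
    rw [one_mul, add_comm]; exact Real.add_one_le_exp _
  have h := GaussPoincare.gauss_poincare (f := F) (g := G) hd hG (C := C) (k := 1) zero_le_one
    (fun y => (hFb y).trans (by
      have h1 := mul_le_mul_of_nonneg_left (hl y) (by positivity : (0:ℝ) ≤ C)
      have h2 : 0 ≤ |F 0| * l1 y := mul_nonneg (abs_nonneg _) (l1_nonneg y)
      rw [hC] at h1 ⊢
      linarith))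
    (fun i y => (hGb i y).trans (by
      have h1 := mul_le_mul_of_nonneg_left (hl y) (by positivity : (0:ℝ) ≤ C)
      have h2 : 0 ≤ C * l1 y := mul_nonneg (by positivity) (l1_nonneg y)
      have h3 := abs_nonneg (F 0)
      rw [hC] at h1 h2 ⊢
      linarith))
  rw [variance_eq_integral hF.measurable.aemeasurable] at h
  refine h.trans ?_
  have hint : ∀ i, Integrable (fun y => G i y ^ 2) (gauss ι) := fun i =>
    (tame_of_bounded ((hG i).pow 2) (C := A) fun y => by
      rw [abs_of_nonneg (sq_nonneg _)]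
      exact (single_le_sum (f := fun j => G j y ^ 2) (fun j _ => sq_nonneg _)
        (mem_univ i)).trans (hA y)).integrable
  have hs : ∑ i, ∫ y, G i y ^ 2 ∂gauss ι ≤ A := by
    rw [← integral_finsetSum _ fun i _ => hint i]
    refine (integral_mono (integrable_finsetSum _ fun i _ => hint i) (integrable_const A) hA).trans_eq
      ?_
    simp
  have hp : 0 ≤ Real.pi ^ 2 / 8 * A := by positivity
  have := mul_le_mul_of_nonneg_left hs (by positivity : (0:ℝ) ≤ Real.pi ^ 2 / 8)
  linarith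

/-- A constant added to the leaf is added to the recursion and changes no average. -/
theorem uUp_add_const (hN : N.Good) {U : (ι → ℝ) → ℝ} (hU : Tame U) {C : ℝ}
    (hlin : ∀ y, |U y| ≤ C * (1 + ∑ i, |y i|)) (c : ℝ) {l : ℕ} (hl : l ≤ N.K) (y : ι → ℝ) :
    N.u (fun v => U v + c) l y = N.u U l y + c ∧
      ∀ f, N.down (fun v => U v + c) l f y = N.down U l f y := by
  have hC : 0 ≤ C := by
    have := (abs_nonneg _).trans (hlin fun _ => 0)
    simpa using this
  have hU' : LinGrowth U := ⟨hU.1, C, C, hC, hC, fun v => (hlin v).trans_eq (by rw [l1]; ring)⟩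
  suffices h : LinGrowth (N.u U l) ∧ ∀ y, N.u (fun v => U v + c) l y = N.u U l y + c ∧
      ∀ f, N.down (fun v => U v + c) l f y = N.down U l f y from h.2 y
  clear y
  induction hl using Nat.decreasingInduction with
  | self => simp only [u_top le_rfl, down_top le_rfl]; exact ⟨hU', fun y => ⟨trivial, fun f => trivial⟩⟩
  | of_succ l hl ih =>
    obtain ⟨hlin1, ih⟩ := ih
    have hx := (hN.x_pos (l + 1) (by omega) (by omega)).ne'
    simp only [u_succ hl, down_succ hl, avg_eq_stepAvg]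
    refine ⟨linGrowth_stepLog hlin1 _ _, fun y => ?_⟩
    set m := N.x (l + 1)
    set s := N.amp (l + 1)
    have hexp : ∀ z, Real.exp (m * N.u (fun v => U v + c) (l + 1) (move s y z)) =
        Real.exp (m * c) * Real.exp (m * N.u U (l + 1) (move s y z)) := fun z => by
      rw [(ih _).1, ← Real.exp_add]; ring_nf
    constructor
    · simp only [stepLog, hexp, integral_const_mul]
      rw [Real.log_mul (Real.exp_ne_zero _) (stepDen_pos hlin1 m s y).ne', Real.log_exp]
      field_simp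
      ring
    · intro f
      have hd : N.down (fun v => U v + c) (l + 1) f = N.down U (l + 1) f :=
        funext fun w => (ih w).2 f
      simp only [stepAvg, tilt, hd, hexp, mul_assoc, integral_const_mul]
      exact mul_div_mul_left _ _ (Real.exp_ne_zero _)

end Vale.Agent.P166.Parisi
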