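import Vale.Agent.P166.Parisi.Sys

/-!
Elementary facts on the partition of `Fin N` into `M` blocks of nearly equal size.
-/

namespace Vale.Agent.P166.Parisi

open Finset

variable {M N : ℕ}

theorem sum_card_fiber (b : Fin N → Fin M) : ∑ r, (fiber b r).card = N := by
  have h := Finset.card_eq_sum_card_fiberwise (s := (univ : Finset (Fin N)))
    (t := (univ : Finset (Fin M))) (f := b) (fun x _ => mem_univ _)
  simpa [fiber] using h.symm

theorem exists_fiber_card {c : Fin M → ℕ} (h : ∑ r, c r = N) :
    ∃ b : Fin N → Fin M, ∀ r, (fiber b r).card = c r := by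
  subst h
  refine ⟨fun i => (finSigmaFinEquiv.symm i).1, fun r => ?_⟩
  have e : fiber (fun i => ((finSigmaFinEquiv (n := c)).symm i).1) r =
      (univ : Finset (Fin (c r))).map
        ⟨fun j => finSigmaFinEquiv (n := c) ⟨r, j⟩, fun j j' hj => by
          simpa using (finSigmaFinEquiv (n := c)).injective hj⟩ := by
    ext i
    simp only [fiber, mem_filter, mem_univ, true_and, mem_map, Function.Embedding.coeFn_mk]
    constructor
    · intro hi
      obtain ⟨⟨r', j⟩, rfl⟩ := (finSigmaFinEquiv (n := c)).surjective i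
      simp only [Equiv.symm_apply_apply] at hi
      subst hi
      exact ⟨j, rfl⟩
    · rintro ⟨j, rfl⟩
      exact congrArg Sigma.fst ((finSigmaFinEquiv (n := c)).symm_apply_apply ⟨r, j⟩)
  rw [e, card_map, card_univ, Fintype.card_fin]

variable [NeZero M]

theorem blkOf_val (i : Fin N) : ((blkOf i : Fin M) : ℕ) = (i : ℕ) * M / N := by
  have hM : 0 < M := Nat.pos_of_ne_zero (NeZero.ne M)
  have hN : 0 < N := i.pos
  have h : (i : ℕ) * M / N < M := by
    rw [Nat.div_lt_iff_lt_mul hN, Nat.mul_comm M N]
    exact Nat.mul_lt_mul_of_pos_right i.isLt hM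
  unfold blkOf
  rw [Fin.val_ofNat, Nat.mod_eq_of_lt h]

theorem blkOf_monotone : Monotone (blkOf : Fin N → Fin M) := fun i j h => by
  rw [Fin.le_iff_val_le_val, blkOf_val, blkOf_val]
  exact Nat.div_le_div_right (Nat.mul_le_mul_right M (Fin.le_iff_val_le_val.1 h))

/-- The first index of block `r`. -/
def blkStart (M N r : ℕ) : ℕ := (r * N + M - 1) / M

theorem blkStart_mono {r r' : ℕ} (h : r ≤ r') : blkStart M N r ≤ blkStart M N r' := by
  unfold blkStart
  refine Nat.div_le_div_right ?_
  have := Nat.mul_le_mul_right N h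
  omega

theorem blkStart_le_iff {r i : ℕ} : blkStart M N r ≤ i ↔ r * N ≤ i * M := by
  have hM : 0 < M := Nat.pos_of_ne_zero (NeZero.ne M)
  unfold blkStart
  rw [← Nat.lt_succ_iff, Nat.div_lt_iff_lt_mul hM, Nat.succ_mul]
  omega

theorem blkStart_top : blkStart M N M = N := by
  have hM : 0 < M := Nat.pos_of_ne_zero (NeZero.ne M)
  unfold blkStart
  rw [show M * N + M - 1 = (M - 1) + M * N by omega, Nat.add_mul_div_left _ _ hM,
    Nat.div_eq_of_lt (by omega : M - 1 < M), zero_add]

theorem fiber_blkOf (r : Fin M) :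
    (fiber (blkOf : Fin N → Fin M) r).card = blkStart M N (r + 1) - blkStart M N r := by
  have e : (fiber (blkOf : Fin N → Fin M) r).map Fin.valEmbedding =
      Ico (blkStart M N r) (blkStart M N (r + 1)) := by
    ext i
    simp only [mem_map, fiber, mem_filter, mem_univ, true_and, Fin.valEmbedding_apply, mem_Ico,
      blkStart_le_iff]
    constructor
    · rintro ⟨j, hj, rfl⟩
      have hj' : (j : ℕ) * M / N = (r : ℕ) := by rw [← blkOf_val, hj]
      have hN : 0 < N := j.pos
      refine ⟨?_, ?_⟩
      · rw [← hj']; exact Nat.div_mul_le_self _ _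
      · rw [← not_le, blkStart_le_iff, not_le]
        rw [← Nat.div_lt_iff_lt_mul hN]
        omega
    · rintro ⟨h1, h2⟩
      have hi : i < N := by
        have h3 := blkStart_mono (M := M) (N := N) (Nat.succ_le_of_lt r.isLt)
        rw [blkStart_top] at h3
        exact lt_of_lt_of_le h2 h3
      refine ⟨⟨i, hi⟩, Fin.ext ?_, rfl⟩
      rw [blkOf_val]
      rw [← not_le, blkStart_le_iff, not_le] at h2
      have hN : 0 < N := by omega
      apply le_antisymm
      · exact Nat.lt_succ_iff.1 ((Nat.div_lt_iff_lt_mul hN).2 h2)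
      · exact (Nat.le_div_iff_mul_le hN).2 h1
  rw [← Nat.card_Ico, ← e, card_map]

/-- Adding `M` indices adds one to every block. -/
theorem fiber_blkOf_add (r : Fin M) :
    (fiber (blkOf : Fin (N + M) → Fin M) r).card =
      (fiber (blkOf : Fin N → Fin M) r).card + 1 := by
  have hM : 0 < M := Nat.pos_of_ne_zero (NeZero.ne M)
  have h : ∀ k, blkStart M (N + M) k = blkStart M N k + k := fun k => by
    unfold blkStart
    rw [show k * (N + M) + M - 1 = (k * N + M - 1) + k * M by rw [Nat.mul_add]; omega,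
      Nat.add_mul_div_right _ _ hM]
  rw [fiber_blkOf, fiber_blkOf, h, h]
  have := blkStart_mono (M := M) (N := N) (Nat.le_succ (r : ℕ))
  simp only [Nat.succ_eq_add_one] at this
  omega

theorem bal_blkOf : Bal 1 (blkOf : Fin N → Fin M) := by
  intro r
  have hM : 0 < M := Nat.pos_of_ne_zero (NeZero.ne M)
  have hM' : (0 : ℝ) < M := Nat.cast_pos.2 hM
  have h : ∀ k : ℕ, (k : ℝ) * N / M ≤ blkStart M N k ∧
      (blkStart M N k : ℝ) ≤ k * N / M + (1 - 1 / M) := fun k => by
    have h1 : k * N ≤ blkStart M N k * M := blkStart_le_iff.1 le_rfl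
    have h2 : blkStart M N k * M ≤ k * N + M - 1 := Nat.div_mul_le_self _ _
    have h1' : (k : ℝ) * N ≤ blkStart M N k * M := by exact_mod_cast h1
    have h2' : (blkStart M N k : ℝ) * M + 1 ≤ k * N + M := by
      exact_mod_cast (by omega : blkStart M N k * M + 1 ≤ k * N + M)
    constructor
    · rw [div_le_iff₀ hM']; exact h1'
    · rw [← sub_nonneg]
      have : k * (N : ℝ) / M + (1 - 1 / M) - blkStart M N k =
          (k * N + M - (blkStart M N k * M + 1)) / M := by field_simp; ring
      rw [this]
      exact div_nonneg (by linarith) hM'.le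
  rw [fiber_blkOf, Nat.cast_sub (blkStart_mono (Nat.le_succ _))]
  obtain ⟨a1, a2⟩ := h r
  obtain ⟨b1, b2⟩ := h (r + 1)
  push_cast at b1 b2
  have e : ((r : ℕ) + 1 : ℝ) * N / M = (r : ℕ) * (N : ℝ) / M + N / M := by ring
  have hpos : 0 < 1 / (M : ℝ) := by positivity
  rw [e] at b1 b2
  rw [abs_le]
  constructor <;> linarith

/-- The multiplicities of the base system of the frame. -/
theorem exists_shift (b : Fin N → Fin M) (hb : ∀ r, M - 1 ≤ (fiber b r).card) :
    ∃ bB : Fin N → Fin M,
      (∀ r, r ≠ topA M → (fiber bB r).card + (M - 1) = (fiber b r).card) ∧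
        (fiber bB (topA M)).card = (fiber b (topA M)).card + (M - 1) * (M - 1) := by
  set c : Fin M → ℕ := fun r =>
    if r = topA M then (fiber b r).card + (M - 1) * (M - 1) else (fiber b r).card - (M - 1) with hc
  have hs : ∑ r, c r = N := by
    have h1 := sum_card_fiber b
    rw [← Finset.add_sum_erase _ _ (mem_univ (topA M))] at h1 ⊢
    have h2 : ∀ r ∈ univ.erase (topA M), c r = (fiber b r).card - (M - 1) := fun r hr => by
      simp [hc, (mem_erase.1 hr).1]
    have h3 : ∑ r ∈ univ.erase (topA M), (fiber b r).card =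
        (∑ r ∈ univ.erase (topA M), c r) + (M - 1) * (M - 1) := by
      have hcard : (univ.erase (topA M) : Finset (Fin M)).card = M - 1 := by simp
      have : ((∑ r ∈ univ.erase (topA M), c r) + (M - 1) * (M - 1)) =
          ∑ r ∈ univ.erase (topA M), (c r + (M - 1)) := by
        rw [Finset.sum_add_distrib, Finset.sum_const, hcard, smul_eq_mul]
      rw [this]
      exact Finset.sum_congr rfl fun r hr => by
        rw [h2 r hr]; exact (Nat.sub_add_cancel (hb r)).symm
    have h4 : c (topA M) = (fiber b (topA M)).card + (M - 1) * (M - 1) := by simp [hc]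
    omega
  obtain ⟨bB, hB⟩ := exists_fiber_card hs
  refine ⟨bB, fun r hr => ?_, by rw [hB]; simp [hc]⟩
  rw [hB]
  simp only [hc, if_neg hr]
  exact Nat.sub_add_cancel (hb r)

end Vale.Agent.P166.Parisi
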