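import Vale.Agent.P166.Parisi.ConcVar
import Vale.Agent.P157.Parisi.LowerRandBase

/-!
Module C: the box of parameters, the quantities of one rotation, and Griffiths' inequality in each
amplitude.
-/

set_option linter.unusedSectionVars false

namespace Vale.Agent.P166.Parisi.ConcAux

open MeasureTheory ProbabilityTheory Finset Filter Topology Matrix
open Vale.Agent.P157 Vale.Agent.P157.Parisi

section general

variable {ι : Type} [Fintype ι] {Ω κ : Type} [Fintype κ] [MeasurableSpace Ω]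
variable {G : Nest ι} {L : Leaf Ω κ ι} {μ : Measure Ω} [IsProbabilityMeasure μ] {B : ℝ}

/-- A step without amplitude is the identity. -/
lemma avg_zero_amp (hG : G.Good) (hL : L.Good B) {l : ℕ} (hl : l < G.K)
    (h0 : ∀ i, G.amp (l + 1) i = 0) (f : (ι → ℝ) → ℝ) : G.avg (L.logZ μ) l f = f := by
  funext y
  have hm : ∀ z, move (G.amp (l + 1)) y z = y := fun z => funext fun i => by simp [move, h0 i]
  simp only [avg_eq_stepAvg, stepAvg, tilt, hm, integral_const, probReal_univ, one_smul]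
  exact mul_div_cancel_left₀ _ (Real.exp_ne_zero _)

/-- The overlap does not move across a step without amplitude. -/
lemma sqGrad_zero_amp (hG : G.Good) (hL : L.Good B) {l : ℕ} (hl : l < G.K)
    (h0 : ∀ i, G.amp (l + 1) i = 0) (i : ι) :
    G.sqGrad L μ (l + 1) i = G.sqGrad L μ l i := by
  have hg : G.grad L μ l i = G.grad L μ (l + 1) i :=
    (grad_succ hG hL hl i).trans (avg_zero_amp hG hL hl h0 _)
  show G.mean (L.logZ μ) l (G.avg (L.logZ μ) l _) = _
  rw [avg_zero_amp hG hL hl h0, ← hg]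
  rfl

lemma levels_sum_le {K : ℕ} {I : Finset ℕ} (hI : I ⊆ range (K + 1)) (c : ℝ) (hc : 0 ≤ c) :
    ∑ _l ∈ I, c ≤ ((K : ℝ) + 1) * c := by
  refine (sum_le_sum_of_subset_of_nonneg hI fun _ _ _ => hc).trans_eq ?_
  rw [sum_const, card_range, nsmul_eq_mul]
  push_cast
  ring

/-- Averages over the cube and the group may be exchanged. -/
lemma cube_haar_le {β : Type} [Fintype β] {N : ℕ} {F : (β → ℝ) × ON N → ℝ} (hF : Continuous F)
    {B : ℝ} (h : ∀ U, ∫ v, F (v, U) ∂cubeLaw β ≤ B) :
    ∫ v, ∫ U, F (v, U) ∂haarON N ∂cubeLaw β ≤ B := by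
  have hcp : IsCompact ((Set.univ.pi fun _ : β => Set.Icc (0 : ℝ) 1) ×ˢ (Set.univ : Set (ON N))) :=
    (isCompact_univ_pi fun _ => isCompact_Icc).prod isCompact_univ
  obtain ⟨C, hC⟩ := hcp.bddAbove_image hF.abs.continuousOn
  have hae : ∀ᵐ q ∂(cubeLaw β).prod (haarON N), ∀ k, q.1 k ∈ Set.Icc (0 : ℝ) 1 :=
    Measure.quasiMeasurePreserving_fst.ae Box.ae_mem_cube
  have hint : Integrable F ((cubeLaw β).prod (haarON N)) :=
    Integrable.of_bound hF.aestronglyMeasurable C (hae.mono fun q hq =>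
      hC ⟨q, ⟨fun k _ => hq k, Set.mem_univ _⟩, rfl⟩)
  rw [integral_integral_swap (f := fun v U => F (v, U)) hint]
  exact (integral_mono hint.integral_prod_right (integrable_const B) h).trans_eq (by simp)

/-- The oscillation of a bounded function over small windows. -/
lemma osc_integral {g : ℝ → ℝ} {a b d G : ℝ} (hg : Continuous g) (hd : 0 ≤ d) (hab : a ≤ b)
    (hG : ∀ x ∈ Set.Icc (a - d) (b + d), |g x| ≤ G) :
    ∫ x in a..b, (g (x + d) - g (x - d)) ≤ 4 * G * d := by
  have hi : ∀ p q : ℝ, IntervalIntegrable g volume p q := fun p q => hg.intervalIntegrable p q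
  have ip : IntervalIntegrable (fun x => g (x + d)) volume a b :=
    (hg.comp (continuous_add_const d)).intervalIntegrable a b
  have im : IntervalIntegrable (fun x => g (x - d)) volume a b :=
    (hg.comp (continuous_sub_right d)).intervalIntegrable a b
  rw [intervalIntegral.integral_sub ip im, intervalIntegral.integral_comp_add_right,
    intervalIntegral.integral_comp_sub_right,
    intervalIntegral.integral_interval_sub_interval_comm' (hi _ _) (hi _ _) (hi _ _)]
  have hbd : ∀ p q, a - d ≤ p → p ≤ q → q ≤ b + d → q - p = 2 * d →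
      |∫ x in p..q, g x| ≤ G * (2 * d) := by
    intro p q h1 h2 h3 h4
    have h := intervalIntegral.norm_integral_le_of_norm_le_const (a := p) (b := q) (f := g)
      (C := G) fun x hx => by
        rw [Set.uIoc_of_le h2] at hx
        exact hG x ⟨by linarith [hx.1], by linarith [hx.2]⟩
    rwa [h4, abs_of_nonneg (show (0:ℝ) ≤ 2 * d by linarith), Real.norm_eq_abs] at h
  have e1 := abs_le.1 (hbd (b - d) (b + d) (by linarith) (by linarith) le_rfl (by ring))
  have e2 := abs_le.1 (hbd (a - d) (a + d) le_rfl (by linarith) (by linarith) (by ring))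
  linarith

end general

/-! ### The box -/

variable {M N : ℕ}

/-- The small parameter `N^(-1/4)`. -/
noncomputable def tauN (N : ℕ) : ℝ := 1 / Real.sqrt (Real.sqrt N)

lemma tauN_facts (hN : 0 < N) :
    0 < tauN N ∧ tauN N ≤ 1 ∧ tauN N ^ 2 * Real.sqrt N = 1 ∧ 1 / (N : ℝ) ≤ tauN N := by
  have h1 : (1 : ℝ) ≤ N := by exact_mod_cast hN
  have s1 : 1 ≤ Real.sqrt N := Real.one_le_sqrt.2 h1
  have s2 : 1 ≤ Real.sqrt (Real.sqrt N) := Real.one_le_sqrt.2 s1
  refine ⟨by unfold tauN; positivity, ?_, ?_, ?_⟩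
  · rw [tauN, div_le_one (by linarith)]; exact s2
  · rw [tauN, div_pow, one_pow, Real.sq_sqrt (Real.sqrt_nonneg _), one_div,
      inv_mul_cancel₀ (by linarith : Real.sqrt (N : ℝ) ≠ 0)]
  · rw [tauN]
    refine one_div_le_one_div_of_le (by linarith) ?_
    calc Real.sqrt (Real.sqrt N) ≤ Real.sqrt N := by
          refine Real.sqrt_le_iff.2 ⟨Real.sqrt_nonneg _, ?_⟩; nlinarith
      _ ≤ N := by
          refine Real.sqrt_le_iff.2 ⟨Nat.cast_nonneg N, ?_⟩; nlinarith

lemma tendsto_tauN (C : ℝ) : Tendsto (fun N : ℕ => C * tauN N) atTop (𝓝 0) := by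
  have h : Tendsto (fun N : ℕ => Real.sqrt (Real.sqrt N)) atTop atTop :=
    Real.tendsto_sqrt_atTop.comp (Real.tendsto_sqrt_atTop.comp tendsto_natCast_atTop_atTop)
  simp only [tauN, mul_one_div]
  exact tendsto_const_nhds.div_atTop h

variable (P : Par)

/-- The levels whose amplitudes move over the box. -/
def Mv (l : ℕ) : Prop := l ≤ P.K + 1 ∧ ¬(1 ≤ l ∧ l ≤ P.L0)

/-- The coordinate of the amplitude of atom `r` at level `l`. -/
def crd (l : ℕ) (hl : l ≤ P.K + 1) (r : Fin M) : GBox M P.K :=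
  Sum.inr (⟨l, Nat.lt_succ_of_le hl⟩, r)

variable {P}

lemma etaV_eq {l : ℕ} (hl : Mv P l) (v : GBox M P.K → ℝ) (r : Fin M) :
    P.etaV v l r = P.eta + (2 * P.eta - P.eta) * v (crd P l hl.1 r) := by
  rw [Par.etaV, dif_pos hl.1, if_neg hl.2, crd]
  ring

lemma etaV_update_ne {l : ℕ} (hl : l ≤ P.K + 1) (r : Fin M) (v : GBox M P.K → ℝ) (x : ℝ)
    {l' : ℕ} {r' : Fin M} (h : ¬(l' = l ∧ r' = r)) :
    P.etaV (Function.update v (crd P l hl r) x) l' r' = P.etaV v l' r' := by
  unfold Par.etaV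
  split_ifs with h1 h2
  · rfl
  · rw [Function.update_of_ne]
    intro e
    simp only [crd, Sum.inr.injEq, Prod.mk.injEq, Fin.mk.injEq] at e
    exact h e
  · rfl

lemma lamN_update (a : Fin M → ℝ) (b : Fin N → Fin M) (v : GBox M P.K → ℝ)
    (k : Fin (P.K + 2) × Fin M) (x : ℝ) :
    P.lamN a b (Function.update v (Sum.inr k) x) = P.lamN a b v := by
  funext p
  simp [Par.lamN, Par.lamV]

lemma abs_etaV_le (hP : P.Ok) {v : GBox M P.K → ℝ} (hv : InBox v) (l : ℕ) (r : Fin M) :
    |P.etaV v l r| ≤ 5 / 2 * P.eta := by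
  have h0 := hP.eta_pos
  unfold Par.etaV
  split_ifs with h1 h2
  · rw [abs_zero]; positivity
  · obtain ⟨ha, hb⟩ := hv (Sum.inr (⟨l, Nat.lt_succ_of_le h1⟩, r))
    rw [abs_mul, abs_of_pos h0, mul_comm (5 / 2 : ℝ)]
    exact mul_le_mul_of_nonneg_left (abs_le.2 ⟨by linarith, by linarith⟩) h0.le
  · rw [abs_zero]; positivity

lemma le_etaV (hP : P.Ok) {v : GBox M P.K → ℝ} (hv : ∀ k, v k ∈ Set.Icc (0 : ℝ) 1) {l : ℕ}
    (hl : Mv P l) (r : Fin M) : P.eta ≤ P.etaV v l r := by
  rw [etaV_eq hl]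
  nlinarith [mul_nonneg hP.eta_pos.le (hv (crd P l hl.1 r)).1]

lemma abs_lamN_le (hP : P.Ok) {Λ : ℝ} {a : Fin M → ℝ} (ha : ∀ r, |a r| ≤ Λ) (b : Fin N → Fin M)
    {v : GBox M P.K → ℝ} (hv : InBox v) (p : Fin N) : |P.lamN a b v p| ≤ |Λ| + 2 := by
  refine (abs_add_le _ _).trans (add_le_add ((ha _).trans (le_abs_self _)) ?_)
  obtain ⟨h1, h2⟩ := hv (Sum.inl (b p))
  rw [abs_mul, abs_of_pos hP.du_pos]
  calc P.du * |v (Sum.inl (b p))| ≤ 1 * 2 :=
        mul_le_mul hP.du_le (abs_le.2 ⟨by linarith, by linarith⟩) (abs_nonneg _) zero_le_one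
    _ = 2 := one_mul _

lemma inBox_of_cube {β : Type} {v : β → ℝ} (hv : ∀ k, v k ∈ Set.Icc (0 : ℝ) 1) : InBox v :=
  fun k => ⟨by linarith [(hv k).1], by linarith [(hv k).2]⟩

lemma inBox_update {β : Type} [DecidableEq β] {v : β → ℝ} (hv : ∀ k, v k ∈ Set.Icc (0 : ℝ) 1)
    (j : β) {x : ℝ} (hx : x ∈ Set.Icc (-(1 / 2 : ℝ)) (3 / 2)) : InBox (Function.update v j x) :=
  fun k => by
    by_cases hk : k = j
    · subst hk; simpa using hx
    · rw [Function.update_of_ne hk]; exact inBox_of_cube hv k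

lemma box_point (hP : P.Ok) {d σ : ℝ} (hd : d ≤ P.eta / 2)
    (hσ : σ ∈ Set.Icc (P.eta - d) (2 * P.eta + d)) :
    (σ - P.eta) / (2 * P.eta - P.eta) ∈ Set.Icc (-(1 / 2 : ℝ)) (3 / 2) := by
  have h0 := hP.eta_pos
  rw [show 2 * P.eta - P.eta = P.eta by ring]
  constructor
  · rw [le_div_iff₀ h0]; linarith [hσ.1]
  · rw [div_le_iff₀ h0]; linarith [hσ.2]

lemma mem_atomSet {b : Fin N → Fin M} {r : Fin M} {p : Fin N} :
    (Sum.inr p : FIdx N) ∈ atomSet b r ↔ b p = r := by
  simp [atomSet, rotSet, fiber]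

lemma movesAlong (s : ℕ → ℝ) (b : Fin N → Fin M) {l : ℕ} (hl : Mv P l) (r : Fin M) :
    MovesAlong (fun v : GBox M P.K → ℝ => glassAmp (fun m _ => s m) (P.ampN b v)) (atomSet b r) l
      (crd P l hl.1 r) P.eta (2 * P.eta) := by
  refine ⟨fun v i hi => ?_, fun v x m i hi => ?_⟩
  · obtain ⟨p, hp, rfl⟩ := mem_image.1 hi
    show P.etaV v l (b p) = _
    rw [(mem_filter.1 hp).2]
    exact etaV_eq hl v r
  · rcases i with i | p
    · rfl
    · exact etaV_update_ne hl.1 r v x fun h => hi ⟨h.1, mem_atomSet.2 h.2⟩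

lemma nest_update (hP : P.Ok) (s : ℕ → ℝ) (b : Fin N → Fin M) {l : ℕ} (hl : Mv P l) (r : Fin M)
    (v : GBox M P.K → ℝ) (σ : ℝ) :
    P.nest s b (Function.update v (crd P l hl.1 r) ((σ - P.eta) / (2 * P.eta - P.eta))) =
      (P.nest s b v).withAmp (atomSet b r) l σ :=
  Box.setAmp_update (N := glassNest P.K (fun _ _ => (0 : ℝ)) (fun _ _ => (0 : ℝ)))
    (movesAlong s b hl r) (by linarith [hP.eta_pos]) v σ

/-! ### One rotation -/

variable (P) (a : Fin M → ℝ) (s : ℕ → ℝ) (b : Fin N → Fin M)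

/-- The free energy of one rotation. -/
noncomputable def gF (v : GBox M P.K → ℝ) (U : ON N) : ℝ :=
  glassFree P.K (P.lamN a b v) (fun l _ => s l) (P.ampN b v) U

/-- Its derivative in the amplitude of atom `r` at level `l`. -/
noncomputable def gX (r : Fin M) (l : ℕ) (v : GBox M P.K → ℝ) (U : ON N) : ℝ :=
  (P.nest s b v).ampDeriv (glassLeaf U) (quadLaw (P.lamN a b v) U) (atomSet b r) l

/-- The overlap of one rotation. -/
noncomputable def gQ (r : Fin M) (l : ℕ) (v : GBox M P.K → ℝ) (U : ON N) : ℝ :=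
  (P.nest s b v).ovl (glassLeaf U) (quadLaw (P.lamN a b v) U) (atomSet b r) N l

/-- The squared norm of one rotation. -/
noncomputable def gD (r : Fin M) (v : GBox M P.K → ℝ) (U : ON N) : ℝ :=
  (∑ i ∈ atomSet b r, (P.nest s b v).heatTop (glassLeaf U) (quadLaw (P.lamN a b v) U) i) / N

/-- The normalised derivative. -/
noncomputable def gT (r : Fin M) (l : ℕ) (v : GBox M P.K → ℝ) (U : ON N) : ℝ :=
  gD P a s b r v U - (∑ m ∈ Icc l P.K, gQ P a s b r m v U) / ((P.K : ℝ) + 1)

/-- The average of the normalised derivative. -/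
noncomputable def mT (r : Fin M) (l : ℕ) (v : GBox M P.K → ℝ) : ℝ :=
  P.diag a s b v r - (∑ m ∈ Icc l P.K, P.ovl a s b v r m) / ((P.K : ℝ) + 1)

variable {P}

lemma gX_eq (hN : 0 < N) (r : Fin M) {l : ℕ} (hl : l ≤ P.K + 1) (v : GBox M P.K → ℝ) (U : ON N) :
    gX P a s b r l v U = P.etaV v l r * ((N : ℝ) * gT P a s b r l v U) := by
  have hNr : (0 : ℝ) < N := Nat.cast_pos.2 hN
  have : IsProbabilityMeasure (quadLaw (P.lamN a b v) U) := quadLaw_prob _ U
  rw [gX, Rand.ampDeriv_eq (K := P.K) (N := P.nest s b v) rfl rfl (atomSet b r) hl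
    (s := P.etaV v l r) fun i hi => by
      obtain ⟨p, hp, rfl⟩ := mem_image.1 hi
      show P.etaV v l (b p) = _
      rw [(mem_filter.1 hp).2]]
  simp only [gT, gD, gQ, Nest.ovl, ← sum_div]
  field_simp

lemma sum_atom (f : FIdx N → ℝ) :
    ∑ r, ∑ i ∈ atomSet b r, f i = ∑ p, f (Sum.inr p) := by
  rw [← sum_fiberwise univ b fun p => f (Sum.inr p)]
  refine sum_congr rfl fun r _ => ?_
  rw [atomSet, rotSet, sum_image Sum.inr_injective.injOn, fiber]

lemma sum_gD (hN : 0 < N) (v : GBox M P.K → ℝ) (U : ON N) : ∑ r, gD P a s b r v U = 1 := by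
  simp only [gD, ← sum_div]
  rw [sum_atom, Par.nest, (sum_heatTop P.K (P.lamN a b v) _ _ U).1,
    div_self (Nat.cast_ne_zero.2 hN.ne')]

lemma gD_mem (hN : 0 < N) (r : Fin M) (v : GBox M P.K → ℝ) (U : ON N) :
    0 ≤ gD P a s b r v U ∧ gD P a s b r v U ≤ 1 := by
  have h0 : ∀ r, 0 ≤ gD P a s b r v U := fun r =>
    div_nonneg (sum_nonneg fun i _ => Lin.heatTop_nonneg _ _ _ _ U i) (Nat.cast_nonneg N)
  exact ⟨h0 r, (single_le_sum (f := fun r => gD P a s b r v U) (fun r _ => h0 r)
    (mem_univ r)).trans_eq (sum_gD a s b hN v U)⟩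

lemma gQ_mem (r : Fin M) {l : ℕ} (hl : l ≤ P.K + 1) (v : GBox M P.K → ℝ) (U : ON N) :
    0 ≤ gQ P a s b r l v U ∧ gQ P a s b r l v U ≤ gD P a s b r v U :=
  ⟨div_nonneg (sum_nonneg fun i _ => Lin.sqGrad_nonneg _ _ _ _ U hl i) (Nat.cast_nonneg N),
    div_le_div_of_nonneg_right (sum_le_sum fun i _ => Lin.sqGrad_le_heatTop _ _ _ _ U hl i)
      (Nat.cast_nonneg N)⟩

lemma gT_mem (hN : 0 < N) (r : Fin M) (l : ℕ) (v : GBox M P.K → ℝ) (U : ON N) :
    |gT P a s b r l v U| ≤ 1 := by
  obtain ⟨h1, h2⟩ := gD_mem a s b hN r v U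
  have hq : ∀ m ∈ Icc l P.K, 0 ≤ gQ P a s b r m v U ∧ gQ P a s b r m v U ≤ 1 := fun m hm => by
    have := gQ_mem a s b r (l := m) (by have := (mem_Icc.1 hm).2; omega) v U
    exact ⟨this.1, this.2.trans h2⟩
  have hK : (0 : ℝ) < (P.K : ℝ) + 1 := by positivity
  have h3 : (∑ m ∈ Icc l P.K, gQ P a s b r m v U) / ((P.K : ℝ) + 1) ≤ 1 := by
    rw [div_le_one hK]
    exact (sum_le_sum fun m hm => (hq m hm).2).trans ((levels_sum_le
      (fun m hm => mem_range.2 (Nat.lt_succ_of_le (mem_Icc.1 hm).2)) 1 zero_le_one).trans_eq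
        (mul_one _))
  have h4 : 0 ≤ (∑ m ∈ Icc l P.K, gQ P a s b r m v U) / ((P.K : ℝ) + 1) :=
    div_nonneg (sum_nonneg fun m hm => (hq m hm).1) hK.le
  rw [gT, abs_le]
  constructor <;> linarith

lemma abs_gX_le (hN : 0 < N) (r : Fin M) {l : ℕ} (hl : l ≤ P.K + 1) (v : GBox M P.K → ℝ)
    (U : ON N) : |gX P a s b r l v U| ≤ |P.etaV v l r| * N := by
  rw [gX_eq a s b hN r hl, abs_mul, abs_mul, Nat.abs_cast]
  exact mul_le_mul_of_nonneg_left
    (mul_le_of_le_one_right (Nat.cast_nonneg N) (gT_mem a s b hN r l v U)) (abs_nonneg _)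

/-! ### Continuity -/

lemma continuous_lamN_pair :
    Continuous fun q : (GBox M P.K → ℝ) × ON N => P.lamN a b q.1 := by
  unfold Par.lamN Par.lamV
  fun_prop

lemma continuous_ampN_pair (l : ℕ) (p : Fin N) :
    Continuous fun q : (GBox M P.K → ℝ) × ON N => P.ampN b q.1 l p := by
  show Continuous fun q : (GBox M P.K → ℝ) × ON N => P.etaV q.1 l (b p)
  unfold Par.etaV
  split_ifs <;> fun_prop

lemma continuous_gF : Continuous fun q : (GBox M P.K → ℝ) × ON N => gF P a s b q.1 q.2 := by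
  have hm : Continuous fun q : (GBox M P.K → ℝ) × ON N =>
      (P.lamN a b q.1, (fun l (_ : Fin N) => s l : ℕ → Fin N → ℝ), P.ampN b q.1, q.2) :=
    (continuous_lamN_pair a b).prodMk (continuous_const.prodMk
      ((continuous_pi fun l => continuous_pi fun p => continuous_ampN_pair b l p).prodMk
        continuous_snd))
  have h := (continuous_glassFree (N := N) P.K).comp hm
  simp only [Function.comp_def] at h
  exact h

lemma continuous_gQ (r : Fin M) {l : ℕ} (hl : l ≤ P.K + 1) :
    Continuous fun q : (GBox M P.K → ℝ) × ON N => gQ P a s b r l q.1 q.2 :=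
  (continuous_finsetSum _ fun i _ => ConcAux.continuous_glass_sqGrad
    (T := (GBox M P.K → ℝ) × ON N) (lam := fun q => P.lamN a b q.1) (U := fun q => q.2)
    (S := fun _ l _ => s l) (V := fun q => P.ampN b q.1) (continuous_lamN_pair a b) continuous_snd
    (fun _ _ => continuous_const) (continuous_ampN_pair b) P.K hl i).div_const _

lemma continuous_gD (r : Fin M) :
    Continuous fun q : (GBox M P.K → ℝ) × ON N => gD P a s b r q.1 q.2 :=
  (continuous_finsetSum _ fun i _ => Lin.continuous_glass_heatTop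
    (T := (GBox M P.K → ℝ) × ON N) (lam := fun q => P.lamN a b q.1) (U := fun q => q.2)
    (S := fun _ l _ => s l) (V := fun q => P.ampN b q.1) (continuous_lamN_pair a b)
    continuous_const (continuous_pi fun l => continuous_pi fun p => continuous_ampN_pair b l p)
    continuous_snd P.K i).div_const _

lemma continuous_gT (r : Fin M) (l : ℕ) :
    Continuous fun q : (GBox M P.K → ℝ) × ON N => gT P a s b r l q.1 q.2 :=
  (continuous_gD a s b r).sub ((continuous_finsetSum (Icc l P.K) fun m (hm : m ∈ Icc l P.K) =>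
    continuous_gQ a s b r (l := m) (by have := (mem_Icc.1 hm).2; omega)).div_const _)

lemma continuous_gX (hN : 0 < N) (r : Fin M) {l : ℕ} (hl : l ≤ P.K + 1) :
    Continuous fun q : (GBox M P.K → ℝ) × ON N => gX P a s b r l q.1 q.2 := by
  simp only [gX_eq a s b hN r hl]
  refine Continuous.mul ?_ (continuous_const.mul (continuous_gT a s b r l))
  unfold Par.etaV
  split_ifs <;> fun_prop

lemma continuous_haar {X : Type} [TopologicalSpace X] [FirstCountableTopology X]
    [LocallyCompactSpace X] {f : X × ON N → ℝ} (hf : Continuous f) :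
    Continuous fun x => ∫ U, f (x, U) ∂haarON N := by
  have h := continuous_parametric_integral_of_continuous (μ := haarON N)
    (f := fun x U => f (x, U)) hf isCompact_univ
  simpa using h

lemma integrable_slice {X : Type} [TopologicalSpace X] {f : X × ON N → ℝ} (hf : Continuous f)
    (x : X) : Integrable (fun U => f (x, U)) (haarON N) :=
  integrable_of_cont (hf.comp (continuous_const.prodMk continuous_id))

lemma integral_gT (r : Fin M) (l : ℕ) (v : GBox M P.K → ℝ) :
    ∫ U, gT P a s b r l v U ∂haarON N = mT P a s b r l v := by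
  have hQ : ∀ m ∈ Icc l P.K, Integrable (fun U => gQ P a s b r m v U) (haarON N) := fun m hm =>
    integrable_slice (continuous_gQ a s b r (l := m) (by have := (mem_Icc.1 hm).2; omega)) v
  simp only [gT, mT]
  rw [integral_sub (integrable_slice (continuous_gD a s b r) v)
    ((integrable_finsetSum _ hQ).div_const _), integral_div, integral_finsetSum _ hQ]
  rfl

lemma continuous_mT (r : Fin M) (l : ℕ) :
    Continuous fun v : GBox M P.K → ℝ => mT P a s b r l v := by
  simp only [← integral_gT a s b r l]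
  exact continuous_haar (continuous_gT a s b r l)

lemma abs_mT_le (hN : 0 < N) (r : Fin M) (l : ℕ) (v : GBox M P.K → ℝ) :
    |mT P a s b r l v| ≤ 1 := by
  rw [← integral_gT a s b r l v, ← Real.norm_eq_abs]
  refine (norm_integral_le_of_norm_le_const
    (.of_forall fun U => gT_mem a s b hN r l v U)).trans_eq ?_
  simp

/-! ### One line -/

lemma hasDerivAt_gF (hP : P.Ok) {l : ℕ} (hl : Mv P l) (r : Fin M) (v : GBox M P.K → ℝ) (U : ON N)
    (σ : ℝ) :
    HasDerivAt
      (fun σ => gF P a s b (Function.update v (crd P l hl.1 r) ((σ - P.eta) / (2 * P.eta - P.eta))) U)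
      (gX P a s b r l (Function.update v (crd P l hl.1 r) ((σ - P.eta) / (2 * P.eta - P.eta))) U) σ := by
  have : IsProbabilityMeasure (quadLaw (P.lamN a b v) U) := quadLaw_prob _ U
  have hu : ∀ σ, glassFree P.K (P.lamN a b v) (fun l _ => s l)
      (P.ampN b (Function.update v (crd P l hl.1 r) ((σ - P.eta) / (2 * P.eta - P.eta)))) U =
      Real.log (quadPart (P.lamN a b v) U) +
        ((P.nest s b v).withAmp (atomSet b r) l σ).free (glassLeaf U)
          (quadLaw (P.lamN a b v) U) := fun σ => by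
    rw [← nest_update hP s b hl r v σ]
    rfl
  have hlam : ∀ x, P.lamN a b (Function.update v (crd P l hl.1 r) x) = P.lamN a b v :=
    fun x => lamN_update a b v _ x
  simp only [gF, gX, hlam, hu, nest_update hP s b hl r v]
  exact (Box.hasDerivAt_free (glassNest_good P.K _ _) (glassLeaf_good U)
    (N := P.nest s b v) hl.1 σ).const_add _

lemma gF_convex (hP : P.Ok) {l : ℕ} (hl : Mv P l) (r : Fin M) (v : GBox M P.K → ℝ) (U : ON N) :
    ConvexOn ℝ Set.univ fun σ =>
      gF P a s b (Function.update v (crd P l hl.1 r) ((σ - P.eta) / (2 * P.eta - P.eta))) U := by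
  refine ⟨convex_univ, fun x _ y _ p q hp hq hpq => ?_⟩
  set w : ℝ → GBox M P.K → ℝ := fun σ =>
    Function.update v (crd P l hl.1 r) ((σ - P.eta) / (2 * P.eta - P.eta))
  set X : ℝ → (Fin N → ℝ) × (ℕ → Fin N → ℝ) × (ℕ → Fin N → ℝ) := fun σ =>
    (P.lamN a b (w σ), (fun m (_ : Fin N) => s m), P.ampN b (w σ))
  have he : ∀ σ m r', P.etaV (w σ) m r' = if m = l ∧ r' = r then σ else P.etaV v m r' := by
    intro σ m r'
    split_ifs with h
    · obtain ⟨rfl, rfl⟩ := h
      rw [etaV_eq hl]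
      simp only [w, Function.update_self]
      rw [mul_div_cancel₀ _ (by linarith [hP.eta_pos] : 2 * P.eta - P.eta ≠ 0)]
      ring
    · exact etaV_update_ne hl.1 r v _ h
  have hX : X (p • x + q • y) = p • X x + q • X y := by
    refine Prod.ext ?_ (Prod.ext ?_ ?_)
    · funext i
      simp only [X, w, crd, lamN_update, Prod.fst_add, Prod.smul_fst, Pi.add_apply, Pi.smul_apply,
        smul_eq_mul]
      linear_combination (-(P.lamN a b v i)) * hpq
    · funext m i
      simp only [X, Prod.snd_add, Prod.smul_snd, Prod.fst_add, Prod.smul_fst, Pi.add_apply,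
        Pi.smul_apply, smul_eq_mul]
      linear_combination (-(s m)) * hpq
    · funext m i
      simp only [X, Par.ampN, he, Prod.snd_add, Prod.smul_snd, Pi.add_apply, Pi.smul_apply,
        smul_eq_mul]
      split_ifs
      · rfl
      · linear_combination (-(P.etaV v m (b i))) * hpq
  have h := (glassFree_convex P.K U).2 (Set.mem_univ (X x)) (Set.mem_univ (X y)) hp hq hpq
  rw [← hX] at h
  exact h

lemma gX_monotone (hP : P.Ok) {l : ℕ} (hl : Mv P l) (r : Fin M) (v : GBox M P.K → ℝ) (U : ON N) :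
    Monotone fun σ =>
      gX P a s b r l (Function.update v (crd P l hl.1 r) ((σ - P.eta) / (2 * P.eta - P.eta))) U := by
  intro x y hxy
  have h := (gF_convex a s b hP hl r v U).monotoneOn_deriv
    fun z _ => (hasDerivAt_gF a s b hP hl r v U z).differentiableAt
  have := h (Set.mem_univ x) (Set.mem_univ y) hxy
  rwa [(hasDerivAt_gF a s b hP hl r v U x).deriv,
    (hasDerivAt_gF a s b hP hl r v U y).deriv] at this

lemma continuous_line {l : ℕ} (hl : l ≤ P.K + 1) (r : Fin M) (v : GBox M P.K → ℝ) :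
    Continuous fun q : ℝ × ON N =>
      (Function.update v (crd P l hl r) ((q.1 - P.eta) / (2 * P.eta - P.eta)), q.2) :=
  ((continuous_const (y := v)).update (crd P l hl r)
    ((continuous_fst.sub continuous_const).div_const _)).prodMk continuous_snd

lemma etaV_line (hP : P.Ok) {l : ℕ} (hl : Mv P l) (r : Fin M) (v : GBox M P.K → ℝ) (σ : ℝ) :
    P.etaV (Function.update v (crd P l hl.1 r) ((σ - P.eta) / (2 * P.eta - P.eta))) l r = σ := by
  rw [etaV_eq hl, Function.update_self,
    mul_div_cancel₀ _ (by linarith [hP.eta_pos] : 2 * P.eta - P.eta ≠ 0)]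
  ring

lemma integral_gX (hN : 0 < N) (r : Fin M) {l : ℕ} (hl : l ≤ P.K + 1) (v : GBox M P.K → ℝ) :
    ∫ U, gX P a s b r l v U ∂haarON N = P.etaV v l r * ((N : ℝ) * mT P a s b r l v) := by
  simp only [gX_eq a s b hN r hl, integral_const_mul, integral_gT]

lemma hasDerivAt_free_line (hP : P.Ok) (hN : 0 < N) {l : ℕ} (hl : Mv P l) (r : Fin M)
    (v : GBox M P.K → ℝ) (σ : ℝ) :
    HasDerivAt
      (fun σ => P.free a s b (Function.update v (crd P l hl.1 r) ((σ - P.eta) / (2 * P.eta - P.eta))))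
      (σ * ((N : ℝ) * mT P a s b r l
        (Function.update v (crd P l hl.1 r) ((σ - P.eta) / (2 * P.eta - P.eta))))) σ := by
  have hc := (continuous_gF (P := P) a s b).comp (continuous_line hl.1 r v)
  have hc' := (continuous_gX a s b hN r hl.1).comp (continuous_line hl.1 r v)
  have h := hasDerivAt_integral_of_dominated_loc_of_deriv_le (μ := haarON N) (x₀ := σ)
    (bound := fun _ => (|σ| + 1) * (N : ℝ))
    (F := fun σ U =>
      gF P a s b (Function.update v (crd P l hl.1 r) ((σ - P.eta) / (2 * P.eta - P.eta))) U)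
    (F' := fun σ U =>
      gX P a s b r l (Function.update v (crd P l hl.1 r) ((σ - P.eta) / (2 * P.eta - P.eta))) U)
    (Metric.ball_mem_nhds σ one_pos)
    (.of_forall fun x => (integrable_slice hc x).aestronglyMeasurable) (integrable_slice hc σ)
    (integrable_slice hc' σ).aestronglyMeasurable
    (.of_forall fun U x hx => by
      rw [Real.norm_eq_abs]
      refine (abs_gX_le a s b hN r hl.1 _ U).trans (mul_le_mul_of_nonneg_right ?_ (Nat.cast_nonneg N))
      rw [etaV_line hP hl]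
      rw [Metric.mem_ball, Real.dist_eq] at hx
      linarith [abs_sub_abs_le_abs_sub x σ])
    (integrable_const _) (.of_forall fun U x _ => hasDerivAt_gF a s b hP hl r v U x)
  refine h.2.congr_deriv ?_
  rw [integral_gX a s b hN r hl.1, etaV_line hP hl]

lemma continuous_free_deriv_line {l : ℕ} (hl : l ≤ P.K + 1) (r : Fin M) (v : GBox M P.K → ℝ) :
    Continuous fun σ : ℝ => σ * ((N : ℝ) * mT P a s b r l
      (Function.update v (crd P l hl r) ((σ - P.eta) / (2 * P.eta - P.eta)))) :=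
  continuous_id.mul (continuous_const.mul ((continuous_mT a s b r l).comp
    ((continuous_const (y := v)).update (crd P l hl r)
      ((continuous_id.sub continuous_const).div_const _))))

lemma free_deriv_monotone (hP : P.Ok) (hN : 0 < N) {l : ℕ} (hl : Mv P l) (r : Fin M)
    (v : GBox M P.K → ℝ) :
    Monotone fun σ : ℝ => σ * ((N : ℝ) * mT P a s b r l
      (Function.update v (crd P l hl.1 r) ((σ - P.eta) / (2 * P.eta - P.eta)))) := by
  intro x y hxy
  have hc' := (continuous_gX a s b hN r hl.1).comp (continuous_line hl.1 r v)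
  have h := integral_mono (integrable_slice hc' x) (integrable_slice hc' y)
    fun U => gX_monotone a s b hP hl r v U hxy
  simp only [Function.comp_apply] at h
  rw [integral_gX a s b hN r hl.1, integral_gX a s b hN r hl.1, etaV_line hP hl,
    etaV_line hP hl] at h
  exact h

lemma free_deriv_bound (hP : P.Ok) (hN : 0 < N) {l : ℕ} (hl : Mv P l) (r : Fin M)
    (v : GBox M P.K → ℝ) {σ : ℝ} (hσ : σ ∈ Set.Icc 0 (3 : ℝ)) :
    |σ * ((N : ℝ) * mT P a s b r l
      (Function.update v (crd P l hl.1 r) ((σ - P.eta) / (2 * P.eta - P.eta))))| ≤ 3 * N := by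
  rw [abs_mul, abs_mul, abs_of_nonneg hσ.1, Nat.abs_cast]
  exact mul_le_mul hσ.2 (mul_le_of_le_one_right (Nat.cast_nonneg N) (abs_mT_le a s b hN r l _))
    (by positivity) (by norm_num)

/-- Pointwise Griffiths bound on a line. -/
lemma line_le {f g f' g' : ℝ → ℝ} (hf : ∀ x, HasDerivAt f (f' x) x)
    (hg : ∀ x, HasDerivAt g (g' x) x) (mf : Monotone f') (mg : Monotone g') {d : ℝ} (hd : 0 < d)
    (x : ℝ) :
    |f' x - g' x| ≤ (|f (x + d) - g (x + d)| + 2 * |f x - g x| + |f (x - d) - g (x - d)|) / d +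
      (g' (x + d) - g' (x - d)) := by
  have h := Conc.deriv_sub_le (φ := f) (ψ := g) (c := 0) (a := x - d - 1) (b := x + d + 1) (s := x) hd
    (fun t ht => ⟨by linarith [ht.1], by linarith [ht.2]⟩) (fun t _ => hf t) (fun t _ => hg t)
    (by simpa using mf.monotoneOn _) (by simpa using mg.monotoneOn _)
  simpa using h

end Vale.Agent.P166.Parisi.ConcAux
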