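import Vale.Agent.P166.Parisi.Sys
import Vale.Agent.P166.Parisi.Param
import Vale.Agent.P157.Parisi.BoxAvg

/-!
Module C, tools: shifts of the leaf, joint continuity in the leaf and the amplitudes, and the leaf
of the spin glass as a finite log-sum-exp.
-/

set_option linter.unusedSectionVars false

namespace Vale.Agent.P166.Parisi.ConcAux

open MeasureTheory ProbabilityTheory Finset Filter Topology Matrix
open Vale.Agent.P157 Vale.Agent.P157.Parisi

section hierarchy

variable {ι : Type} [Fintype ι] {N : Nest ι}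

lemma mean_down {U f : (ι → ℝ) → ℝ} {l : ℕ} (hl : l ≤ N.K) :
    N.mean U l (N.down U l f) = N.mean U N.K f := by
  induction hl using Nat.decreasingInduction with
  | self => rw [down_top le_rfl]
  | of_succ l hl ih =>
    rw [← ih, down_succ hl]
    rfl

lemma chainUp_top {U f : (ι → ℝ) → ℝ} (d : ℕ) : Nest.chainUp N U N.K f d = N.downUp U f d := by
  induction d with
  | zero => rfl
  | succ d ih => rw [Nest.chainUp, Nest.downUp, ih]

lemma linGrowth_u' {U : (ι → ℝ) → ℝ} (hU : LinGrowth U) {l : ℕ} (hl : l ≤ N.K) :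
    LinGrowth (N.u U l) := by
  induction hl using Nat.decreasingInduction with
  | self => rw [u_top le_rfl]; exact hU
  | of_succ l hl ih => rw [u_succ hl]; exact linGrowth_stepLog ih _ _

lemma u_shift (hN : N.Good) {U : (ι → ℝ) → ℝ} (hU : LinGrowth U) (c : ℝ) {l : ℕ} (hl : l ≤ N.K)
    (y : ι → ℝ) :
    N.u (fun v => U v + c) l y = N.u U l y + c ∧
      ∀ f, N.down (fun v => U v + c) l f y = N.down U l f y := by
  obtain ⟨hc, C, k, hC, hk, hb⟩ := id hU
  refine uUp_add_const hN hU.tame (C := C + k) (fun v => (hb v).trans ?_) c hl y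
  have := l1_nonneg v
  rw [show ∑ i, |v i| = l1 v from rfl]
  nlinarith

lemma avg_shift (hN : N.Good) {U : (ι → ℝ) → ℝ} (hU : LinGrowth U) (c : ℝ) {l : ℕ} (hl : l < N.K)
    (f : (ι → ℝ) → ℝ) : N.avg (fun v => U v + c) l f = N.avg U l f := by
  funext y
  simp only [avg_eq_stepAvg]
  set m := N.x (l + 1)
  set s := N.amp (l + 1)
  have hexp : ∀ z, Real.exp (m * N.u (fun v => U v + c) (l + 1) (move s y z)) =
      Real.exp (m * c) * Real.exp (m * N.u U (l + 1) (move s y z)) := fun z => by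
    rw [(u_shift hN hU c (show l + 1 ≤ N.K from hl) _).1, ← Real.exp_add]
    ring_nf
  simp only [stepAvg, tilt, hexp, mul_assoc, integral_const_mul]
  exact mul_div_mul_left _ _ (Real.exp_ne_zero _)

lemma mean_shift (hN : N.Good) {U : (ι → ℝ) → ℝ} (hU : LinGrowth U) (c : ℝ) {l : ℕ} (hl : l ≤ N.K)
    (f : (ι → ℝ) → ℝ) : N.mean (fun v => U v + c) l f = N.mean U l f := by
  induction l generalizing f with
  | zero => rfl
  | succ l ih =>
    simp only [Nest.mean]
    rw [avg_shift hN hU c hl]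
    exact ih (by omega) _

lemma down_shift (hN : N.Good) {U : (ι → ℝ) → ℝ} (hU : LinGrowth U) (c : ℝ) {l : ℕ} (hl : l ≤ N.K)
    (f : (ι → ℝ) → ℝ) : N.down (fun v => U v + c) l f = N.down U l f :=
  funext fun y => (u_shift hN hU c hl y).2 f

/-! ### Joint continuity -/

variable {T : Type} [TopologicalSpace T] [FirstCountableTopology T]
variable {U : T → (ι → ℝ) → ℝ} (hU : PLin U)
variable {A : T → ℕ → ι → ℝ} (hA : ∀ l i, Continuous fun t => A t l i)

include hU hA

lemma plin_u' {l : ℕ} (hl : l ≤ N.K) : PLin fun t => (N.setAmp (A t)).u (U t) l := by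
  refine levels_induction (P := fun l => PLin fun t => (N.setAmp (A t)).u (U t) l) ?_
    (fun m hm ih => ?_) hl
  · rw [show (fun t => (N.setAmp (A t)).u (U t) N.K) = U from
      funext fun t => u_top (N := N.setAmp (A t)) le_rfl _]
    exact hU
  · rw [show (fun t => (N.setAmp (A t)).u (U t) m) = fun t =>
        stepLog (N.x (m + 1)) (A t (m + 1)) ((N.setAmp (A t)).u (U t) (m + 1)) from
      funext fun t => u_succ (N := N.setAmp (A t)) hm _]
    exact plin_stepLog ih (hA (m + 1)) _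

lemma ptame_avg' {l : ℕ} (hl : l < N.K) {f : T → (ι → ℝ) → ℝ} (hf : PTame f) :
    PTame fun t => (N.setAmp (A t)).avg (U t) l (f t) :=
  ptame_tilt (plin_u' hU hA hl) (hA (l + 1)) _ hf

lemma continuous_mean' {l : ℕ} (hl : l ≤ N.K) {f : T → (ι → ℝ) → ℝ} (hf : PTame f) :
    Continuous fun t => (N.setAmp (A t)).mean (U t) l (f t) := by
  induction l generalizing f with
  | zero => exact hf.continuous_integral (hA 0)
  | succ l ih => exact ih (Nat.le_of_succ_le hl) (ptame_avg' hU hA hl hf)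

lemma ptame_down' {l : ℕ} (hl : l ≤ N.K) {f : T → (ι → ℝ) → ℝ} (hf : PTame f) :
    PTame fun t => (N.setAmp (A t)).down (U t) l (f t) := by
  refine levels_induction (P := fun l => PTame fun t => (N.setAmp (A t)).down (U t) l (f t)) ?_
    (fun m hm ih => ?_) hl
  · rw [show (fun t => (N.setAmp (A t)).down (U t) N.K (f t)) = f from
      funext fun t => down_top (N := N.setAmp (A t)) le_rfl _ _]
    exact hf
  · rw [show (fun t => (N.setAmp (A t)).down (U t) m (f t)) = fun t =>
        (N.setAmp (A t)).avg (U t) m ((N.setAmp (A t)).down (U t) (m + 1) (f t)) from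
      funext fun t => down_succ (N := N.setAmp (A t)) hm _ _]
    exact ptame_avg' hU hA hm ih

omit hU hA in
lemma ptame_sqrt {f : T → (ι → ℝ) → ℝ} (hf : PTame f) :
    PTame fun t y => Real.sqrt (f t y) := by
  refine ⟨hf.1.sqrt, fun t₀ => ?_⟩
  obtain ⟨C, k, hC, hk, h⟩ := hf.2 t₀
  refine ⟨C + 1, k, by positivity, hk, h.mono fun t ht y => ?_⟩
  have h1 : Real.sqrt (f t y) ≤ |f t y| + 1 :=
    Real.sqrt_le_iff.2 ⟨by positivity, by nlinarith [le_abs_self (f t y), abs_nonneg (f t y)]⟩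
  rw [abs_of_nonneg (Real.sqrt_nonneg _), add_mul, one_mul]
  linarith [ht y, Real.one_le_exp (mul_nonneg hk (l1_nonneg y))]

end hierarchy

/-! ### Finite log-sum-exp -/

section lse

variable {Ω : Type} [Fintype Ω] [Nonempty Ω]

/-- `log ∑ exp`. -/
noncomputable def lse (E : Ω → ℝ) : ℝ := Real.log (∑ σ, Real.exp (E σ))

/-- The average under the weights `exp E`. -/
noncomputable def lseAvg (E f : Ω → ℝ) : ℝ :=
  (∑ σ, Real.exp (E σ) * f σ) / ∑ σ, Real.exp (E σ)

lemma lse_den_pos (E : Ω → ℝ) : 0 < ∑ σ, Real.exp (E σ) :=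
  sum_pos (fun _ _ => Real.exp_pos _) univ_nonempty

lemma abs_lse_le (E : Ω → ℝ) : |lse E| ≤ ∑ σ, |E σ| + Fintype.card Ω := by
  have hle : ∀ σ, |E σ| ≤ ∑ σ, |E σ| := fun σ =>
    single_le_sum (f := fun σ => |E σ|) (fun _ _ => abs_nonneg _) (mem_univ σ)
  have hc : (0 : ℝ) < Fintype.card Ω := Nat.cast_pos.2 Fintype.card_pos
  have h1 : ∑ σ, Real.exp (E σ) ≤ Fintype.card Ω * Real.exp (∑ σ, |E σ|) :=
    (sum_le_sum fun σ _ => Real.exp_le_exp.2 ((le_abs_self (E σ)).trans (hle σ))).trans_eq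
      (by rw [sum_const, card_univ, nsmul_eq_mul])
  obtain ⟨σ₀⟩ := ‹Nonempty Ω›
  have h2 : Real.exp (E σ₀) ≤ ∑ σ, Real.exp (E σ) :=
    single_le_sum (f := fun σ => Real.exp (E σ)) (fun _ _ => (Real.exp_pos _).le) (mem_univ σ₀)
  have e1 := Real.log_le_log (lse_den_pos E) h1
  rw [Real.log_mul hc.ne' (Real.exp_ne_zero _), Real.log_exp] at e1
  have e2 := Real.log_le_log (Real.exp_pos _) h2
  rw [Real.log_exp] at e2
  have := Real.log_le_sub_one_of_pos hc
  rw [lse, abs_le]
  constructor <;> linarith [neg_abs_le (E σ₀), hle σ₀]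

lemma lseAvg_mono (E : Ω → ℝ) {f g : Ω → ℝ} (h : ∀ σ, f σ ≤ g σ) : lseAvg E f ≤ lseAvg E g :=
  div_le_div_of_nonneg_right
    (sum_le_sum fun σ _ => mul_le_mul_of_nonneg_left (h σ) (Real.exp_pos _).le) (lse_den_pos E).le

lemma lseAvg_const (E : Ω → ℝ) (c : ℝ) : lseAvg E (fun _ => c) = c := by
  rw [lseAvg, ← sum_mul, mul_div_cancel_left₀ _ (lse_den_pos E).ne']

lemma lseAvg_add (E f g : Ω → ℝ) :
    lseAvg E (fun σ => f σ + g σ) = lseAvg E f + lseAvg E g := by
  simp only [lseAvg, mul_add, sum_add_distrib, add_div]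

lemma lseAvg_const_mul (E : Ω → ℝ) (c : ℝ) (f : Ω → ℝ) :
    lseAvg E (fun σ => c * f σ) = c * lseAvg E f := by
  simp only [lseAvg]
  rw [mul_div_assoc', mul_sum]
  exact congrArg (· / _) (sum_congr rfl fun σ _ => mul_left_comm _ _ _)

lemma lseAvg_sum {α : Type*} (E : Ω → ℝ) (S : Finset α) (f : α → Ω → ℝ) :
    lseAvg E (fun σ => ∑ a ∈ S, f a σ) = ∑ a ∈ S, lseAvg E (f a) := by
  simp only [lseAvg, mul_sum, ← sum_div]
  rw [sum_comm]

lemma abs_lseAvg_le (E f : Ω → ℝ) : |lseAvg E f| ≤ ∑ σ, |f σ| := by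
  have hle : ∀ σ, |f σ| ≤ ∑ σ, |f σ| := fun σ =>
    single_le_sum (f := fun σ => |f σ|) (fun _ _ => abs_nonneg _) (mem_univ σ)
  refine abs_le.2 ⟨?_, ?_⟩
  · exact (lseAvg_const E _).symm.trans_le
      (lseAvg_mono E fun σ => (neg_le_neg (hle σ)).trans (neg_abs_le _))
  · exact (lseAvg_mono E fun σ => (le_abs_self _).trans (hle σ)).trans_eq (lseAvg_const E _)

lemma lseAvg_sq_le (E f : Ω → ℝ) : lseAvg E f ^ 2 ≤ lseAvg E (fun σ => f σ ^ 2) := by
  set c := lseAvg E f with hc
  have h := lseAvg_mono E (f := fun σ => 2 * c * f σ + -c ^ 2) (g := fun σ => f σ ^ 2)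
    fun σ => by nlinarith [sq_nonneg (f σ - c)]
  rw [lseAvg_add, lseAvg_const_mul, lseAvg_const, ← hc] at h
  linarith

lemma hasDerivAt_lse {E : ℝ → Ω → ℝ} {E' : Ω → ℝ} {t : ℝ}
    (hE : ∀ σ, HasDerivAt (fun u => E u σ) (E' σ) t) :
    HasDerivAt (fun u => lse (E u)) (lseAvg (E t) E') t :=
  (HasDerivAt.fun_sum fun σ _ => (hE σ).exp).log (lse_den_pos (E t)).ne'

lemma hasDerivAt_lseAvg {E : ℝ → Ω → ℝ} {E' : Ω → ℝ} {t : ℝ}
    (hE : ∀ σ, HasDerivAt (fun u => E u σ) (E' σ) t) (f : Ω → ℝ) :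
    HasDerivAt (fun u => lseAvg (E u) f)
      (lseAvg (E t) (fun σ => E' σ * f σ) - lseAvg (E t) E' * lseAvg (E t) f) t := by
  refine ((HasDerivAt.fun_sum fun σ _ => (hE σ).exp.mul_const (f σ)).fun_div
    (HasDerivAt.fun_sum fun σ _ => (hE σ).exp) (lse_den_pos (E t)).ne').congr_deriv ?_
  simp only [lseAvg]
  field_simp [(lse_den_pos (E t)).ne']

lemma continuous_lse {X : Type} [TopologicalSpace X] {E : X → Ω → ℝ}
    (hE : ∀ σ, Continuous fun x => E x σ) : Continuous fun x => lse (E x) :=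
  (continuous_finsetSum _ fun σ _ => (hE σ).rexp).log fun x => (lse_den_pos _).ne'

lemma continuous_lseAvg {X : Type} [TopologicalSpace X] {E f : X → Ω → ℝ}
    (hE : ∀ σ, Continuous fun x => E x σ) (hf : ∀ σ, Continuous fun x => f x σ) :
    Continuous fun x => lseAvg (E x) (f x) :=
  (continuous_finsetSum _ fun σ _ => (hE σ).rexp.mul (hf σ)).div
    (continuous_finsetSum _ fun σ _ => (hE σ).rexp) fun x => (lse_den_pos _).ne'

end lse

/-! ### The leaf of the spin glass -/

variable {N : ℕ}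

/-- The energy of a configuration in the fields `y`. -/
noncomputable def glassE (lam : Fin N → ℝ) (U : ON N) (y : FIdx N → ℝ) (σ : Fin N → Bool) : ℝ :=
  1 / 2 * eng lam (U : Matrix (Fin N) (Fin N) ℝ) σ +
    ∑ i, Sum.elim (spin σ) (rotSpin U σ) i * y i - N * Real.log 2

/-- The unnormalised leaf. -/
noncomputable def glassW (lam : Fin N → ℝ) (U : ON N) (y : FIdx N → ℝ) : ℝ :=
  lse (glassE lam U y)

lemma eng_eq (lam : Fin N → ℝ) (U : ON N) (σ : Fin N → Bool) :
    eng lam (U : Matrix (Fin N) (Fin N) ℝ) σ = ∑ p, lam p * rotSpin U σ p ^ 2 := rfl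

lemma sum_rotSpin_sq (U : ON N) (σ : Fin N → Bool) : ∑ p, rotSpin U σ p ^ 2 = N := sum_sq_spin U σ

lemma spin_sq (σ : Fin N → Bool) (i : Fin N) : spin σ i ^ 2 = 1 := by
  unfold spin; split <;> norm_num

lemma abs_rotSpin_le (U : ON N) (σ : Fin N → Bool) (p : Fin N) :
    |rotSpin U σ p| ≤ (N : ℝ) + 1 := by
  refine abs_le_of_sq_le_sq ?_ (by positivity)
  have h := single_le_sum (f := fun q => rotSpin U σ q ^ 2) (fun q _ => sq_nonneg _) (mem_univ p)
  rw [sum_rotSpin_sq] at h
  have : (0:ℝ) ≤ N := Nat.cast_nonneg N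
  nlinarith

lemma abs_coef_le (U : ON N) (σ : Fin N → Bool) (i : FIdx N) :
    |Sum.elim (spin σ) (rotSpin U σ) i| ≤ (N : ℝ) + 1 := by
  rcases i with i | p
  · have h : |spin σ i| = 1 := by simp only [spin]; split <;> simp
    simp only [Sum.elim_inl, h]
    linarith [Nat.cast_nonneg (α := ℝ) N]
  · exact abs_rotSpin_le U σ p

lemma abs_dot_le (U : ON N) (σ : Fin N → Bool) (y : FIdx N → ℝ) :
    |∑ i, Sum.elim (spin σ) (rotSpin U σ) i * y i| ≤ ((N : ℝ) + 1) * l1 y := by
  rw [l1, mul_sum]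
  refine (abs_sum_le_sum_abs _ _).trans (sum_le_sum fun i _ => ?_)
  rw [abs_mul]
  exact mul_le_mul_of_nonneg_right (abs_coef_le U σ i) (abs_nonneg _)

lemma glass_ham (U : ON N) (σ : Fin N → Bool) (y : FIdx N → ℝ) :
    (glassLeaf U).ham σ y = ∑ i, Sum.elim (spin σ) (rotSpin U σ) i * y i := by
  simp [Leaf.ham, Leaf.loc, glassLeaf]

lemma glass_vec (U : ON N) (i : FIdx N) (σ : Fin N → Bool) (y : FIdx N → ℝ) :
    (glassLeaf U).vec i σ y = Sum.elim (spin σ) (rotSpin U σ) i := by
  simp [Leaf.vec, glassLeaf]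

lemma exp_glassE (lam : Fin N → ℝ) (U : ON N) (y : FIdx N → ℝ) (σ : Fin N → Bool) :
    Real.exp (glassE lam U y σ) = 1 / (2 : ℝ) ^ N *
      Real.exp (1 / 2 * eng lam (U : Matrix (Fin N) (Fin N) ℝ) σ) *
        Real.exp ((glassLeaf U).ham σ y) := by
  rw [glassE, glass_ham, Real.exp_sub, Real.exp_add, Real.exp_nat_mul,
    Real.exp_log (by norm_num : (0:ℝ) < 2)]
  ring

lemma quadPart_eq (lam : Fin N → ℝ) (U : ON N) :
    quadPart lam U = ∑ σ, Real.exp (glassE lam U 0 σ) := by
  simp [quadPart, exp_glassE, glass_ham, mul_sum]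

lemma quadPart_pos' (lam : Fin N → ℝ) (U : ON N) : 0 < quadPart lam U := by
  rw [quadPart_eq]; exact lse_den_pos _

lemma log_quadPart (lam : Fin N → ℝ) (U : ON N) : Real.log (quadPart lam U) = glassW lam U 0 := by
  rw [quadPart_eq]; rfl

lemma integral_quadLaw (lam : Fin N → ℝ) (U : ON N) (g : (Fin N → Bool) → ℝ) :
    ∫ σ, g σ ∂quadLaw lam U =
      (∑ σ, Real.exp (glassE lam U 0 σ) * g σ) / quadPart lam U := by
  have h0 : ∀ σ : Fin N → Bool, glassE lam U 0 σ = glassE lam U (0 : FIdx N → ℝ) σ := fun _ => rfl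
  rw [quadLaw, integral_finsetSum_measure fun σ _ =>
    ((integrable_dirac (by simp)).smul_measure ENNReal.ofReal_ne_top), sum_div]
  refine sum_congr rfl fun σ _ => ?_
  have hp := quadPart_pos' lam U
  rw [integral_smul_measure, integral_dirac, ENNReal.toReal_ofReal (by positivity), smul_eq_mul,
    exp_glassE, glass_ham]
  simp
  ring

lemma exp_glassE_zero (lam : Fin N → ℝ) (U : ON N) (y : FIdx N → ℝ) (σ : Fin N → Bool) :
    Real.exp (glassE lam U 0 σ) * Real.exp ((glassLeaf U).ham σ y) =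
      Real.exp (glassE lam U y σ) := by
  rw [exp_glassE, exp_glassE, glass_ham U σ 0]
  simp

lemma logZ_quad (lam : Fin N → ℝ) (U : ON N) :
    (glassLeaf U).logZ (quadLaw lam U) = fun y => glassW lam U y + -glassW lam U 0 := by
  funext y
  rw [Leaf.logZ, integral_quadLaw]
  simp only [exp_glassE_zero]
  rw [Real.log_div (lse_den_pos _).ne' (quadPart_pos' lam U).ne', log_quadPart]
  simp [glassW, lse, sub_eq_add_neg]

lemma gibbs_quad (lam : Fin N → ℝ) (U : ON N) (f : (Fin N → Bool) → (FIdx N → ℝ) → ℝ)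
    (y : FIdx N → ℝ) :
    (glassLeaf U).gibbs (quadLaw lam U) f y = lseAvg (glassE lam U y) fun σ => f σ y := by
  rw [Leaf.gibbs, integral_quadLaw, integral_quadLaw]
  simp only [← mul_assoc, exp_glassE_zero]
  rw [div_div_div_cancel_right₀ (quadPart_pos' lam U).ne', lseAvg]

lemma glassW_linGrowth (lam : Fin N → ℝ) (U : ON N) : LinGrowth (glassW lam U) := by
  refine ⟨continuous_lse fun σ => by unfold glassE; fun_prop,
    ∑ σ : Fin N → Bool, (|1 / 2 * eng lam (U : Matrix (Fin N) (Fin N) ℝ) σ| + N * Real.log 2 + 1),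
    (2 : ℝ) ^ N * ((N : ℝ) + 1), sum_nonneg fun σ _ => by
      have := Real.log_nonneg (one_le_two (α := ℝ)); positivity, by positivity, fun y => ?_⟩
  refine (abs_lse_le _).trans ?_
  have e : (2 : ℝ) ^ N * ((N : ℝ) + 1) * l1 y = ∑ _σ : Fin N → Bool, ((N : ℝ) + 1) * l1 y := by
    simp; ring
  have e2 : ((Fintype.card (Fin N → Bool) : ℕ) : ℝ) = ∑ _σ : Fin N → Bool, (1 : ℝ) := by simp
  rw [e, e2, ← sum_add_distrib, ← sum_add_distrib]
  refine sum_le_sum fun σ _ => ?_
  have h1 := abs_dot_le U σ y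
  have hl := Real.log_nonneg (one_le_two (α := ℝ))
  have hn : 0 ≤ (N : ℝ) * Real.log 2 := by positivity
  have h2 : |glassE lam U y σ| ≤ |1 / 2 * eng lam (U : Matrix (Fin N) (Fin N) ℝ) σ| +
      |∑ i, Sum.elim (spin σ) (rotSpin U σ) i * y i| + N * Real.log 2 := by
    refine (abs_sub _ _).trans ?_
    rw [abs_of_nonneg hn]
    linarith [abs_add_le (1 / 2 * eng lam (U : Matrix (Fin N) (Fin N) ℝ) σ)
      (∑ i, Sum.elim (spin σ) (rotSpin U σ) i * y i)]
  linarith

/-! ### Joint continuity for the spin glass -/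

section continuity

variable {T : Type} [TopologicalSpace T] [FirstCountableTopology T]
variable {lam : T → Fin N → ℝ} {U : T → ON N} {S V : T → ℕ → Fin N → ℝ}

lemma continuous_rotSpin_comp (hU : Continuous U) (σ : Fin N → Bool) (p : Fin N) :
    Continuous fun t => rotSpin (U t) σ p := by
  simp only [rotSpin, Matrix.mulVec, dotProduct]
  exact continuous_finsetSum _ fun q _ =>
    ((continuous_subtype_val.comp hU).matrix_elem p q).mul continuous_const

lemma continuous_coef (hU : Continuous U) (σ : Fin N → Bool) (i : FIdx N) :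
    Continuous fun t => Sum.elim (spin σ) (rotSpin (U t) σ) i := by
  rcases i with i | p
  · exact continuous_const
  · exact continuous_rotSpin_comp hU σ p

variable (hlam : Continuous lam) (hU : Continuous U)
  (hS : ∀ l p, Continuous fun t => S t l p) (hV : ∀ l p, Continuous fun t => V t l p)

include hlam hU

lemma continuous_glassE (σ : Fin N → Bool) :
    Continuous fun q : T × (FIdx N → ℝ) => glassE (lam q.1) (U q.1) q.2 σ := by
  refine ((continuous_const.mul ?_).add ?_).sub continuous_const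
  · simp only [eng_eq]
    exact continuous_finsetSum _ fun p _ => (((continuous_apply p).comp hlam).comp continuous_fst).mul
      (((continuous_rotSpin_comp hU σ p).comp continuous_fst).pow 2)
  · exact continuous_finsetSum _ fun i _ => ((continuous_coef hU σ i).comp continuous_fst).mul
      ((continuous_apply i).comp continuous_snd)

lemma plin_logZ : PLin fun t => (glassLeaf (U t)).logZ (quadLaw (lam t) (U t)) := by
  have e : (fun t => (glassLeaf (U t)).logZ (quadLaw (lam t) (U t))) =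
      fun t y => glassW (lam t) (U t) y + -glassW (lam t) (U t) 0 := funext fun t => logZ_quad _ _
  rw [e]
  have hW := continuous_lse (X := T × (FIdx N → ℝ))
    (E := fun q => glassE (lam q.1) (U q.1) q.2) (continuous_glassE hlam hU)
  refine ⟨hW.add (hW.comp (continuous_fst.prodMk continuous_const :
    Continuous fun q : T × (FIdx N → ℝ) => (q.1, (0 : FIdx N → ℝ)))).neg, fun t₀ => ?_⟩
  have hg : Continuous fun t => ∑ σ : Fin N → Bool, |glassE (lam t) (U t) 0 σ| :=
    continuous_finsetSum _ fun σ _ => ((continuous_glassE hlam hU σ).comp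
      (continuous_id.prodMk continuous_const : Continuous fun t : T => (t, (0 : FIdx N → ℝ)))).abs
  set c₀ := ∑ σ : Fin N → Bool, |glassE (lam t₀) (U t₀) 0 σ| + 1
  have hc₀ : 0 ≤ c₀ := add_nonneg (sum_nonneg fun _ _ => abs_nonneg _) zero_le_one
  refine ⟨2 * c₀ + 2 * (2 : ℝ) ^ N, (2 : ℝ) ^ N * ((N : ℝ) + 1), by positivity, by positivity, ?_⟩
  filter_upwards [hg.continuousAt.eventually_lt_const (lt_add_one _)] with t ht y
  have h1 := abs_lse_le (glassE (lam t) (U t) y)
  have h2 := abs_lse_le (glassE (lam t) (U t) 0)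
  have h3 : ∑ σ, |glassE (lam t) (U t) y σ| ≤
      (∑ σ, |glassE (lam t) (U t) 0 σ|) + (2 : ℝ) ^ N * ((N : ℝ) + 1) * l1 y := by
    have e : (2 : ℝ) ^ N * ((N : ℝ) + 1) * l1 y = ∑ _σ : Fin N → Bool, ((N : ℝ) + 1) * l1 y := by
      simp; ring
    rw [e, ← sum_add_distrib]
    refine sum_le_sum fun σ _ => ?_
    have hd : glassE (lam t) (U t) y σ = glassE (lam t) (U t) 0 σ +
        ∑ i, Sum.elim (spin σ) (rotSpin (U t) σ) i * y i := by simp [glassE]; ring
    rw [hd]
    exact (abs_add_le _ _).trans (add_le_add le_rfl (abs_dot_le (U t) σ y))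
  simp only [Fintype.card_fun, Fintype.card_bool, Fintype.card_fin, Nat.cast_pow,
    Nat.cast_ofNat] at h1 h2
  have hs := (abs_add_le (glassW (lam t) (U t) y) (-glassW (lam t) (U t) 0))
  rw [abs_neg] at hs
  unfold glassW at hs ⊢
  linarith

lemma ptame_gibbs {f : T → (Fin N → Bool) → (FIdx N → ℝ) → ℝ}
    (hf : ∀ σ, PTame fun t y => f t σ y) :
    PTame fun t => (glassLeaf (U t)).gibbs (quadLaw (lam t) (U t)) (f t) := by
  have e : (fun t => (glassLeaf (U t)).gibbs (quadLaw (lam t) (U t)) (f t)) =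
      fun t y => lseAvg (glassE (lam t) (U t) y) fun σ => f t σ y :=
    funext fun t => funext fun y => gibbs_quad _ _ _ _
  rw [e]
  have hs := ptame_sum (univ : Finset (Fin N → Bool)) fun σ _ => (hf σ).abs
  refine ⟨continuous_lseAvg (X := T × (FIdx N → ℝ)) (E := fun q => glassE (lam q.1) (U q.1) q.2)
    (f := fun q σ => f q.1 σ q.2) (continuous_glassE hlam hU) fun σ => (hf σ).1, fun t₀ => ?_⟩
  obtain ⟨C, k, hC, hk, h⟩ := hs.2 t₀
  exact ⟨C, k, hC, hk, h.mono fun t ht y =>
    (abs_lseAvg_le _ _).trans ((le_abs_self _).trans (ht y))⟩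

include hS hV

lemma plin_glass_u (K : ℕ) {l : ℕ} (hl : l ≤ K + 1) :
    PLin fun t => (glassNest K (S t) (V t)).u ((glassLeaf (U t)).logZ (quadLaw (lam t) (U t))) l :=
  plin_u' (N := glassNest K (fun _ _ => (0:ℝ)) (fun _ _ => (0:ℝ)))
    (A := fun t => glassAmp (S t) (V t)) (plin_logZ hlam hU)
    (fun m i => by
      rcases i with i | p
      · exact hS m i
      · exact hV m p) hl

lemma continuous_glass_mean (K : ℕ) {l : ℕ} (hl : l ≤ K + 1) {f : T → (FIdx N → ℝ) → ℝ}
    (hf : PTame f) :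
    Continuous fun t => (glassNest K (S t) (V t)).mean
      ((glassLeaf (U t)).logZ (quadLaw (lam t) (U t))) l (f t) :=
  continuous_mean' (N := glassNest K (fun _ _ => (0:ℝ)) (fun _ _ => (0:ℝ)))
    (A := fun t => glassAmp (S t) (V t)) (plin_logZ hlam hU)
    (fun m i => by
      rcases i with i | p
      · exact hS m i
      · exact hV m p) hl hf

lemma ptame_glass_avg (K : ℕ) {l : ℕ} (hl : l < K + 1) {f : T → (FIdx N → ℝ) → ℝ}
    (hf : PTame f) :
    PTame fun t => (glassNest K (S t) (V t)).avg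
      ((glassLeaf (U t)).logZ (quadLaw (lam t) (U t))) l (f t) :=
  ptame_avg' (N := glassNest K (fun _ _ => (0:ℝ)) (fun _ _ => (0:ℝ)))
    (A := fun t => glassAmp (S t) (V t)) (plin_logZ hlam hU)
    (fun m i => by
      rcases i with i | p
      · exact hS m i
      · exact hV m p) hl hf

lemma ptame_glass_node (K : ℕ) {l : ℕ} (hl : l ≤ K + 1)
    {f : T → (Fin N → Bool) → (FIdx N → ℝ) → ℝ} (hf : ∀ σ, PTame fun t y => f t σ y) :
    PTame fun t => (glassNest K (S t) (V t)).node (glassLeaf (U t)) (quadLaw (lam t) (U t)) l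
      (f t) :=
  ptame_down' (N := glassNest K (fun _ _ => (0:ℝ)) (fun _ _ => (0:ℝ)))
    (A := fun t => glassAmp (S t) (V t)) (plin_logZ hlam hU)
    (fun m i => by
      rcases i with i | p
      · exact hS m i
      · exact hV m p) hl (ptame_gibbs hlam hU hf)

lemma ptame_glass_grad (K : ℕ) {l : ℕ} (hl : l ≤ K + 1) (i : FIdx N) :
    PTame fun t => (glassNest K (S t) (V t)).grad (glassLeaf (U t)) (quadLaw (lam t) (U t)) l i :=
  ptame_glass_node hlam hU hS hV K hl (f := fun t => (glassLeaf (U t)).vec i) fun σ => by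
    simp only [glass_vec]
    exact ptame_param (continuous_coef hU σ i)

lemma ptame_glass_sqSum (K : ℕ) {l : ℕ} (hl : l ≤ K + 1) (R : Finset (FIdx N)) :
    PTame fun t => (glassNest K (S t) (V t)).sqSum (glassLeaf (U t)) (quadLaw (lam t) (U t)) R l := by
  have h := ptame_sum R fun i _ =>
    (ptame_glass_grad hlam hU hS hV K hl i).mul (ptame_glass_grad hlam hU hS hV K hl i)
  simp only [← sq] at h
  exact h

lemma continuous_glass_sqGrad (K : ℕ) {l : ℕ} (hl : l ≤ K + 1) (i : FIdx N) :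
    Continuous fun t =>
      (glassNest K (S t) (V t)).sqGrad (glassLeaf (U t)) (quadLaw (lam t) (U t)) l i := by
  refine continuous_glass_mean hlam hU hS hV K hl ?_
  simpa only [sq] using
    (ptame_glass_grad hlam hU hS hV K hl i).mul (ptame_glass_grad hlam hU hS hV K hl i)

lemma ptame_glass_covNorm (K : ℕ) {l : ℕ} (hl : l ≤ K + 1) (R : Finset (FIdx N)) :
    PTame fun t =>
      (glassNest K (S t) (V t)).covNorm (glassLeaf (U t)) (quadLaw (lam t) (U t)) R l := by
  refine ptame_sqrt (ptame_sum R fun i _ => ptame_sum R fun k _ => ?_)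
  have hc : PTame fun t =>
      (glassNest K (S t) (V t)).cov (glassLeaf (U t)) (quadLaw (lam t) (U t)) l i k :=
    (ptame_glass_node hlam hU hS hV K hl
      (f := fun t σ y => (glassLeaf (U t)).vec i σ y * (glassLeaf (U t)).vec k σ y) fun σ => by
        simp only [glass_vec]
        exact ptame_param ((continuous_coef hU σ i).mul (continuous_coef hU σ k))).sub
      ((ptame_glass_grad hlam hU hS hV K hl i).mul (ptame_glass_grad hlam hU hS hV K hl k))
  simpa only [sq] using hc.mul hc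

end continuity

end Vale.Agent.P166.Parisi.ConcAux
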