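import Vale.Agent.P166.Parisi.ConcCalc
import Vale.Agent.P166.Parisi.Basics
import Vale.Agent.P166.Parisi.SymmBase

/-!
Module C: derivative of the free energy along rotations, its variance over the orthogonal group,
and the second derivative in the eigenvalue of one atom.
-/

set_option linter.unusedSectionVars false

namespace Vale.Agent.P166.Parisi.ConcAux

open MeasureTheory ProbabilityTheory Finset Filter Topology Matrix
open Vale.Agent.P157 Vale.Agent.P157.Parisi

section families

variable {Ω ι : Type} [Fintype Ω] [Nonempty Ω] [Fintype ι]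

lemma one_add_l1_le_exp (y : ι → ℝ) : 1 + l1 y ≤ Real.exp (1 * l1 y) := by
  rw [one_mul, add_comm]; exact Real.add_one_le_exp _

lemma lfam_lse {E E' : ℝ → Ω → (ι → ℝ) → ℝ} {C t₀ r : ℝ} (hC : 0 ≤ C)
    (hc : ∀ t σ, |t - t₀| < r → Continuous (E t σ) ∧ Continuous (E' t σ))
    (hd : ∀ t, |t - t₀| < r → ∀ σ y, HasDerivAt (fun u => E u σ y) (E' t σ y) t ∧
      |E t σ y| ≤ C * (1 + l1 y) ∧ |E' t σ y| ≤ C * (1 + l1 y)) :
    Param.LFam (fun t y => lse fun σ => E t σ y)
      (fun t y => lseAvg (fun σ => E t σ y) fun σ => E' t σ y) t₀ r := by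
  set n : ℝ := (Fintype.card Ω : ℝ)
  have hn : 0 ≤ n := Nat.cast_nonneg _
  have hb1 : ∀ t, |t - t₀| < r → ∀ y, |lse fun σ => E t σ y| ≤ n * (C + 1) * (1 + l1 y) := by
    intro t ht y
    refine (abs_lse_le _).trans ?_
    have h := sum_le_sum fun σ (_ : σ ∈ (univ : Finset Ω)) => (hd t ht σ y).2.1
    rw [sum_const, card_univ, nsmul_eq_mul] at h
    have := mul_nonneg hn (l1_nonneg y)
    linarith
  have hb2 : ∀ t, |t - t₀| < r → ∀ y,
      |lseAvg (fun σ => E t σ y) fun σ => E' t σ y| ≤ n * (C + 1) * (1 + l1 y) := by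
    intro t ht y
    refine (abs_lseAvg_le _ _).trans ?_
    have h := sum_le_sum fun σ (_ : σ ∈ (univ : Finset Ω)) => (hd t ht σ y).2.2
    rw [sum_const, card_univ, nsmul_eq_mul] at h
    have := mul_nonneg hn (l1_nonneg y)
    linarith
  refine ⟨⟨n * (C + 1), 1, by positivity, zero_le_one, fun t ht => ⟨?_, ?_, fun y => ⟨?_, ?_, ?_⟩⟩⟩,
    n * (C + 1), n * (C + 1), by positivity, by positivity, fun t ht y => (hb1 t ht y).trans_eq
      (by ring)⟩
  · exact continuous_lse fun σ => (hc t σ ht).1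
  · exact continuous_lseAvg (fun σ => (hc t σ ht).1) fun σ => (hc t σ ht).2
  · exact hasDerivAt_lse fun σ => (hd t ht σ y).1
  · exact (hb1 t ht y).trans
      (mul_le_mul_of_nonneg_left (one_add_l1_le_exp y) (by positivity))
  · exact (hb2 t ht y).trans
      (mul_le_mul_of_nonneg_left (one_add_l1_le_exp y) (by positivity))

lemma fam_lseAvg {E E' : ℝ → Ω → (ι → ℝ) → ℝ} {C t₀ r : ℝ} (hC : 0 ≤ C) (f : Ω → ℝ)
    (hc : ∀ t σ, |t - t₀| < r → Continuous (E t σ) ∧ Continuous (E' t σ))
    (hd : ∀ t, |t - t₀| < r → ∀ σ y, HasDerivAt (fun u => E u σ y) (E' t σ y) t ∧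
      |E' t σ y| ≤ C * (1 + l1 y)) :
    Param.Fam (fun t y => lseAvg (fun σ => E t σ y) f)
      (fun t y => lseAvg (fun σ => E t σ y) (fun σ => E' t σ y * f σ) -
        lseAvg (fun σ => E t σ y) (fun σ => E' t σ y) * lseAvg (fun σ => E t σ y) f) t₀ r := by
  set n : ℝ := (Fintype.card Ω : ℝ)
  set F := ∑ σ, |f σ|
  have hF : 0 ≤ F := sum_nonneg fun _ _ => abs_nonneg _
  refine ⟨F + 2 * (n * C * F), 1, by positivity, zero_le_one, fun t ht => ⟨?_, ?_, fun y =>
    ⟨hasDerivAt_lseAvg (fun σ => (hd t ht σ y).1) f, ?_, ?_⟩⟩⟩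
  · exact continuous_lseAvg (fun σ => (hc t σ ht).1) fun σ => continuous_const
  · exact (continuous_lseAvg (fun σ => (hc t σ ht).1) fun σ => (hc t σ ht).2.mul continuous_const).sub
      ((continuous_lseAvg (fun σ => (hc t σ ht).1) fun σ => (hc t σ ht).2).mul
        (continuous_lseAvg (fun σ => (hc t σ ht).1) fun σ => continuous_const))
  · refine (abs_lseAvg_le _ _).trans ?_
    have h1 := Real.one_le_exp (mul_nonneg zero_le_one (l1_nonneg y) : 0 ≤ 1 * l1 y)
    nlinarith [show 0 ≤ n * C * F by positivity]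
  · have hE : ∑ σ, |E' t σ y| ≤ n * C * (1 + l1 y) :=
      (sum_le_sum fun σ _ => (hd t ht σ y).2).trans_eq (by
        rw [sum_const, card_univ, nsmul_eq_mul]; ring)
    have h1 : |lseAvg (fun σ => E t σ y) fun σ => E' t σ y * f σ| ≤ n * C * (1 + l1 y) * F := by
      refine (abs_lseAvg_le _ _).trans ?_
      refine le_trans ?_ (mul_le_mul_of_nonneg_right hE hF)
      rw [sum_mul]
      refine sum_le_sum fun σ _ => ?_
      rw [abs_mul]
      exact mul_le_mul_of_nonneg_left
        (single_le_sum (f := fun σ => |f σ|) (fun _ _ => abs_nonneg _) (mem_univ σ)) (abs_nonneg _)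
    have h2 : |(lseAvg (fun σ => E t σ y) fun σ => E' t σ y) * lseAvg (fun σ => E t σ y) f| ≤
        n * C * (1 + l1 y) * F := by
      rw [abs_mul]
      exact mul_le_mul ((abs_lseAvg_le _ _).trans hE) (abs_lseAvg_le _ _) (abs_nonneg _)
        ((sum_nonneg fun _ _ => abs_nonneg _).trans hE)
    refine (abs_sub _ _).trans ((add_le_add h1 h2).trans ?_)
    have he := mul_le_mul_of_nonneg_left (one_add_l1_le_exp y) (show 0 ≤ n * C * F by positivity)
    have := mul_nonneg hF (Real.exp_pos (1 * l1 y)).le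
    linarith

end families

variable {N : ℕ}

lemma glassFree_root (K : ℕ) (lam : Fin N → ℝ) (S V : ℕ → Fin N → ℝ) (U : ON N) :
    glassFree K lam S V U =
      (glassNest K S V).mean (glassW lam U) 0 ((glassNest K S V).u (glassW lam U) 0) := by
  set G := glassNest K S V
  have hG := glassNest_good K S V
  have hW := glassW_linGrowth lam U
  set c := -glassW lam U 0
  have hu : G.u (fun v => glassW lam U v + c) 0 = fun y => G.u (glassW lam U) 0 y + c :=
    funext fun y => (u_shift hG hW c (Nat.zero_le _) y).1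
  have hfree : G.free (glassLeaf U) (quadLaw lam U) = G.mean (glassW lam U) 0
      (fun y => G.u (glassW lam U) 0 y + c) := by
    rw [Nest.free, logZ_quad, hu, mean_shift hG hW c (Nat.zero_le _)]
  have hc : G.mean (glassW lam U) 0 (fun _ => c) = c := by
    simp [Nest.mean]
  rw [glassFree, hfree, Param.mean_add' (fun l hl => linGrowth_u' hW hl) (Nat.zero_le _)
    (linGrowth_u' hW (Nat.zero_le _)).tame (Parisi.tame_const c), hc, log_quadPart]
  simp [c]

/-! ### Rotations -/

/-- The velocity of the rotated spin along the rotation of rows `i` and `j`. -/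
noncomputable def rotVel (i j : Fin N) (t : ℝ) (z : Fin N → ℝ) (k : Fin N) : ℝ :=
  if k = i then -(Real.sin t * z i) + Real.cos t * z j
  else if k = j then -(Real.cos t * z i) + -(Real.sin t * z j) else 0

lemma rotSpin_rot {i j : Fin N} (hij : i ≠ j) (t : ℝ) (U : ON N) (σ : Fin N → Bool) (k : Fin N) :
    rotSpin (rotON hij t * U) σ k =
      if k = i then Real.cos t * rotSpin U σ i + Real.sin t * rotSpin U σ j
      else if k = j then -(Real.sin t * rotSpin U σ i) + Real.cos t * rotSpin U σ j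
      else rotSpin U σ k := by
  simp only [rotSpin, Matrix.mulVec, dotProduct, coe_rotON_mul, rotM, Matrix.of_apply]
  split_ifs
  · rw [mul_sum, mul_sum, ← sum_add_distrib]
    exact sum_congr rfl fun q _ => by ring
  · rw [mul_sum, mul_sum, ← sum_neg_distrib, ← sum_add_distrib]
    exact sum_congr rfl fun q _ => by ring
  · rfl

lemma hasDerivAt_rotSpin {i j : Fin N} (hij : i ≠ j) (t : ℝ) (U : ON N) (σ : Fin N → Bool)
    (k : Fin N) :
    HasDerivAt (fun u => rotSpin (rotON hij u * U) σ k) (rotVel i j t (rotSpin U σ) k) t := by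
  simp only [rotSpin_rot, rotVel]
  split_ifs
  · exact (((Real.hasDerivAt_cos t).mul_const _).add
      ((Real.hasDerivAt_sin t).mul_const _)).congr_deriv (by ring)
  · exact ((((Real.hasDerivAt_sin t).mul_const _).neg).add
      ((Real.hasDerivAt_cos t).mul_const _)).congr_deriv (by ring)
  · exact hasDerivAt_const _ _

lemma abs_rotVel_le (i j : Fin N) (t : ℝ) (U : ON N) (σ : Fin N → Bool) (k : Fin N) :
    |rotVel i j t (rotSpin U σ) k| ≤ 2 * ((N : ℝ) + 1) := by
  have hs := Real.abs_sin_le_one t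
  have hc := Real.abs_cos_le_one t
  have b1 := abs_rotSpin_le U σ i
  have b2 := abs_rotSpin_le U σ j
  have hN : (0:ℝ) ≤ (N:ℝ) + 1 := by positivity
  have e1 : |Real.sin t * rotSpin U σ i| ≤ (N : ℝ) + 1 := by
    rw [abs_mul]; exact (mul_le_mul hs b1 (abs_nonneg _) zero_le_one).trans_eq (one_mul _)
  have e2 : |Real.cos t * rotSpin U σ j| ≤ (N : ℝ) + 1 := by
    rw [abs_mul]; exact (mul_le_mul hc b2 (abs_nonneg _) zero_le_one).trans_eq (one_mul _)
  have e3 : |Real.cos t * rotSpin U σ i| ≤ (N : ℝ) + 1 := by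
    rw [abs_mul]; exact (mul_le_mul hc b1 (abs_nonneg _) zero_le_one).trans_eq (one_mul _)
  have e4 : |Real.sin t * rotSpin U σ j| ≤ (N : ℝ) + 1 := by
    rw [abs_mul]; exact (mul_le_mul hs b2 (abs_nonneg _) zero_le_one).trans_eq (one_mul _)
  rw [rotVel]
  split_ifs
  · refine (abs_add_le _ _).trans ?_; rw [abs_neg]; linarith
  · refine (abs_add_le _ _).trans ?_; rw [abs_neg, abs_neg]; linarith
  · rw [abs_zero]; positivity

/-- The derivative of the leaf along the rotation at the origin. -/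
noncomputable def rotObs (lam : Fin N → ℝ) (a : Fin N × Fin N) (U : ON N) (y : FIdx N → ℝ) : ℝ :=
  lseAvg (glassE lam U y) fun σ =>
    (lam a.1 - lam a.2) * (rotSpin U σ a.1 * rotSpin U σ a.2) +
      (y (Sum.inr a.1) * rotSpin U σ a.2 + -(y (Sum.inr a.2)) * rotSpin U σ a.1)

/-- The derivative of the free energy along rotations. -/
noncomputable def rotF (K : ℕ) (lam : Fin N → ℝ) (S V : ℕ → Fin N → ℝ) (a : Fin N × Fin N)
    (U : ON N) : ℝ :=
  (glassNest K S V).mean ((glassLeaf U).logZ (quadLaw lam U)) (K + 1) (rotObs lam a U)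

lemma ptame_rotObs (lam : Fin N → ℝ) (a : Fin N × Fin N) :
    PTame fun (U : ON N) (y : FIdx N → ℝ) => rotObs lam a U y := by
  have hy : ∀ k : FIdx N, PTame fun (_ : ON N) (y : FIdx N → ℝ) => y k := fun k =>
    ptame_const (tame_coord k)
  have hz : ∀ (σ : Fin N → Bool) (p : Fin N),
      PTame fun (U : ON N) (_ : FIdx N → ℝ) => rotSpin U σ p := fun σ p =>
    ptame_param (continuous_rotSpin_comp continuous_id σ p)
  have h := ptame_gibbs (T := ON N) (lam := fun _ => lam) (U := fun U => U) continuous_const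
    continuous_id
    (f := fun U σ y => (lam a.1 - lam a.2) * (rotSpin U σ a.1 * rotSpin U σ a.2) +
      (y (Sum.inr a.1) * rotSpin U σ a.2 + -(y (Sum.inr a.2)) * rotSpin U σ a.1))
    fun σ => (((hz σ a.1).mul (hz σ a.2)).const_mul _).add
      (((hy _).mul (hz σ a.2)).add
        (((hy (Sum.inr a.2)).const_mul (-1)).mul (hz σ a.1) |> fun h => by
          simpa only [neg_one_mul] using h))
  have e : (fun (U : ON N) => (glassLeaf U).gibbs (quadLaw lam U) fun σ y =>
      (lam a.1 - lam a.2) * (rotSpin U σ a.1 * rotSpin U σ a.2) +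
        (y (Sum.inr a.1) * rotSpin U σ a.2 + -(y (Sum.inr a.2)) * rotSpin U σ a.1)) =
      fun U y => rotObs lam a U y := funext fun U => funext fun y => gibbs_quad _ _ _ _
  rwa [e] at h

/-- The derivative of the energy along the rotation. -/
noncomputable def rotE' (lam : Fin N → ℝ) {i j : Fin N} (hij : i ≠ j) (U : ON N) (t : ℝ)
    (σ : Fin N → Bool) (y : FIdx N → ℝ) : ℝ :=
  (∑ k, lam k * (rotSpin (rotON hij t * U) σ k * rotVel i j t (rotSpin U σ) k)) +
    ∑ k, y (Sum.inr k) * rotVel i j t (rotSpin U σ) k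

lemma hasDerivAt_glassE_rot (lam : Fin N → ℝ) {i j : Fin N} (hij : i ≠ j) (U : ON N) (t : ℝ)
    (σ : Fin N → Bool) (y : FIdx N → ℝ) :
    HasDerivAt (fun u => glassE lam (rotON hij u * U) y σ) (rotE' lam hij U t σ y) t := by
  have hv := hasDerivAt_rotSpin hij t U σ
  have e : ∀ u, glassE lam (rotON hij u * U) y σ =
      (1 / 2 * ∑ k, lam k * rotSpin (rotON hij u * U) σ k ^ 2) +
        ((∑ p, spin σ p * y (Sum.inl p)) + ∑ k, rotSpin (rotON hij u * U) σ k * y (Sum.inr k)) -
          N * Real.log 2 := fun u => by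
    rw [glassE, eng_eq, Fintype.sum_sum_type]
    rfl
  simp only [e]
  refine ((((HasDerivAt.fun_sum fun k _ => ((hv k).fun_pow 2).const_mul (lam k)).const_mul
    (1 / 2)).add ((hasDerivAt_const t _).add
      (HasDerivAt.fun_sum fun k _ => (hv k).mul_const _))).sub_const _).congr_deriv ?_
  rw [rotE', mul_sum, zero_add]
  refine congrArg₂ (· + ·) (sum_congr rfl fun k _ => ?_) (sum_congr rfl fun k _ => ?_)
  · simp; ring
  · ring

lemma abs_half_eng_le (lam : Fin N → ℝ) (U : ON N) (σ : Fin N → Bool) :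
    |1 / 2 * eng lam (U : Matrix (Fin N) (Fin N) ℝ) σ| ≤
      (∑ k, |lam k|) * (2 * ((N : ℝ) + 1) ^ 2) := by
  rw [abs_mul, eng_eq, sum_mul]
  refine (mul_le_of_le_one_left (abs_nonneg _) (by norm_num)).trans
    ((abs_sum_le_sum_abs _ _).trans (sum_le_sum fun k _ => ?_))
  rw [abs_mul, abs_pow]
  refine mul_le_mul_of_nonneg_left ?_ (abs_nonneg _)
  refine (pow_le_pow_left₀ (abs_nonneg _) (abs_rotSpin_le U σ k) 2).trans ?_
  exact le_mul_of_one_le_left (sq_nonneg _) one_le_two

lemma abs_glassE_le (lam : Fin N → ℝ) (U : ON N) (σ : Fin N → Bool) (y : FIdx N → ℝ) :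
    |glassE lam U y σ| ≤ (∑ k, |lam k|) * (2 * ((N : ℝ) + 1) ^ 2) +
      ((N : ℝ) + 1) * l1 y + N * Real.log 2 := by
  rw [glassE]
  refine (abs_sub _ _).trans (add_le_add ((abs_add_le _ _).trans
    (add_le_add (abs_half_eng_le lam U σ) (abs_dot_le U σ y))) (le_of_eq (abs_of_nonneg ?_)))
  exact mul_nonneg (Nat.cast_nonneg _) (Real.log_nonneg one_le_two)

lemma abs_rotE'_le (lam : Fin N → ℝ) {i j : Fin N} (hij : i ≠ j) (U : ON N) (t : ℝ)
    (σ : Fin N → Bool) (y : FIdx N → ℝ) :
    |rotE' lam hij U t σ y| ≤ (∑ k, |lam k|) * (2 * ((N : ℝ) + 1) ^ 2) +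
      2 * ((N : ℝ) + 1) * l1 y := by
  refine (abs_add_le _ _).trans (add_le_add ?_ ?_)
  · rw [sum_mul]
    refine (abs_sum_le_sum_abs _ _).trans (sum_le_sum fun k _ => ?_)
    rw [abs_mul, abs_mul]
    refine mul_le_mul_of_nonneg_left ?_ (abs_nonneg _)
    refine (mul_le_mul (abs_rotSpin_le _ σ k) (abs_rotVel_le i j t U σ k) (abs_nonneg _)
      (by positivity)).trans_eq ?_
    ring
  · refine (abs_sum_le_sum_abs _ _).trans ?_
    rw [l1, Fintype.sum_sum_type, mul_add]
    refine le_add_of_nonneg_of_le (by positivity) ?_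
    rw [mul_sum]
    refine sum_le_sum fun k _ => ?_
    rw [abs_mul, mul_comm]
    exact mul_le_mul_of_nonneg_right (abs_rotVel_le i j t U σ k) (abs_nonneg _)

lemma lfam_rot (lam : Fin N → ℝ) {i j : Fin N} (hij : i ≠ j) (U : ON N) :
    Param.LFam (fun t => glassW lam (rotON hij t * U))
      (fun t y => lseAvg (glassE lam (rotON hij t * U) y) fun σ => rotE' lam hij U t σ y) 0 1 := by
  have hn : 0 ≤ (N : ℝ) * Real.log 2 := mul_nonneg (Nat.cast_nonneg _) (Real.log_nonneg one_le_two)
  set X := (∑ k, |lam k|) * (2 * ((N : ℝ) + 1) ^ 2)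
  have hX : 0 ≤ X := mul_nonneg (sum_nonneg fun _ _ => abs_nonneg _) (by positivity)
  have hN : (0 : ℝ) ≤ (N : ℝ) + 1 := by positivity
  refine lfam_lse (E := fun t σ y => glassE lam (rotON hij t * U) y σ) (E' := rotE' lam hij U)
    (C := X + 2 * ((N : ℝ) + 1) + N * Real.log 2) (by linarith) (fun t σ _ => ⟨?_, ?_⟩)
    fun t _ σ y => ⟨hasDerivAt_glassE_rot lam hij U t σ y,
      (abs_glassE_le _ _ _ _).trans ?_, (abs_rotE'_le _ _ _ _ _ _).trans ?_⟩
  · unfold glassE; fun_prop
  · unfold rotE'; fun_prop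
  · have := mul_nonneg hX (l1_nonneg y)
    have := mul_nonneg hn (l1_nonneg y)
    have := mul_nonneg hN (l1_nonneg y)
    linarith
  · have := mul_nonneg hX (l1_nonneg y)
    have := mul_nonneg hn (l1_nonneg y)
    linarith

lemma rotE'_zero (lam : Fin N → ℝ) {i j : Fin N} (hij : i ≠ j) (U : ON N) :
    (fun y => lseAvg (glassE lam (rotON hij 0 * U) y) fun σ => rotE' lam hij U 0 σ y) =
      rotObs lam (i, j) U := by
  funext y
  rw [rotObs, rotON_zero hij, one_mul]
  refine congrArg _ (funext fun σ => ?_)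
  have hv : rotVel i j 0 (rotSpin U σ) = fun k =>
      if k = i then rotSpin U σ j else if k = j then -rotSpin U σ i else 0 := by
    funext k; simp [rotVel]
  have hs : ∀ g : Fin N → ℝ, ∑ k, g k * (if k = i then rotSpin U σ j
      else if k = j then -rotSpin U σ i else 0) = g i * rotSpin U σ j + -g j * rotSpin U σ i := by
    intro g
    rw [← add_sum_erase univ _ (mem_univ i),
      sum_eq_single j (fun k hk hkj => by simp [ne_of_mem_erase hk, hkj])
        fun h => absurd (mem_erase.2 ⟨hij.symm, mem_univ j⟩) h]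
    simp [hij.symm]
  rw [rotE', rotON_zero hij, one_mul, hv]
  simp only [← mul_assoc]
  rw [hs fun k => lam k * rotSpin U σ k, hs fun k => y (Sum.inr k)]
  ring

lemma rotDeriv_glassFree (K : ℕ) (lam : Fin N → ℝ) (S V : ℕ → Fin N → ℝ) :
    RotDeriv (glassFree K lam S V) (rotF K lam S V) := by
  have hm : Continuous fun U : ON N => (lam, S, V, U) := by fun_prop
  have hc : Continuous (glassFree K lam S V) := by
    have h := (continuous_glassFree (N := N) K).comp hm
    simp only [Function.comp_def] at h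
    exact h
  refine ⟨hc, fun a => ?_, fun i U => ?_, fun i j hij U => ?_⟩
  · exact continuous_glass_mean (T := ON N) (lam := fun _ => lam) (U := fun U => U)
      (S := fun _ => S) (V := fun _ => V) continuous_const continuous_id
      (fun _ _ => continuous_const) (fun _ _ => continuous_const) K le_rfl (ptame_rotObs lam a)
  · have : IsProbabilityMeasure (quadLaw lam U) := quadLaw_prob lam U
    have e : rotObs lam (i, i) U = fun _ => 0 := funext fun y => by
      rw [rotObs, show (fun σ => (lam i - lam i) * (rotSpin U σ i * rotSpin U σ i) +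
        (y (Sum.inr i) * rotSpin U σ i + -(y (Sum.inr i)) * rotSpin U σ i)) = fun _ => (0 : ℝ) from
          funext fun σ => by ring]
      exact lseAvg_const _ _
    rw [rotF, e]
    exact mean_const (glassNest_good K S V) (glassLeaf_good U) le_rfl 0
  · have hG := glassNest_good K S V
    have h := Param.hasDerivAt_mean hG one_pos (lfam_rot lam hij U) (Nat.zero_le _)
      (Param.lfam_u hG (lfam_rot lam hij U) (Nat.zero_le _)).1
    rw [show (fun θ => glassFree K lam S V (rotON hij θ * U)) = fun t =>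
        (glassNest K S V).mean (glassW lam (rotON hij t * U)) 0
          ((glassNest K S V).u (glassW lam (rotON hij t * U)) 0) from
      funext fun t => glassFree_root _ _ _ _ _]
    refine h.congr_deriv ?_
    simp only [hG.x_zero, zero_mul, add_zero, range_zero, sum_empty, sub_zero]
    rw [rotE'_zero, rotON_zero hij, one_mul, rotF, logZ_quad,
      show K + 1 = (glassNest K S V).K from rfl,
      mean_shift hG (glassW_linGrowth lam U) _ (le_refl _), mean_down (Nat.zero_le _)]

lemma rotObs_sq_sum {L : ℝ} (lam : Fin N → ℝ) (hlam : ∀ p, |lam p| ≤ L) (U : ON N)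
    (y : FIdx N → ℝ) :
    ∑ a, rotObs lam a U y ^ 2 ≤
      12 * L ^ 2 * (N : ℝ) ^ 2 + 6 * (N : ℝ) * ∑ p, y (Sum.inr p) ^ 2 := by
  set Y := fun y : FIdx N → ℝ => ∑ p, y (Sum.inr p) ^ 2
  set g : Fin N → ℝ := fun p => lseAvg (glassE lam U y) fun σ => rotSpin U σ p with hg
  set g2 : Fin N × Fin N → ℝ := fun a =>
    lseAvg (glassE lam U y) fun σ => rotSpin U σ a.1 * rotSpin U σ a.2
  have e : ∀ a, rotObs lam a U y = (lam a.1 - lam a.2) * g2 a +
      (y (Sum.inr a.1) * g a.2 + -(y (Sum.inr a.2)) * g a.1) := fun a => by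
    simp only [rotObs, lseAvg_add, lseAvg_const_mul, g, g2]
  have hg1 : ∑ p, g p ^ 2 ≤ N := by
    refine (sum_le_sum fun p _ => lseAvg_sq_le _ _).trans_eq ?_
    rw [← lseAvg_sum]
    simp only [sum_rotSpin_sq, lseAvg_const]
  have hg2 : ∑ a, g2 a ^ 2 ≤ (N : ℝ) ^ 2 := by
    refine (sum_le_sum fun a _ => lseAvg_sq_le _ _).trans_eq ?_
    rw [← lseAvg_sum]
    simp only [mul_pow, Fintype.sum_prod_type, ← mul_sum, ← sum_mul, sum_rotSpin_sq,
      lseAvg_const]
    ring
  have hb : ∀ a : Fin N × Fin N, rotObs lam a U y ^ 2 ≤ 12 * L ^ 2 * g2 a ^ 2 +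
      3 * (y (Sum.inr a.1) ^ 2 * g a.2 ^ 2 + g a.1 ^ 2 * y (Sum.inr a.2) ^ 2) := by
    intro a
    rw [e a]
    have hd : (lam a.1 - lam a.2) ^ 2 ≤ 4 * L ^ 2 := by
      have h1 := abs_le.1 (hlam a.1); have h2 := abs_le.1 (hlam a.2)
      nlinarith
    have := mul_le_mul_of_nonneg_right hd (sq_nonneg (g2 a))
    nlinarith [sq_nonneg ((lam a.1 - lam a.2) * g2 a - y (Sum.inr a.1) * g a.2),
      sq_nonneg ((lam a.1 - lam a.2) * g2 a + y (Sum.inr a.2) * g a.1),
      sq_nonneg (y (Sum.inr a.1) * g a.2 + y (Sum.inr a.2) * g a.1)]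
  refine (sum_le_sum fun a _ => hb a).trans ?_
  rw [sum_add_distrib, ← mul_sum, ← mul_sum, sum_add_distrib, Fintype.sum_prod_type,
    Fintype.sum_prod_type, Fintype.sum_prod_type]
  simp only [← mul_sum, ← sum_mul]
  have hY : 0 ≤ Y y := sum_nonneg fun _ _ => sq_nonneg _
  have h1 := mul_le_mul_of_nonneg_left hg1 hY
  have h2 : ∑ p : Fin N, ∑ q : Fin N, g2 (p, q) ^ 2 ≤ (N : ℝ) ^ 2 := by
    rwa [Fintype.sum_prod_type] at hg2
  have h3 := mul_le_mul_of_nonneg_left h2 (show 0 ≤ 12 * L ^ 2 by positivity)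
  simp only [Y] at h1 hY ⊢
  linarith

lemma rotF_sq_sum (K : ℕ) {L A : ℝ} (lam : Fin N → ℝ) (S V : ℕ → Fin N → ℝ)
    (hlam : ∀ p, |lam p| ≤ L) (hV : ∀ l p, |V l p| ≤ A) (U : ON N) :
    ∑ a, rotF K lam S V a U ^ 2 ≤
      (12 * L ^ 2 + 6 * (((K : ℝ) + 2) ^ 2 * A ^ 2 * (1 + A ^ 2))) * (N : ℝ) ^ 2 := by
  have : IsProbabilityMeasure (quadLaw lam U) := quadLaw_prob lam U
  set G := glassNest K S V
  have hG : G.Good := glassNest_good K S V
  have hL := glassLeaf_good (N := N) U
  set μ := quadLaw lam U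
  have hK : K + 1 ≤ G.K := le_rfl
  have tR : ∀ a, Tame (rotObs lam a U) := fun a => (ptame_rotObs lam a).tame U
  have tR2 : ∀ a, Tame fun y => rotObs lam a U y ^ 2 := fun a => (tR a).sq
  have hj : ∀ a, rotF K lam S V a U ^ 2 ≤
      G.mean ((glassLeaf U).logZ μ) (K + 1) (fun y => rotObs lam a U y ^ 2) := by
    intro a
    set c := rotF K lam S V a U with hc
    have h := mean_mono hG hL (μ := μ) hK
      (((tR a).const_mul (2 * c)).add (Parisi.tame_const (-c ^ 2))) (tR2 a)
      fun y => by nlinarith [sq_nonneg (rotObs lam a U y - c)]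
    rw [mean_add hG hL hK ((tR a).const_mul _) (Parisi.tame_const _), mean_const hG hL hK,
      mean_const_mul hG hL] at h
    have hc' : G.mean ((glassLeaf U).logZ μ) (K + 1) (rotObs lam a U) = c := rfl
    rw [hc'] at h
    nlinarith [h]
  refine (sum_le_sum fun a _ => hj a).trans ?_
  rw [← Pin.mean_sum hG hL hK univ fun a _ => tR2 a]
  set Y := fun y : FIdx N → ℝ => ∑ p, y (Sum.inr p) ^ 2
  have tY : Tame Y := tame_sum _ fun p _ => (tame_coord _).sq
  have hpt : ∀ y, ∑ a, rotObs lam a U y ^ 2 ≤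
      12 * L ^ 2 * (N : ℝ) ^ 2 + 6 * (N : ℝ) * Y y := rotObs_sq_sum lam hlam U
  refine (mean_mono hG hL hK (tame_sum _ fun a _ => tR2 a)
    ((Parisi.tame_const _).add (tY.const_mul _)) hpt).trans ?_
  rw [mean_add hG hL hK (Parisi.tame_const _) (tY.const_mul _), mean_const hG hL hK,
    mean_const_mul hG hL]
  have hd := down_field_sq_le K lam S V U hV
  rw [mean_down (Nat.zero_le _)] at hd
  have hd' := mul_le_mul_of_nonneg_left hd (show 0 ≤ 6 * (N : ℝ) by positivity)
  change _ + 6 * (N : ℝ) * G.mean ((glassLeaf U).logZ μ) (K + 1) Y ≤ _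
  have : G.mean ((glassLeaf U).logZ μ) (K + 1) Y = G.mean ((glassLeaf U).logZ μ) G.K Y := rfl
  rw [this]
  nlinarith [hd']

end ConcAux

open MeasureTheory ProbabilityTheory Finset Filter Topology Matrix
open Vale.Agent.P157 Vale.Agent.P157.Parisi

/-- Module C1: the free energy is concentrated over the rotation. -/
theorem variance_glassFree {N : ℕ} (hN : 2 < N) (K : ℕ) {lam : Fin N → ℝ} (S V : ℕ → Fin N → ℝ)
    {Λ A : ℝ} (hlam : ∀ p, |lam p| ≤ Λ) (hV : ∀ l p, |V l p| ≤ A) :
    ∫ U, (glassFree K lam S V U - meanFree K lam S V) ^ 2 ∂haarON N ≤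
      50 * (Λ ^ 2 + ((K : ℝ) + 2) ^ 2 * A ^ 2 * (1 + A ^ 2)) * (N : ℝ) ^ 2 / ((N : ℝ) - 2) := by
  have hN2 : (0 : ℝ) < (N : ℝ) - 2 := by
    have : (2 : ℝ) < N := by exact_mod_cast hN
    linarith
  obtain ⟨Fc, Fc', F0, Fd⟩ := ConcAux.rotDeriv_glassFree K lam S V
  have hP := rot_poincare hN ⟨Fc, Fc', F0, Fd⟩ ⟨0, by omega⟩
    fun U => glassFree_flip K lam S V ⟨0, by omega⟩ U
  rw [← integral_finsetSum _ fun a _ => integrable_of_cont ((Fc' a).fun_pow 2)] at hP
  have hi := integral_mono (integrable_of_cont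
      (continuous_finsetSum _ fun a _ => (Fc' a).fun_pow 2)) (integrable_const _)
    fun U => ConcAux.rotF_sq_sum K lam S V hlam hV U
  simp only [integral_const, probReal_univ, one_smul] at hi
  rw [le_div_iff₀ hN2, mul_comm]
  refine le_trans hP ?_
  have h1 : 0 ≤ Λ ^ 2 * (N : ℝ) ^ 2 := by positivity
  have h2 : 0 ≤ ((K : ℝ) + 2) ^ 2 * A ^ 2 * (1 + A ^ 2) * (N : ℝ) ^ 2 := by positivity
  linarith

namespace ConcAux

/-- The free energy has fluctuations of order `√N` over the orthogonal group. -/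
theorem glassFree_dev (K : ℕ) (L A : ℝ) :
    ∃ Q : ℝ, 0 < Q ∧ ∀ {N : ℕ}, 3 ≤ N → ∀ (lam : Fin N → ℝ) (S V : ℕ → Fin N → ℝ),
      (∀ p, |lam p| ≤ L) → (∀ l p, |V l p| ≤ A) →
      ∫ U, |glassFree K lam S V U - meanFree K lam S V| ∂haarON N ≤ Q * Real.sqrt N := by
  set R := 150 * (L ^ 2 + ((K : ℝ) + 2) ^ 2 * A ^ 2 * (1 + A ^ 2))
  have hR : 0 ≤ R := by positivity
  refine ⟨R / 2 + 1 / 2, by positivity, fun {N} hN lam S V hlam hV => ?_⟩
  have hNr : (3 : ℝ) ≤ N := by exact_mod_cast hN
  have Fc := (rotDeriv_glassFree K lam S V).1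
  set m := meanFree K lam S V
  set I := ∫ U, (glassFree K lam S V U - m) ^ 2 ∂haarON N
  have hI : I ≤ R * N := by
    refine (variance_glassFree (by omega) K S V hlam hV).trans ?_
    rw [div_le_iff₀ (by linarith)]
    have h1 : (N : ℝ) ≤ 3 * ((N : ℝ) - 2) := by linarith
    have h2 := mul_le_mul_of_nonneg_left h1
      (show 0 ≤ 50 * (L ^ 2 + ((K : ℝ) + 2) ^ 2 * A ^ 2 * (1 + A ^ 2)) * (N : ℝ) by positivity)
    calc _ = 50 * (L ^ 2 + ((K : ℝ) + 2) ^ 2 * A ^ 2 * (1 + A ^ 2)) * (N : ℝ) * N := by ring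
      _ ≤ _ := h2.trans_eq (by simp only [R]; ring)
  have hs : 0 < Real.sqrt N := Real.sqrt_pos.2 (by linarith)
  have hs2 := Real.mul_self_sqrt (show (0:ℝ) ≤ N by linarith)
  set t := Real.sqrt N
  have hpt : ∀ U, |glassFree K lam S V U - m| ≤
      (glassFree K lam S V U - m) ^ 2 / (2 * t) + t / 2 := fun U => by
    have := Conc.abs_le_amgm (lam := 1 / t) (t := glassFree K lam S V U - m) (by positivity)
    refine this.trans (le_of_eq ?_)
    field_simp
  have i1 : Integrable (fun U => (glassFree K lam S V U - m) ^ 2 / (2 * t)) (haarON N) :=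
    integrable_of_cont (((Fc.sub continuous_const).fun_pow 2).div_const _)
  refine (integral_mono (integrable_of_cont (Fc.sub continuous_const).abs)
    (i1.add (integrable_const _)) hpt).trans ?_
  rw [integral_add' i1 (integrable_const _), integral_div]
  simp only [integral_const, probReal_univ, one_smul]
  have h3 : I / (2 * t) ≤ R / 2 * t := by
    rw [div_le_iff₀ (by positivity)]
    calc I ≤ R * N := hI
      _ = _ := by rw [← hs2]; ring
  linarith

/-! ### The eigenvalue of one atom -/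

variable {N : ℕ}

lemma glassE_shift {M : ℕ} (lam : Fin N → ℝ) (U : ON N) (b : Fin N → Fin M) (r : Fin M) (du t : ℝ)
    (y : FIdx N → ℝ) (σ : Fin N → Bool) :
    glassE (fun p => lam p + t * (if b p = r then du else 0)) U y σ =
      glassE lam U y σ + t * (du / 2 * ∑ p ∈ fiber b r, rotSpin U σ p ^ 2) := by
  have e : eng (fun p => lam p + t * (if b p = r then du else 0))
      (U : Matrix (Fin N) (Fin N) ℝ) σ = eng lam (U : Matrix (Fin N) (Fin N) ℝ) σ +
        t * du * ∑ p ∈ fiber b r, rotSpin U σ p ^ 2 := by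
    rw [eng_eq, eng_eq, fiber, sum_filter, mul_sum, ← sum_add_distrib]
    exact sum_congr rfl fun p _ => by split_ifs <;> ring
  rw [glassE, glassE, e]
  ring

/-- The average variance of the squared norm of an atom along the shift of its eigenvalue. -/
theorem leaf_avg {M : ℕ} (K : ℕ) (lam : Fin N → ℝ) (S V : ℕ → Fin N → ℝ) (U : ON N)
    (b : Fin N → Fin M) (r : Fin M) {du : ℝ} (hdu : 0 < du) (hN : 0 < N) :
    ∫ t in (0 : ℝ)..1, (glassNest K S V).mean
        ((glassLeaf U).logZ (quadLaw (fun p => lam p + t * (if b p = r then du else 0)) U)) K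
        (fun y =>
          (glassNest K S V).node (glassLeaf U)
              (quadLaw (fun p => lam p + t * (if b p = r then du else 0)) U) K
              (fun σ y => atomSq b U r σ y ^ 2) y -
            (glassNest K S V).node (glassLeaf U)
              (quadLaw (fun p => lam p + t * (if b p = r then du else 0)) U) K
              (atomSq b U r) y ^ 2) ≤ 2 / (du * N) := by
  have hNr : (0 : ℝ) < N := Nat.cast_pos.2 hN
  set G := glassNest K S V
  have hG : G.Good := glassNest_good K S V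
  have hL := glassLeaf_good (N := N) U
  set L := glassLeaf U
  set lamt : ℝ → Fin N → ℝ := fun t p => lam p + t * (if b p = r then du else 0)
  have hp : ∀ t, IsProbabilityMeasure (quadLaw (lamt t) U) := fun t => quadLaw_prob _ U
  set c := du * N / 2 with hc
  have hc0 : 0 < c := by positivity
  set A : (Fin N → Bool) → ℝ := fun σ => (∑ p ∈ fiber b r, rotSpin U σ p ^ 2) / N
  have hA : ∀ σ, 0 ≤ A σ ∧ A σ ≤ 1 := fun σ => by
    refine ⟨div_nonneg (sum_nonneg fun _ _ => sq_nonneg _) hNr.le, ?_⟩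
    rw [div_le_one hNr, ← sum_rotSpin_sq U σ]
    exact sum_le_sum_of_subset_of_nonneg (subset_univ _) fun _ _ _ => sq_nonneg _
  have eA : atomSq b U r = fun σ (_ : FIdx N → ℝ) => A σ := rfl
  set E : ℝ → (Fin N → Bool) → (FIdx N → ℝ) → ℝ := fun t σ y => glassE (lamt t) U y σ
  set E' : ℝ → (Fin N → Bool) → (FIdx N → ℝ) → ℝ := fun _ σ _ => c * A σ
  have hE : ∀ t σ y, E t σ y = glassE lam U y σ + t * (c * A σ) := fun t σ y => by
    refine (glassE_shift lam U b r du t y σ).trans ?_
    simp only [c, A]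
    field_simp
  have hEd : ∀ t σ y, HasDerivAt (fun u => E u σ y) (c * A σ) t := by
    intro t σ y
    simp only [hE]
    exact (((hasDerivAt_id t).mul_const _).const_add _).congr_deriv (one_mul _)
  have hfam : ∀ t₀, Param.LFam (fun t => glassW (lamt t) U)
      (fun t y => lseAvg (fun σ => E t σ y) fun σ => E' t σ y) t₀ 1 ∧
      Param.Fam (fun t y => lseAvg (fun σ => E t σ y) fun σ => c * A σ)
        (fun t y => lseAvg (fun σ => E t σ y) (fun σ => E' t σ y * (c * A σ)) -
          lseAvg (fun σ => E t σ y) (fun σ => E' t σ y) * lseAvg (fun σ => E t σ y) fun σ => c * A σ)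
        t₀ 1 := by
    intro t₀
    set C := c + (∑ σ, |E 0 σ 0|) + (|t₀| + 1) * c + ((N : ℝ) + 1)
    have hs0 : 0 ≤ ∑ σ : Fin N → Bool, |E 0 σ 0| := sum_nonneg fun _ _ => abs_nonneg _
    have hC : 0 ≤ C := by positivity
    have hb' : ∀ σ (y : FIdx N → ℝ), |c * A σ| ≤ C * (1 + l1 y) := fun σ y => by
      rw [abs_mul, abs_of_pos hc0, abs_of_nonneg (hA σ).1]
      have := l1_nonneg y
      have : 0 ≤ (|t₀| + 1) * c := by positivity
      nlinarith [mul_le_of_le_one_right hc0.le (hA σ).2, mul_nonneg hC (l1_nonneg y)]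
    have hc' : ∀ t σ, |t - t₀| < 1 → Continuous (E t σ) ∧ Continuous (E' t σ) := fun t σ _ => by
      refine ⟨?_, continuous_const⟩
      simp only [E, glassE]; fun_prop
    refine ⟨lfam_lse hC hc' fun t ht σ y => ⟨hEd t σ y, ?_, hb' σ y⟩,
      fam_lseAvg hC _ hc' fun t _ σ y => ⟨hEd t σ y, hb' σ y⟩⟩
    have hlin : E t σ y = E 0 σ 0 + t * (c * A σ) +
        ∑ i, Sum.elim (spin σ) (rotSpin U σ) i * y i := by
      rw [hE, hE]
      simp [glassE]
      ring
    have h1 : |t * (c * A σ)| ≤ (|t₀| + 1) * c := by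
      rw [abs_mul, abs_mul, abs_of_pos hc0, abs_of_nonneg (hA σ).1]
      exact mul_le_mul (by linarith [abs_sub_abs_le_abs_sub t t₀])
        (mul_le_of_le_one_right hc0.le (hA σ).2) (mul_nonneg hc0.le (hA σ).1) (by positivity)
    have h2 := single_le_sum (f := fun σ => |E 0 σ 0|) (fun _ _ => abs_nonneg _) (mem_univ σ)
    show |E t σ y| ≤ _
    rw [hlin]
    refine (abs_add_three _ _ _).trans ?_
    have h3 := abs_dot_le U σ y
    have hly := l1_nonneg y
    have : 0 ≤ (|t₀| + 1) * c := by positivity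
    nlinarith [mul_nonneg hC hly, mul_le_mul_of_nonneg_right
      (show (N : ℝ) + 1 ≤ C by simp only [C]; linarith) hly]
  -- the first derivative and its derivative
  set U₀ : ℝ → (FIdx N → ℝ) → ℝ := fun t => L.logZ (quadLaw (lamt t) U)
  set g : ℝ → ℝ := fun t => G.mean (U₀ t) (K + 1) (L.gibbs (quadLaw (lamt t) U) fun σ _ => c * A σ)
  set Var : ℝ → ℝ := fun t => G.mean (U₀ t) K (fun y =>
    G.node L (quadLaw (lamt t) U) K (fun σ _ => A σ ^ 2) y -
      G.node L (quadLaw (lamt t) U) K (fun σ _ => A σ) y ^ 2)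
  have hg0 : ∀ t, 0 ≤ g t ∧ g t ≤ c := by
    intro t
    have := hp t
    have ho : Obs fun σ (_ : FIdx N → ℝ) => c * A σ :=
      ⟨fun _ => measurable_of_finite _, fun _ => continuous_const, c, fun σ _ => by
        rw [abs_mul, abs_of_pos hc0, abs_of_nonneg (hA σ).1]
        exact mul_le_of_le_one_right hc0.le (hA σ).2⟩
    have tG := tame_gibbs (μ := quadLaw (lamt t) U) hL ho
    have hb : ∀ y, 0 ≤ L.gibbs (quadLaw (lamt t) U) (fun σ _ => c * A σ) y ∧
        L.gibbs (quadLaw (lamt t) U) (fun σ _ => c * A σ) y ≤ c := fun y => by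
      rw [gibbs_quad]
      exact ⟨(lseAvg_const _ 0).symm.trans_le
          (lseAvg_mono _ fun σ => mul_nonneg hc0.le (hA σ).1),
        (lseAvg_mono _ fun σ => mul_le_of_le_one_right hc0.le (hA σ).2).trans_eq
          (lseAvg_const _ c)⟩
    exact ⟨(mean_const hG hL (μ := quadLaw (lamt t) U) (le_refl G.K) 0).symm.trans_le
        (mean_mono hG hL le_rfl (Parisi.tame_const 0) tG fun y => (hb y).1),
      (mean_mono hG hL le_rfl tG (Parisi.tame_const c) fun y => (hb y).2).trans_eq
        (mean_const hG hL le_rfl c)⟩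
  have hVc : Continuous Var := by
    refine continuous_glass_mean (T := ℝ) (lam := lamt) (U := fun _ => U) (S := fun _ => S)
      (V := fun _ => V) (by simp only [lamt]; fun_prop) continuous_const
      (fun _ _ => continuous_const) (fun _ _ => continuous_const) K (Nat.le_succ K) ?_
    have h1 : ∀ f : (Fin N → Bool) → ℝ,
        PTame fun t => G.node L (quadLaw (lamt t) U) K fun σ _ => f σ :=
      fun f => ptame_glass_node (T := ℝ) (lam := lamt) (U := fun _ => U) (S := fun _ => S)
        (V := fun _ => V) (by simp only [lamt]; fun_prop) continuous_const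
        (fun _ _ => continuous_const) (fun _ _ => continuous_const) K (Nat.le_succ K)
        (f := fun _ σ _ => f σ) fun σ => ptame_param continuous_const
    simpa only [sq] using (h1 fun σ => A σ * A σ).sub ((h1 A).mul (h1 A))
  have hg : ∀ t, ∃ d, HasDerivAt g d t ∧ c ^ 2 * Var t ≤ d := by
    intro t
    have := hp t
    obtain ⟨hU, hf⟩ := hfam t
    have h := Param.hasDerivAt_mean hG one_pos hU (le_refl G.K) hf
    have eg : g = fun u => G.mean (glassW (lamt u) U) G.K
        (fun y => lseAvg (fun σ => E u σ y) fun σ => c * A σ) := by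
      funext u
      show G.mean (L.logZ (quadLaw (lamt u) U)) G.K _ = _
      rw [logZ_quad, mean_shift hG (glassW_linGrowth _ _) _ (le_refl G.K)]
      refine congrArg _ (funext fun y => ?_)
      exact gibbs_quad _ _ _ y
    rw [← eg] at h
    refine ⟨_, h, ?_⟩
    set μ := quadLaw (lamt t) U
    have hW := glassW_linGrowth (lamt t) U
    have oA : ∀ f : (Fin N → Bool) → ℝ, Obs fun σ (_ : FIdx N → ℝ) => f σ := fun f =>
      ⟨fun _ => measurable_of_finite _, fun _ => continuous_const, ∑ σ, |f σ|, fun σ _ =>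
        single_le_sum (f := fun σ => |f σ|) (fun _ _ => abs_nonneg _) (mem_univ σ)⟩
    set F : (FIdx N → ℝ) → ℝ := L.gibbs μ fun σ _ => A σ with hF
    set F2 : (FIdx N → ℝ) → ℝ := L.gibbs μ fun σ _ => A σ ^ 2 with hF2
    have tF : Tame F := tame_gibbs hL (oA A)
    have tF2 : Tame F2 := tame_gibbs hL (oA fun σ => A σ ^ 2)
    have e1 : (fun y => lseAvg (fun σ => E t σ y) fun σ => c * A σ) = fun y => c * F y := by
      funext y; rw [hF, gibbs_quad, lseAvg_const_mul]
    have e2 : (fun y => lseAvg (fun σ => E t σ y) fun σ => E' t σ y) = fun y => c * F y := e1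
    have e3 : (fun y => lseAvg (fun σ => E t σ y) (fun σ => E' t σ y * (c * A σ)) -
        lseAvg (fun σ => E t σ y) (fun σ => E' t σ y) *
          lseAvg (fun σ => E t σ y) fun σ => c * A σ) = fun y => c ^ 2 * (F2 y - F y ^ 2) := by
      funext y
      rw [hF, hF2, gibbs_quad, gibbs_quad]
      simp only [E', lseAvg_const_mul, show ∀ σ, c * A σ * (c * A σ) = c ^ 2 * A σ ^ 2 from
        fun σ => by ring]
      simp only [E]
      ring
    rw [e3, down_top le_rfl, e2]
    have hx : G.x G.K = 1 := by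
      show gridX K (K + 1) = 1
      have : (0:ℝ) < (K:ℝ) + 1 := by positivity
      simp [gridX, lvl, this.ne']
    rw [hx, one_mul]
    have hsh : ∀ {l : ℕ}, l ≤ G.K → ∀ f, G.mean (glassW (lamt t) U) l f = G.mean (L.logZ μ) l f :=
      fun {l} hl f => by rw [logZ_quad]; exact (mean_shift hG hW _ hl f).symm
    have hdn : ∀ {l : ℕ}, l ≤ G.K → ∀ f, G.down (glassW (lamt t) U) l f = G.down (L.logZ μ) l f :=
      fun {l} hl f => by rw [logZ_quad]; exact (down_shift hG hW _ hl f).symm
    have hterm : ∀ j ∈ range G.K, G.mean (glassW (lamt t) U) j (fun v =>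
        G.down (glassW (lamt t) U) j (fun y => c * F y) v *
          Nest.chainUp G (glassW (lamt t) U) G.K (fun y => c * F y) (G.K - j) v) ≤
        c ^ 2 * G.mean (L.logZ μ) K (fun y => G.node L μ K (fun σ _ => A σ) y ^ 2) := by
      intro j hj
      have hjK : j ≤ G.K := (mem_range.1 hj).le
      rw [hsh hjK]
      have ed : G.down (glassW (lamt t) U) j (fun y => c * F y) =
          fun v => c * G.node L μ j (fun σ _ => A σ) v := by
        rw [hdn hjK]
        funext v
        have := node_const_mul hG hL (μ := μ) j c (fun σ (_ : FIdx N → ℝ) => A σ) v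
        rw [← this]
        show _ = G.down (L.logZ μ) j (L.gibbs μ _) v
        refine congrFun (congrArg _ (funext fun y => ?_)) v
        exact (gibbs_const_mul c _ y).symm
      rw [chainUp_top, show G.downUp (glassW (lamt t) U) (fun y => c * F y) (G.K - j) =
        G.down (glassW (lamt t) U) j (fun y => c * F y) from rfl, ed]
      rw [show (fun v => c * G.node L μ j (fun σ _ => A σ) v * (c * G.node L μ j (fun σ _ => A σ) v))
        = fun v => c ^ 2 * G.node L μ j (fun σ _ => A σ) v ^ 2 from funext fun v => by ring,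
        mean_const_mul hG hL]
      refine mul_le_mul_of_nonneg_left ?_ (sq_nonneg c)
      have hjK' : j ≤ K := Nat.lt_succ_iff.1 (mem_range.1 hj)
      clear ed hjK hj
      induction hjK' using Nat.decreasingInduction with
      | self => exact le_rfl
      | of_succ m hm ih =>
        refine le_trans ?_ ih
        have hmG : m < G.K := Nat.lt_succ_of_lt hm
        show G.mean (L.logZ μ) m _ ≤ G.mean (L.logZ μ) m (G.avg (L.logZ μ) m _)
        have tn := node_tame hG hL (μ := μ) (show m + 1 ≤ G.K from hmG) (oA A)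
        refine mean_mono hG hL hmG.le (node_tame hG hL hmG.le (oA A)).sq
          (avg_tame hG hL hmG tn.sq) fun v => ?_
        rw [node_succ hG hL hmG]
        exact avg_sq_ge hG hL hmG tn v
    have hw : ∀ j ∈ range G.K, 0 ≤ G.w j := fun j hj =>
      sub_nonneg.2 (hG.x_mono j (mem_range.1 hj).le)
    have hsum := sum_le_sum fun j hj => mul_le_mul_of_nonneg_left (hterm j hj) (hw j hj)
    have hw1 : ∑ j ∈ range G.K, G.w j = 1 := by
      simp only [Nest.w]; rw [sum_range_sub G.x, hx, hG.x_zero, sub_zero]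
    rw [← sum_mul, hw1, one_mul] at hsum
    rw [hsh le_rfl, hsh le_rfl]
    refine le_trans ?_ (sub_le_sub_left hsum _)
    have tFF := tF.sq
    rw [mean_const_mul hG hL,
      show (fun v => (lseAvg (fun σ => E t σ v) fun σ => c * A σ) *
          lseAvg (fun σ => E t σ v) fun σ => E' t σ v) = fun v => c ^ 2 * F v ^ 2 from
        funext fun v => by rw [congrFun e1 v]; ring,
      mean_const_mul hG hL, Pin.mean_sub hG hL le_rfl tF2 tFF]
    have hKG : K ≤ G.K := Nat.le_succ K
    have hVar : Var t = G.mean (L.logZ μ) K (G.node L μ K fun σ _ => A σ ^ 2) -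
        G.mean (L.logZ μ) K (fun y => G.node L μ K (fun σ _ => A σ) y ^ 2) :=
      Pin.mean_sub hG hL hKG (node_tame hG hL hKG (oA fun σ => A σ ^ 2))
        (node_tame hG hL hKG (oA A)).sq
    have hd : G.mean (L.logZ μ) K (G.node L μ K fun σ _ => A σ ^ 2) = G.mean (L.logZ μ) G.K F2 :=
      mean_down hKG
    rw [hVar, hd]
    exact le_of_eq (by ring)
  choose g' hg' hle using hg
  set H : ℝ → ℝ := fun t => g t - c ^ 2 * ∫ u in (0:ℝ)..t, Var u
  have hH : ∀ t, HasDerivAt H (g' t - c ^ 2 * Var t) t := fun t =>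
    (hg' t).sub ((intervalIntegral.integral_hasDerivAt_right (hVc.intervalIntegrable _ _)
      (hVc.stronglyMeasurableAtFilter _ _) hVc.continuousAt).const_mul _)
  have hmono := monotone_of_hasDerivAt_nonneg hH fun t => sub_nonneg.2 (hle t)
  have h01 := hmono (zero_le_one (α := ℝ))
  simp only [H, intervalIntegral.integral_same, mul_zero, sub_zero] at h01
  have e : ∫ t in (0:ℝ)..1, Var t ≤ 1 / c := by
    rw [le_div_iff₀ hc0]
    refine le_of_mul_le_mul_left ?_ hc0
    nlinarith [(hg0 1).2, (hg0 0).1]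
  rw [show 2 / (du * (N:ℝ)) = 1 / c by rw [hc, one_div_div]]
  exact e

end Vale.Agent.P166.Parisi.ConcAux
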