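import Vale.Agent.P157.Parisi.CalcBasic

/-!
A bounded change of the leaf changes the averages of nonnegative functions along the hierarchy by a
bounded factor, uniformly in the number of levels.
-/

namespace Vale.Agent.P166.Parisi

open MeasureTheory ProbabilityTheory Finset
open Vale.Agent.P157 Vale.Agent.P157.Parisi

variable {ι : Type} [Fintype ι] {Nn : Nest ι}

lemma linGrowth_u_gen {U : (ι → ℝ) → ℝ} (hU : P157.Parisi.LinGrowth U) (Nn : Nest ι) :
    ∀ d, P157.Parisi.LinGrowth (Nn.uUp U d)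
  | 0 => hU
  | d + 1 => linGrowth_stepLog (linGrowth_u_gen hU Nn d) _ _

lemma tame_avg_gen {U : (ι → ℝ) → ℝ} (hU : P157.Parisi.LinGrowth U) (l : ℕ) {f : (ι → ℝ) → ℝ}
    (hf : Tame f) : Tame (Nn.avg U l f) :=
  tame_stepAvg (linGrowth_u_gen hU Nn _) _ _ hf

lemma tame_down_gen {U : (ι → ℝ) → ℝ} (hU : P157.Parisi.LinGrowth U) {f : (ι → ℝ) → ℝ}
    (hf : Tame f) : ∀ d, Tame (Nn.downUp U f d)
  | 0 => hf
  | d + 1 => tame_avg_gen hU _ (tame_down_gen hU hf d)

lemma avg_nonneg_gen (U : (ι → ℝ) → ℝ) (l : ℕ) {f : (ι → ℝ) → ℝ} (hf : ∀ y, 0 ≤ f y)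
    (y : ι → ℝ) : 0 ≤ Nn.avg U l f y :=
  div_nonneg (integral_nonneg fun _ => mul_nonneg (Real.exp_pos _).le (hf _))
    (integral_nonneg fun _ => (Real.exp_pos _).le)

lemma down_nonneg_gen (U : (ι → ℝ) → ℝ) {f : (ι → ℝ) → ℝ} (hf : ∀ y, 0 ≤ f y) :
    ∀ d y, 0 ≤ Nn.downUp U f d y
  | 0, y => hf y
  | _ + 1, y => avg_nonneg_gen U _ (down_nonneg_gen U hf _) y

lemma mean_mono_gen {U : (ι → ℝ) → ℝ} (hU : P157.Parisi.LinGrowth U) :
    ∀ (l : ℕ) {f g : (ι → ℝ) → ℝ}, Tame f → Tame g → (∀ y, f y ≤ g y) →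
      Nn.mean U l f ≤ Nn.mean U l g
  | 0, f, g, hf, hg, h => by
    have e : ∀ k : (ι → ℝ) → ℝ, Tame k →
        Integrable (fun z => k fun i => Nn.amp 0 i * z i) (gauss ι) := fun k hk => by
      convert (hk.comp_move (Nn.amp 0) 0).integrable using 3 with z
      funext i
      simp [move]
    exact integral_mono (e f hf) (e g hg) fun z => h _
  | l + 1, _, _, hf, hg, h =>
    mean_mono_gen hU l (tame_avg_gen hU l hf) (tame_avg_gen hU l hg)
      (stepAvg_mono (linGrowth_u_gen hU Nn _) _ _ hf hg h)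

lemma mean_const_mul_gen (U : (ι → ℝ) → ℝ) (c : ℝ) :
    ∀ (l : ℕ) (f : (ι → ℝ) → ℝ), Nn.mean U l (fun v => c * f v) = c * Nn.mean U l f
  | 0, _ => integral_const_mul c _
  | l + 1, f => by
    simp only [Nest.mean]
    rw [show Nn.avg U l (fun v => c * f v) = fun y => c * Nn.avg U l f y from
      funext (stepAvg_const_mul _ _ _ c f)]
    exact mean_const_mul_gen U c l _

variable {U V : (ι → ℝ) → ℝ} {C : ℝ}

lemma exp_stepLog_gen (hU : P157.Parisi.LinGrowth U) {m : ℝ} (hm : 0 < m) (s y : ι → ℝ) :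
    Real.exp (m * stepLog m s U y) = ∫ z, Real.exp (m * U (move s y z)) ∂gauss ι := by
  rw [stepLog, mul_inv_cancel_left₀ hm.ne', Real.exp_log (stepDen_pos hU m s y)]

/-- Leaves at distance `C` give recursions at distance `C`. -/
theorem u_sub_le (hN : Nn.Good) (hU : P157.Parisi.LinGrowth U) (hV : P157.Parisi.LinGrowth V)
    (h : ∀ y, |V y - U y| ≤ C) (l : ℕ) (y : ι → ℝ) : |Nn.u V l y - Nn.u U l y| ≤ C := by
  suffices H : ∀ d, d ≤ Nn.K → ∀ y, |Nn.uUp V d y - Nn.uUp U d y| ≤ C from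
    H _ (Nat.sub_le _ _) y
  intro d
  induction d with
  | zero => exact fun _ => h
  | succ d ih =>
    intro hd y
    have hm : 0 < Nn.x (Nn.K - d) := hN.x_pos _ (by omega) (Nat.sub_le _ _)
    have key : ∀ A B : (ι → ℝ) → ℝ, P157.Parisi.LinGrowth A → P157.Parisi.LinGrowth B →
        (∀ v, A v ≤ B v + C) →
        stepLog (Nn.x (Nn.K - d)) (Nn.amp (Nn.K - d)) A y ≤
          stepLog (Nn.x (Nn.K - d)) (Nn.amp (Nn.K - d)) B y + C := fun A B hA hB hAB => by
      have e := exp_stepLog_gen hA hm (Nn.amp (Nn.K - d)) y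
      have e' := exp_stepLog_gen hB hm (Nn.amp (Nn.K - d)) y
      rw [← mul_le_mul_iff_right₀ hm, ← Real.exp_le_exp, mul_add, Real.exp_add, e, e',
        ← integral_mul_const]
      refine integral_mono (integrable_exp_move hA _ _ y)
        ((integrable_exp_move hB _ _ y).mul_const _) fun z => ?_
      rw [← Real.exp_add, ← mul_add]
      exact Real.exp_le_exp.2 (mul_le_mul_of_nonneg_left (hAB _) hm.le)
    have hb := fun v => abs_le.1 (ih (by omega) v)
    have hlU := linGrowth_u_gen hU Nn d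
    have hlV := linGrowth_u_gen hV Nn d
    have h1 := key _ _ hlV hlU fun v => by linarith [(hb v).2]
    have h2 := key _ _ hlU hlV fun v => by linarith [(hb v).1]
    simp only [Nest.uUp]
    rw [abs_le]
    constructor <;> linarith

/-- The tilted average of the changed leaf in terms of the original one. -/
theorem avg_change (hN : Nn.Good) (hU : P157.Parisi.LinGrowth U) (hV : P157.Parisi.LinGrowth V)
    {l : ℕ} (hl : l < Nn.K) (f : (ι → ℝ) → ℝ) (y : ι → ℝ) :
    Nn.avg V l f y = Real.exp (-(Nn.x (l + 1) * (Nn.u V l y - Nn.u U l y))) *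
      Nn.avg U l (fun v => Real.exp (Nn.x (l + 1) * (Nn.u V (l + 1) v - Nn.u U (l + 1) v)) * f v)
        y := by
  have hm : 0 < Nn.x (l + 1) := hN.x_pos _ (by omega) (by omega)
  have eU := exp_stepLog_gen (linGrowth_u_gen hU Nn (Nn.K - (l + 1))) hm (Nn.amp (l + 1)) y
  have eV := exp_stepLog_gen (linGrowth_u_gen hV Nn (Nn.K - (l + 1))) hm (Nn.amp (l + 1)) y
  rw [u_succ hl, u_succ hl]
  change _ / _ = Real.exp (-(_ * (_ - _))) * (_ / _)
  simp only [Nest.u] at eU eV ⊢
  rw [← eU, ← eV, mul_sub, neg_sub, Real.exp_sub, div_mul_div_comm, mul_comm (Real.exp _) (∫ _, _ ∂_),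
    mul_div_mul_right _ _ (Real.exp_ne_zero _)]
  congr 1
  refine integral_congr_ae (.of_forall fun z => ?_)
  simp only
  rw [← mul_assoc, ← Real.exp_add, mul_sub, add_sub_cancel]

lemma tame_change (hU : P157.Parisi.LinGrowth U) (hV : P157.Parisi.LinGrowth V) (a : ℝ) (l : ℕ)
    {f : (ι → ℝ) → ℝ} (hf : Tame f) :
    Tame fun v => Real.exp (a * (Nn.u V l v - Nn.u U l v)) * f v := by
  have e : (fun v => Real.exp (a * (Nn.u V l v - Nn.u U l v)) * f v) =
      fun v => Real.exp (a * Nn.u V l v) * Real.exp (-a * Nn.u U l v) * f v := by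
    funext v
    rw [← Real.exp_add]
    ring_nf
  rw [e]
  exact (((linGrowth_u_gen hV Nn _).exp_tame a).mul ((linGrowth_u_gen hU Nn _).exp_tame (-a))).mul hf

lemma exp_mul_le {a b t : ℝ} (ht : |t| ≤ C) (ha : |a| ≤ b) : Real.exp (a * t) ≤ Real.exp (b * C) :=
  Real.exp_le_exp.2 ((le_abs_self _).trans ((abs_mul _ _).trans_le
    (mul_le_mul ha ht (abs_nonneg _) ((abs_nonneg _).trans ha))))

lemma Good.x_le_one (hN : Nn.Good) : ∀ d, d ≤ Nn.K + 1 → Nn.x (Nn.K + 1 - d) ≤ 1
  | 0, _ => by rw [Nat.sub_zero, hN.x_last]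
  | d + 1, hd => by
    refine le_trans ?_ (Good.x_le_one hN d (by omega))
    have := hN.x_mono (Nn.K + 1 - (d + 1)) (by omega)
    rwa [show Nn.K + 1 - (d + 1) + 1 = Nn.K + 1 - d by omega] at this

lemma Good.x_mem (hN : Nn.Good) {l : ℕ} (hl : l ≤ Nn.K + 1) : 0 ≤ Nn.x l ∧ Nn.x l ≤ 1 := by
  refine ⟨?_, by simpa [show Nn.K + 1 - (Nn.K + 1 - l) = l by omega] using
    Good.x_le_one hN (Nn.K + 1 - l) (Nat.sub_le _ _)⟩
  rcases Nat.eq_zero_or_pos l with rfl | h
  · rw [hN.x_zero]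
  · rcases Nat.lt_or_ge Nn.K l with h' | h'
    · rw [show l = Nn.K + 1 by omega, hN.x_last]; norm_num
    · exact (hN.x_pos l h h').le

/-- A change by at most `C` of the leaf changes every node average of a nonnegative function by at
most the factor `exp (3 C)`. -/
theorem down_le_of_close (hN : Nn.Good) (hU : P157.Parisi.LinGrowth U)
    (hV : P157.Parisi.LinGrowth V) (hC : ∀ y, |V y - U y| ≤ C) {f : (ι → ℝ) → ℝ} (hf : Tame f)
    (h0 : ∀ y, 0 ≤ f y) {l : ℕ} (hl : l ≤ Nn.K) (y : ι → ℝ) :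
    Nn.down V l f y ≤ Real.exp (3 * C) * Nn.down U l f y := by
  have hC0 : 0 ≤ C := (abs_nonneg _).trans (hC 0)
  have hΔ := u_sub_le hN hU hV hC
  have main : ∀ d, d ≤ Nn.K → ∀ y,
      Real.exp (Nn.x (Nn.K - d) * (Nn.u V (Nn.K - d) y - Nn.u U (Nn.K - d) y)) *
          Nn.down V (Nn.K - d) f y ≤
        Real.exp (C + C * (Nn.x Nn.K - Nn.x (Nn.K - d))) * Nn.down U (Nn.K - d) f y := by
    intro d
    induction d with
    | zero =>
      intro _ y
      rw [Nat.sub_zero, down_top le_rfl, down_top le_rfl, sub_self, mul_zero, add_zero]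
      refine mul_le_mul_of_nonneg_right ((exp_mul_le (hΔ _ y) (b := 1) ?_).trans_eq
        (by rw [one_mul])) (h0 y)
      rw [abs_of_nonneg (Good.x_mem hN (by omega)).1]
      exact (Good.x_mem hN (by omega)).2
    | succ d ih =>
      intro hd y
      set l := Nn.K - (d + 1) with hl'
      have e : Nn.K - d = l + 1 := by omega
      have hlK : l < Nn.K := by omega
      have ih' := ih (by omega)
      rw [e] at ih'
      have hW := hN.x_mono l hlK.le
      rw [down_succ hlK, down_succ hlK, avg_change hN hU hV hlK, ← mul_assoc, ← Real.exp_add,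
        ← sub_eq_add_neg, ← sub_mul]
      have hd' : Tame (Nn.down V (l + 1) f) := tame_down_gen hV hf _
      have hd'' : Tame (Nn.down U (l + 1) f) := tame_down_gen hU hf _
      have h1 : Nn.avg U l (fun v => Real.exp (Nn.x (l + 1) *
            (Nn.u V (l + 1) v - Nn.u U (l + 1) v)) * Nn.down V (l + 1) f v) y ≤
          Real.exp (C + C * (Nn.x Nn.K - Nn.x (l + 1))) * Nn.avg U l (Nn.down U (l + 1) f) y := by
        rw [avg_eq_stepAvg, avg_eq_stepAvg, ← stepAvg_const_mul]
        exact stepAvg_mono (linGrowth_u_gen hU Nn _) _ _ (tame_change hU hV _ _ hd')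
          (hd''.const_mul _) ih' y
      refine (mul_le_mul_of_nonneg_left h1 (Real.exp_pos _).le).trans ?_
      rw [← mul_assoc]
      refine mul_le_mul_of_nonneg_right ?_ (avg_nonneg_gen U l (down_nonneg_gen U h0 _) y)
      have h2 := exp_mul_le (a := Nn.x l - Nn.x (l + 1)) (hΔ l y)
        (abs_le.2 ⟨by linarith, by linarith⟩ : _ ≤ Nn.x (l + 1) - Nn.x l)
      refine (mul_le_mul_of_nonneg_right h2 (Real.exp_pos _).le).trans_eq ?_
      rw [← Real.exp_add]
      ring_nf
  have h := main (Nn.K - l) (Nat.sub_le _ _) y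
  rw [show Nn.K - (Nn.K - l) = l by omega] at h
  have hx := Good.x_mem hN (l := l) (by omega)
  have hxK := Good.x_mem hN (l := Nn.K) (by omega)
  have hpos : 0 ≤ Nn.down U l f y := down_nonneg_gen U h0 _ y
  calc Nn.down V l f y
      = Real.exp (-Nn.x l * (Nn.u V l y - Nn.u U l y)) *
          (Real.exp (Nn.x l * (Nn.u V l y - Nn.u U l y)) * Nn.down V l f y) := by
        rw [← mul_assoc, ← Real.exp_add, neg_mul, neg_add_cancel, Real.exp_zero, one_mul]
    _ ≤ Real.exp (1 * C) * (Real.exp (C + C * (Nn.x Nn.K - Nn.x l)) * Nn.down U l f y) := by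
        refine mul_le_mul (exp_mul_le (hΔ l y) ?_) h (mul_nonneg (Real.exp_pos _).le
          (down_nonneg_gen V h0 _ y)) (Real.exp_pos _).le
        rw [abs_neg, abs_of_nonneg hx.1]
        exact hx.2
    _ ≤ Real.exp (3 * C) * Nn.down U l f y := by
        rw [← mul_assoc, ← Real.exp_add]
        refine mul_le_mul_of_nonneg_right (Real.exp_le_exp.2 ?_) hpos
        nlinarith [mul_le_mul_of_nonneg_left (sub_le_self (Nn.x Nn.K) hx.1) hC0]

/-- The same for the averages over a level. -/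
theorem mean_le_of_close (hN : Nn.Good) (hU : P157.Parisi.LinGrowth U)
    (hV : P157.Parisi.LinGrowth V) (hC : ∀ y, |V y - U y| ≤ C) {f : (ι → ℝ) → ℝ} (hf : Tame f)
    (h0 : ∀ y, 0 ≤ f y) {l : ℕ} (hl : l ≤ Nn.K) :
    Nn.mean V l f ≤ Real.exp (3 * C) * Nn.mean U l f := by
  have hC0 : 0 ≤ C := (abs_nonneg _).trans (hC 0)
  have hΔ := u_sub_le hN hU hV hC
  have main : ∀ l, l ≤ Nn.K → ∀ g : (ι → ℝ) → ℝ, Tame g → (∀ y, 0 ≤ g y) →
      Nn.mean V l g ≤ Real.exp (C * Nn.x l) *
        Nn.mean U l (fun v => Real.exp (Nn.x l * (Nn.u V l v - Nn.u U l v)) * g v) := by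
    intro l
    induction l with
    | zero =>
      intro _ g _ _
      simp [hN.x_zero, Nest.mean]
    | succ l ih =>
      intro hl g hg hg0
      have hW := hN.x_mono l (by omega)
      refine (ih (by omega) _ (tame_avg_gen hV l hg) (avg_nonneg_gen V l hg0)).trans ?_
      have hR : Tame (Nn.avg U l fun v => Real.exp (Nn.x (l + 1) *
          (Nn.u V (l + 1) v - Nn.u U (l + 1) v)) * g v) :=
        tame_avg_gen hU l (tame_change hU hV _ _ hg)
      have hmono : Nn.mean U l (fun v => Real.exp (Nn.x l * (Nn.u V l v - Nn.u U l v)) *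
            Nn.avg V l g v) ≤
          Real.exp (C * (Nn.x (l + 1) - Nn.x l)) * Nn.mean U l (Nn.avg U l fun v =>
            Real.exp (Nn.x (l + 1) * (Nn.u V (l + 1) v - Nn.u U (l + 1) v)) * g v) := by
        rw [← mean_const_mul_gen]
        refine mean_mono_gen hU l (tame_change hU hV _ _ (tame_avg_gen hV l hg)) (hR.const_mul _)
          fun v => ?_
        rw [avg_change hN hU hV (by omega) g v, ← mul_assoc, ← Real.exp_add, ← sub_eq_add_neg,
          ← sub_mul]
        refine mul_le_mul_of_nonneg_right ((exp_mul_le (hΔ l v)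
          (abs_le.2 ⟨by linarith, by linarith⟩ : _ ≤ Nn.x (l + 1) - Nn.x l)).trans_eq
            (by rw [mul_comm]))
          (avg_nonneg_gen U l (fun w => mul_nonneg (Real.exp_pos _).le (hg0 w)) v)
      refine (mul_le_mul_of_nonneg_left hmono (Real.exp_pos _).le).trans_eq ?_
      rw [← mul_assoc, ← Real.exp_add]
      simp only [Nest.mean]
      ring_nf
  refine (main l hl f hf h0).trans ?_
  have hx := Good.x_mem hN (l := l) (by omega)
  refine le_trans (mul_le_mul_of_nonneg_left (mean_mono_gen hU l (tame_change hU hV _ _ hf)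
    (hf.const_mul (Real.exp (1 * C))) fun v => mul_le_mul_of_nonneg_right (exp_mul_le (hΔ l v)
      (by rw [abs_of_nonneg hx.1]; exact hx.2)) (h0 v)) (Real.exp_pos _).le) ?_
  rw [mean_const_mul_gen, ← mul_assoc, ← Real.exp_add]
  refine mul_le_mul_of_nonneg_right (Real.exp_le_exp.2 (by nlinarith [mul_le_mul_of_nonneg_left hx.2 hC0])) ?_
  have h := mean_mono_gen (Nn := Nn) hU l (tame_const 0) hf h0
  have h' := mean_const_mul_gen (Nn := Nn) U 0 l f
  simp only [zero_mul] at h'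
  rwa [h'] at h

end Vale.Agent.P166.Parisi
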