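import Vale.Agent.P166.Parisi.Sys

/-!
Module T: comparison of recursions for general leaf functions; rotation of a frame into the first
coordinates.
-/

set_option linter.unusedSectionVars false

namespace Vale.Agent.P166.Parisi

open MeasureTheory ProbabilityTheory Finset Matrix
open Vale.Agent.P157 Vale.Agent.P157.Parisi

variable {ι : Type} [Fintype ι] {Nn : Nest ι}

namespace Tilt

/-- Linear growth in the sense of the calculus module. -/
abbrev Lin (U : (ι → ℝ) → ℝ) : Prop := Vale.Agent.P157.Parisi.LinGrowth U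

/-! ### Semi-bounded functions -/

lemma semi_bound {U : (ι → ℝ) → ℝ} (hU : Semi U) :
    ∃ C : ℝ, 0 ≤ C ∧ ∀ y, U y ≤ C * (1 + l1 y) ∧ -(C * (1 + ∑ i, y i ^ 2)) ≤ U y := by
  obtain ⟨-, C, h⟩ := hU
  refine ⟨max C 0, le_max_right _ _, fun y => ⟨(h y).1.trans ?_, le_trans ?_ (h y).2⟩⟩
  · exact mul_le_mul_of_nonneg_right (le_max_left _ _) (add_nonneg zero_le_one (l1_nonneg y))
  · exact neg_le_neg (mul_le_mul_of_nonneg_right (le_max_left _ _)
      (add_nonneg zero_le_one (sum_nonneg fun _ _ => sq_nonneg _)))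

lemma sq_sum_le_exp (y : ι → ℝ) : 1 + ∑ i, y i ^ 2 ≤ 3 * Real.exp (l1 y) := by
  have h0 := l1_nonneg y
  have h1 : ∑ i, y i ^ 2 ≤ l1 y ^ 2 := by
    simp only [l1, ← sq_abs (y _)]
    exact sum_sq_le_sq_sum_of_nonneg fun i _ => abs_nonneg _
  have h2 := Real.quadratic_le_exp_of_nonneg h0
  have h3 := Real.one_le_exp h0
  nlinarith

lemma semi_tame {U : (ι → ℝ) → ℝ} (hU : Semi U) : Tame U := by
  obtain ⟨C, hC, h⟩ := semi_bound hU
  refine tame_of_bound hU.1 (C := 3 * C) (k := 1) fun y => ?_
  rw [one_mul]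
  have h0 := l1_nonneg y
  have h1 : C * (1 + l1 y) ≤ C * Real.exp (l1 y) :=
    mul_le_mul_of_nonneg_left (by linarith [Real.add_one_le_exp (l1 y)]) hC
  have h2 := mul_le_mul_of_nonneg_left (sq_sum_le_exp y) hC
  have h3 := mul_nonneg hC (Real.exp_pos (l1 y)).le
  exact abs_le.2 ⟨by linarith [(h y).2], by linarith [(h y).1]⟩

lemma semi_exp_tame {U : (ι → ℝ) → ℝ} (hU : Semi U) {m : ℝ} (hm : 0 ≤ m) :
    Tame fun y => Real.exp (m * U y) := by
  obtain ⟨C, -, h⟩ := semi_bound hU
  refine tame_of_bound (Real.continuous_exp.comp (continuous_const.mul hU.1))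
    (C := Real.exp (m * C)) (k := m * C) fun y => ?_
  rw [abs_of_pos (Real.exp_pos _), ← Real.exp_add]
  exact Real.exp_le_exp.2 ((mul_le_mul_of_nonneg_left (h y).1 hm).trans_eq (by ring))

lemma semiDen_pos {U : (ι → ℝ) → ℝ} (hU : Semi U) {m : ℝ} (hm : 0 ≤ m) (s y : ι → ℝ) :
    0 < ∫ z, Real.exp (m * U (move s y z)) ∂gauss ι :=
  integral_exp_pos ((semi_exp_tame hU hm).comp_move s y).integrable

lemma semi_of_lin {U : (ι → ℝ) → ℝ} (hU : Lin U) : Semi U := by
  obtain ⟨hc, C, k, hC, hk, h⟩ := hU
  refine ⟨hc, C + k + k * Fintype.card ι, fun y => ?_⟩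
  have h0 := l1_nonneg y
  have h2 : (0:ℝ) ≤ k * Fintype.card ι := by positivity
  have hs : 0 ≤ ∑ i, y i ^ 2 := sum_nonneg fun _ _ => sq_nonneg _
  have h1 : l1 y ≤ (Fintype.card ι : ℝ) + ∑ i, y i ^ 2 := by
    calc l1 y ≤ ∑ i : ι, (1 + y i ^ 2) :=
          sum_le_sum fun i _ => by nlinarith [sq_abs (y i), sq_nonneg (|y i| - 1)]
      _ = _ := by rw [sum_add_distrib]; simp
  have h3 := abs_le.1 (h y)
  refine ⟨?_, ?_⟩
  · change _ ≤ _ * (1 + l1 y)
    nlinarith
  · nlinarith [mul_le_mul_of_nonneg_left h1 hk]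

lemma semi_add_const {U : (ι → ℝ) → ℝ} (hU : Semi U) (c : ℝ) : Semi fun y => U y + c := by
  obtain ⟨C, hC, h⟩ := semi_bound hU
  refine ⟨hU.1.add continuous_const, C + |c|, fun y => ?_⟩
  have h0 := l1_nonneg y
  have hs : 0 ≤ ∑ i, y i ^ 2 := sum_nonneg fun _ _ => sq_nonneg _
  have := le_abs_self c
  have := neg_abs_le c
  have := abs_nonneg c
  refine ⟨?_, ?_⟩
  · change _ ≤ _ * (1 + l1 y)
    nlinarith [(h y).1]
  · nlinarith [(h y).2]

/-- Jensen's inequality for a tilted Gaussian average. -/
lemma jensen_low {f g : (ι → ℝ) → ℝ} (hf : Tame fun y => Real.exp (f y))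
    (hg : Tame fun y => Real.exp (g y)) (hfg : Tame fun y => Real.exp (f y) * (g y - f y)) :
    (∫ z, Real.exp (f z) * (g z - f z) ∂gauss ι) / (∫ z, Real.exp (f z) ∂gauss ι) ≤
      Real.log (∫ z, Real.exp (g z) ∂gauss ι) - Real.log (∫ z, Real.exp (f z) ∂gauss ι) := by
  have hZ := integral_exp_pos hf.integrable
  have hZg := integral_exp_pos hg.integrable
  set Z := ∫ z, Real.exp (f z) ∂gauss ι
  set a := (∫ z, Real.exp (f z) * (g z - f z) ∂gauss ι) / Z with ha
  have key : Real.exp a * Z ≤ ∫ z, Real.exp (g z) ∂gauss ι := by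
    calc Real.exp a * Z
        = ∫ z, Real.exp a * (Real.exp (f z) * (g z - f z) + (1 - a) * Real.exp (f z)) ∂gauss ι := by
          rw [integral_const_mul, integral_add hfg.integrable (hf.integrable.const_mul _),
            integral_const_mul, ha]
          field_simp
          ring
      _ ≤ _ := by
          refine integral_mono ((hfg.integrable.add (hf.integrable.const_mul _)).const_mul _)
            hg.integrable fun z => ?_
          have h := mul_le_mul_of_nonneg_left (Real.add_one_le_exp (g z - f z - a))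
            (mul_pos (Real.exp_pos a) (Real.exp_pos (f z))).le
          rw [← Real.exp_add, ← Real.exp_add, show a + f z + (g z - f z - a) = g z by ring,
            Real.exp_add] at h
          linarith
  have := Real.log_le_log (mul_pos (Real.exp_pos a) hZ) key
  rw [Real.log_mul (Real.exp_ne_zero _) hZ.ne', Real.log_exp] at this
  linarith

/-! ### One step -/

section step

variable {U V : (ι → ℝ) → ℝ} {m : ℝ} (s : ι → ℝ)

lemma semi_stepLog (hU : Semi U) (hm : 0 < m) : Semi (stepLog m s U) := by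
  obtain ⟨C, hC, h⟩ := semi_bound hU
  have hE := semi_exp_tame hU hm.le
  refine ⟨continuous_const.mul ((continuous_gauss_integral hE s).log
    fun y => (semiDen_pos hU hm.le s y).ne'), ?_⟩
  set I := ∫ z, Real.exp (m * C * l1 s * l1 z) ∂gauss ι with hI
  have hI0 : 0 < I := integral_exp_pos (integrable_exp_l1 _)
  have hQ : Tame fun z : ι → ℝ => ∑ i, (s i * z i) ^ 2 :=
    tame_sum _ fun i _ => ((tame_coord i).const_mul _).sq
  set Q := ∫ z, ∑ i, (s i * z i) ^ 2 ∂gauss ι with hQdef
  have hQ0 : 0 ≤ Q := integral_nonneg fun z => sum_nonneg fun _ _ => sq_nonneg _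
  refine ⟨2 * C + |m⁻¹ * Real.log I| + 2 * C * Q, fun y => ?_⟩
  have h0 := l1_nonneg y
  have hs0 : 0 ≤ ∑ i, y i ^ 2 := sum_nonneg fun _ _ => sq_nonneg _
  have hCQ : 0 ≤ C * Q := mul_nonneg hC hQ0
  have hab := abs_nonneg (m⁻¹ * Real.log I)
  refine ⟨?_, ?_⟩
  · change _ ≤ _ * (1 + l1 y)
    have hle : ∫ z, Real.exp (m * U (move s y z)) ∂gauss ι
        ≤ Real.exp (m * C * (1 + l1 y)) * I := by
      rw [hI, ← integral_const_mul]
      refine integral_mono (hE.comp_move s y).integrable ((integrable_exp_l1 _).const_mul _)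
        fun z => ?_
      rw [← Real.exp_add]
      refine Real.exp_le_exp.2 ((mul_le_mul_of_nonneg_left (h _).1 hm.le).trans ?_)
      have := mul_le_mul_of_nonneg_left (l1_move_le s y z) (mul_nonneg hm.le hC)
      linarith
    have hl := mul_le_mul_of_nonneg_left (Real.log_le_log (semiDen_pos hU hm.le s y) hle)
      (inv_nonneg.2 hm.le)
    rw [Real.log_mul (Real.exp_ne_zero _) hI0.ne', Real.log_exp, mul_add, ← mul_assoc,
      ← mul_assoc, inv_mul_cancel₀ hm.ne', one_mul] at hl
    refine hl.trans ?_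
    have := le_abs_self (m⁻¹ * Real.log I)
    nlinarith [mul_nonneg hC h0, mul_nonneg hCQ h0, mul_nonneg hab h0]
  · have hJ := jensen_low (f := fun _ : ι → ℝ => (0:ℝ)) (g := fun z => m * U (move s y z))
      (by simpa using tame_const (ι := ι) 1) (hE.comp_move s y)
      (by simpa using ((semi_tame hU).comp_move s y).const_mul m)
    simp only [Real.exp_zero, one_mul, sub_zero, integral_const, probReal_univ, smul_eq_mul,
      mul_one, div_one, Real.log_one, integral_const_mul] at hJ
    have hl := mul_le_mul_of_nonneg_left hJ (inv_nonneg.2 hm.le)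
    rw [← mul_assoc, inv_mul_cancel₀ hm.ne', one_mul] at hl
    refine le_trans ?_ hl
    have hi : ∫ z, -(C * (1 + 2 * ∑ i, y i ^ 2 + 2 * ∑ i, (s i * z i) ^ 2)) ∂gauss ι
        ≤ ∫ z, U (move s y z) ∂gauss ι := by
      refine integral_mono ((((integrable_const _).add (hQ.integrable.const_mul 2)).const_mul C).neg)
        ((semi_tame hU).comp_move s y).integrable fun z => le_trans ?_ (h _).2
      refine neg_le_neg (mul_le_mul_of_nonneg_left ?_ hC)
      have : ∑ i, move s y z i ^ 2 ≤ 2 * ∑ i, y i ^ 2 + 2 * ∑ i, (s i * z i) ^ 2 := by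
        rw [mul_sum, mul_sum, ← sum_add_distrib]
        exact sum_le_sum fun i _ => by simp only [move]; nlinarith [sq_nonneg (y i - s i * z i)]
      linarith
    refine le_trans ?_ hi
    rw [integral_neg, integral_const_mul, integral_add (integrable_const _)
      (hQ.integrable.const_mul 2), integral_const, integral_const_mul, probReal_univ, one_smul,
      ← hQdef]
    nlinarith [mul_nonneg hC hs0, mul_nonneg hCQ hs0, mul_nonneg hab hs0]

lemma stepLog_zero (hm : m ≠ 0) (hs : ∀ i, s i = 0) (U : (ι → ℝ) → ℝ) : stepLog m s U = U := by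
  funext y
  have : ∀ z, move s y z = y := fun z => funext fun i => by simp [move, hs i]
  simp [stepLog, this, hm]

lemma stepLog_mono' (hU : Semi U) (hV : Semi V) (hm : 0 < m) (h : ∀ w, U w ≤ V w) (y : ι → ℝ) :
    stepLog m s U y ≤ stepLog m s V y :=
  mul_le_mul_of_nonneg_left (Real.log_le_log (semiDen_pos hU hm.le s y)
    (integral_mono ((semi_exp_tame hU hm.le).comp_move s y).integrable
      ((semi_exp_tame hV hm.le).comp_move s y).integrable fun _ =>
      Real.exp_le_exp.2 (mul_le_mul_of_nonneg_left (h _) hm.le))) (inv_nonneg.2 hm.le)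

lemma stepLog_add_const (hU : Semi U) (hm : 0 < m) (c : ℝ) (y : ι → ℝ) :
    stepLog m s (fun v => U v + c) y = stepLog m s U y + c := by
  simp only [stepLog, mul_add m, Real.exp_add, integral_mul_const]
  rw [Real.log_mul (semiDen_pos hU hm.le s y).ne' (Real.exp_ne_zero _), Real.log_exp]
  field_simp

/-- One step of the linearisation from below. -/
lemma step_low (hU : Lin U) (hV : Semi V) (hm : 0 < m) {h : (ι → ℝ) → ℝ} (hh : Tame h)
    (hle : ∀ w, U w + h w ≤ V w) (y : ι → ℝ) :
    stepLog m s U y + stepAvg m s U h y ≤ stepLog m s V y := by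
  have hD := ((hU.exp_tame m).mul ((semi_tame hV).sub hU.tame)).const_mul m
  have hJ := jensen_low (f := fun z => m * U (move s y z)) (g := fun z => m * V (move s y z))
    ((hU.exp_tame m).comp_move s y) ((semi_exp_tame hV hm.le).comp_move s y)
    (by
      have := hD.comp_move s y
      convert this using 2 with z
      ring)
  have e : (∫ z, Real.exp (m * U (move s y z)) *
        (m * V (move s y z) - m * U (move s y z)) ∂gauss ι) /
      (∫ z, Real.exp (m * U (move s y z)) ∂gauss ι) =
      m * stepAvg m s U (fun w => V w - U w) y := by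
    simp only [stepAvg, tilt, ← mul_div_assoc, ← integral_const_mul]
    congr 1
    exact integral_congr_ae (.of_forall fun z => by ring)
  rw [e] at hJ
  have hmono := stepAvg_mono hU m s hh ((semi_tame hV).sub hU.tame)
    (fun w => by linarith [hle w]) y
  have := mul_le_mul_of_nonneg_left hJ (inv_nonneg.2 hm.le)
  rw [← mul_assoc, inv_mul_cancel₀ hm.ne', one_mul, mul_sub] at this
  simp only [stepLog]
  linarith

lemma stepAvg_pos (hU : Lin U) {g : (ι → ℝ) → ℝ} (hg : Tame g) (hpos : ∀ w, 0 < g w)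
    (y : ι → ℝ) : 0 < stepAvg m s U g y := by
  refine div_pos ?_ (stepDen_pos hU m s y)
  have hi := (((hU.exp_tame m).mul hg).comp_move s y).integrable
  have hp : ∀ z, 0 < Real.exp (m * U (move s y z)) * g (move s y z) :=
    fun z => mul_pos (Real.exp_pos _) (hpos _)
  rw [integral_pos_iff_support_of_nonneg (fun z => (hp z).le) hi,
    show Function.support (fun z => Real.exp (m * U (move s y z)) * g (move s y z)) = Set.univ from
      Set.eq_univ_of_forall fun z => (hp z).ne', measure_univ]
  exact one_pos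

/-- One step of the annealed bound from above. -/
lemma step_up (hU : Lin U) (hV : Semi V) (hm : 0 < m) (hm1 : m ≤ 1) {g : (ι → ℝ) → ℝ}
    (hg : Tame g) (hpos : ∀ w, 0 < g w) (hle : ∀ w, V w ≤ U w + Real.log (g w)) (y : ι → ℝ) :
    stepLog m s V y ≤ stepLog m s U y + Real.log (stepAvg m s U g y) := by
  have ha := stepAvg_pos s hU hg hpos (m := m) y
  set a := stepAvg m s U g y with hadef
  have hZ := stepDen_pos hU m s y
  have i1 := integrable_exp_move hU m s y
  have i2 := (((hU.exp_tame m).mul hg).comp_move s y).integrable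
  have key : ∫ z, Real.exp (m * V (move s y z)) ∂gauss ι
      ≤ a ^ m * ∫ z, Real.exp (m * U (move s y z)) ∂gauss ι := by
    calc ∫ z, Real.exp (m * V (move s y z)) ∂gauss ι
        ≤ ∫ z, a ^ m * ((1 - m) * Real.exp (m * U (move s y z)) +
            m / a * (Real.exp (m * U (move s y z)) * g (move s y z))) ∂gauss ι := by
          refine integral_mono ((semi_exp_tame hV hm.le).comp_move s y).integrable
            (((i1.const_mul _).add (i2.const_mul _)).const_mul _) fun z => ?_
          set w := move s y z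
          have hgw := hpos w
          calc Real.exp (m * V w) ≤ Real.exp (m * (U w + Real.log (g w))) :=
                Real.exp_le_exp.2 (mul_le_mul_of_nonneg_left (hle w) hm.le)
            _ = Real.exp (m * U w) * (a ^ m * (1 + (g w / a - 1)) ^ m) := by
                rw [← Real.mul_rpow ha.le (by rw [add_sub_cancel]; positivity), add_sub_cancel,
                  mul_div_cancel₀ _ ha.ne', Real.rpow_def_of_pos hgw, ← Real.exp_add]
                ring_nf
            _ ≤ Real.exp (m * U w) * (a ^ m * (1 + m * (g w / a - 1))) := by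
                refine mul_le_mul_of_nonneg_left (mul_le_mul_of_nonneg_left ?_ (by positivity))
                  (Real.exp_pos _).le
                exact rpow_one_add_le_one_add_mul_self
                  (by linarith [div_pos hgw ha]) hm.le hm1
            _ = _ := by ring
      _ = a ^ m * ∫ z, Real.exp (m * U (move s y z)) ∂gauss ι := by
          rw [integral_const_mul, integral_add (i1.const_mul _) (i2.const_mul _),
            integral_const_mul, integral_const_mul]
          congr 1
          have e : ∫ z, Real.exp (m * U (move s y z)) * g (move s y z) ∂gauss ι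
              = a * ∫ z, Real.exp (m * U (move s y z)) ∂gauss ι := by
            rw [hadef]
            simp only [stepAvg, tilt]
            field_simp
          rw [e, ← mul_assoc, div_mul_cancel₀ _ ha.ne']
          ring
  have := mul_le_mul_of_nonneg_left (Real.log_le_log (semiDen_pos hV hm.le s y) key)
    (inv_nonneg.2 hm.le)
  rw [Real.log_mul (Real.rpow_pos_of_pos ha m).ne' hZ.ne', Real.log_rpow ha, mul_add,
    ← mul_assoc, inv_mul_cancel₀ hm.ne', one_mul] at this
  simp only [stepLog]
  linarith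

/-- One step for three leaves: Minkowski's inequality in `L^(x/m)`. -/
lemma step_split {W : (ι → ℝ) → ℝ} {x : ℝ} (hU : Semi U) (hV : Semi V) (hW : Semi W)
    (hm : 0 < m) (hmx : m ≤ x)
    (h : ∀ w, Real.exp (m * U w) ≤ Real.exp (m * V w) + Real.exp (m * W w)) (y : ι → ℝ) :
    Real.exp (m * stepLog x s U y) ≤
      Real.exp (m * stepLog x s V y) + Real.exp (m * stepLog x s W y) := by
  have hx : 0 < x := hm.trans_le hmx
  set p := x / m with hp
  have hp1 : 1 ≤ p := (one_le_div hm).2 hmx
  have hp0 : 0 < p := lt_of_lt_of_le one_pos hp1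
  have hmp : m * p = x := by rw [hp]; field_simp
  have hexp : ∀ t : ℝ, Real.exp (m * t) ^ p = Real.exp (x * t) := fun t => by
    rw [← Real.exp_mul, ← hmp]; ring_nf
  have hZ : ∀ {T : (ι → ℝ) → ℝ}, Semi T →
      Real.exp (x * stepLog x s T y) = ∫ z, Real.exp (x * T (move s y z)) ∂gauss ι := by
    intro T hT
    rw [stepLog, ← mul_assoc, mul_inv_cancel₀ hx.ne', one_mul,
      Real.exp_log (semiDen_pos hT hx.le s y)]
  set A := Real.exp (m * stepLog x s V y)
  set B := Real.exp (m * stepLog x s W y)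
  have hA : 0 < A := Real.exp_pos _
  have hB : 0 < B := Real.exp_pos _
  refine (Real.rpow_le_rpow_iff (Real.exp_pos _).le (by positivity) hp0).1 ?_
  rw [hexp, hZ hU]
  have iV := ((semi_exp_tame hV hx.le).comp_move s y).integrable
  have iW := ((semi_exp_tame hW hx.le).comp_move s y).integrable
  calc ∫ z, Real.exp (x * U (move s y z)) ∂gauss ι
      ≤ ∫ z, (A + B) ^ p * (A / (A + B) * (Real.exp (x * V (move s y z)) / A ^ p) +
          B / (A + B) * (Real.exp (x * W (move s y z)) / B ^ p)) ∂gauss ι := by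
        refine integral_mono ((semi_exp_tame hU hx.le).comp_move s y).integrable
          ((((iV.div_const _).const_mul _).add ((iW.div_const _).const_mul _)).const_mul _)
          fun z => ?_
        set w := move s y z
        set F := Real.exp (m * V w)
        set G := Real.exp (m * W w)
        have hF : 0 < F := Real.exp_pos _
        have hG : 0 < G := Real.exp_pos _
        calc Real.exp (x * U w) = Real.exp (m * U w) ^ p := (hexp _).symm
          _ ≤ (F + G) ^ p := Real.rpow_le_rpow (Real.exp_pos _).le (h w) hp0.le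
          _ = (A + B) ^ p * (A / (A + B) * (F / A) + B / (A + B) * (G / B)) ^ p := by
              rw [← Real.mul_rpow (by positivity) (by positivity)]
              congr 1
              field_simp
          _ ≤ (A + B) ^ p * (A / (A + B) * (F / A) ^ p + B / (A + B) * (G / B) ^ p) := by
              refine mul_le_mul_of_nonneg_left ?_ (by positivity)
              exact (convexOn_rpow hp1).2 (x := F / A) (y := G / B) (by simp; positivity)
                (by simp; positivity) (by positivity) (by positivity) (by field_simp)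
          _ = _ := by
              rw [Real.div_rpow hF.le hA.le, Real.div_rpow hG.le hB.le, hexp (V w), hexp (W w)]
    _ = (A + B) ^ p := by
        rw [integral_const_mul, integral_add ((iV.div_const _).const_mul _)
          ((iW.div_const _).const_mul _), integral_const_mul, integral_const_mul, integral_div,
          integral_div, ← hZ hV, ← hZ hW, hexp, hexp, div_self (Real.exp_ne_zero _),
          div_self (Real.exp_ne_zero _), mul_one, mul_one, ← add_div, div_self (by positivity),
          mul_one]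

end step

/-! ### The whole recursion -/

variable (hN : Nn.Good)
include hN

lemma x_pos' {l : ℕ} (hl : l < Nn.K) : 0 < Nn.x (l + 1) := hN.x_pos _ (by omega) (by omega)

lemma x_le' {l : ℕ} (hl : l ≤ Nn.K + 1) : Nn.x l ≤ 1 := by
  induction hl using Nat.decreasingInduction with
  | self => exact hN.x_last.le
  | of_succ l hl ih => exact (hN.x_mono l (by omega)).trans ih

lemma semi_u' {U : (ι → ℝ) → ℝ} (hU : Semi U) {l : ℕ} (hl : l ≤ Nn.K) : Semi (Nn.u U l) := by
  induction hl using Nat.decreasingInduction with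
  | self => rw [u_top le_rfl]; exact hU
  | of_succ l hl ih => rw [u_succ hl]; exact semi_stepLog _ ih (x_pos' hN hl)

lemma lin_u {U : (ι → ℝ) → ℝ} (hU : Lin U) {l : ℕ} (hl : l ≤ Nn.K) : Lin (Nn.u U l) := by
  induction hl using Nat.decreasingInduction with
  | self => rw [u_top le_rfl]; exact hU
  | of_succ l hl ih => rw [u_succ hl]; exact linGrowth_stepLog ih _ _

lemma u_mono' {U V : (ι → ℝ) → ℝ} (hU : Semi U) (hV : Semi V) (h : ∀ y, U y ≤ V y) {l : ℕ}
    (hl : l ≤ Nn.K) (y : ι → ℝ) : Nn.u U l y ≤ Nn.u V l y := by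
  induction hl using Nat.decreasingInduction generalizing y with
  | self => rw [u_top le_rfl, u_top le_rfl]; exact h y
  | of_succ l hl ih =>
    rw [u_succ hl, u_succ hl]
    exact stepLog_mono' _ (semi_u' hN hU hl) (semi_u' hN hV hl) (x_pos' hN hl) ih y

lemma u_add_const {U : (ι → ℝ) → ℝ} (hU : Semi U) (c : ℝ) {l : ℕ} (hl : l ≤ Nn.K) :
    Nn.u (fun y => U y + c) l = fun y => Nn.u U l y + c := by
  induction hl using Nat.decreasingInduction with
  | self => rw [u_top le_rfl, u_top le_rfl]
  | of_succ l hl ih =>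
    rw [u_succ hl, u_succ hl, ih]
    exact funext fun y => stepLog_add_const _ (semi_u' hN hU hl) (x_pos' hN hl) c y

lemma down_tame {U f : (ι → ℝ) → ℝ} (hU : Lin U) (hf : Tame f) {l : ℕ} (hl : l ≤ Nn.K) :
    Tame (Nn.down U l f) := by
  induction hl using Nat.decreasingInduction with
  | self => rw [down_top le_rfl]; exact hf
  | of_succ l hl ih =>
    rw [down_succ hl, avg_eq_stepAvg]
    exact tame_stepAvg (lin_u hN hU hl) _ _ ih

lemma down_affine {U f : (ι → ℝ) → ℝ} (hU : Lin U) (hf : Tame f) (a b : ℝ) {l : ℕ}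
    (hl : l ≤ Nn.K) :
    Nn.down U l (fun y => a + b * f y) = fun y => a + b * Nn.down U l f y := by
  induction hl using Nat.decreasingInduction with
  | self => simp [down_top le_rfl]
  | of_succ l hl ih =>
    rw [down_succ hl, down_succ hl, ih, avg_eq_stepAvg, avg_eq_stepAvg]
    funext y
    rw [stepAvg_add (lin_u hN hU hl) _ _ (tame_const a) ((down_tame hN hU hf hl).const_mul b),
      stepAvg_const (lin_u hN hU hl), stepAvg_const_mul]

lemma down_pos {U g : (ι → ℝ) → ℝ} (hU : Lin U) (hg : Tame g) (hpos : ∀ y, 0 < g y) {l : ℕ}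
    (hl : l ≤ Nn.K) (y : ι → ℝ) : 0 < Nn.down U l g y := by
  induction hl using Nat.decreasingInduction generalizing y with
  | self => rw [down_top le_rfl]; exact hpos y
  | of_succ l hl ih =>
    rw [down_succ hl, avg_eq_stepAvg]
    exact stepAvg_pos _ (lin_u hN hU hl) (down_tame hN hU hg hl) ih y

/-- Linearisation from below along the recursion. -/
lemma u_low {U V h : (ι → ℝ) → ℝ} (hU : Lin U) (hV : Semi V) (hh : Tame h)
    (hle : ∀ y, U y + h y ≤ V y) {l : ℕ} (hl : l ≤ Nn.K) (y : ι → ℝ) :
    Nn.u U l y + Nn.down U l h y ≤ Nn.u V l y := by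
  induction hl using Nat.decreasingInduction generalizing y with
  | self => rw [u_top le_rfl, u_top le_rfl, down_top le_rfl]; exact hle y
  | of_succ l hl ih =>
    rw [u_succ hl, u_succ hl, down_succ hl, avg_eq_stepAvg]
    exact step_low _ (lin_u hN hU hl) (semi_u' hN hV hl) (x_pos' hN hl)
      (down_tame hN hU hh hl) ih y

/-- The annealed bound along the recursion. -/
lemma u_up {U V g : (ι → ℝ) → ℝ} (hU : Lin U) (hV : Semi V) (hg : Tame g) (hpos : ∀ y, 0 < g y)
    (hle : ∀ y, V y ≤ U y + Real.log (g y)) {l : ℕ} (hl : l ≤ Nn.K) (y : ι → ℝ) :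
    Nn.u V l y ≤ Nn.u U l y + Real.log (Nn.down U l g y) := by
  induction hl using Nat.decreasingInduction generalizing y with
  | self => rw [u_top le_rfl, u_top le_rfl, down_top le_rfl]; exact hle y
  | of_succ l hl ih =>
    rw [u_succ hl, u_succ hl, down_succ hl, avg_eq_stepAvg]
    exact step_up _ (lin_u hN hU hl) (semi_u' hN hV hl) (x_pos' hN hl) (x_le' hN (by omega))
      (down_tame hN hU hg hl) (down_pos hN hU hg hpos hl) ih y

/-- The splitting along the recursion. -/
lemma u_split {m : ℝ} (hm : 0 < m)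
    (hsupp : ∀ l, 1 ≤ l → l ≤ Nn.K → (∃ i, Nn.amp l i ≠ 0) → m ≤ Nn.x l)
    {A B V : (ι → ℝ) → ℝ} (hA : Semi A) (hB : Semi B) (hV : Semi V)
    (h : ∀ y, Real.exp (m * A y) ≤ Real.exp (m * B y) + Real.exp (m * V y)) {l : ℕ}
    (hl : l ≤ Nn.K) (y : ι → ℝ) :
    Real.exp (m * Nn.u A l y) ≤ Real.exp (m * Nn.u B l y) + Real.exp (m * Nn.u V l y) := by
  induction hl using Nat.decreasingInduction generalizing y with
  | self => rw [u_top le_rfl, u_top le_rfl, u_top le_rfl]; exact h y
  | of_succ l hl ih =>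
    rw [u_succ hl, u_succ hl, u_succ hl]
    by_cases hz : ∃ i, Nn.amp (l + 1) i ≠ 0
    · exact step_split _ (semi_u' hN hA hl) (semi_u' hN hB hl) (semi_u' hN hV hl) hm
        (hsupp _ (by omega) hl hz) ih y
    · push Not at hz
      have hx := (x_pos' hN hl).ne'
      rw [stepLog_zero _ hx hz, stepLog_zero _ hx hz, stepLog_zero _ hx hz]
      exact ih y

omit hN in
lemma integrable_amp (Nn : Nest ι) {f : (ι → ℝ) → ℝ} (hf : Tame f) :
    Integrable (fun z => f fun i => Nn.amp 0 i * z i) (gauss ι) := by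
  convert (hf.comp_move (Nn.amp 0) 0).integrable using 3 with z
  funext i
  simp [move]

end Tilt

open Vale.Agent.P166.Parisi.Tilt

theorem semi_u (hN : Nn.Good) {U : (ι → ℝ) → ℝ} (hU : Semi U) {l : ℕ} (hl : l ≤ Nn.K) :
    Semi (Nn.u U l) := semi_u' hN hU hl

theorem root_mono (hN : Nn.Good) {U V : (ι → ℝ) → ℝ} (hU : Semi U) (hV : Semi V)
    (h : ∀ y, U y ≤ V y) : Nn.root U ≤ Nn.root V :=
  integral_mono (integrable_amp Nn (semi_tame (semi_u' hN hU (Nat.zero_le _))))
    (integrable_amp Nn (semi_tame (semi_u' hN hV (Nat.zero_le _))))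
    fun _ => u_mono' hN hU hV h (Nat.zero_le _) _

theorem root_add_const (hN : Nn.Good) {U : (ι → ℝ) → ℝ} (hU : Semi U) (c : ℝ) :
    Nn.root (fun y => U y + c) = Nn.root U + c := by
  simp only [Nest.root, Nest.mean, u_add_const hN hU c (Nat.zero_le _)]
  rw [integral_add (integrable_amp Nn (semi_tame (semi_u' hN hU (Nat.zero_le _))))
    (integrable_const c)]
  simp

theorem free_eq_root {Ω κ : Type} [Fintype κ] [MeasurableSpace Ω] (L : Leaf Ω κ ι)
    (μ : Measure Ω) : Nn.free L μ = Nn.root (L.logZ μ) := rfl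

/-- Linearisation from below and the annealed bound from above of an added term. -/
theorem root_add_bounds (hN : Nn.Good) {U h : (ι → ℝ) → ℝ} (hU : LinGrowth U)
    (hUh : Semi fun y => U y + h y) (hh : Continuous h) (he : Tame fun y => Real.exp (h y))
    (hht : Tame h) :
    Nn.root U + Nn.mean U 0 (Nn.down U 0 h) ≤ Nn.root (fun y => U y + h y) ∧
      Nn.root (fun y => U y + h y) ≤
        Nn.root U + Real.log (Nn.mean U 0 (Nn.down U 0 fun y => Real.exp (h y))) := by
  have hl : Lin U := hU
  have i0 := integrable_amp Nn (lin_u hN hl (Nat.zero_le _)).tame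
  have i1 := integrable_amp Nn (semi_tame (semi_u' hN hUh (Nat.zero_le _)))
  have i2 := integrable_amp Nn (down_tame hN hl hht (Nat.zero_le _))
  have i3 := integrable_amp Nn (down_tame hN hl he (Nat.zero_le _))
  constructor
  · simp only [Nest.root, Nest.mean]
    rw [← integral_add i0 i2]
    exact integral_mono (i0.add i2) i1
      fun z => u_low hN hl hUh hht (fun _ => le_rfl) (Nat.zero_le _) _
  · simp only [Nest.root, Nest.mean]
    have hd : ∀ y, 0 < Nn.down U 0 (fun y => Real.exp (h y)) y :=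
      down_pos hN hl he (fun _ => Real.exp_pos _) (Nat.zero_le _)
    have ha : 0 < ∫ z, Nn.down U 0 (fun y => Real.exp (h y)) (fun i => Nn.amp 0 i * z i)
        ∂gauss ι := by
      rw [integral_pos_iff_support_of_nonneg (fun z => (hd _).le) i3,
        show Function.support (fun z : ι → ℝ =>
          Nn.down U 0 (fun y => Real.exp (h y)) fun i => Nn.amp 0 i * z i) = Set.univ from
          Set.eq_univ_of_forall fun z => (hd _).ne', measure_univ]
      exact one_pos
    set a := ∫ z, Nn.down U 0 (fun y => Real.exp (h y)) (fun i => Nn.amp 0 i * z i) ∂gauss ι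
      with hadef
    calc ∫ z, Nn.u (fun y => U y + h y) 0 (fun i => Nn.amp 0 i * z i) ∂gauss ι
        ≤ ∫ z, Nn.u U 0 (fun i => Nn.amp 0 i * z i) + ((Real.log a - 1) + a⁻¹ *
            Nn.down U 0 (fun y => Real.exp (h y)) (fun i => Nn.amp 0 i * z i)) ∂gauss ι := by
          refine integral_mono i1 (i0.add ((integrable_const _).add (i3.const_mul _))) fun z => ?_
          refine (u_up hN hl hUh he (fun _ => Real.exp_pos _) (fun y => by rw [Real.log_exp])
            (Nat.zero_le _) _).trans (add_le_add le_rfl ?_)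
          set b := Nn.down U 0 (fun y => Real.exp (h y)) fun i => Nn.amp 0 i * z i
          have hb : 0 < b := hd _
          have := Real.log_le_sub_one_of_pos (mul_pos (inv_pos.2 ha) hb)
          rw [Real.log_mul (inv_ne_zero ha.ne') hb.ne', Real.log_inv] at this
          linarith
      _ = _ := by
          rw [integral_add i0 ((integrable_const _).fun_add (i3.const_mul _)),
            integral_add (integrable_const _) (i3.const_mul _), integral_const_mul, ← hadef,
            integral_const, probReal_univ, one_smul, inv_mul_cancel₀ ha.ne']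
          ring

namespace Tilt

/-- The pointwise truncation bound at the root. -/
lemma u_trunc (hN : Nn.Good) {m : ℝ} (hm : 0 < m) (hm1 : m ≤ 1)
    (hsupp : ∀ l, 1 ≤ l → l ≤ Nn.K → (∃ i, Nn.amp l i ≠ 0) → m ≤ Nn.x l)
    {U₀ A B W : (ι → ℝ) → ℝ} (hU : Lin U₀) (hA : Semi A) (hB : Semi B) (hW : Tame W)
    (hW0 : ∀ y, 0 ≤ W y) {C e R Lc : ℝ} (hC : 0 ≤ C) (he : 0 ≤ e) (hR : 0 < R) (hL : 1 ≤ Lc)
    (hAu : ∀ y, A y ≤ U₀ y + C) (hBl : ∀ y, U₀ y - C * (1 + W y) ≤ B y)
    (hAB : ∀ y, Real.exp (A y) ≤
      Real.exp (B y + e) + Real.exp (U₀ y + C) * ((1 + W y) / R ^ 2)) (y : ι → ℝ) :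
    Nn.u A 0 y - Nn.u B 0 y ≤ e + Real.exp (C * (2 + Lc)) / m * ((Lc + 1) / R ^ 2) ^ m +
      3 * C / Lc * Nn.down U₀ 0 W y ^ 2 := by
  have hK := Nat.zero_le Nn.K
  set w := Nn.down U₀ 0 W y with hw
  have hgt : ∀ y, 0 < (1 + W y) / R ^ 2 := fun y => div_pos (by linarith [hW0 y]) (by positivity)
  -- the second leaf
  set V := fun y => U₀ y + C + Real.log ((1 + W y) / R ^ 2) with hVdef
  have hV : Lin V := by
    obtain ⟨hc, C₁, k₁, hC₁, hk₁, hb⟩ := id hU
    obtain ⟨D, k₂, hD, hk₂, hd⟩ := hW.bound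
    refine ⟨(hc.add continuous_const).add (((continuous_const.add hW.1).div_const _).log
      fun y => (hgt y).ne'), C₁ + C + Real.log (1 + D) + |Real.log (R ^ 2)|, k₁ + k₂,
      by have := Real.log_nonneg (by linarith : (1:ℝ) ≤ 1 + D); positivity, by positivity,
      fun y => ?_⟩
    have hWy := hW0 y
    have h0 := l1_nonneg y
    have h1 : Real.log (1 + W y) ≤ Real.log (1 + D) + k₂ * l1 y := by
      rw [← Real.log_exp (k₂ * l1 y), ← Real.log_mul (by positivity) (Real.exp_ne_zero _)]
      refine Real.log_le_log (by linarith) ?_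
      have := le_abs_self (W y)
      have := hd y
      have := Real.one_le_exp (mul_nonneg hk₂ h0)
      nlinarith
    have h2 : 0 ≤ Real.log (1 + W y) := Real.log_nonneg (by linarith)
    have h3 := abs_le.1 (hb y)
    have h4 : Real.log ((1 + W y) / R ^ 2) = Real.log (1 + W y) - Real.log (R ^ 2) :=
      Real.log_div (by linarith) (by positivity)
    have := le_abs_self (Real.log (R ^ 2))
    have := neg_abs_le (Real.log (R ^ 2))
    rw [abs_le, hVdef]
    constructor <;> nlinarith
  have hBe := semi_add_const hB e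
  have hsplit : ∀ y, Real.exp (m * A y) ≤
      Real.exp (m * (B y + e)) + Real.exp (m * V y) := by
    intro y
    simp only [mul_comm m, Real.exp_mul]
    refine (Real.rpow_le_rpow (Real.exp_pos _).le ?_ hm.le).trans
      (Real.rpow_add_le_add_rpow (Real.exp_pos _).le (Real.exp_pos _).le hm.le hm1)
    rw [hVdef, Real.exp_add (U₀ y + C), Real.exp_log (hgt y)]
    exact hAB y
  have h1 := u_split hN hm hsupp hA hBe (semi_of_lin hV) hsplit hK y
  rw [u_add_const hN hB e hK] at h1
  have hup : Nn.u A 0 y ≤ Nn.u U₀ 0 y + C := by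
    have := u_up hN hU hA (tame_const (Real.exp C)) (fun _ => Real.exp_pos _)
      (fun y => by rw [Real.log_exp]; exact hAu y) hK y
    have e0 := congrFun (down_affine (Nn := Nn) hN hU hW (Real.exp C) 0 hK) y
    simp only [zero_mul, add_zero] at e0
    rwa [e0, Real.log_exp] at this
  have hlow : Nn.u U₀ 0 y - C * (1 + w) ≤ Nn.u B 0 y := by
    have := u_low hN hU hB ((tame_const (-C)).add (hW.const_mul (-C)))
      (fun y => by linarith [hBl y]) hK y
    rw [down_affine hN hU hW _ _ hK] at this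
    linarith
  have hV2 : Nn.u V 0 y ≤ Nn.u U₀ 0 y + C + Real.log ((1 + w) / R ^ 2) := by
    have ht : Tame fun y => Real.exp C / R ^ 2 + Real.exp C / R ^ 2 * W y :=
      (tame_const _).add (hW.const_mul _)
    have hp : ∀ y, 0 < Real.exp C / R ^ 2 + Real.exp C / R ^ 2 * W y := fun y =>
      add_pos_of_pos_of_nonneg (by positivity) (mul_nonneg (by positivity) (hW0 y))
    have := u_up hN hU (semi_of_lin hV) ht hp (fun y => by
      rw [show Real.exp C / R ^ 2 + Real.exp C / R ^ 2 * W y
          = Real.exp C * ((1 + W y) / R ^ 2) by ring,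
        Real.log_mul (Real.exp_ne_zero _) (hgt y).ne', Real.log_exp]
      simp [hVdef, add_assoc]) hK y
    have hwp := down_pos hN hU ht hp hK y
    rw [down_affine hN hU hW _ _ hK] at this hwp
    beta_reduce at this hwp
    rw [show Real.exp C / R ^ 2 + Real.exp C / R ^ 2 * Nn.down U₀ 0 W y
        = Real.exp C * ((1 + w) / R ^ 2) by rw [hw]; ring] at this hwp
    rw [Real.log_mul (Real.exp_ne_zero _) (pos_of_mul_pos_right hwp (Real.exp_pos _).le).ne',
      Real.log_exp, ← add_assoc] at this
    exact this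
  set δ := ((Lc + 1) / R ^ 2) ^ m with hδ
  have hδ0 : 0 ≤ δ := by positivity
  set E := Real.exp (C * (2 + Lc)) * δ with hE
  have hE0 : 0 ≤ E := by positivity
  have hEm : Real.exp (C * (2 + Lc)) / m * δ = E / m := by rw [hE]; ring
  rw [hEm]
  have hsq : 0 ≤ 3 * C / Lc * w ^ 2 := by positivity
  rcases le_or_gt w Lc with hwL | hwL
  · -- the small values of `w`
    have hwp : 0 < 1 + w := by
      have := down_pos hN hU ((tame_const 1).add (hW.const_mul 1))
        (fun y => by linarith [hW0 y]) hK y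
      rw [down_affine hN hU hW _ _ hK] at this
      beta_reduce at this
      rw [one_mul] at this
      exact this
    have h2 : Real.exp (m * Nn.u V 0 y) ≤ Real.exp (m * Nn.u B 0 y) * E := by
      have h3 : Nn.u V 0 y ≤ Nn.u B 0 y + C * (2 + Lc) + Real.log ((Lc + 1) / R ^ 2) := by
        have := Real.log_le_log (div_pos hwp (by positivity : 0 < R ^ 2))
          ((div_le_div_iff_of_pos_right (by positivity)).2 (by linarith : 1 + w ≤ Lc + 1))
        have := mul_le_mul_of_nonneg_left hwL hC
        linarith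
      rw [hE, hδ, Real.rpow_def_of_pos (by positivity), ← Real.exp_add, ← Real.exp_add]
      refine Real.exp_le_exp.2 ((mul_le_mul_of_nonneg_left h3 hm.le).trans ?_)
      have : m * (C * (2 + Lc)) ≤ C * (2 + Lc) := mul_le_of_le_one_left (by positivity) hm1
      linarith
    have h4 : Real.exp (m * Nn.u A 0 y) ≤ Real.exp (m * (Nn.u B 0 y + e) + E) := by
      refine h1.trans ?_
      rw [Real.exp_add _ E]
      have h5 : Real.exp (m * Nn.u B 0 y) ≤ Real.exp (m * (Nn.u B 0 y + e)) :=
        Real.exp_le_exp.2 (mul_le_mul_of_nonneg_left (by linarith) hm.le)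
      have := mul_le_mul_of_nonneg_left (Real.add_one_le_exp E)
        (Real.exp_pos (m * (Nn.u B 0 y + e))).le
      nlinarith
    have h6 := Real.exp_le_exp.1 h4
    have : Nn.u A 0 y - Nn.u B 0 y - e ≤ E / m := by
      rw [le_div_iff₀ hm]; linarith
    linarith
  · -- the large values of `w`
    have h3 : C * (2 + w) ≤ 3 * C / Lc * w ^ 2 := by
      rw [div_mul_eq_mul_div, le_div_iff₀ (by linarith)]
      have e1 := mul_le_mul_of_nonneg_left hwL.le (mul_nonneg hC (by linarith : (0:ℝ) ≤ w))
      have e2 := mul_nonneg (mul_nonneg hC (by linarith : (0:ℝ) ≤ Lc)) (by linarith : (0:ℝ) ≤ w - 1)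
      linarith
    have : 0 ≤ E / m := by positivity
    linarith

end Tilt

/-- Truncation: two leaves that agree where `W ≤ R²`, both squeezed between `U₀ + C` and
`U₀ - C (1 + W)`, have close roots, uniformly in the number of levels whose parameter is at least
`m`. -/
theorem root_trunc (hN : Nn.Good) {m : ℝ} (hm : 0 < m) (hm1 : m ≤ 1)
    (hsupp : ∀ l, 1 ≤ l → l ≤ Nn.K → (∃ i, Nn.amp l i ≠ 0) → m ≤ Nn.x l)
    {U₀ A B W : (ι → ℝ) → ℝ} (hU₀ : LinGrowth U₀) (hA : Semi A) (hB : Semi B) (hW : Tame W)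
    (hW0 : ∀ y, 0 ≤ W y) {C e R Lc : ℝ} (hC : 0 ≤ C) (he : 0 ≤ e) (hR : 0 < R) (hL : 1 ≤ Lc)
    (hAu : ∀ y, A y ≤ U₀ y + C) (hBu : ∀ y, B y ≤ U₀ y + C)
    (hAl : ∀ y, U₀ y - C * (1 + W y) ≤ A y) (hBl : ∀ y, U₀ y - C * (1 + W y) ≤ B y)
    (hAB : ∀ y, Real.exp (A y) ≤
      Real.exp (B y + e) + Real.exp (U₀ y + C) * ((1 + W y) / R ^ 2))
    (hBA : ∀ y, Real.exp (B y) ≤
      Real.exp (A y + e) + Real.exp (U₀ y + C) * ((1 + W y) / R ^ 2)) :
    |Nn.root A - Nn.root B| ≤ e + Real.exp (C * (2 + Lc)) / m * ((Lc + 1) / R ^ 2) ^ m +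
      6 * C / Lc * Nn.mean U₀ 0 (fun y => Nn.down U₀ 0 W y ^ 2) := by
  have hU : Lin U₀ := hU₀
  have iA := integrable_amp Nn (semi_tame (semi_u' hN hA (Nat.zero_le _)))
  have iB := integrable_amp Nn (semi_tame (semi_u' hN hB (Nat.zero_le _)))
  have iW := integrable_amp Nn ((down_tame hN hU hW (Nat.zero_le _)).sq)
  have p1 := u_trunc hN hm hm1 hsupp hU hA hB hW hW0 hC he hR hL hAu hBl hAB
  have p2 := u_trunc hN hm hm1 hsupp hU hB hA hW hW0 hC he hR hL hBu hAl hBA
  set Kc := e + Real.exp (C * (2 + Lc)) / m * ((Lc + 1) / R ^ 2) ^ m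
  have hI : 0 ≤ 3 * C / Lc *
      ∫ z, Nn.down U₀ 0 W (fun i => Nn.amp 0 i * z i) ^ 2 ∂gauss ι :=
    mul_nonneg (by positivity) (integral_nonneg fun z => sq_nonneg _)
  simp only [Nest.root, Nest.mean]
  rw [← integral_sub iA iB]
  refine (abs_integral_le_integral_abs).trans ?_
  calc _ ≤ ∫ z, (Kc + 3 * C / Lc * Nn.down U₀ 0 W (fun i => Nn.amp 0 i * z i) ^ 2) ∂gauss ι :=
        integral_mono (iA.sub iB).abs ((integrable_const _).add (iW.const_mul _)) fun z =>
          abs_le.2 ⟨by simp only [Pi.sub_apply]; linarith [p2 fun i => Nn.amp 0 i * z i], p1 _⟩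
    _ ≤ _ := by
        rw [integral_add (integrable_const _) (iW.const_mul _), integral_const_mul, integral_const,
          probReal_univ, one_smul, show 6 * C / Lc = 2 * (3 * C / Lc) by ring]
        linarith

namespace Tilt

/-- Two families with equal Gram matrices differ by a linear isometry. -/
lemma exists_isometry_of_gram {E : Type*} [NormedAddCommGroup E] [InnerProductSpace ℝ E]
    [FiniteDimensional ℝ E] {k : ℕ} (a t : Fin k → E)
    (hgram : ∀ c d, inner ℝ (a c) (a d) = inner ℝ (t c) (t d)) :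
    ∃ L : E →ₗᵢ[ℝ] E, ∀ c, L (a c) = t c := by
  let fa := Fintype.linearCombination ℝ a
  let ft := Fintype.linearCombination ℝ t
  have hnorm : ∀ x, ‖ft x‖ = ‖fa x‖ := by
    intro x
    refine (sq_eq_sq₀ (norm_nonneg _) (norm_nonneg _)).1 ?_
    simp only [← real_inner_self_eq_norm_sq, fa, ft, Fintype.linearCombination_apply,
      sum_inner, inner_sum, real_inner_smul_left, real_inner_smul_right, hgram]
  have hker : LinearMap.ker fa ≤ LinearMap.ker ft := fun x hx => by
    rw [LinearMap.mem_ker] at hx ⊢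
    rw [← norm_eq_zero, hnorm, hx, norm_zero]
  let L₀ : LinearMap.range fa →ₗ[ℝ] E :=
    (Submodule.liftQ (LinearMap.ker fa) ft hker).comp fa.quotKerEquivRange.symm.toLinearMap
  have hL₀ : ∀ x, L₀ ⟨fa x, LinearMap.mem_range_self fa x⟩ = ft x := by
    intro x
    have : fa.quotKerEquivRange.symm ⟨fa x, LinearMap.mem_range_self fa x⟩
        = Submodule.Quotient.mk x :=
      (LinearEquiv.symm_apply_eq _).2 (Subtype.ext (fa.quotKerEquivRange_apply_mk x).symm)
    simp only [L₀, LinearMap.comp_apply, LinearEquiv.coe_coe, this, Submodule.liftQ_apply]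
  let L₁ : LinearMap.range fa →ₗᵢ[ℝ] E :=
    ⟨L₀, fun v => by
      obtain ⟨x, hx⟩ := LinearMap.mem_range.1 v.2
      have : v = ⟨fa x, LinearMap.mem_range_self fa x⟩ := Subtype.ext hx.symm
      rw [this, hL₀, hnorm]
      rfl⟩
  refine ⟨L₁.extend, fun c => ?_⟩
  have h1 : fa (Pi.single c 1) = a c := by simp [fa]
  have h2 := hL₀ (Pi.single c 1)
  have h3 : ft (Pi.single c 1) = t c := by simp [ft]
  rw [← h1, ← h3, ← h2]
  exact L₁.extend_apply ⟨fa (Pi.single c 1), LinearMap.mem_range_self fa _⟩

/-- The matrix of a linear isometry of Euclidean space. -/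
lemma exists_orth_matrix {n : ℕ} (L : EuclideanSpace ℝ (Fin n) →ₗᵢ[ℝ] EuclideanSpace ℝ (Fin n)) :
    ∃ R : ON n, ∀ (v : Fin n → ℝ) (p : Fin n),
      ∑ j, (R : Matrix (Fin n) (Fin n) ℝ) p j * v j = L (WithLp.toLp 2 v) p := by
  let bs := EuclideanSpace.basisFun (Fin n) ℝ
  let Rm : Matrix (Fin n) (Fin n) ℝ := Matrix.of fun p j => L (bs j) p
  have hR : Rm ∈ Matrix.orthogonalGroup (Fin n) ℝ := by
    refine (mem_orthogonalGroup_iff' _ _).2 (Matrix.ext fun i j => ?_)
    have h := L.inner_map_map (bs i) (bs j)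
    rw [orthonormal_iff_ite.1 bs.orthonormal, PiLp.inner_apply] at h
    simpa [mul_apply, Rm, one_apply, mul_comm] using h
  refine ⟨⟨Rm, hR⟩, fun v p => ?_⟩
  have hsum : ∑ j, v j • L (bs j) = L (WithLp.toLp 2 v) := by
    conv_rhs => rw [← bs.sum_repr (WithLp.toLp 2 v)]
    simp [bs, map_sum]
  have := congrArg (fun x : EuclideanSpace ℝ (Fin n) => x p) hsum
  simpa [Rm, mul_comm] using this

end Tilt

/-- Some orthogonal map sends the columns of `A` into the first `k` coordinates, with symmetric
positive semidefinite image. -/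
theorem exists_rotate {n k : ℕ} (hk : k ≤ n) (A : Matrix (Fin n) (Fin k) ℝ) :
    ∃ (R : ON n) (S : Matrix (Fin k) (Fin k) ℝ), S.PosSemidef ∧ S * S = Aᵀ * A ∧
      ∀ (p : Fin n) (c : Fin k), ((R : Matrix (Fin n) (Fin n) ℝ) * A) p c =
        if h : (p : ℕ) < k then S ⟨p, h⟩ c else 0 := by
  open scoped MatrixOrder in
  obtain ⟨S, hS, hSS⟩ : ∃ S : Matrix (Fin k) (Fin k) ℝ, S.PosSemidef ∧ S * S = Aᵀ * A := by
    have hG : (Aᵀ * A).PosSemidef := by
      simpa [conjTranspose_eq_transpose_of_trivial] using posSemidef_conjTranspose_mul_self A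
    exact ⟨CFC.sqrt (Aᵀ * A), Matrix.nonneg_iff_posSemidef.1 (CFC.sqrt_nonneg _),
      CFC.sqrt_mul_sqrt_self _ (Matrix.nonneg_iff_posSemidef.2 hG)⟩
  have hSym : ∀ i j, S i j = S j i := fun i j => by
    simpa using congrFun (congrFun hS.isHermitian.symm i) j
  let a : Fin k → EuclideanSpace ℝ (Fin n) := fun c => WithLp.toLp 2 fun p => A p c
  let T : Fin n → Fin k → ℝ := fun p c => if h : (p : ℕ) < k then S ⟨p, h⟩ c else 0
  let t : Fin k → EuclideanSpace ℝ (Fin n) := fun c => WithLp.toLp 2 fun p => T p c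
  have hgram : ∀ c d, inner ℝ (a c) (a d) = inner ℝ (t c) (t d) := by
    intro c d
    have e1 : ∑ p, T p c * T p d = ∑ i : Fin k, S i c * S i d := by
      refine (Fintype.sum_of_injective (Fin.castLE hk) (Fin.castLE_injective hk) _ _
        (fun p hp => ?_) (fun i => ?_)).symm
      · have : ¬ (p : ℕ) < k := fun h => hp ⟨⟨p, h⟩, Fin.ext rfl⟩
        simp [T, this]
      · simp [T]
    have e2 : ∑ i : Fin k, S i c * S i d = ∑ p, A p c * A p d := by
      have := congrFun (congrFun hSS c) d
      simp only [mul_apply, transpose_apply] at this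
      rw [← this]
      exact sum_congr rfl fun i _ => by rw [hSym i c]
    simp only [a, t, PiLp.inner_apply, Real.inner_apply]
    rw [e1, e2]
  obtain ⟨L, hL⟩ := exists_isometry_of_gram a t hgram
  obtain ⟨R, hR⟩ := exists_orth_matrix L
  refine ⟨R, S, hS, hSS, fun p c => ?_⟩
  rw [mul_apply, hR (fun j => A j c) p]
  exact congrArg (fun x : EuclideanSpace ℝ (Fin n) => x p) (hL c)

theorem psd_close_one {k : ℕ} {S : Matrix (Fin k) (Fin k) ℝ} (hS : S.PosSemidef) :
    ∑ i, ∑ j, (S i j - if i = j then 1 else 0) ^ 2 ≤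
      ∑ i, ∑ j, ((S * S) i j - if i = j then 1 else 0) ^ 2 := by
  have hH : Sᵀ = S := by
    simpa [conjTranspose_eq_transpose_of_trivial] using hS.isHermitian.eq
  have hsym : ∀ X : Matrix (Fin k) (Fin k) ℝ, Xᵀ = X →
      ∑ i, ∑ j, (X i j - if i = j then 1 else 0) ^ 2 = ((X - 1) * (X - 1)).trace := by
    intro X hX
    simp only [trace, diag_apply, mul_apply, Matrix.sub_apply, Matrix.one_apply]
    refine sum_congr rfl fun i _ => sum_congr rfl fun j _ => ?_
    have : X j i = X i j := congrFun (congrFun hX i) j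
    rcases eq_or_ne i j with rfl | h
    · simp [pow_two]
    · simp [h, h.symm, this, pow_two]
  have h2 : (S * S)ᵀ = S * S := by rw [transpose_mul, hH]
  rw [hsym S hH, hsym _ h2]
  have key : (S * S - 1) * (S * S - 1) =
      (S - 1) * (S - 1) + ((S - 1) * (S * S + (S + S)) * (S - 1)) := by noncomm_ring
  have hP : (S * S + (S + S)).PosSemidef := by
    refine PosSemidef.add ?_ (hS.add hS)
    have h := posSemidef_conjTranspose_mul_self S
    rwa [hS.isHermitian.eq] at h
  have hD : (S - 1).IsHermitian := hS.isHermitian.sub isHermitian_one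
  have h3 := (hP.mul_mul_conjTranspose_same (S - 1)).trace_nonneg
  rw [hD.eq] at h3
  rw [key, trace_add]
  linarith

end Vale.Agent.P166.Parisi
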