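import Vale.Agent.P157.Parisi.CalcAmp
import Vale.Agent.P166.Parisi.Tilt
import Vale.Agent.P166.Parisi.SymmBase
import Vale.Agent.P166.Basic

/-!
Module F1c: couplings which agree where the special coordinates are small give close free energies,
uniformly in the number of levels.
-/

set_option linter.unusedSectionVars false

namespace Vale.Agent.P166.Parisi

open MeasureTheory ProbabilityTheory Finset Filter Topology
open Vale.Agent.P157 Vale.Agent.P157.Parisi

namespace FrameTrunc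

open Vale.Agent.P166.Parisi.Tilt (Lin lin_u semi_of_lin semi_tame down_tame integrable_amp)

/-! ### Finite mixtures of exponentials -/

section finite

variable {Ω : Type} [Fintype Ω] {β : Type} [Fintype β]

/-- The weighted Gibbs weight of a configuration. -/
noncomputable def ew (w : Ω → ℝ) (a : Ω → β → ℝ) (y : β → ℝ) (ω : Ω) : ℝ :=
  w ω * Real.exp (∑ i, a ω i * y i)

/-- The log of a weighted sum of exponentials. -/
noncomputable def lse (w : Ω → ℝ) (a : Ω → β → ℝ) (y : β → ℝ) : ℝ := Real.log (∑ ω, ew w a y ω)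

/-- The Gibbs average. -/
noncomputable def gib (w : Ω → ℝ) (a : Ω → β → ℝ) (f : Ω → ℝ) (y : β → ℝ) : ℝ :=
  (∑ ω, ew w a y ω * f ω) / ∑ ω, ew w a y ω

lemma ew_pos {w : Ω → ℝ} (hw : ∀ ω, 0 < w ω) (a : Ω → β → ℝ) (y : β → ℝ) (ω : Ω) :
    0 < ew w a y ω :=
  mul_pos (hw ω) (Real.exp_pos _)

lemma sum_ew_pos [Nonempty Ω] {w : Ω → ℝ} (hw : ∀ ω, 0 < w ω) (a : Ω → β → ℝ) (y : β → ℝ) :
    0 < ∑ ω, ew w a y ω :=
  sum_pos (fun ω _ => ew_pos hw a y ω) univ_nonempty

lemma exp_lse [Nonempty Ω] {w : Ω → ℝ} (hw : ∀ ω, 0 < w ω) (a : Ω → β → ℝ) (y : β → ℝ) :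
    Real.exp (lse w a y) = ∑ ω, ew w a y ω :=
  Real.exp_log (sum_ew_pos hw a y)

lemma lse_div [Nonempty Ω] {w : Ω → ℝ} (hw : ∀ ω, 0 < w ω) {c : ℝ} (hc : 0 < c) (a : Ω → β → ℝ)
    (y : β → ℝ) : lse (fun ω => w ω / c) a y = lse w a y - Real.log c := by
  have e : ∀ ω, ew (fun ω => w ω / c) a y ω = ew w a y ω / c := fun ω => by
    simp only [ew]; ring
  simp only [lse, e, ← sum_div]
  exact Real.log_div (sum_ew_pos hw a y).ne' hc.ne'

lemma gib_div {w : Ω → ℝ} {c : ℝ} (hc : c ≠ 0) (a : Ω → β → ℝ) (f : Ω → ℝ) (y : β → ℝ) :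
    gib (fun ω => w ω / c) a f y = gib w a f y := by
  have e : ∀ ω, ew (fun ω => w ω / c) a y ω = ew w a y ω / c := fun ω => by
    simp only [ew]; ring
  simp only [gib, e, div_mul_eq_mul_div, ← sum_div]
  exact div_div_div_cancel_right₀ hc _ _

lemma gib_nonneg {w : Ω → ℝ} (hw : ∀ ω, 0 < w ω) (a : Ω → β → ℝ) {f : Ω → ℝ} (hf : ∀ ω, 0 ≤ f ω)
    (y : β → ℝ) : 0 ≤ gib w a f y :=
  div_nonneg (sum_nonneg fun ω _ => mul_nonneg (ew_pos hw a y ω).le (hf ω))
    (sum_nonneg fun ω _ => (ew_pos hw a y ω).le)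

variable {T : Type} [TopologicalSpace T]

lemma continuous_ew {w : T → Ω → ℝ} {a : T → Ω → β → ℝ} (hw : ∀ ω, Continuous fun t => w t ω)
    (ha : ∀ ω i, Continuous fun t => a t ω i) (ω : Ω) :
    Continuous fun p : T × (β → ℝ) => ew (w p.1) (a p.1) p.2 ω := by
  refine ((hw ω).comp continuous_fst).mul (Real.continuous_exp.comp ?_)
  exact continuous_finsetSum _ fun i _ =>
    ((ha ω i).comp continuous_fst).mul ((continuous_apply i).comp continuous_snd)

lemma plin_lse [Nonempty Ω] {w : T → Ω → ℝ} {a : T → Ω → β → ℝ}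
    (hw : ∀ ω, Continuous fun t => w t ω) (hw0 : ∀ t ω, 0 < w t ω)
    (ha : ∀ ω i, Continuous fun t => a t ω i) {B : ℝ} (hB : ∀ t ω i, |a t ω i| ≤ B) :
    PLin fun t => lse (w t) (a t) := by
  refine ⟨(continuous_finsetSum _ fun ω _ => continuous_ew hw ha ω).log
    fun p => (sum_ew_pos (hw0 p.1) _ _).ne', fun t₀ => ?_⟩
  have hWc : Continuous fun t => |Real.log (∑ ω, w t ω)| :=
    ((continuous_finsetSum _ fun ω _ => hw ω).log
      fun t => (sum_pos (fun ω _ => hw0 t ω) univ_nonempty).ne').abs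
  refine ⟨|Real.log (∑ ω, w t₀ ω)| + 1, max B 0, by positivity, le_max_right _ _, ?_⟩
  filter_upwards [hWc.continuousAt.eventually_lt_const (lt_add_one _)] with t ht y
  have hlin : ∀ ω, |∑ i, a t ω i * y i| ≤ max B 0 * l1 y := by
    intro ω
    rw [l1, mul_sum]
    refine (abs_sum_le_sum_abs _ _).trans (sum_le_sum fun i _ => ?_)
    rw [abs_mul]
    exact mul_le_mul_of_nonneg_right ((hB t ω i).trans (le_max_left _ _)) (abs_nonneg _)
  have hW := sum_pos (fun ω _ => hw0 t ω) (univ_nonempty (α := Ω))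
  have up : ∑ ω, ew (w t) (a t) y ω ≤ (∑ ω, w t ω) * Real.exp (max B 0 * l1 y) := by
    rw [sum_mul]
    exact sum_le_sum fun ω _ => mul_le_mul_of_nonneg_left
      (Real.exp_le_exp.2 (abs_le.1 (hlin ω)).2) (hw0 t ω).le
  have lo : (∑ ω, w t ω) * Real.exp (-(max B 0 * l1 y)) ≤ ∑ ω, ew (w t) (a t) y ω := by
    rw [sum_mul]
    exact sum_le_sum fun ω _ => mul_le_mul_of_nonneg_left
      (Real.exp_le_exp.2 (abs_le.1 (hlin ω)).1) (hw0 t ω).le
  have h1 := Real.log_le_log (sum_ew_pos (hw0 t) _ _) up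
  have h2 := Real.log_le_log (mul_pos hW (Real.exp_pos _)) lo
  rw [Real.log_mul hW.ne' (Real.exp_ne_zero _), Real.log_exp] at h1 h2
  have := le_abs_self (Real.log (∑ ω, w t ω))
  have := neg_abs_le (Real.log (∑ ω, w t ω))
  exact abs_le.2 ⟨by unfold lse; linarith, by unfold lse; linarith⟩

lemma ptame_gib [Nonempty Ω] {w : T → Ω → ℝ} {a : T → Ω → β → ℝ} {f : T → Ω → ℝ}
    (hw : ∀ ω, Continuous fun t => w t ω) (hw0 : ∀ t ω, 0 < w t ω)
    (ha : ∀ ω i, Continuous fun t => a t ω i) (hf : ∀ ω, Continuous fun t => f t ω) {c : ℝ}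
    (hc : ∀ t ω, |f t ω| ≤ c) : PTame fun t => gib (w t) (a t) (f t) := by
  refine ⟨(continuous_finsetSum _ fun ω _ =>
    (continuous_ew hw ha ω).mul ((hf ω).comp continuous_fst)).div
      (continuous_finsetSum _ fun ω _ => continuous_ew hw ha ω)
      fun p => (sum_ew_pos (hw0 p.1) _ _).ne', fun t₀ => ⟨max c 0, 0, le_max_right _ _, le_rfl,
      .of_forall fun t y => ?_⟩⟩
  simp only [gib]
  rw [zero_mul, Real.exp_zero, mul_one, abs_div, abs_of_pos (sum_ew_pos (hw0 t) _ _),
    div_le_iff₀ (sum_ew_pos (hw0 t) _ _), mul_sum]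
  refine (abs_sum_le_sum_abs _ _).trans (sum_le_sum fun ω _ => ?_)
  rw [abs_mul, abs_of_pos (ew_pos (hw0 t) _ _ ω), mul_comm (max c 0)]
  exact mul_le_mul_of_nonneg_left ((hc t ω).trans (le_max_left _ _)) (ew_pos (hw0 t) _ _ ω).le

omit [TopologicalSpace T] in
lemma lin_lse [Nonempty Ω] {w : Ω → ℝ} {a : Ω → β → ℝ} (hw : ∀ ω, 0 < w ω) {B : ℝ}
    (hB : ∀ ω i, |a ω i| ≤ B) : Lin (lse w a) := by
  have h := plin_lse (T := Unit) (w := fun _ => w) (a := fun _ => a) (fun _ => continuous_const)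
    (fun _ => hw) (fun _ _ => continuous_const) (fun _ => hB)
  obtain ⟨C, k, hC, hk, hb⟩ := h.2 ()
  exact ⟨h.1.comp (by fun_prop : Continuous fun y : β → ℝ => ((), y)), C, k, hC, hk,
    hb.self_of_nhds⟩

omit [TopologicalSpace T] in
lemma tame_gib [Nonempty Ω] {w : Ω → ℝ} {a : Ω → β → ℝ} {f : Ω → ℝ} (hw : ∀ ω, 0 < w ω) :
    Tame (gib w a f) :=
  (ptame_gib (T := Unit) (w := fun _ => w) (a := fun _ => a) (f := fun _ => f)
    (fun _ => continuous_const) (fun _ => hw) (fun _ _ => continuous_const)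
    (fun _ => continuous_const) (c := ∑ ω, |f ω|)
    fun _ ω => single_le_sum (f := fun ω => |f ω|) (fun _ _ => abs_nonneg _) (mem_univ ω)).tame ()

lemma integral_mix [MeasurableSpace Ω] [MeasurableSingletonClass Ω] {p : Ω → ℝ}
    (hp : ∀ ω, 0 ≤ p ω) (g : Ω → ℝ) :
    ∫ ω, g ω ∂(∑ ω, ENNReal.ofReal (p ω) • Measure.dirac ω) = ∑ ω, p ω * g ω := by
  rw [integral_finsetSum_measure fun ω _ =>
    (Integrable.of_finite (μ := Measure.dirac ω)).smul_measure ENNReal.ofReal_ne_top]
  refine sum_congr rfl fun ω _ => ?_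
  rw [integral_smul_measure, integral_dirac, ENNReal.toReal_ofReal (hp ω), smul_eq_mul]

end finite

/-! ### Recursions -/

section recursion

variable {β γ : Type} [Fintype β] [Fintype γ]

lemma integral_split {F : (β → ℝ) → ℝ} {G : (γ → ℝ) → ℝ} (hF : Continuous F) (hG : Continuous G) :
    ∫ z : β ⊕ γ → ℝ, F (fun i => z (Sum.inl i)) * G (fun j => z (Sum.inr j)) ∂gauss (β ⊕ γ)
      = (∫ z, F z ∂gauss β) * ∫ z, G z ∂gauss γ := by
  have h := gauss_comp_pair (ι := β ⊕ γ) Function.Embedding.inl Function.Embedding.inr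
    fun _ _ => Sum.inl_ne_inr
  rw [← integral_prod_mul, ← h.map_eq, integral_map h.measurable.aemeasurable
    (f := fun z => F z.1 * G z.2)
    (((hF.comp continuous_fst).mul (hG.comp continuous_snd)).aestronglyMeasurable)]
  rfl

lemma x_good_nest {N : Nest β} {K : ℕ} (hK : N.K = K + 1) (hx : N.x = gridX K) : N.Good := by
  refine ⟨?_, ?_, fun l hl _ => ?_, fun l _ => ?_⟩
  · simp [hx, gridX, lvl]
  · rw [hx, hK, gridX, lvl]
    refine min_eq_left ((one_le_div (by positivity)).2 ?_)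
    push_cast
    linarith
  · rw [hx, gridX, lvl]
    exact lt_min one_pos (div_pos (Nat.cast_pos.2 hl) (by positivity))
  · rw [hx, gridX, gridX, lvl, lvl]
    refine min_le_min le_rfl ?_
    gcongr
    simp

lemma stepAvg_add_const (m c : ℝ) (s : β → ℝ) (u f : (β → ℝ) → ℝ) :
    stepAvg m s (fun y => u y + c) f = stepAvg m s u f := by
  funext y
  have e : ∀ w, Real.exp (m * (u w + c)) = Real.exp (m * c) * Real.exp (m * u w) := fun w => by
    rw [← Real.exp_add]; ring_nf
  simp only [stepAvg, tilt, e, mul_assoc (Real.exp (m * c)), integral_const_mul]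
  exact mul_div_mul_left _ _ (Real.exp_ne_zero _)

lemma down_add_const {N : Nest β} (hN : N.Good) {U : (β → ℝ) → ℝ} (hU : Lin U) (c : ℝ)
    (f : (β → ℝ) → ℝ) {l : ℕ} (hl : l ≤ N.K) :
    N.down (fun y => U y + c) l f = N.down U l f := by
  induction hl using Nat.decreasingInduction with
  | self => rw [down_top le_rfl, down_top le_rfl]
  | of_succ l hl ih =>
    rw [down_succ hl, down_succ hl, avg_eq_stepAvg, avg_eq_stepAvg, ih,
      Tilt.u_add_const hN (semi_of_lin hU) c hl, stepAvg_add_const]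

/-- A leaf which is a sum over two blocks of coordinates. -/
lemma down_split {N : Nest (β ⊕ γ)} {N₁ : Nest β} (hN : N.Good) (hK : N₁.K = N.K)
    (hx : N₁.x = N.x) (hamp : ∀ l i, N₁.amp l i = N.amp l (Sum.inl i))
    {U f : (β ⊕ γ → ℝ) → ℝ} {U₁ f₁ : (β → ℝ) → ℝ} {U₂ : (γ → ℝ) → ℝ}
    (hU₁ : Lin U₁) (hU₂ : Lin U₂) (hf₁ : Tame f₁)
    (hU : ∀ y, U y = U₁ (fun i => y (Sum.inl i)) + U₂ (fun j => y (Sum.inr j)))
    (hf : ∀ y, f y = f₁ fun i => y (Sum.inl i)) {l : ℕ} (hl : l ≤ N.K) (y : β ⊕ γ → ℝ) :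
    N.down U l f y = N₁.down U₁ l f₁ fun i => y (Sum.inl i) := by
  let N₂ : Nest γ := ⟨N.K, N.x, fun l j => N.amp l (Sum.inr j)⟩
  have hN₁ : N₁.Good := ⟨by rw [hx]; exact hN.x_zero, by rw [hx, hK]; exact hN.x_last,
    by rw [hx, hK]; exact hN.x_pos, by rw [hx, hK]; exact hN.x_mono⟩
  have hN₂ : N₂.Good := ⟨hN.x_zero, hN.x_last, hN.x_pos, hN.x_mono⟩
  have hm₁ : ∀ l (y z : β ⊕ γ → ℝ), (fun i => move (N.amp l) y z (Sum.inl i)) =
      move (N₁.amp l) (fun i => y (Sum.inl i)) fun i => z (Sum.inl i) := fun l y z =>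
    funext fun i => by simp only [move, hamp]
  have hm₂ : ∀ l (y z : β ⊕ γ → ℝ), (fun j => move (N.amp l) y z (Sum.inr j)) =
      move (N₂.amp l) (fun j => y (Sum.inr j)) fun j => z (Sum.inr j) := fun l y z => rfl
  suffices h : (∀ y, N.u U l y =
      N₁.u U₁ l (fun i => y (Sum.inl i)) + N₂.u U₂ l (fun j => y (Sum.inr j))) ∧
      ∀ y, N.down U l f y = N₁.down U₁ l f₁ fun i => y (Sum.inl i) from h.2 y
  clear y
  induction hl using Nat.decreasingInduction with
  | self =>
    refine ⟨fun y => ?_, fun y => ?_⟩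
    · rw [u_top le_rfl, u_top hK.le, u_top (N := N₂) le_rfl]; exact hU y
    · rw [down_top le_rfl, down_top hK.le]; exact hf y
  | of_succ l hl ih =>
    obtain ⟨ihu, ihd⟩ := ih
    have hl₁ : l < N₁.K := hK ▸ hl
    set x := N.x (l + 1)
    have hu₁ := lin_u hN₁ hU₁ (l := l + 1) hl₁
    have hu₂ := lin_u hN₂ hU₂ (l := l + 1) hl
    have hd₁ := down_tame hN₁ hU₁ hf₁ (l := l + 1) hl₁
    have c₁ : ∀ y, Continuous fun z =>
        Real.exp (x * N₁.u U₁ (l + 1) (move (N₁.amp (l + 1)) y z)) := fun y =>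
      Real.continuous_exp.comp (continuous_const.mul
        (hu₁.1.comp (continuous_move_right (N₁.amp (l + 1)) y)))
    have c₂ : ∀ y, Continuous fun z =>
        Real.exp (x * N₂.u U₂ (l + 1) (move (N₂.amp (l + 1)) y z)) := fun y =>
      Real.continuous_exp.comp (continuous_const.mul
        (hu₂.1.comp (continuous_move_right (N₂.amp (l + 1)) y)))
    have hden : ∀ y : β ⊕ γ → ℝ,
        ∫ z, Real.exp (x * N.u U (l + 1) (move (N.amp (l + 1)) y z)) ∂gauss (β ⊕ γ) =
        (∫ z, Real.exp (x * N₁.u U₁ (l + 1)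
          (move (N₁.amp (l + 1)) (fun i => y (Sum.inl i)) z)) ∂gauss β) *
        ∫ z, Real.exp (x * N₂.u U₂ (l + 1)
          (move (N₂.amp (l + 1)) (fun j => y (Sum.inr j)) z)) ∂gauss γ := by
      intro y
      rw [← integral_split (c₁ _) (c₂ _)]
      refine integral_congr_ae (.of_forall fun z => ?_)
      simp only [ihu, hm₁, hm₂, mul_add, Real.exp_add]
    refine ⟨fun y => ?_, fun y => ?_⟩
    · rw [u_succ hl, u_succ hl₁, u_succ (N := N₂) hl, hx]
      simp only [stepLog]
      rw [show N₂.x (l + 1) = x from rfl, hden, Real.log_mul (stepDen_pos hu₁ _ _ _).ne'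
        (stepDen_pos hu₂ _ _ _).ne', mul_add]
    · rw [down_succ hl, down_succ hl₁]
      simp only [Nest.avg, tilt, hx]
      have hnum : ∫ z, Real.exp (x * N.u U (l + 1) (move (N.amp (l + 1)) y z))
            * N.down U (l + 1) f (move (N.amp (l + 1)) y z) ∂gauss (β ⊕ γ) =
          (∫ z, Real.exp (x * N₁.u U₁ (l + 1)
            (move (N₁.amp (l + 1)) (fun i => y (Sum.inl i)) z))
              * N₁.down U₁ (l + 1) f₁ (move (N₁.amp (l + 1)) (fun i => y (Sum.inl i)) z) ∂gauss β) *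
          ∫ z, Real.exp (x * N₂.u U₂ (l + 1)
            (move (N₂.amp (l + 1)) (fun j => y (Sum.inr j)) z)) ∂gauss γ := by
        rw [← integral_split (F := fun z => Real.exp (x * N₁.u U₁ (l + 1)
            (move (N₁.amp (l + 1)) (fun i => y (Sum.inl i)) z))
              * N₁.down U₁ (l + 1) f₁ (move (N₁.amp (l + 1)) (fun i => y (Sum.inl i)) z))
          ((c₁ _).mul (hd₁.1.comp (continuous_move_right _ _))) (c₂ _)]
        refine integral_congr_ae (.of_forall fun z => ?_)
        simp only [ihu, ihd, hm₁, hm₂, mul_add, Real.exp_add]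
        ring
      rw [hnum, hden]
      exact mul_div_mul_right _ _ (stepDen_pos hu₂ _ _ _).ne'

variable {T : Type} [TopologicalSpace T] [FirstCountableTopology T]

lemma plin_u' (N : Nest β) {U : T → (β → ℝ) → ℝ} (hU : PLin U) {l : ℕ} (hl : l ≤ N.K) :
    PLin fun t => N.u (U t) l := by
  induction hl using Nat.decreasingInduction with
  | self => simpa only [u_top le_rfl] using hU
  | of_succ l hl ih =>
    simp only [u_succ hl]
    exact plin_stepLog ih (s := fun _ => N.amp (l + 1)) (fun _ => continuous_const) _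

lemma ptame_down' (N : Nest β) {U : T → (β → ℝ) → ℝ} (hU : PLin U) {f : T → (β → ℝ) → ℝ}
    (hf : PTame f) {l : ℕ} (hl : l ≤ N.K) : PTame fun t => N.down (U t) l (f t) := by
  induction hl using Nat.decreasingInduction with
  | self => simpa only [down_top le_rfl] using hf
  | of_succ l hl ih =>
    simp only [down_succ hl]
    exact ptame_tilt (plin_u' N hU hl) (s := fun _ => N.amp (l + 1)) (fun _ => continuous_const) _ ih

end recursion

/-! ### The systems -/

section systems

variable {N k : ℕ} (lam : Fin N → ℝ)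

lemma continuous_rotSpin (σ : Fin N → Bool) (p : Fin N) :
    Continuous fun U : ON N => rotSpin U σ p := by
  simp only [rotSpin, Matrix.mulVec, dotProduct]
  exact continuous_finsetSum _ fun j _ =>
    (continuous_subtype_val.matrix_elem p j).mul continuous_const

lemma rotSpin_sq_le (U : ON N) (σ : Fin N → Bool) (p : Fin N) : rotSpin U σ p ^ 2 ≤ N := by
  rw [← sum_sq_spin U σ]
  exact single_le_sum (f := fun q => rotSpin U σ q ^ 2) (fun q _ => sq_nonneg _) (mem_univ p)

lemma abs_spin_le {m : ℕ} (σ : Fin m → Bool) (i : Fin m) : |spin σ i| ≤ 1 := by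
  unfold spin; split <;> simp

lemma abs_glass_coef (U : ON N) (σ : Fin N → Bool) (i : FIdx N) :
    |(glassLeaf U).a σ () i| ≤ (N : ℝ) + 1 := by
  have hN : (0:ℝ) ≤ N := Nat.cast_nonneg N
  rcases i with i | p
  · exact (abs_spin_le σ i).trans (by linarith)
  · have := rotSpin_sq_le U σ p
    show |rotSpin U σ p| ≤ _
    nlinarith [sq_abs (rotSpin U σ p), sq_nonneg (|rotSpin U σ p| - 1), abs_nonneg (rotSpin U σ p)]

lemma abs_ext_coef (U : ON N) (ω : (Fin N → Bool) × (Fin k → Bool)) (i : FIdx N ⊕ Fin k) :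
    |(extLeaf k U).a ω () i| ≤ (N : ℝ) + 1 := by
  rcases i with i | j
  · exact abs_glass_coef U ω.1 i
  · exact (abs_spin_le ω.2 j).trans (by linarith [Nat.cast_nonneg (α := ℝ) N])

lemma continuous_glass_coef (σ : Fin N → Bool) (i : FIdx N) :
    Continuous fun U : ON N => (glassLeaf U).a σ () i := by
  rcases i with i | p
  · exact continuous_const
  · exact continuous_rotSpin σ p

lemma continuous_ext_coef (ω : (Fin N → Bool) × (Fin k → Bool)) (i : FIdx N ⊕ Fin k) :
    Continuous fun U : ON N => (extLeaf k U).a ω () i := by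
  rcases i with i | j
  · exact continuous_glass_coef ω.1 i
  · exact continuous_const

/-- The weight of a configuration of the spins. -/
noncomputable def qw (U : ON N) (σ : Fin N → Bool) : ℝ :=
  1 / (2 : ℝ) ^ N * Real.exp (1 / 2 * eng lam (U : Matrix (Fin N) (Fin N) ℝ) σ)

lemma qw_pos (U : ON N) (σ : Fin N → Bool) : 0 < qw lam U σ := by unfold qw; positivity

lemma continuous_qw (σ : Fin N → Bool) : Continuous fun U : ON N => qw lam U σ :=
  continuous_const.mul (Real.continuous_exp.comp (continuous_const.mul (continuous_eng lam σ)))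

lemma quadPart_eq (U : ON N) : quadPart lam U = ∑ σ, qw lam U σ := by
  rw [quadPart, mul_sum]
  rfl

lemma quadPart_pos (U : ON N) : 0 < quadPart lam U := by
  rw [quadPart_eq]
  exact sum_pos (fun σ _ => qw_pos lam U σ) univ_nonempty

lemma continuous_quadPart : Continuous fun U : ON N => quadPart lam U := by
  simp only [quadPart_eq]
  exact continuous_finsetSum _ fun σ _ => continuous_qw lam σ

variable (Φ : (Fin k → Bool) → (Fin N → ℝ) → ℝ)

lemma weight_pos (U : ON N) (ω : (Fin N → Bool) × (Fin k → Bool)) : 0 < extWeight lam Φ U ω := by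
  unfold extWeight; positivity

lemma weight_eq (U : ON N) (ω : (Fin N → Bool) × (Fin k → Bool)) :
    extWeight lam Φ U ω = qw lam U ω.1 * (1 / (2 : ℝ) ^ k) * Real.exp (Φ ω.2 (rotSpin U ω.1)) := by
  rw [extWeight, qw, Real.exp_add]
  ring

lemma continuous_weight (hΦ : ∀ τ, Continuous (Φ τ)) (ω : (Fin N → Bool) × (Fin k → Bool)) :
    Continuous fun U : ON N => extWeight lam Φ U ω := by
  simp only [weight_eq]
  exact ((continuous_qw lam ω.1).mul continuous_const).mul (Real.continuous_exp.comp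
    ((hΦ ω.2).comp (continuous_pi fun p => continuous_rotSpin ω.1 p)))

lemma part_pos (U : ON N) : 0 < extPart lam Φ U :=
  sum_pos (fun ω _ => weight_pos lam Φ U ω) univ_nonempty

lemma logZ_ext (U : ON N) (y : FIdx N ⊕ Fin k → ℝ) :
    (extLeaf k U).logZ (extLaw lam Φ U) y =
      lse (fun ω => extWeight lam Φ U ω / extPart lam Φ U) (fun ω => (extLeaf k U).a ω ()) y := by
  rw [Leaf.logZ, extLaw,
    integral_mix fun ω => div_nonneg (weight_pos lam Φ U ω).le (part_pos lam Φ U).le]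
  refine congrArg Real.log (sum_congr rfl fun ω _ => ?_)
  simp [ew, Leaf.ham, Leaf.loc, extLeaf]

lemma logZ_glass (U : ON N) (y : FIdx N → ℝ) :
    (glassLeaf U).logZ (quadLaw lam U) y =
      lse (fun σ => qw lam U σ / quadPart lam U) (fun σ => (glassLeaf U).a σ ()) y := by
  rw [Leaf.logZ, quadLaw]
  rw [show (fun σ : Fin N → Bool => ENNReal.ofReal (1 / (2 : ℝ) ^ N *
      Real.exp (1 / 2 * eng lam (U : Matrix (Fin N) (Fin N) ℝ) σ) / quadPart lam U) •
        Measure.dirac σ) = fun σ => ENNReal.ofReal (qw lam U σ / quadPart lam U) • Measure.dirac σ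
    from rfl, integral_mix fun σ => div_nonneg (qw_pos lam U σ).le (quadPart_pos lam U).le]
  refine congrArg Real.log (sum_congr rfl fun σ _ => ?_)
  simp [ew, Leaf.ham, Leaf.loc, glassLeaf]

lemma gibbs_glass (U : ON N) (g : (Fin N → Bool) → ℝ) (y : FIdx N → ℝ) :
    (glassLeaf U).gibbs (quadLaw lam U) (fun σ _ => g σ) y =
      gib (fun σ => qw lam U σ / quadPart lam U) (fun σ => (glassLeaf U).a σ ()) g y := by
  rw [Leaf.gibbs, quadLaw]
  rw [show (fun σ : Fin N → Bool => ENNReal.ofReal (1 / (2 : ℝ) ^ N *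
      Real.exp (1 / 2 * eng lam (U : Matrix (Fin N) (Fin N) ℝ) σ) / quadPart lam U) •
        Measure.dirac σ) = fun σ => ENNReal.ofReal (qw lam U σ / quadPart lam U) • Measure.dirac σ
    from rfl, integral_mix fun σ => div_nonneg (qw_pos lam U σ).le (quadPart_pos lam U).le,
    integral_mix fun σ => div_nonneg (qw_pos lam U σ).le (quadPart_pos lam U).le, gib]
  refine congrArg₂ (· / ·) (sum_congr rfl fun σ _ => ?_) (sum_congr rfl fun σ _ => ?_) <;>
    simp [ew, Leaf.ham, Leaf.loc, glassLeaf, mul_assoc]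

lemma quadLaw_isProb (U : ON N) : IsProbabilityMeasure (quadLaw lam U) := by
  refine ⟨?_⟩
  simp only [quadLaw, Measure.coe_finsetSum, Finset.sum_apply, Measure.smul_apply, measure_univ,
    smul_eq_mul, mul_one]
  rw [← ENNReal.ofReal_sum_of_nonneg fun σ _ => by
    exact div_nonneg (qw_pos lam U σ).le (quadPart_pos lam U).le, ← sum_div]
  rw [show (∑ σ : Fin N → Bool, 1 / (2 : ℝ) ^ N *
    Real.exp (1 / 2 * eng lam (U : Matrix (Fin N) (Fin N) ℝ) σ)) = quadPart lam U from
    (quadPart_eq lam U).symm, div_self (quadPart_pos lam U).ne', ENNReal.ofReal_one]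

lemma glassLeaf_isGood (U : ON N) : (glassLeaf U).Good ((N : ℝ) + 1) where
  nonneg := by positivity
  meas _ _ := measurable_of_finite _
  bound σ _ i := abs_glass_coef U σ i
  deriv1 _ z := hasDerivAt_id z
  deriv2 _ z := hasDerivAt_const z 1
  cont2 _ := continuous_const
  bound1 _ _ := by simp [glassLeaf]
  bound2 _ _ := by simp [glassLeaf]; positivity

/-- The leaf with the normalisation of the weights. -/
noncomputable def leafFun (U : ON N) : (FIdx N ⊕ Fin k → ℝ) → ℝ :=
  lse (extWeight lam Φ U) fun ω => (extLeaf k U).a ω ()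

lemma lin_leafFun (U : ON N) : Lin (leafFun lam Φ U) :=
  lin_lse (weight_pos lam Φ U) (abs_ext_coef U)

variable (K : ℕ) (S V : ℕ → Fin N → ℝ) (e : ℕ → Fin k → ℝ)

lemma extFree_eq_root (U : ON N) :
    extFree K lam S V e Φ U = (extNest K S V e).root (leafFun lam Φ U) := by
  have hN : (extNest K S V e).Good := x_good_nest rfl rfl
  have hlin := lin_lse (fun ω => div_pos (weight_pos lam Φ U ω) (part_pos lam Φ U))
    (abs_ext_coef (k := k) U)
  have e1 : leafFun lam Φ U =
      fun y => (extLeaf k U).logZ (extLaw lam Φ U) y + Real.log (extPart lam Φ U) := funext fun y => by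
    rw [logZ_ext, lse_div (weight_pos lam Φ U) (part_pos lam Φ U), leafFun, sub_add_cancel]
  rw [e1, root_add_const hN (by rw [funext (logZ_ext lam Φ U)]; exact semi_of_lin hlin),
    ← free_eq_root, extFree, add_comm]

lemma continuous_extFree' (hΦ : ∀ τ, Continuous (Φ τ)) :
    Continuous (extFree K lam S V e Φ) := by
  rw [funext (extFree_eq_root lam Φ K S V e)]
  exact (plin_u' (extNest K S V e) (plin_lse (continuous_weight lam Φ hΦ) (weight_pos lam Φ)
    continuous_ext_coef abs_ext_coef) (Nat.zero_le _)).ptame.continuous_integral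
      fun _ => continuous_const

/-- The fourth moment of a rotated spin inside a system, for fixed `U`. -/
noncomputable def four (p : Fin N) (U : ON N) : ℝ :=
  (glassNest K S V).mean ((glassLeaf U).logZ (quadLaw lam U)) 0
    ((glassNest K S V).node (glassLeaf U) (quadLaw lam U) 0 fun σ _ => rotSpin U σ p ^ 4)

lemma continuous_four (p : Fin N) : Continuous (four lam K S V p) := by
  have hw : ∀ σ : Fin N → Bool, Continuous fun U : ON N => qw lam U σ / quadPart lam U :=
    fun σ => (continuous_qw lam σ).div (continuous_quadPart lam) fun U => (quadPart_pos lam U).ne'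
  have hw0 : ∀ (U : ON N) (σ : Fin N → Bool), 0 < qw lam U σ / quadPart lam U :=
    fun U σ => div_pos (qw_pos lam U σ) (quadPart_pos lam U)
  have h := ptame_down' (glassNest K S V)
    (plin_lse hw hw0 continuous_glass_coef abs_glass_coef)
    (ptame_gib (f := fun U σ => rotSpin U σ p ^ 4) hw hw0 continuous_glass_coef
      (fun σ => (continuous_rotSpin σ p).pow 4) (c := (N : ℝ) ^ 2) fun U σ => by
        rw [abs_of_nonneg (by positivity),
          show rotSpin U σ p ^ 4 = (rotSpin U σ p ^ 2) ^ 2 by ring]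
        exact pow_le_pow_left₀ (sq_nonneg _) (rotSpin_sq_le U σ p) 2)
    (Nat.zero_le _)
  refine (h.continuous_integral (s := fun _ => (glassNest K S V).amp 0)
    fun _ => continuous_const).congr fun U => ?_
  simp only [four, Nest.mean, Nest.node]
  rw [funext (logZ_glass lam U), funext (gibbs_glass lam U fun σ => rotSpin U σ p ^ 4)]

end systems

/-! ### The squared norm of the special coordinates -/

section special

variable {N k : ℕ} {J : Type} [Fintype J] (lam : Fin N → ℝ) (ι : J → Fin N)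

/-- The squared norm of the special coordinates. -/
noncomputable def spec (U : ON N) (σ : Fin N → Bool) : ℝ := ∑ j, rotSpin U σ (ι j) ^ 2

lemma spec_nonneg (U : ON N) (σ : Fin N → Bool) : 0 ≤ spec ι U σ :=
  sum_nonneg fun _ _ => sq_nonneg _

/-- Its average at the leaf without coupling. -/
noncomputable def specAvg (U : ON N) : (FIdx N ⊕ Fin k → ℝ) → ℝ :=
  gib (extWeight lam (fun _ _ => 0) U) (fun ω => (extLeaf k U).a ω ())
    fun ω => spec ι U ω.1

lemma specAvg_nonneg (U : ON N) (y : FIdx N ⊕ Fin k → ℝ) : 0 ≤ specAvg lam ι U y :=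
  gib_nonneg (weight_pos lam _ U) _ (fun _ => spec_nonneg ι U _) y

lemma ew_zero (U : ON N) (y : FIdx N ⊕ Fin k → ℝ) (ω : (Fin N → Bool) × (Fin k → Bool)) :
    ew (extWeight lam (fun _ _ => 0) U) (fun ω => (extLeaf k U).a ω ()) y ω =
      ew (qw lam U) (fun σ => (glassLeaf U).a σ ()) (fun i => y (Sum.inl i)) ω.1 *
        ew (fun _ => 1 / (2 : ℝ) ^ k) spin (fun j => y (Sum.inr j)) ω.2 := by
  simp only [ew, weight_eq, Real.exp_zero, mul_one, extLeaf, glassLeaf, Fintype.sum_sum_type,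
    Sum.elim_inl, Sum.elim_inr, Real.exp_add]
  ring

lemma leafFun_zero (U : ON N) (y : FIdx N ⊕ Fin k → ℝ) :
    leafFun lam (fun _ _ => 0) U y = lse (qw lam U) (fun σ => (glassLeaf U).a σ ())
      (fun i => y (Sum.inl i)) + lse (fun _ => 1 / (2 : ℝ) ^ k) spin fun j => y (Sum.inr j) := by
  simp only [leafFun, lse, ew_zero, Fintype.sum_prod_type, ← mul_sum, ← sum_mul]
  exact Real.log_mul (sum_ew_pos (qw_pos lam U) _ _).ne'
    (sum_ew_pos (fun _ => by positivity) _ _).ne'

lemma specAvg_eq (U : ON N) (y : FIdx N ⊕ Fin k → ℝ) :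
    specAvg lam ι U y =
      gib (qw lam U) (fun σ => (glassLeaf U).a σ ()) (spec ι U) fun i => y (Sum.inl i) := by
  simp only [specAvg, gib, ew_zero, mul_right_comm _ _ (spec ι U _), Fintype.sum_prod_type,
    ← mul_sum, ← sum_mul]
  exact mul_div_mul_right _ _ (sum_ew_pos (fun _ => by positivity) _ _).ne'

/-- The squared root average of the special coordinates is controlled by their fourth moments. -/
lemma mean_spec_sq (K : ℕ) (S V : ℕ → Fin N → ℝ) (e : ℕ → Fin k → ℝ) (U : ON N) :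
    (extNest K S V e).mean (leafFun lam (fun _ _ => 0) U) 0 (fun y =>
      (extNest K S V e).down (leafFun lam (fun _ _ => 0) U) 0 (specAvg lam ι U) y ^ 2) ≤
      (Fintype.card J : ℝ) * ∑ j, four lam K S V (ι j) U := by
  have hE : (extNest K S V e).Good := x_good_nest rfl rfl
  have hG : (glassNest K S V).Good := x_good_nest rfl rfl
  have := quadLaw_isProb lam U
  have hL := glassLeaf_isGood U
  set G := glassNest K S V
  set g := spec ι U
  have hg : Obs fun σ (_ : FIdx N → ℝ) => g σ :=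
    ⟨fun _ => measurable_of_finite _, fun _ => continuous_const, ∑ σ, |g σ|,
      fun σ _ => single_le_sum (f := fun σ => |g σ|) (fun _ _ => abs_nonneg _) (mem_univ σ)⟩
  have hlog : (glassLeaf U).logZ (quadLaw lam U) =
      fun y => lse (qw lam U) (fun σ => (glassLeaf U).a σ ()) y + -Real.log (quadPart lam U) :=
    funext fun y => by rw [logZ_glass, lse_div (qw_pos lam U) (quadPart_pos lam U), sub_eq_add_neg]
  have hnode : ∀ y, (extNest K S V e).down (leafFun lam (fun _ _ => 0) U) 0 (specAvg lam ι U) y =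
      G.node (glassLeaf U) (quadLaw lam U) 0 (fun σ _ => g σ) fun i => y (Sum.inl i) := by
    intro y
    rw [down_split (N₁ := G) hE rfl rfl (fun _ _ => rfl)
      (lin_lse (qw_pos lam U) (abs_glass_coef U))
      (lin_lse (fun _ => by positivity) (B := 1) (fun τ i => abs_spin_le τ i))
      (tame_gib (qw_pos lam U)) (leafFun_zero lam U) (specAvg_eq lam ι U) (Nat.zero_le _) y]
    rw [Nest.node, hlog, down_add_const hG (lin_lse (qw_pos lam U) (abs_glass_coef U)) _ _
      (Nat.zero_le _)]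
    congr 1
    funext y
    rw [gibbs_glass, gib_div (quadPart_pos lam U).ne']
  have h4 : ∀ j, Obs fun σ (_ : FIdx N → ℝ) => rotSpin U σ (ι j) ^ 4 := fun j =>
    ⟨fun _ => measurable_of_finite _, fun _ => continuous_const,
      ∑ σ, |rotSpin U σ (ι j) ^ 4|, fun σ _ => single_le_sum
        (f := fun σ => |rotSpin U σ (ι j) ^ 4|) (fun _ _ => abs_nonneg _) (mem_univ σ)⟩
  have hpt : ∀ y, G.node (glassLeaf U) (quadLaw lam U) 0 (fun σ _ => g σ) y ^ 2 ≤
      (Fintype.card J : ℝ) *
        ∑ j, G.node (glassLeaf U) (quadLaw lam U) 0 (fun σ _ => rotSpin U σ (ι j) ^ 4) y := by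
    intro y
    refine (node_sq_ge hG hL (Nat.zero_le _) hg y).trans ?_
    rw [← node_sum hG hL (Nat.zero_le _) univ h4, ← node_const_mul hG hL]
    refine node_mono hG hL (Nat.zero_le _) (by simpa [pow_two] using hg.mul hg)
      ((obs_const _).mul (obs_sum univ h4)) (fun σ _ => ?_) y
    have := sq_sum_le_card_mul_sum_sq (s := (univ : Finset J))
      (f := fun j => rotSpin U σ (ι j) ^ 2)
    simpa [g, spec, ← pow_mul] using this
  have hint : ∀ j, Integrable (fun z => G.node (glassLeaf U) (quadLaw lam U) 0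
      (fun σ _ => rotSpin U σ (ι j) ^ 4) fun i => G.amp 0 i * z i) (gauss (FIdx N)) :=
    fun j => integrable_amp G (node_tame hG hL (Nat.zero_le _) (h4 j))
  simp only [Nest.mean, four, hnode]
  have hc : Continuous fun w : FIdx N → ℝ =>
      G.node (glassLeaf U) (quadLaw lam U) 0 (fun σ _ => g σ) (fun i => G.amp 0 i * w i) ^ 2 :=
    ((node_tame hG hL (Nat.zero_le _) hg).1.comp (by fun_prop)).pow 2
  refine (integral_comp_embedding (Function.Embedding.inl (β := Fin k)) hc).le.trans ?_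
  refine (integral_mono (integrable_amp G (node_tame hG hL (Nat.zero_le _) hg).sq)
    ((integrable_finsetSum _ fun j _ => hint j).const_mul _) fun z => hpt _).trans_eq ?_
  rw [integral_const_mul, integral_finsetSum _ fun j _ => hint j]

variable (Φ Φ' : (Fin k → Bool) → (Fin N → ℝ) → ℝ) {C e₀ R : ℝ}

lemma leaf_upper (hu : ∀ τ z, Φ τ z ≤ C) (U : ON N) (y : FIdx N ⊕ Fin k → ℝ) :
    leafFun lam Φ U y ≤ leafFun lam (fun _ _ => 0) U y + C := by
  refine Real.exp_le_exp.1 ?_
  rw [Real.exp_add, leafFun, leafFun, exp_lse (weight_pos lam Φ U), exp_lse (weight_pos lam _ U),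
    sum_mul]
  refine sum_le_sum fun ω _ => ?_
  simp only [ew, weight_eq, Real.exp_zero, mul_one]
  rw [mul_right_comm (qw lam U ω.1 * (1 / (2:ℝ) ^ k))]
  refine mul_le_mul_of_nonneg_left (Real.exp_le_exp.2 (hu _ _)) ?_
  have := qw_pos lam U ω.1
  positivity

lemma leaf_lower (hl : ∀ τ z, -(C * (1 + ∑ j, z (ι j) ^ 2)) ≤ Φ τ z) (U : ON N)
    (y : FIdx N ⊕ Fin k → ℝ) :
    leafFun lam (fun _ _ => 0) U y - C * (1 + specAvg lam ι U y) ≤ leafFun lam Φ U y := by
  set W := specAvg lam ι U y with hW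
  set q := fun ω => ew (extWeight lam (fun _ _ => 0) U) (fun ω => (extLeaf k U).a ω ()) y ω with hq
  have hq0 : ∀ ω, 0 < q ω := ew_pos (weight_pos lam _ U) _ _
  have hZ : 0 < ∑ ω, q ω := sum_ew_pos (weight_pos lam _ U) _ _
  have hmean : ∑ ω, q ω * spec ι U ω.1 = W * ∑ ω, q ω := by
    rw [hW, specAvg, gib, div_mul_cancel₀ _ hZ.ne']
  refine Real.exp_le_exp.1 ?_
  rw [sub_eq_add_neg, Real.exp_add, leafFun, leafFun, exp_lse (weight_pos lam Φ U),
    exp_lse (weight_pos lam _ U)]
  calc (∑ ω, q ω) * Real.exp (-(C * (1 + W)))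
      = ∑ ω, q ω * (Real.exp (-(C * (1 + W))) * (1 + C * (W - spec ι U ω.1))) := by
        rw [sum_congr rfl fun ω _ => (show q ω * (Real.exp (-(C * (1 + W))) *
            (1 + C * (W - spec ι U ω.1))) = Real.exp (-(C * (1 + W))) * (1 + C * W) * q ω -
              Real.exp (-(C * (1 + W))) * C * (q ω * spec ι U ω.1) by ring), sum_sub_distrib,
          ← mul_sum, ← mul_sum, hmean]
        ring
    _ ≤ ∑ ω, q ω * Real.exp (Φ ω.2 (rotSpin U ω.1)) := by
        refine sum_le_sum fun ω _ => mul_le_mul_of_nonneg_left ?_ (hq0 ω).le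
        refine le_trans ?_ (Real.exp_le_exp.2 (hl ω.2 (rotSpin U ω.1)))
        refine le_trans ?_ (le_of_eq (congrArg Real.exp (show -(C * (1 + W)) + C * (W - spec ι U ω.1)
          = -(C * (1 + ∑ j, rotSpin U ω.1 (ι j) ^ 2)) by simp only [spec]; ring)))
        rw [Real.exp_add]
        exact mul_le_mul_of_nonneg_left (by linarith [Real.add_one_le_exp (C * (W - spec ι U ω.1))])
          (Real.exp_pos _).le
    _ = _ := by
        refine sum_congr rfl fun ω _ => ?_
        simp only [hq, ew, weight_eq, Real.exp_zero, mul_one]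
        ring

lemma leaf_close (hR : 0 < R) (hu : ∀ τ z, Φ τ z ≤ C)
    (hclose : ∀ τ z, ∑ j, z (ι j) ^ 2 ≤ R ^ 2 → |Φ τ z - Φ' τ z| ≤ e₀) (U : ON N)
    (y : FIdx N ⊕ Fin k → ℝ) :
    Real.exp (leafFun lam Φ U y) ≤ Real.exp (leafFun lam Φ' U y + e₀) +
      Real.exp (leafFun lam (fun _ _ => 0) U y + C) * ((1 + specAvg lam ι U y) / R ^ 2) := by
  set q := fun ω => ew (extWeight lam (fun _ _ => 0) U) (fun ω => (extLeaf k U).a ω ()) y ω with hq
  have hq0 : ∀ ω, 0 < q ω := ew_pos (weight_pos lam _ U) _ _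
  have hZ : 0 < ∑ ω, q ω := sum_ew_pos (weight_pos lam _ U) _ _
  have hmean : ∑ ω, q ω * spec ι U ω.1 = specAvg lam ι U y * ∑ ω, q ω := by
    rw [specAvg, gib, div_mul_cancel₀ _ hZ.ne']
  have hexp : ∀ Ψ : (Fin k → Bool) → (Fin N → ℝ) → ℝ, Real.exp (leafFun lam Ψ U y) =
      ∑ ω, q ω * Real.exp (Ψ ω.2 (rotSpin U ω.1)) := by
    intro Ψ
    rw [leafFun, exp_lse (weight_pos lam Ψ U)]
    refine sum_congr rfl fun ω _ => ?_
    simp only [hq, ew, weight_eq, Real.exp_zero, mul_one]
    ring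
  rw [Real.exp_add, Real.exp_add, hexp Φ, hexp Φ', hexp fun _ _ => 0]
  calc ∑ ω, q ω * Real.exp (Φ ω.2 (rotSpin U ω.1))
      ≤ ∑ ω, (q ω * Real.exp (Φ' ω.2 (rotSpin U ω.1)) * Real.exp e₀ +
          Real.exp C / R ^ 2 * (q ω + q ω * spec ι U ω.1)) := by
        refine sum_le_sum fun ω _ => ?_
        rw [mul_assoc, ← mul_one_add (q ω), mul_left_comm _ (q ω), ← mul_add]
        refine mul_le_mul_of_nonneg_left ?_ (hq0 ω).le
        have hs := spec_nonneg ι U ω.1
        rcases le_or_gt (spec ι U ω.1) (R ^ 2) with h | h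
        · refine le_add_of_le_of_nonneg ?_ (by positivity)
          rw [← Real.exp_add]
          exact Real.exp_le_exp.2 (by linarith [(abs_le.1 (hclose ω.2 _ h)).2])
        · refine le_add_of_nonneg_of_le (by positivity) ?_
          refine (Real.exp_le_exp.2 (hu _ _)).trans ?_
          rw [div_mul_eq_mul_div, le_div_iff₀ (by positivity)]
          exact mul_le_mul_of_nonneg_left (by linarith) (Real.exp_pos _).le
    _ = _ := by
        simp only [sum_add_distrib, ← mul_sum, ← sum_mul, hmean, Real.exp_zero, mul_one]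
        ring

end special

end FrameTrunc

open Vale.Agent.P166.Parisi.FrameTrunc

variable {M : ℕ} [NeZero M]

/-- Module F1c: couplings which agree where the special coordinates are small give close free
energies, uniformly in the number of levels. -/
theorem meanExt_trunc {N k : ℕ} {J : Type} [Fintype J] (P : Par) (hP : P.Ok) {m : ℝ} (hm : 0 < m)
    (hm1 : m ≤ 1) (hmK : m * ((P.K : ℝ) + 1) ≤ (P.L0 : ℝ) + 1) (a : Fin M → ℝ) (s : ℕ → ℝ)
    (hs : ∀ l, 1 ≤ l → l ≤ P.L0 → s l = 0) (e : ℕ → Fin k → ℝ)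
    (he : ∀ l, 1 ≤ l → l ≤ P.L0 → e l = 0) (b : Fin N → Fin M) (hN : 0 < N)
    (hb : (N : ℝ) ≤ 2 * M * (fiber b (topA M)).card) (ι : J → Fin N)
    (hι : ∀ j, b (ι j) = topA M) (v : GBox M P.K → ℝ)
    {Φ Φ' : (Fin k → Bool) → (Fin N → ℝ) → ℝ} (hc : ∀ τ, Continuous (Φ τ))
    (hc' : ∀ τ, Continuous (Φ' τ)) {C e₀ R Lc : ℝ} (hC : 0 ≤ C) (he₀ : 0 ≤ e₀) (hR : 0 < R)
    (hL : 1 ≤ Lc) (hu : ∀ τ z, Φ τ z ≤ C) (hu' : ∀ τ z, Φ' τ z ≤ C)
    (hl : ∀ τ z, -(C * (1 + ∑ j, z (ι j) ^ 2)) ≤ Φ τ z)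
    (hl' : ∀ τ z, -(C * (1 + ∑ j, z (ι j) ^ 2)) ≤ Φ' τ z)
    (hclose : ∀ τ z, ∑ j, z (ι j) ^ 2 ≤ R ^ 2 → |Φ τ z - Φ' τ z| ≤ e₀) :
    |meanExt P.K (P.lamN a b v) (fun l _ => s l) (P.ampN b v) e Φ -
        meanExt P.K (P.lamN a b v) (fun l _ => s l) (P.ampN b v) e Φ'| ≤
      e₀ + Real.exp (C * (2 + Lc)) / m * ((Lc + 1) / R ^ 2) ^ m +
        6 * C / Lc * (12 * (Fintype.card J : ℝ) ^ 2 * (M : ℝ) ^ 2) := by
  set lam := P.lamN a b v
  set S : ℕ → Fin N → ℝ := fun l _ => s l with hS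
  set V := P.ampN b v with hV
  set E := extNest P.K S V e with hEdef
  have hE : E.Good := x_good_nest rfl rfl
  have hsupp : ∀ l, 1 ≤ l → l ≤ E.K → (∃ i, E.amp l i ≠ 0) → m ≤ E.x l := by
    intro l hl1 hlK ⟨i, hi⟩
    have hlL : P.L0 < l := by
      by_contra h
      push Not at h
      refine hi ?_
      rcases i with (p | p) | j
      · exact hs l hl1 h
      · show P.etaV v l (b p) = 0
        have hlK' : l ≤ P.K + 1 := hlK
        rw [Par.etaV, dif_pos hlK', if_pos ⟨hl1, h⟩]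
      · exact congrFun (he l hl1 h) j
    refine le_min hm1 ?_
    rw [lvl, le_div_iff₀ (by positivity)]
    exact hmK.trans (by exact_mod_cast hlL)
  set Kc := e₀ + Real.exp (C * (2 + Lc)) / m * ((Lc + 1) / R ^ 2) ^ m
  have hpt : ∀ U, |extFree P.K lam S V e Φ U - extFree P.K lam S V e Φ' U| ≤
      Kc + 6 * C / Lc * ((Fintype.card J : ℝ) * ∑ j, four lam P.K S V (ι j) U) := by
    intro U
    rw [extFree_eq_root, extFree_eq_root]
    refine (root_trunc hE hm hm1 hsupp (lin_leafFun lam (fun _ _ => 0) U)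
      (Tilt.semi_of_lin (lin_leafFun lam Φ U)) (Tilt.semi_of_lin (lin_leafFun lam Φ' U))
      (tame_gib (weight_pos lam _ U)) (specAvg_nonneg lam ι U) hC he₀ hR hL
      (leaf_upper lam Φ hu U) (leaf_upper lam Φ' hu' U) (leaf_lower lam ι Φ hl U)
      (leaf_lower lam ι Φ' hl' U) (leaf_close lam ι Φ Φ' hR hu hclose U)
      (leaf_close lam ι Φ' Φ hR hu'
        (fun τ z h => by rw [abs_sub_comm]; exact hclose τ z h) U)).trans ?_
    exact add_le_add le_rfl (mul_le_mul_of_nonneg_left (mean_spec_sq lam ι P.K S V e U)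
      (by positivity))
  have hfour : ∀ j, ∫ U, four lam P.K S V (ι j) U ∂haarON N ≤ 12 * (M : ℝ) ^ 2 := by
    intro j
    have hmem : ι j ∈ fiber b (topA M) := by simp [fiber, hι j]
    refine (integral_atom_four P.K lam S V (fiber b (topA M)) (fun p hp q hq => ?_) hmem).trans ?_
    · have hp' : b p = topA M := (mem_filter.1 hp).2
      have hq' : b q = topA M := (mem_filter.1 hq).2
      simp [lam, V, Par.lamN, Par.ampN, hp', hq']
    · have hcard : 0 < ((fiber b (topA M)).card : ℝ) :=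
        Nat.cast_pos.2 (card_pos.2 ⟨ι j, hmem⟩)
      have h2 : (N : ℝ) / (fiber b (topA M)).card ≤ 2 * M := (div_le_iff₀ hcard).2 hb
      have h3 := pow_le_pow_left₀ (by positivity) h2 2
      linarith
  have i0 : ∀ j, Integrable (fun U => four lam P.K S V (ι j) U) (haarON N) :=
    fun j => integrable_of_cont (continuous_four lam P.K S V (ι j))
  have i1 := integrable_of_cont (continuous_extFree' lam Φ P.K S V e hc)
  have i2 := integrable_of_cont (continuous_extFree' lam Φ' P.K S V e hc')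
  rw [meanExt, meanExt, ← integral_sub i1 i2]
  refine abs_integral_le_integral_abs.trans ((integral_mono (i1.sub i2).abs
    ((integrable_const Kc).fun_add
      (((integrable_finsetSum _ fun j _ => i0 j).const_mul _).const_mul _)) hpt).trans ?_)
  rw [integral_add (integrable_const Kc)
    (((integrable_finsetSum _ fun j _ => i0 j).const_mul _).const_mul _), integral_const,
    probReal_univ, one_smul, integral_const_mul, integral_const_mul,
    integral_finsetSum _ fun j _ => i0 j]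
  refine add_le_add le_rfl (mul_le_mul_of_nonneg_left ?_ (by positivity))
  calc (Fintype.card J : ℝ) * ∑ j, ∫ U, four lam P.K S V (ι j) U ∂haarON N
      ≤ (Fintype.card J : ℝ) * ∑ _j : J, 12 * (M : ℝ) ^ 2 :=
        mul_le_mul_of_nonneg_left (sum_le_sum fun j _ => hfour j) (Nat.cast_nonneg _)
    _ = _ := by rw [sum_const, card_univ, nsmul_eq_mul]; ring

end Vale.Agent.P166.Parisi
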