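import Vale.Agent.P166.Parisi.FrameRotate
import Vale.Agent.P166.Parisi.FrameTrunc

/-!
The enlarged system as the base system coupled to the new spins.
-/

namespace Vale.Agent.P166.Parisi.Frame

open MeasureTheory ProbabilityTheory Finset Filter Topology
open Vale.Agent.P157 Vale.Agent.P157.Parisi

variable {M : ℕ} [NeZero M]

/-- The cut-off coupling of the new spins. -/
noncomputable def newCut {N : ℕ} (R : ℝ) {a : Fin M → ℝ} (cp : Compress a)
    (j : NewIdx M → Fin N) (τ : Fin M → Bool) (z : Fin N → ℝ) : ℝ :=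
  ∑ x, quadCut R (cp.e x.2) (cp.b x.2) (spin τ x.1 * z (j x))

theorem continuous_newCut {N : ℕ} (R : ℝ) {a : Fin M → ℝ} (cp : Compress a)
    (j : NewIdx M → Fin N) (τ : Fin M → Bool) : Continuous (newCut R cp j τ) :=
  continuous_finsetSum _ fun x _ => (continuous_quadCut _ _ _).comp
    (continuous_const.mul (continuous_apply (j x)))

/-- The constant bounding the couplings. -/
noncomputable def newConst {a : Fin M → ℝ} (cp : Compress a) : ℝ :=
  ((∑ r, |a r|) + 2) * M + (2 * (∑ r, |a r|) + 5) * (M + 1) + M * |cp.c0| +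
    ∑ x : NewIdx M, (cp.e x.2 + 1 + cp.b x.2 ^ 2 / (2 * cp.e x.2) + cp.b x.2 ^ 2)

theorem newConst_nonneg {a : Fin M → ℝ} (cp : Compress a) : 0 ≤ newConst cp := by
  have : 0 ≤ ∑ r, |a r| := sum_nonneg fun _ _ => abs_nonneg _
  have : 0 ≤ ∑ x : NewIdx M, (cp.e x.2 + 1 + cp.b x.2 ^ 2 / (2 * cp.e x.2) + cp.b x.2 ^ 2) :=
    sum_nonneg fun x _ => by have := cp.pos x.2; positivity
  unfold newConst; positivity

theorem newPhi_bounds (P : Par) (hP : P.Ok) {a : Fin M → ℝ} (cp : Compress a) {g : ℝ}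
    (hg : ∀ r, r ≠ topA M → a r + g ≤ a (topA M)) {v : GBox M P.K → ℝ} (hv : InBox v) {κ : ℝ}
    (h1 : 4 * P.du + |κ| ≤ g) (h2 : |κ| ≤ 1)
    {A : Matrix (Fin M × Fin M) (NewIdx M ⊕ Fin M) ℝ} (hA : A.transpose * A = 1) {N : ℕ}
    (j : NewIdx M → Fin N) (τ : Fin M → Bool) (z : Fin N → ℝ) :
    newPhi P a v κ A j τ z ≤ newConst cp ∧
      -(newConst cp * (1 + ∑ x, z (j x) ^ 2)) ≤ newPhi P a v κ A j τ z := by
  obtain ⟨hu, hl⟩ := quadE_bounds (cst := P.lamV a v (topA M) / 2 * M)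
    (fun r => (shiftD_bounds (a := a) hP hg hv h1 h2 r).1)
    (fun r => (shiftD_bounds (a := a) hP hg hv h1 h2 r).2.1) hA τ (fun x => z (j x))
  set A1 := ∑ r, |a r| with hA1
  have hA10 : 0 ≤ A1 := sum_nonneg fun _ _ => abs_nonneg _
  have hM : (0 : ℝ) ≤ M := Nat.cast_nonneg M
  have hlam := abs_le.1 (abs_lamV_le (a := a) hP hv (topA M))
  set W := ∑ x, z (j x) ^ 2 with hW
  have hW0 : 0 ≤ W := sum_nonneg fun _ _ => sq_nonneg _
  have hE : 0 ≤ (M : ℝ) * |cp.c0| +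
      ∑ x : NewIdx M, (cp.e x.2 + 1 + cp.b x.2 ^ 2 / (2 * cp.e x.2) + cp.b x.2 ^ 2) :=
    add_nonneg (by positivity) (sum_nonneg fun x _ => by have := cp.pos x.2; positivity)
  have hC : (A1 + 2) * M + (2 * A1 + 5) * (M + 1) ≤ newConst cp := by
    unfold newConst; rw [← hA1]; linarith
  have h3 := mul_le_mul_of_nonneg_right hlam.2 hM
  have h4 := mul_le_mul_of_nonneg_right hlam.1 hM
  have h5 : 0 ≤ (2 * A1 + 5) * ((M : ℝ) + 1) := by positivity
  have h6 : 0 ≤ (A1 + 2) * (M : ℝ) := by positivity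
  unfold newPhi
  refine ⟨hu.trans ?_, le_trans ?_ hl⟩
  · linarith
  · have h7 := mul_le_mul_of_nonneg_right hC (by linarith : 0 ≤ 1 + W)
    have h8 := mul_nonneg h6 hW0
    have h9 : 0 ≤ (2 * A1 + 5) * (M : ℝ) * W := by positivity
    nlinarith

theorem newCut_bounds {R : ℝ} (hR : 0 < R) {a : Fin M → ℝ} (cp : Compress a) {N : ℕ}
    (j : NewIdx M → Fin N) (τ : Fin M → Bool) (z : Fin N → ℝ) :
    newCut R cp j τ z + M * cp.c0 ≤ newConst cp ∧
      -(newConst cp * (1 + ∑ x, z (j x) ^ 2)) ≤ newCut R cp j τ z + M * cp.c0 := by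
  set Ec := ∑ x : NewIdx M, (cp.e x.2 + 1 + cp.b x.2 ^ 2 / (2 * cp.e x.2) + cp.b x.2 ^ 2) with hEc
  have hA0 : 0 ≤ ((∑ r, |a r|) + 2) * (M : ℝ) + (2 * (∑ r, |a r|) + 5) * (M + 1) := by
    have : 0 ≤ ∑ r, |a r| := sum_nonneg fun _ _ => abs_nonneg _
    positivity
  have hC : (M : ℝ) * |cp.c0| + Ec ≤ newConst cp := by unfold newConst; rw [← hEc]; linarith
  have hpos : ∀ x : NewIdx M, 0 ≤ cp.b x.2 ^ 2 / (2 * cp.e x.2) := fun x => by
    have := cp.pos x.2; positivity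
  have hc := mul_le_mul_of_nonneg_left (le_abs_self cp.c0) (Nat.cast_nonneg M : (0:ℝ) ≤ M)
  have hc' := mul_le_mul_of_nonneg_left (neg_abs_le cp.c0) (Nat.cast_nonneg M : (0:ℝ) ≤ M)
  set W := ∑ x, z (j x) ^ 2 with hW
  have hW0 : 0 ≤ W := sum_nonneg fun _ _ => sq_nonneg _
  constructor
  · have : newCut R cp j τ z ≤ Ec := sum_le_sum fun x _ => by
      have := (quadCut_bounds (cp.pos x.2) hR (cp.b x.2) (spin τ x.1 * z (j x))).1
      have := cp.pos x.2
      have := sq_nonneg (cp.b x.2)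
      linarith
    linarith
  · have : -(Ec * (1 + W)) ≤ newCut R cp j τ z := by
      rw [hEc, sum_mul, ← sum_neg_distrib]
      refine sum_le_sum fun x _ => ?_
      have h := (quadCut_bounds (cp.pos x.2) hR (cp.b x.2) (spin τ x.1 * z (j x))).2
      rw [mul_pow, spin_sq, one_mul] at h
      have h1 : z (j x) ^ 2 ≤ W :=
        single_le_sum (f := fun x => z (j x) ^ 2) (fun _ _ => sq_nonneg _) (mem_univ x)
      have h2 := mul_le_mul_of_nonneg_left h1 (by linarith [cp.pos x.2] : 0 ≤ (cp.e x.2 + 1) / 2)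
      have h3 := cp.pos x.2
      have h4 := mul_nonneg (hpos x) hW0
      have h5 := mul_nonneg (sq_nonneg (cp.b x.2)) hW0
      have h6 := mul_nonneg h3.le hW0
      have := hpos x
      linarith [sq_nonneg (cp.b x.2)]
    have h7 := mul_le_mul_of_nonneg_right hC (by linarith : 0 ≤ 1 + W)
    have h8 := mul_nonneg (mul_nonneg (Nat.cast_nonneg M : (0:ℝ) ≤ M) (abs_nonneg cp.c0)) hW0
    linarith

theorem new_size {N : ℕ} {b : Fin N → Fin M} {b' : Fin (N + M) → Fin M} {bB : Fin N → Fin M}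
    (j : NewIdx M ↪ Fin N) (hj : ∀ x, bB (j x) = topA M)
    (σe : Fin M × Fin M ≃ NewIdx M ⊕ Fin M)
    (hb' : ∀ r, (fiber b' r).card = (fiber b r).card + 1)
    (hcardB : ∀ r, r ≠ topA M → (fiber bB r).card + (M - 1) = (fiber b r).card) :
    ∀ x, (fiber b' x).card = (fiber (newAtoms bB j σe) x).card :=
  card_all (top := topA M) fun x hx => by
    classical
    have h0 : ∀ y, (Fin.append bB fun _ => topA M) (newPos j y) = topA M := by
      rintro (y | c) <;> simp [Fin.append_left, Fin.append_right, hj]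
    rw [newAtoms, fiber_extend_card (newPos j) _ _ h0 hx, hb' x, ← hcardB x hx]
    have e1 : (fiber (Fin.append bB fun _ => topA M) x) = (fiber bB x).map (Fin.castAddEmb M) := by
      ext p
      refine Fin.addCases (fun i => ?_) (fun i => ?_) p
      · simp [fiber, Fin.append_left]
      · simp only [fiber, mem_filter, mem_univ, true_and, Fin.append_right, Finset.mem_map,
          Fin.castAddEmb_apply, Ne.symm hx, false_iff, not_exists, not_and]
        intro k _ h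
        have := k.isLt
        simp [Fin.ext_iff] at h
        omega
    have e2 : (univ.filter fun y => (σe.symm y).1 = x) =
        (univ : Finset (Fin M)).image fun k => σe (x, k) := by
      ext y
      simp only [mem_filter, mem_univ, true_and, mem_image]
      constructor
      · intro h; exact ⟨(σe.symm y).2, by rw [← h]; simp⟩
      · rintro ⟨k, rfl⟩; simp
    rw [e1, card_map, e2, card_image_of_injective _ fun k k' h => by simpa using h, card_univ,
      Fintype.card_fin]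
    have : 0 < M := Nat.pos_of_ne_zero (NeZero.ne M)
    omega

/-- The couplings are close where the special coordinates are small. -/
theorem newPhi_close (P : Par) (hP : P.Ok) {a : Fin M → ℝ} (cp : Compress a) {g : ℝ}
    (hg : ∀ r, r ≠ topA M → a r + g ≤ a (topA M)) {v : GBox M P.K → ℝ} (hv : InBox v) {κ : ℝ}
    (h1 : 4 * P.du + |κ| ≤ g) (h2 : |κ| ≤ 1)
    {A : Matrix (Fin M × Fin M) (NewIdx M ⊕ Fin M) ℝ} (hA : A.transpose * A = 1) {δ r R e₂ : ℝ}
    (hclose : ∀ p x, |A p x - idealQ cp p x| ≤ δ) (hr : 0 ≤ r)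
    (hcut : ∀ (x : NewIdx M) y, |y| ≤ r →
      |quadCut R (cp.e x.2) (cp.b x.2) y - quadPsi (cp.e x.2) (cp.b x.2) y| ≤ e₂)
    {N : ℕ} (j : NewIdx M → Fin N) (τ : Fin M → Bool) (z : Fin N → ℝ)
    (hz : ∑ x, z (j x) ^ 2 ≤ r ^ 2) :
    |newPhi P a v κ A j τ z - (newCut R cp j τ z + M * cp.c0)| ≤
      P.du * M + ((M : ℝ) * M) * ((Fintype.card (NewIdx M ⊕ Fin M) : ℝ) * (r + 1)) ^ 2 *
          ((4 * P.du + |κ|) / 2 + (2 * (∑ r, |a r|) + 5) * δ) +
        (Fintype.card (NewIdx M) : ℝ) * e₂ := by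
  have hb3 := fun x => shiftD_bounds (a := a) hP hg hv (κ := κ) h1 h2 x
  set A1 := ∑ r, |a r| with hA1
  set D := 2 * A1 + 5
  have hd0 : ∀ x, |a x - a (topA M)| ≤ D := fun x => by
    refine (abs_sub _ _).trans ?_
    have := single_le_sum (f := fun r => |a r|) (fun _ _ => abs_nonneg _) (mem_univ x)
    have := single_le_sum (f := fun r => |a r|) (fun _ _ => abs_nonneg _) (mem_univ (topA M))
    linarith
  have h1' : |newPhi P a v κ A j τ z -
      quadE (fun x => a x - a (topA M)) (a (topA M) / 2 * M) (idealQ cp) τ fun x => z (j x)| ≤ _ :=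
    quadE_close hd0 (fun x => (hb3 x).2.2) hA (idealQ_orth cp) hclose τ hr hz
  have h2' : |P.lamV a v (topA M) / 2 * M - a (topA M) / 2 * M| ≤ P.du * M := by
    rw [show P.lamV a v (topA M) / 2 * M - a (topA M) / 2 * M =
      P.du * M * (v (Sum.inl (topA M)) / 2) by simp only [Par.lamV]; ring, abs_mul,
      abs_of_nonneg (mul_nonneg hP.du_pos.le (Nat.cast_nonneg M))]
    refine mul_le_of_le_one_right (mul_nonneg hP.du_pos.le (Nat.cast_nonneg M)) ?_
    rw [abs_div, abs_two]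
    linarith [abs_vTop hv (Sum.inl (topA M))]
  rw [quadE_ideal] at h1'
  have h3 : |(M * cp.c0 + ∑ x : NewIdx M, quadPsi (cp.e x.2) (cp.b x.2) (spin τ x.1 * z (j x))) -
      (newCut R cp j τ z + M * cp.c0)| ≤ (Fintype.card (NewIdx M) : ℝ) * e₂ := by
    rw [show ∀ x y : ℝ, (M * cp.c0 + x) - (y + M * cp.c0) = x - y from fun x y => by ring]
    simp only [newCut, ← sum_sub_distrib]
    refine (abs_sum_le_sum_abs _ _).trans ?_
    refine (sum_le_card_nsmul _ _ e₂ fun x _ => ?_).trans_eq ?_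
    · rw [abs_sub_comm]
      refine hcut x _ ?_
      rw [← abs_of_nonneg hr, ← sq_le_sq, mul_pow, spin_sq, one_mul]
      exact (single_le_sum (f := fun x => z (j x) ^ 2) (fun _ _ => sq_nonneg _)
        (mem_univ x)).trans hz
    · rw [card_univ, nsmul_eq_mul]
  refine (abs_sub_le _ (M * cp.c0 + ∑ x : NewIdx M,
    quadPsi (cp.e x.2) (cp.b x.2) (spin τ x.1 * z (j x))) _).trans ?_
  linarith

/-- Truncation and the fields of the new spins. -/
theorem new_trunc (P : Par) (hP : P.Ok) {a : Fin M → ℝ} (cp : Compress a) {g : ℝ}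
    (hg : ∀ r, r ≠ topA M → a r + g ≤ a (topA M)) {v : GBox M P.K → ℝ} (hv : InBox v) {m : ℝ}
    (hm : 0 < m) (hm1 : m ≤ 1) (hmK : m * ((P.K : ℝ) + 1) ≤ (P.L0 : ℝ) + 1) {N : ℕ} (hN : 0 < N)
    (s : ℕ → ℝ) (hs : ∀ l, 1 ≤ l → l ≤ P.L0 → s l = 0) (e : ℕ → Fin M → ℝ)
    (he : ∀ l, 1 ≤ l → l ≤ P.L0 → e l = 0) (bB : Fin N → Fin M)
    (hbT : (N : ℝ) ≤ 2 * M * (fiber bB (topA M)).card) (j : NewIdx M → Fin N)
    (hj : ∀ x, bB (j x) = topA M) {R : ℝ} (hR : 0 < R) {κ : ℝ} (h1 : 4 * P.du + |κ| ≤ g)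
    (h2 : |κ| ≤ 1) {A : Matrix (Fin M × Fin M) (NewIdx M ⊕ Fin M) ℝ} (hA : A.transpose * A = 1)
    {e₀ r Lc : ℝ} (he₀ : 0 ≤ e₀) (hr : 0 < r) (hL : 1 ≤ Lc)
    (hclose : ∀ τ z, ∑ x, z (j x) ^ 2 ≤ r ^ 2 →
      |newPhi P a v κ A j τ z - (newCut R cp j τ z + M * cp.c0)| ≤ e₀) :
    |meanExt P.K (P.lamN a bB v) (fun l _ => s l) (P.ampN bB v) (newAmp P v e)
        (newPhi P a v κ A j) -
      (M * cp.c0 +
        meanExt P.K (P.lamN a bB v) (fun l _ => s l) (P.ampN bB v) e (newCut R cp j))| ≤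
      e₀ + truncErr m (newConst cp) (12 * (Fintype.card (NewIdx M) : ℝ) ^ 2 * (M : ℝ) ^ 2) r Lc +
        ((P.K : ℝ) + 2) * M * (3 * P.eta) ^ 2 := by
  have hlow'' : ∀ l, 1 ≤ l → l ≤ P.L0 → newAmp P v e l = 0 := fun l h1 h2 => funext fun c => by
    simp [newAmp, he l h1 h2, etaV_low hP v h1 h2]
  have hΦtc : ∀ τ, Continuous fun z => newCut R cp j τ z + M * cp.c0 := fun τ =>
    (continuous_newCut R cp j τ).add continuous_const
  have hb3 := newPhi_bounds P hP cp hg hv h1 h2 hA j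
  have ht := meanExt_trunc P hP hm hm1 hmK a s hs (newAmp P v e) hlow'' bB hN hbT j hj v
    (Φ := newPhi P a v κ A j) (Φ' := fun τ z => newCut R cp j τ z + M * cp.c0)
    (continuous_newPhi P a v κ A j) hΦtc (newConst_nonneg cp) he₀ hr hL
    (fun τ z => (hb3 τ z).1) (fun τ z => (newCut_bounds hR cp j τ z).1)
    (fun τ z => (hb3 τ z).2) (fun τ z => (newCut_bounds hR cp j τ z).2) hclose
  have ha : |meanExt P.K (P.lamN a bB v) (fun l _ => s l) (P.ampN bB v) (newAmp P v e)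
        (fun τ z => newCut R cp j τ z + M * cp.c0) -
      meanExt P.K (P.lamN a bB v) (fun l _ => s l) (P.ampN bB v) e
        (fun τ z => newCut R cp j τ z + M * cp.c0)| ≤ ((P.K : ℝ) + 2) * M * (3 * P.eta) ^ 2 := by
    refine meanExt_amp_close P.K _ _ _ e _ (d := (3 * P.eta) ^ 2) (fun l c => ?_) (fun l c => ?_)
      hΦtc
    · rw [newAmp, ← Real.sqrt_sq_eq_abs]
      exact Real.sqrt_le_sqrt (le_add_of_nonneg_right (sq_nonneg _))
    · rw [newAmp, Real.sq_sqrt (by positivity), add_sub_cancel_left, ← sq_abs]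
      exact pow_le_pow_left₀ (abs_nonneg _) (abs_etaV_le hP hv l _) 2
  rw [meanExt_add_const _ _ _ _ e (continuous_newCut R cp j),
    add_comm _ ((M : ℝ) * cp.c0)] at ha
  refine (abs_sub_le _ _ _).trans ((add_le_add ht ha).trans (le_of_eq ?_))
  simp only [truncErr]
  ring

omit [NeZero M] in
/-- Averaging over the frame of the new columns. -/
theorem frame_average {N : ℕ} (hN : 3 ≤ N) {F : ON (N + M) → ℝ} (hF : Continuous F)
    (b : Fin (N + M) → Fin M) {T e₁ e₂ δ : ℝ} (hδ : 0 < δ) (he₁ : 0 ≤ e₁) (he₂ : 0 ≤ e₂)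
    (hbias : ∀ x, |((fiber b x).card : ℝ) / ((N + M : ℕ) : ℝ) - 1 / M| ≤ δ / 2)
    (h : ∀ U : ON (N + M),
      ((∀ x c c', |gram b U x c c' - if c = c' then 1 / (M : ℝ) else 0| ≤ δ) →
        |∫ W, F (U * embON M W) ∂haarON N - T| ≤ e₁) ∧
      |∫ W, F (U * embON M W) ∂haarON N - T| ≤ e₂) :
    |∫ U, F U ∂haarON (N + M) - T| ≤
      e₁ + e₂ * (4 / δ ^ 2) * ((M : ℝ) ^ 3 * (16 / ((N : ℝ) - 2))) := by
  set G : ON (N + M) → ℝ := fun U => ∫ W, F (U * embON M W) ∂haarON N with hG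
  have hFprod : Continuous fun q : ON (N + M) × ON N => F (q.1 * embON M q.2) :=
    hF.comp (continuous_fst.mul ((continuous_embON M).comp continuous_snd))
  have hGI : Integrable G (haarON (N + M)) :=
    (hFprod.integrable_of_hasCompactSupport (μ := (haarON (N + M)).prod (haarON N))
      (HasCompactSupport.of_compactSpace _)).integral_prod_left
  set μ : Fin M → Fin M → Fin M → ℝ := fun x c c' =>
    if Fin.natAdd N c = Fin.natAdd N c' then ((fiber b x).card : ℝ) / ((N + M : ℕ) : ℝ) else 0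
  set Dev : ON (N + M) → ℝ := fun U => ∑ x, ∑ c, ∑ c', (gram b U x c c' - μ x c c') ^ 2
  have hpt : ∀ U, |G U - T| ≤ e₁ + e₂ * (4 / δ ^ 2) * Dev U := by
    intro U
    have hDev0 : 0 ≤ Dev U := sum_nonneg fun _ _ => sum_nonneg fun _ _ => sum_nonneg fun _ _ =>
      sq_nonneg _
    by_cases hb : ∀ x c c', |gram b U x c c' - if c = c' then 1 / (M : ℝ) else 0| ≤ δ
    · exact ((h U).1 hb).trans (le_add_of_nonneg_right (by positivity))
    · push Not at hb
      obtain ⟨x, c, c', hxcc⟩ := hb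
      have hbig : δ / 2 ≤ |gram b U x c c' - μ x c c'| := by
        have hμ : |μ x c c' - if c = c' then 1 / (M : ℝ) else 0| ≤ δ / 2 := by
          simp only [μ, Fin.natAdd_inj]
          split_ifs
          · exact hbias x
          · simp; positivity
        have := abs_sub_le (gram b U x c c') (μ x c c') (if c = c' then 1 / (M : ℝ) else 0)
        linarith
      have hsq : (δ / 2) ^ 2 ≤ Dev U := by
        refine le_trans ?_ ((single_le_sum (f := fun c' => (gram b U x c c' - μ x c c') ^ 2)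
          (fun _ _ => sq_nonneg _) (mem_univ c')).trans
          ((single_le_sum (f := fun c => ∑ c', (gram b U x c c' - μ x c c') ^ 2)
          (fun _ _ => sum_nonneg fun _ _ => sq_nonneg _) (mem_univ c)).trans
          (single_le_sum (f := fun x => ∑ c, ∑ c', (gram b U x c c' - μ x c c') ^ 2)
          (fun _ _ => sum_nonneg fun _ _ => sum_nonneg fun _ _ => sq_nonneg _) (mem_univ x))))
        rw [← sq_abs (gram b U x c c' - _)]
        exact pow_le_pow_left₀ (by positivity) hbig 2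
      refine ((h U).2.trans ?_).trans (le_add_of_nonneg_left he₁)
      refine le_trans ?_ (mul_le_mul_of_nonneg_left hsq (by positivity))
      rw [mul_assoc, show 4 / δ ^ 2 * (δ / 2) ^ 2 = 1 by field_simp; ring, mul_one]
  have hDevI : ∀ x c c', Integrable (fun U => (gram b U x c c' - μ x c c') ^ 2)
      (haarON (N + M)) := fun x c c' => integrable_of_cont (((continuous_finsetSum _ fun p _ =>
        (continuous_subtype_val.matrix_elem p _).mul
          (continuous_subtype_val.matrix_elem p _)).sub continuous_const).pow 2)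
  have hDev : ∫ U, Dev U ∂haarON (N + M) ≤ (M : ℝ) ^ 3 * (16 / ((N : ℝ) - 2)) := by
    have hI3 : ∀ x c, Integrable (fun U => ∑ c', (gram b U x c c' - μ x c c') ^ 2)
        (haarON (N + M)) := fun x c => integrable_finsetSum _ fun c' _ => hDevI x c c'
    have hI2 : ∀ x, Integrable (fun U => ∑ c, ∑ c', (gram b U x c c' - μ x c c') ^ 2)
        (haarON (N + M)) := fun x => integrable_finsetSum _ fun c _ => hI3 x c
    rw [integral_finsetSum _ fun x _ => hI2 x]
    simp only [integral_finsetSum _ fun c _ => hI3 _ c,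
      integral_finsetSum _ fun c' _ => hDevI _ _ c']
    calc ∑ x, ∑ c, ∑ c', ∫ U, (gram b U x c c' - μ x c c') ^ 2 ∂haarON (N + M)
        ≤ ∑ _x : Fin M, ∑ _c : Fin M, ∑ _c' : Fin M, (16 / ((N : ℝ) - 2)) :=
          sum_le_sum fun x _ => sum_le_sum fun c _ => sum_le_sum fun c' _ => by
            refine (integral_column_proj (by omega) (fiber b x) (Fin.natAdd N c)
              (Fin.natAdd N c')).trans ?_
            have : (3 : ℝ) ≤ N := by exact_mod_cast hN
            refine div_le_div_of_nonneg_left (by norm_num) (by linarith) ?_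
            push_cast; linarith
      _ = _ := by simp; ring
  have hDevI' : Integrable Dev (haarON (N + M)) := integrable_finsetSum _ fun x _ =>
    integrable_finsetSum _ fun c _ => integrable_finsetSum _ fun c' _ => hDevI x c c'
  rw [integral_embed_right hF (embON M) (continuous_embON M)]
  calc |∫ U, G U ∂haarON (N + M) - T| = |∫ U, (G U - T) ∂haarON (N + M)| := by
        rw [integral_sub hGI (integrable_const _)]; simp
    _ ≤ ∫ U, |G U - T| ∂haarON (N + M) := abs_integral_le_integral_abs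
    _ ≤ ∫ U, (e₁ + e₂ * (4 / δ ^ 2) * Dev U) ∂haarON (N + M) :=
        integral_mono_of_nonneg (Eventually.of_forall fun U => abs_nonneg _)
          ((integrable_const e₁).fun_add (hDevI'.const_mul _)) (Eventually.of_forall hpt)
    _ = e₁ + e₂ * (4 / δ ^ 2) * ∫ U, Dev U ∂haarON (N + M) := by
        rw [integral_add (integrable_const _) (hDevI'.const_mul _), integral_const_mul]; simp
    _ ≤ _ := add_le_add le_rfl (mul_le_mul_of_nonneg_left hDev (by positivity))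

omit [NeZero M] in
theorem error_budget {ε L2 D n du Mr δ : ℝ} (hε : 0 < ε) (hL : 0 ≤ L2) (hD : 0 ≤ D) (hn : 0 ≤ n)
    (hdu : 0 ≤ du) (hMr : 0 ≤ Mr) (hδ : δ = ε / (8 * (L2 * D + 1)))
    (hdue : du ≤ ε / (8 * (3 * L2 + Mr + 1))) :
    du * Mr + L2 * ((4 * du + du) / 2 + D * δ) + n * (ε / (8 * (n + 1))) ≤ 3 * ε / 8 := by
  have h1 : L2 * D * δ ≤ ε / 8 := by
    rw [hδ, ← mul_div_assoc, div_le_div_iff₀ (by positivity) (by norm_num)]
    nlinarith
  have h2 : n * (ε / (8 * (n + 1))) ≤ ε / 8 := by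
    rw [← mul_div_assoc, div_le_div_iff₀ (by positivity) (by norm_num)]
    nlinarith
  rw [le_div_iff₀ (by positivity)] at hdue
  have h3 := mul_nonneg hL hdu
  linarith

/-- The two bounds for each frame. -/
theorem new_pointwise (P : Par) (hP : P.Ok) {a : Fin M → ℝ} (cp : Compress a) {g : ℝ}
    (hg : ∀ r, r ≠ topA M → a r + g ≤ a (topA M)) {v : GBox M P.K → ℝ} (hv : InBox v) {m : ℝ}
    (hm : 0 < m) (hm1 : m ≤ 1) (hmK : m * ((P.K : ℝ) + 1) ≤ (P.L0 : ℝ) + 1) {N : ℕ} (hN : 0 < N)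
    (s : ℕ → ℝ) (hs : ∀ l, 1 ≤ l → l ≤ P.L0 → s l = 0) (e : ℕ → Fin M → ℝ)
    (he : ∀ l, 1 ≤ l → l ≤ P.L0 → e l = 0) (bB : Fin N → Fin M)
    (hbT : (N : ℝ) ≤ 2 * M * (fiber bB (topA M)).card) (j : NewIdx M ↪ Fin N)
    (hj : ∀ x, bB (j x) = topA M) (σe : Fin M × Fin M ≃ NewIdx M ⊕ Fin M) {R r Lc : ℝ} (hR : 0 < R)
    (hr : 0 < r) (hL : 1 ≤ Lc) (h1 : 4 * P.du + 2 * (((P.K : ℝ) + 2) * (3 * P.eta) ^ 2) ≤ g)
    (h2 : 2 * (((P.K : ℝ) + 2) * (3 * P.eta) ^ 2) ≤ 1) {δ δ' e₂ ε Cb : ℝ}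
    (hcomp : ∀ S : Matrix (Fin M × Fin M) (Fin M) ℝ, S.transpose * S = 1 →
      ∃ A : Matrix (Fin M × Fin M) (NewIdx M ⊕ Fin M) ℝ, A.transpose * A = 1 ∧
        A * A.transpose = 1 ∧ (∀ p c, A p (Sum.inr c) = S p c) ∧
        ((∀ p c, |S p c - idealQ cp p (Sum.inr c)| ≤ δ') → ∀ p x, |A p x - idealQ cp p x| ≤ δ))
    (hcut : ∀ (x : NewIdx M) y, |y| ≤ r →
      |quadCut R (cp.e x.2) (cp.b x.2) y - quadPsi (cp.e x.2) (cp.b x.2) y| ≤ e₂)
    (he₀ : P.du * M + ((M : ℝ) * M) * ((Fintype.card (NewIdx M ⊕ Fin M) : ℝ) * (r + 1)) ^ 2 *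
          ((4 * P.du + 2 * (((P.K : ℝ) + 2) * (3 * P.eta) ^ 2)) / 2 +
            (2 * (∑ r, |a r|) + 5) * δ) +
        (Fintype.card (NewIdx M) : ℝ) * e₂ ≤ 3 * ε / 8) (hε : 0 ≤ ε)
    (htr : truncErr m (newConst cp) (12 * (Fintype.card (NewIdx M) : ℝ) ^ 2 * (M : ℝ) ^ 2) r Lc ≤
      ε / 8) (hamp : ((P.K : ℝ) + 2) * M * (3 * P.eta) ^ 2 ≤ ε / 8)
    (hCb : crudeErr m (newConst cp) (12 * (Fintype.card (NewIdx M) : ℝ) ^ 2 * (M : ℝ) ^ 2) + ε ≤ Cb)
    (U : ON (N + M)) :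
    let G := ∫ W, glassFree P.K (P.lamN a (newAtoms bB j σe) v) (addAmp s e)
      (P.ampN (newAtoms bB j σe) v) (U * embON M W) ∂haarON N
    let T := (M : ℝ) * cp.c0 +
      meanExt P.K (P.lamN a bB v) (fun l _ => s l) (P.ampN bB v) e (newCut R cp j)
    ((∀ x c c', |gram (newAtoms bB j σe) U x c c' - if c = c' then 1 / (M : ℝ) else 0| ≤
        δ' / (M : ℝ) ^ 2) → |G - T| ≤ 5 * ε / 8) ∧ |G - T| ≤ Cb := by
  intro G T
  obtain ⟨A, hA, hclose, hlo, hup⟩ := exists_frame P hP a s e bB j hj σe v hv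
    (idealQ cp) (fun p c => by simp [idealQ]) (δ := δ) (δ' := δ') hcomp U
  set κ := 2 * (((P.K : ℝ) + 2) * (3 * P.eta) ^ 2) with hκ
  have hκ0 : 0 ≤ κ := by positivity
  have hκp : |κ| ≤ κ := (abs_of_nonneg hκ0).le
  have hκm : |-κ| ≤ κ := by rw [abs_neg, abs_of_nonneg hκ0]
  constructor
  · intro hb
    have ht : ∀ κ', |κ'| ≤ κ → _ := fun κ' hκ' => new_trunc P hP cp hg hv hm hm1
      hmK hN s hs e he bB hbT (fun x => j x) hj hR (κ := κ') (by linarith)
      (hκ'.trans h2) hA (e₀ := 3 * ε / 8) (by positivity) hr hL fun τ z hz => by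
        refine (newPhi_close P hP cp hg hv (by linarith) (hκ'.trans h2) hA (hclose hb) hr.le hcut
          (fun x => j x) τ z hz).trans (le_trans ?_ he₀)
        gcongr
    have h0' := abs_le.1 (ht κ hκp)
    have h1' := abs_le.1 (ht (-κ) hκm)
    rw [abs_le]
    constructor <;> linarith
  · have ht : ∀ κ', |κ'| ≤ κ → _ := fun κ' hκ' => new_trunc P hP cp hg hv hm hm1
      hmK hN s hs e he bB hbT (fun x => j x) hj hR (κ := κ') (by linarith)
      (hκ'.trans h2) hA (e₀ := 3 * newConst cp) (by linarith [newConst_nonneg cp])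
      one_pos le_rfl fun τ z hz => by
        obtain ⟨u1, l1'⟩ := newPhi_bounds P hP cp hg hv (κ := κ')
          (by linarith) (hκ'.trans h2) hA (fun x => j x) τ z
        obtain ⟨u2, l2⟩ := newCut_bounds hR cp (fun x => j x) τ z
        rw [abs_le]
        have := mul_le_mul_of_nonneg_left hz (newConst_nonneg cp)
        constructor <;> linarith
    have h0' := abs_le.1 (ht κ hκp)
    have h1' := abs_le.1 (ht (-κ) hκm)
    simp only [crudeErr] at hCb
    rw [abs_le]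
    constructor <;> linarith

/-- The enlarged system against the base system with cut-off couplings. -/
theorem new_side {a : Fin M → ℝ} (ha : StrictMono a) (cp : Compress a) {m : ℝ} (hm : 0 < m)
    (C : ℝ) {ε : ℝ} (hε : 0 < ε) :
    ∃ R₀ : ℝ, ∀ R, R₀ ≤ R → ∃ du₀ > 0, ∀ K L0 : ℕ, L0 < K →
      m * ((K : ℝ) + 1) ≤ (L0 : ℝ) + 1 → ∀ du : ℝ, 0 < du → du ≤ du₀ → ∃ η₀ > 0,
      ∀ η : ℝ, 0 < η → η ≤ η₀ → ∀ P : Par, P = ⟨K, L0, du, η⟩ →
      ∀ᶠ N : ℕ in atTop, ∀ s : ℕ → ℝ, (∀ l, 1 ≤ l → l ≤ P.L0 → s l = 0) →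
        ∀ e : ℕ → Fin M → ℝ, (∀ l, 1 ≤ l → l ≤ P.L0 → e l = 0) →
        ∀ (b : Fin N → Fin M) (b' : Fin (N + M) → Fin M) (bB : Fin N → Fin M), Bal C b →
          (∀ r, (fiber b' r).card = (fiber b r).card + 1) →
          (∀ r, r ≠ topA M → (fiber bB r).card + (M - 1) = (fiber b r).card) →
          ∀ j : NewIdx M ↪ Fin N, (∀ x, bB (j x) = topA M) →
          ∀ v : GBox M P.K → ℝ, InBox v →
            |P.freeS a (addAmp s e) b' v - (M * cp.c0 +
              meanExt P.K (P.lamN a bB v) (fun l _ => s l) (P.ampN bB v) e (newCut R cp j))| ≤ ε := by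
  classical
  obtain ⟨g, hg0, hg⟩ := exists_gap ha
  set D := 2 * (∑ r, |a r|) + 5 with hD
  have hD0 : 0 ≤ D := by
    have : 0 ≤ ∑ r, |a r| := sum_nonneg fun _ _ => abs_nonneg _
    positivity
  set n := (Fintype.card (NewIdx M) : ℝ) with hn
  set Jc := 12 * n ^ 2 * (M : ℝ) ^ 2 with hJc
  obtain ⟨r, Lc, hr, hL, htr⟩ := exists_trunc (newConst cp) Jc hm (show 0 < ε / 8 by positivity)
  set Cb := crudeErr m (newConst cp) Jc + ε with hCb
  have hCb0 : 0 < Cb :=
    add_pos_of_nonneg_of_pos (crudeErr_nonneg hm (newConst_nonneg cp) (by positivity)) hε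
  set L2 := ((M : ℝ) * M) * ((Fintype.card (NewIdx M ⊕ Fin M) : ℝ) * (r + 1)) ^ 2 with hL2
  have hL20 : 0 ≤ L2 := by positivity
  set δ := ε / (8 * (L2 * D + 1)) with hδ
  have hδ0 : 0 < δ := by positivity
  have hcard : Fintype.card (Fin M × Fin M) = Fintype.card (NewIdx M) + Fintype.card (Fin M) := by
    simp only [Fintype.card_prod, Fintype.card_fin]
    have : 0 < M := Nat.pos_of_ne_zero (NeZero.ne M)
    conv_lhs => rw [show M * M = M * (M - 1 + 1) by rw [Nat.sub_add_cancel this]]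
    ring
  obtain ⟨δ', hδ', hcomp⟩ := exists_completion hcard (idealQ cp) (idealQ_orth cp) hδ0
  set δ'' := δ' / (M : ℝ) ^ 2 with hδ''
  have hMpos : (0 : ℝ) < M := Nat.cast_pos.2 (Nat.pos_of_ne_zero (NeZero.ne M))
  have hδ''0 : 0 < δ'' := by positivity
  have hcutex : ∀ x : NewIdx M, ∃ R₀ : ℝ, ∀ R, R₀ ≤ R → ∀ y, |y| ≤ r →
      |quadCut R (cp.e x.2) (cp.b x.2) y - quadPsi (cp.e x.2) (cp.b x.2) y| ≤ ε / (8 * (n + 1)) :=
    fun x => quadCut_close _ _ (by positivity)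
  choose R₁ hR₁ using hcutex
  obtain ⟨σe⟩ : Nonempty (Fin M × Fin M ≃ NewIdx M ⊕ Fin M) :=
    ⟨Fintype.equivOfCardEq (by rw [hcard, Fintype.card_sum])⟩
  refine ⟨1 + ∑ x, |R₁ x|, fun R hR => ?_⟩
  have hR0 : 0 < R := lt_of_lt_of_le (by positivity) hR
  have hcut : ∀ (x : NewIdx M) y, |y| ≤ r →
      |quadCut R (cp.e x.2) (cp.b x.2) y - quadPsi (cp.e x.2) (cp.b x.2) y| ≤ ε / (8 * (n + 1)) :=
    fun x => hR₁ x R (le_trans (by
      have := single_le_sum (f := fun x => |R₁ x|) (fun _ _ => abs_nonneg _) (mem_univ x)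
      linarith [le_abs_self (R₁ x)]) hR)
  refine ⟨min (min 1 (g / 5)) (ε / (8 * (3 * L2 + M + 1))), by positivity,
    fun K L0 hKL hmK du hdu hdu' => ?_⟩
  refine ⟨min 1 (min (Real.sqrt (du / (18 * ((K : ℝ) + 2))))
    (Real.sqrt (ε / (72 * ((K : ℝ) + 2) * M)))), by positivity, fun η hη hη' P hP => ?_⟩
  subst hP
  simp only [le_min_iff] at hdu' hη'
  obtain ⟨⟨hdu1, hdug⟩, hdue⟩ := hdu'
  obtain ⟨hη1, hηdu, hηe⟩ := hη'
  have hPok : (⟨K, L0, du, η⟩ : Par).Ok := ⟨hKL, hdu, hdu1, hη, hη1⟩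
  set κ := 2 * (((K : ℝ) + 2) * (3 * η) ^ 2) with hκ
  have hκ0 : 0 ≤ κ := by positivity
  have hκdu : κ ≤ du := by
    have h := pow_le_pow_left₀ hη.le hηdu 2
    rw [Real.sq_sqrt (by positivity), le_div_iff₀ (by positivity)] at h
    rw [hκ]; linarith
  have hamp : ((K : ℝ) + 2) * M * (3 * η) ^ 2 ≤ ε / 8 := by
    have h := pow_le_pow_left₀ hη.le hηe 2
    rw [Real.sq_sqrt (by positivity), le_div_iff₀ (by positivity)] at h
    linarith
  have hm1 : m ≤ 1 := by
    have : (L0 : ℝ) + 1 ≤ (K : ℝ) + 1 := by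
      have : (L0 : ℝ) ≤ K := by exact_mod_cast hKL.le
      linarith
    nlinarith [(Nat.cast_nonneg K : (0 : ℝ) ≤ K)]
  have he₀ := error_budget (δ := δ) hε hL20 hD0 (Nat.cast_nonneg _ : 0 ≤ n) hdu.le hMpos.le hδ hdue
  set cB := Cb * (4 / δ'' ^ 2) * ((M : ℝ) ^ 3 * 16) with hcB
  refine (eventually_ge_atTop (3 + ⌈2 * (M : ℝ) * |C| + 2 * |C| / δ'' + 8 * cB / ε⌉₊)).mono
    fun N hN s hs e he b b' bB hb hb' hcardB j hj v hv => ?_
  have hN3 : (3 : ℕ) ≤ N := by omega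
  have hNr : 2 * (M : ℝ) * |C| + 2 * |C| / δ'' + 8 * cB / ε ≤ (N : ℝ) - 2 := by
    have h := Nat.le_ceil (2 * (M : ℝ) * |C| + 2 * |C| / δ'' + 8 * cB / ε)
    have : ((3 + ⌈2 * (M : ℝ) * |C| + 2 * |C| / δ'' + 8 * cB / ε⌉₊ : ℕ) : ℝ) ≤ N :=
      Nat.cast_le.2 hN
    push_cast at this
    linarith
  have hq1 : 0 ≤ 2 * |C| / δ'' := by positivity
  have hq2 : 0 ≤ 8 * cB / ε := by positivity
  have hq3 : 0 ≤ 2 * (M : ℝ) * |C| := by positivity
  have hN0 : 0 < N := by omega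
  have hbT : (N : ℝ) ≤ 2 * M * (fiber bB (topA M)).card := by
    refine (bal_half hb (by linarith) (topA M)).trans (mul_le_mul_of_nonneg_left ?_ (by positivity))
    rw [card_top hcardB]
    push_cast
    exact le_add_of_nonneg_right (by positivity)
  have hsize := new_size j hj σe hb' hcardB
  have hbias : ∀ x, |((fiber (newAtoms bB j σe) x).card : ℝ) / ((N + M : ℕ) : ℝ) - 1 / M| ≤
      δ'' / 2 := by
    intro x
    have hNM : (0 : ℝ) < (N : ℝ) + M := by positivity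
    rw [← hsize x, hb' x]
    push_cast
    rw [show (((fiber b x).card : ℝ) + 1) / ((N : ℝ) + M) - 1 / M =
      (((fiber b x).card : ℝ) - N / M) / ((N : ℝ) + M) by field_simp; ring, abs_div,
      abs_of_pos hNM, div_le_iff₀ hNM]
    refine ((hb x).trans (le_abs_self C)).trans ?_
    have h2 : 2 * |C| ≤ δ'' * ((N : ℝ) - 2) := by
      have : 2 * |C| / δ'' ≤ (N : ℝ) - 2 := by linarith
      rw [div_le_iff₀ hδ''0] at this; linarith
    have := mul_le_mul_of_nonneg_left (show (N : ℝ) - 2 ≤ (N : ℝ) + M by linarith) hδ''0.le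
    linarith
  rw [free_card ⟨K, L0, du, η⟩ a _ hsize v]
  refine (frame_average hN3 (continuous_glass_rot _ _ _ _) _ hδ''0
    (show 0 ≤ 5 * ε / 8 by positivity) hCb0.le hbias (T := _) fun U => ?_).trans ?_
  · exact new_pointwise ⟨K, L0, du, η⟩ hPok cp hg hv hm hm1 hmK hN0 s hs e he bB hbT j hj σe
      hR0 hr hL (by simp only [← hκ]; linarith) (by simp only [← hκ]; linarith)
      hcomp hcut (by simpa only [← hκ] using (show _ ≤ 3 * ε / 8 from le_trans (by gcongr) he₀))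
      (by positivity) htr hamp (by simp only [hCb]; rfl) U
  · have hN2 : (0 : ℝ) < (N : ℝ) - 2 := by
      have : (3 : ℝ) ≤ N := by exact_mod_cast hN3
      linarith
    have h2 : cB / ((N : ℝ) - 2) ≤ ε / 8 := by
      rw [div_le_div_iff₀ hN2 (by norm_num)]
      have : 8 * cB / ε ≤ (N : ℝ) - 2 := by linarith
      rw [div_le_iff₀ hε] at this
      linarith
    have e1 : Cb * (4 / δ'' ^ 2) * ((M : ℝ) ^ 3 * (16 / ((N : ℝ) - 2))) =
        cB / ((N : ℝ) - 2) := by rw [hcB]; ring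
    linarith

end Vale.Agent.P166.Parisi.Frame
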