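import Vale.Agent.P166.Parisi.Tilt
import Vale.Agent.P166.Parisi.SymmBase

/-!
Gaussian projections of the top atom are projections on a rotated frame of its coordinates.
-/

namespace Vale.Agent.P166.Parisi

open MeasureTheory ProbabilityTheory Finset Matrix
open Vale.Agent.P157 Vale.Agent.P157.Parisi

namespace GaussExact

variable {N M k : ℕ} {J : Type} [Fintype J]

/-- The coupling through the frame `S` on the coordinates `ι`. -/
noncomputable def framePhi (ι : J → Fin N) (t : J → Fin k) (ψ : J → ℝ → ℝ) (S : Matrix J J ℝ)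
    (τ : Fin k → Bool) (z : Fin N → ℝ) : ℝ :=
  ∑ j, ψ j (spin τ (t j) * ∑ i, S i j * z (ι i))

/-- The Gram matrix of the projections, per coordinate. -/
noncomputable def gram (T : Finset (Fin N)) (G : J × Fin N → ℝ) (i j : J) : ℝ :=
  (∑ p ∈ T, G (i, p) * G (j, p)) / (T.card : ℝ)

lemma framePhi_one [DecidableEq J] (ι : J → Fin N) (t : J → Fin k) (ψ : J → ℝ → ℝ) :
    framePhi ι t ψ 1 = fun τ z => ∑ j, ψ j (spin τ (t j) * z (ι j)) := by
  funext τ z
  simp [framePhi, Matrix.one_apply, ite_mul]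

/-- A map of the block `T` extends to an orthogonal map fixing the other coordinates. -/
lemma exists_block {n : ℕ} (T : Finset (Fin N)) (e : Fin n ≃ T) (R : ON n) :
    ∃ W : ON N, (∀ p q, (W : Matrix (Fin N) (Fin N) ℝ) p q ≠ 0 → p ∈ T ∧ q ∈ T ∨ p = q) ∧
      ∀ (z : Fin N → ℝ) i, ((W : Matrix (Fin N) (Fin N) ℝ) *ᵥ z) (e i) =
        ((R : Matrix (Fin n) (Fin n) ℝ) *ᵥ fun q => z (e q)) i := by
  classical
  set E : Fin n ⊕ {x : Fin N // x ∉ T} ≃ Fin N :=
    (Equiv.sumCongr e (Equiv.refl _)).trans (Equiv.sumCompl fun x => x ∈ T) with hE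
  set B : Matrix (Fin n ⊕ {x : Fin N // x ∉ T}) (Fin n ⊕ {x : Fin N // x ∉ T}) ℝ :=
    fromBlocks (R : Matrix (Fin n) (Fin n) ℝ) 0 0 1 with hB
  have hR := (mem_orthogonalGroup_iff' (n := Fin n) (R := ℝ)).1 R.2
  have hBB : Bᵀ * B = 1 := by
    rw [hB, fromBlocks_transpose, fromBlocks_multiply]
    simp [hR, fromBlocks_one]
  have hW : (B.submatrix E.symm E.symm)ᵀ * B.submatrix E.symm E.symm = 1 := by
    rw [transpose_submatrix, submatrix_mul_equiv, hBB, submatrix_one_equiv]
  refine ⟨⟨B.submatrix E.symm E.symm, (mem_orthogonalGroup_iff' (n := Fin N) (R := ℝ)).2 hW⟩,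
    fun p q h => ?_, fun z i => ?_⟩
  · obtain ⟨x, rfl⟩ := E.surjective p
    obtain ⟨y, rfl⟩ := E.surjective q
    simp only [submatrix_apply, Equiv.symm_apply_apply] at h
    rcases x with x | x <;> rcases y with y | y
    · exact Or.inl ⟨by simp [hE], by simp [hE]⟩
    · simp [hB] at h
    · simp [hB] at h
    · simp only [hB, fromBlocks_apply₂₂, one_apply] at h
      refine Or.inr ?_
      by_cases hxy : x = y
      · rw [hxy]
      · simp [hxy] at h
  · show (B.submatrix E.symm E.symm *ᵥ z) (e i) = _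
    have hi : ((e i : T) : Fin N) = E (Sum.inl i) := by simp [hE]
    rw [hi, Matrix.mulVec, dotProduct, ← E.sum_comp, Fintype.sum_sum_type]
    simp [hB, hE, Matrix.mulVec, dotProduct]

/-- The free energy with Gaussian projections is that of a frame close to the standard one. -/
theorem exists_frame [NeZero M] [DecidableEq J] (P : Par) (a : Fin M → ℝ) (S V : ℕ → Fin N → ℝ)
    (e : ℕ → Fin k → ℝ) (b : Fin N → Fin M) (v : GBox M P.K → ℝ)
    (hV : ∀ l p q, b p = b q → V l p = V l q) (t : J → Fin k) (ψ : J → ℝ → ℝ) (ι : J → Fin N)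
    (hι : Function.Injective ι) (hb : ∀ j, b (ι j) = topA M) (G : J × Fin N → ℝ) :
    ∃ X : Matrix J J ℝ,
      ∑ i, ∑ j, (X i j - (1 : Matrix J J ℝ) i j) ^ 2 ≤
        ∑ i, ∑ j, (gram (fiber b (topA M)) G i j - (1 : Matrix J J ℝ) i j) ^ 2 ∧
      meanExt P.K (P.lamN a b v) S V e (gaussPhi b t ψ G) =
        meanExt P.K (P.lamN a b v) S V e (framePhi ι t ψ X) := by
  classical
  set T := fiber b (topA M) with hT
  have hιT : ∀ j, ι j ∈ T := fun j => by simp [hT, fiber, hb j]
  set jE := Fintype.equivFin J with hjE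
  set n := T.card with hn
  have hk : Fintype.card J ≤ n := by
    refine le_trans (le_of_eq ?_) (card_le_card (s := univ.image ι) fun p hp => ?_)
    · rw [card_image_of_injective _ hι, card_univ]
    · obtain ⟨j, -, rfl⟩ := mem_image.1 hp
      exact hιT j
  set g : Fin (Fintype.card J) → Fin n := Fin.castLE hk with hg
  set h : Fin (Fintype.card J) → Fin n := fun i => T.equivFin ⟨ι (jE.symm i), hιT _⟩ with hh
  have hgi : Function.Injective g := Fin.castLE_injective hk
  have hhi : Function.Injective h := fun i i' hii => by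
    simpa [hh] using hι (congrArg Subtype.val (T.equivFin.injective hii))
  set f : {x // x ∈ Set.range g} ≃ {x // x ∈ Set.range h} :=
    (Equiv.ofInjective g hgi).symm.trans (Equiv.ofInjective h hhi) with hf
  set el : Fin n ≃ T := f.extendSubtype.trans T.equivFin.symm with hel
  have hgmap : ∀ i, ((el (g i) : T) : Fin N) = ι (jE.symm i) := by
    intro i
    have h1 : f.extendSubtype (g i) = h i := by
      rw [Equiv.extendSubtype_apply_of_mem f (g i) ⟨i, rfl⟩]
      simp [hf]
    simp [hel, h1, hh]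
  set A : Matrix (Fin n) (Fin (Fintype.card J)) ℝ :=
    fun p c => G (jE.symm c, (el p : Fin N)) / Real.sqrt n with hA
  obtain ⟨R, Sm, hpsd, hsq, hRA⟩ := exists_rotate hk A
  obtain ⟨W, hW, hWz⟩ := exists_block T el R
  set X : Matrix J J ℝ := fun i j => Sm (jE i) (jE j) with hX
  refine ⟨X, ?_, ?_⟩
  · have hQ : ∀ i j, (Sm * Sm) (jE i) (jE j) = gram T G i j := by
      intro i j
      rw [hsq, mul_apply, gram, sum_div, ← hn, ← sum_coe_sort T, ← el.sum_comp]
      refine sum_congr rfl fun p _ => ?_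
      show G (jE.symm (jE i), ((el p : T) : Fin N)) / Real.sqrt n *
        (G (jE.symm (jE j), ((el p : T) : Fin N)) / Real.sqrt n) = _
      rw [Equiv.symm_apply_apply, Equiv.symm_apply_apply, div_mul_div_comm,
        Real.mul_self_sqrt (Nat.cast_nonneg _)]
    calc ∑ i, ∑ j, (X i j - (1 : Matrix J J ℝ) i j) ^ 2
        = ∑ c, ∑ d, (Sm c d - if c = d then 1 else 0) ^ 2 := by
          rw [← jE.sum_comp]
          refine sum_congr rfl fun i _ => ?_
          rw [← jE.sum_comp]
          simp [hX, one_apply]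
      _ ≤ ∑ c, ∑ d, ((Sm * Sm) c d - if c = d then 1 else 0) ^ 2 := psd_close_one hpsd
      _ = _ := by
          rw [← jE.sum_comp]
          refine sum_congr rfl fun i _ => ?_
          rw [← jE.sum_comp]
          simp [hQ, one_apply]
  · have hcomp : (fun τ z => framePhi ι t ψ X τ ((W : Matrix (Fin N) (Fin N) ℝ) *ᵥ z)) =
        gaussPhi b t ψ G := by
      funext τ z
      refine sum_congr rfl fun j _ => ?_
      congr 2
      have hR := (mem_orthogonalGroup_iff' (n := Fin n) (R := ℝ)).1 R.2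
      set z' : Fin n → ℝ := fun q => z (el q) with hz'
      have e1 : ∑ i, X i j * ((W : Matrix (Fin N) (Fin N) ℝ) *ᵥ z) (ι i) =
          ∑ p : Fin n, ((R : Matrix (Fin n) (Fin n) ℝ) * A) p (jE j) *
            ((R : Matrix (Fin n) (Fin n) ℝ) *ᵥ z') p := by
        rw [← jE.symm.sum_comp fun i => X i j * ((W : Matrix (Fin N) (Fin N) ℝ) *ᵥ z) (ι i)]
        refine Fintype.sum_of_injective g hgi _ _ (fun p hp => ?_) fun i => ?_
        · rw [hRA, dif_neg, zero_mul]
          intro hlt
          exact hp ⟨⟨p, hlt⟩, rfl⟩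
        · rw [← hgmap i, hWz, hRA, dif_pos (show ((g i : Fin n) : ℕ) < Fintype.card J from i.2)]
          simp [hX, hg, hz']
      have e2 : ∑ p : Fin n, ((R : Matrix (Fin n) (Fin n) ℝ) * A) p (jE j) *
          ((R : Matrix (Fin n) (Fin n) ℝ) *ᵥ z') p = (Aᵀ *ᵥ z') (jE j) := by
        show (((R : Matrix (Fin n) (Fin n) ℝ) * A)ᵀ *ᵥ ((R : Matrix (Fin n) (Fin n) ℝ) *ᵥ z'))
          (jE j) = _
        rw [mulVec_mulVec, transpose_mul, Matrix.mul_assoc, hR, Matrix.mul_one]
      rw [e1, e2, ← hT, ← hn, sum_div, ← sum_coe_sort T, ← el.sum_comp]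
      show ∑ p : Fin n, G (jE.symm (jE j), ((el p : T) : Fin N)) / Real.sqrt n * z' p = _
      refine sum_congr rfl fun p _ => ?_
      simp only [Equiv.symm_apply_apply, hz']
      ring
    have hrot : ∀ U, extFree P.K (P.lamN a b v) S V e (framePhi ι t ψ X) (W * U) =
        extFree P.K (P.lamN a b v) S V e (gaussPhi b t ψ G) U := by
      intro U
      rw [← hcomp]
      refine extFree_rot P.K (P.lamN a b v) S V e (framePhi ι t ψ X) W U fun p q hpq => ?_
      have hbb : b p = b q := by
        rcases hW p q hpq with ⟨hp, hq⟩ | rfl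
        · simp only [hT, fiber, mem_filter, mem_univ, true_and] at hp hq
          rw [hp, hq]
        · rfl
      exact ⟨by simp [Par.lamN, hbb], fun l => hV l p q hbb⟩
    have hinv := integral_mul_left_eq_self (μ := haarON N)
      (fun U => extFree P.K (P.lamN a b v) S V e (framePhi ι t ψ X) U) W
    simp only [hrot] at hinv
    exact hinv

end GaussExact

end Vale.Agent.P166.Parisi
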