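import Vale.Agent.P166.Parisi.GaussExactComp
import Vale.Agent.P166.Parisi.GaussExactFrame
import Vale.Agent.P166.Parisi.GaussPoincare

/-!
Module F1a: exact projections of the top atom may be replaced by Gaussian ones.
-/

namespace Vale.Agent.P166.Parisi

open MeasureTheory ProbabilityTheory Finset Filter Topology Matrix
open Vale.Agent.P157 (gauss)
open Vale.Agent.P157.Parisi (Tame Nest tame_coord tame_const tame_sum l1 l1_nonneg abs_le_exp_l1)

namespace GaussExact

variable {N M k : ℕ} {J : Type} [Fintype J]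

/-! ### Moments of Gaussian projections -/

lemma integral_gauss_sq {ι : Type} [Fintype ι] (q : ι) : ∫ z, z q ^ 2 ∂gauss ι = 1 := by
  classical
  have h := GaussPoincare.integral_sq_linear (ι := ι) (Pi.single q 1)
  simp only [Pi.single_apply, mul_ite, mul_one, mul_zero, sum_ite_eq', mem_univ, if_true,
    ite_pow, one_pow, ne_eq, OfNat.ofNat_ne_zero, not_false_eq_true, zero_pow] at h
  exact h

lemma integral_gauss_mul {ι : Type} [Fintype ι] {q r : ι} (hqr : q ≠ r) :
    ∫ z, z q * z r ∂gauss ι = 0 := by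
  classical
  have h := GaussPoincare.integral_sq_linear (ι := ι) (Pi.single q 1 + Pi.single r 1)
  simp only [Pi.add_apply, mul_add, sum_add_distrib, Pi.single_apply, mul_ite, mul_one, mul_zero,
    sum_ite_eq', mem_univ, if_true] at h
  have e : ∑ i, ((if i = q then (1:ℝ) else 0) + if i = r then 1 else 0) ^ 2 = 2 := by
    have : ∀ i, ((if i = q then (1:ℝ) else 0) + if i = r then 1 else 0) ^ 2 =
        (if i = q then (1:ℝ) else 0) + if i = r then 1 else 0 := by
      intro i
      by_cases h1 : i = q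
      · subst h1; simp [hqr]
      · by_cases h2 : i = r <;> simp [h1, h2, hqr.symm]
    simp [this, sum_add_distrib]
    norm_num
  rw [e] at h
  have hq := (tame_coord q).sq.integrable
  have hr := (tame_coord r).sq.integrable
  have hm := ((tame_coord q).mul (tame_coord r)).integrable
  have e2 : (fun z : ι → ℝ => (z q + z r) ^ 2) =
      fun z => z q ^ 2 + 2 * (z q * z r) + z r ^ 2 := by funext z; ring
  have hqm : Integrable (fun z : ι → ℝ => z q ^ 2 + 2 * (z q * z r)) (gauss ι) :=
    hq.add (hm.const_mul 2)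
  rw [e2, integral_add hqm hr, integral_add hq (hm.const_mul 2),
    integral_const_mul, integral_gauss_sq, integral_gauss_sq] at h
  linarith

lemma tame_gram (T : Finset (Fin N)) (i j : J) : Tame fun G => gram T G i j := by
  simp only [gram, div_eq_mul_inv]
  exact (tame_sum T fun p _ => (tame_coord (i, p)).mul (tame_coord (j, p))).mul (tame_const _)

lemma integral_gram [DecidableEq J] (T : Finset (Fin N)) (hT : 0 < T.card) (i j : J) :
    ∫ G, gram T G i j ∂gauss (J × Fin N) = (1 : Matrix J J ℝ) i j := by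
  simp only [gram, integral_div]
  rw [integral_finsetSum T fun p _ => ((tame_coord (i, p)).mul (tame_coord (j, p))).integrable]
  rcases eq_or_ne i j with rfl | hij
  · simp only [← pow_two, integral_gauss_sq, sum_const, nsmul_eq_mul, mul_one, Matrix.one_apply_eq]
    exact div_self (Nat.cast_ne_zero.2 hT.ne')
  · simp [Matrix.one_apply_ne hij,
      integral_gauss_mul (show ((i, _) : J × Fin N) ≠ (j, _) from fun h => hij (congrArg Prod.fst h))]

lemma variance_gram [DecidableEq J] (T : Finset (Fin N)) (hT : 0 < T.card) (i j : J) :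
    ∫ G, (gram T G i j - (1 : Matrix J J ℝ) i j) ^ 2 ∂gauss (J × Fin N) ≤ 8 / (T.card : ℝ) := by
  classical
  set n : ℝ := (T.card : ℝ) with hn
  have hn1 : 1 ≤ n := by rw [hn]; exact_mod_cast hT
  have hn0 : 0 < n := by linarith
  set u : J × Fin N → ℝ := fun q => if q.2 ∈ T ∧ q.1 = i then 1 else 0 with hu
  set w : J × Fin N → ℝ := fun q => if q.2 ∈ T ∧ q.1 = j then 1 else 0 with hw
  set g : J × Fin N → (J × Fin N → ℝ) → ℝ :=
    fun q G => (u q * G (j, q.2) + w q * G (i, q.2)) / n with hg
  have hsum : ∀ (c : J) (F : J × Fin N → ℝ),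
      ∑ q : J × Fin N, (if q.2 ∈ T ∧ q.1 = c then 1 else 0) * F q = ∑ p ∈ T, F (c, p) := by
    intro c F
    simp only [Fintype.sum_prod_type, ite_mul, one_mul, zero_mul]
    rw [Finset.sum_eq_single c (fun c' _ hc => by simp [hc]) (by simp)]
    simp [sum_ite_mem]
  have hd : ∀ G d : J × Fin N → ℝ, HasDerivAt (fun s : ℝ => gram T (fun q => G q + s * d q) i j)
      (∑ q, d q * g q G) 0 := by
    intro G d
    have hl : ∀ q : J × Fin N, HasDerivAt (fun s : ℝ => G q + s * d q) (d q) 0 := fun q => by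
      simpa using ((hasDerivAt_id (0:ℝ)).mul_const (d q)).const_add (G q)
    have h := (HasDerivAt.fun_sum (u := T) fun p _ => (hl (i, p)).fun_mul (hl (j, p))).div_const n
    refine h.congr_deriv ?_
    simp only [zero_mul, add_zero, hg, mul_div_assoc', ← sum_div, mul_add, sum_add_distrib]
    congr 1
    have e1 : ∑ q : J × Fin N, d q * (u q * G (j, q.2)) = ∑ p ∈ T, d (i, p) * G (j, p) := by
      rw [← hsum i fun q => d q * G (j, q.2)]
      exact sum_congr rfl fun q _ => by rw [hu]; ring
    have e2 : ∑ q : J × Fin N, d q * (w q * G (i, q.2)) = ∑ p ∈ T, G (i, p) * d (j, p) := by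
      rw [← hsum j fun q => G (i, q.2) * d q]
      exact sum_congr rfl fun q _ => by rw [hw]; ring
    rw [e1, e2]
  have hgc : ∀ q, Continuous (g q) := fun q => by rw [hg]; fun_prop
  have hbf : ∀ G : J × Fin N → ℝ,
      |gram T G i j| ≤ 2 * Real.exp (2 * ∑ q, |G q|) := by
    intro G
    rw [gram, abs_div, abs_of_pos hn0, div_le_iff₀ hn0]
    refine (abs_sum_le_sum_abs _ _).trans ((sum_le_card_nsmul T _ (Real.exp (2 * ∑ q, |G q|))
      fun p _ => ?_).trans ?_)
    · rw [abs_mul, two_mul, Real.exp_add]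
      exact mul_le_mul (abs_le_exp_l1 G _) (abs_le_exp_l1 G _) (abs_nonneg _) (Real.exp_pos _).le
    · rw [nsmul_eq_mul, ← hn]
      nlinarith [Real.exp_pos (2 * ∑ q, |G q|)]
  have hbg : ∀ q (G : J × Fin N → ℝ), |g q G| ≤ 2 * Real.exp (2 * ∑ q, |G q|) := by
    intro q G
    have hle : Real.exp (l1 G) ≤ Real.exp (2 * ∑ q, |G q|) :=
      Real.exp_le_exp.2 (le_mul_of_one_le_left (l1_nonneg G) one_le_two)
    have hu1 : |u q| ≤ 1 := by rw [hu]; dsimp only; split_ifs <;> simp
    have hw1 : |w q| ≤ 1 := by rw [hw]; dsimp only; split_ifs <;> simp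
    rw [hg, abs_div, abs_of_pos hn0, div_le_iff₀ hn0]
    refine (abs_add_le _ _).trans ?_
    rw [abs_mul, abs_mul]
    have h1 := mul_le_mul hu1 ((abs_le_exp_l1 G (j, q.2)).trans hle) (abs_nonneg _) zero_le_one
    have h2 := mul_le_mul hw1 ((abs_le_exp_l1 G (i, q.2)).trans hle) (abs_nonneg _) zero_le_one
    nlinarith [Real.exp_pos (2 * ∑ q, |G q|)]
  have hp := GaussPoincare.gauss_poincare (f := fun G => gram T G i j) hd hgc (C := 2) (k := 2) (by norm_num)
    hbf hbg
  rw [variance_eq_integral (tame_gram T i j).1.measurable.aemeasurable, integral_gram T hT] at hp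
  refine hp.trans ?_
  have hint : ∀ (c : J) (q : J × Fin N) (r : ℝ),
      Integrable (fun G : J × Fin N → ℝ => r * G (c, q.2) ^ 2) (gauss (J × Fin N)) :=
    fun c q r => (((tame_coord (c, q.2)).sq).integrable).const_mul r
  have hgI : ∀ q, ∫ G, g q G ^ 2 ∂gauss (J × Fin N) ≤ 2 * (u q + w q) / n ^ 2 := by
    intro q
    have hu2 : u q ^ 2 = u q := by rw [hu]; dsimp only; split_ifs <;> simp
    have hw2 : w q ^ 2 = w q := by rw [hw]; dsimp only; split_ifs <;> simp
    have hle : ∀ G, g q G ^ 2 ≤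
        2 * u q / n ^ 2 * G (j, q.2) ^ 2 + 2 * w q / n ^ 2 * G (i, q.2) ^ 2 := by
      intro G
      rw [hg, div_pow, div_mul_eq_mul_div, div_mul_eq_mul_div, ← add_div]
      refine div_le_div_of_nonneg_right ?_ (sq_nonneg n)
      have := sq_nonneg (u q * G (j, q.2) - w q * G (i, q.2))
      nlinarith
    refine (integral_mono ?_ ((hint j q _).add (hint i q _)) hle).trans (le_of_eq ?_)
    · exact ((((tame_coord (j, q.2)).const_mul (u q)).add
        ((tame_coord (i, q.2)).const_mul (w q))).mul (tame_const n⁻¹)).sq.integrable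
    · rw [integral_add' (hint j q _) (hint i q _), integral_const_mul, integral_const_mul,
        integral_gauss_sq, integral_gauss_sq]
      ring
  calc Real.pi ^ 2 / 8 * ∑ q, ∫ G, g q G ^ 2 ∂gauss (J × Fin N)
      ≤ Real.pi ^ 2 / 8 * ∑ q, 2 * (u q + w q) / n ^ 2 :=
        mul_le_mul_of_nonneg_left (sum_le_sum fun q _ => hgI q) (by positivity)
    _ = Real.pi ^ 2 / 8 * (4 / n) := by
        congr 1
        rw [← sum_div, ← mul_sum, sum_add_distrib]
        have hu' : ∑ q, u q = n := by
          have := hsum i fun _ => 1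
          simpa [hu, hn] using this
        have hw' : ∑ q, w q = n := by
          have := hsum j fun _ => 1
          simpa [hw, hn] using this
        rw [hu', hw']
        field_simp
        ring
    _ ≤ 2 * (4 / n) := mul_le_mul_of_nonneg_right (by nlinarith [Real.pi_le_four, Real.pi_pos])
        (by positivity)
    _ = 8 / n := by ring

/-! ### The second moments in the glass -/

variable (K : ℕ) (lam : Fin N → ℝ) (S V : ℕ → Fin N → ℝ)

lemma heatTop_mem (U : ON N) (p : Fin N) :
    (glassNest K S V).heatTop (glassLeaf U) (quadLaw lam U) (Sum.inr p) ∈ Set.Icc (0:ℝ) N := by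
  have hnn : ∀ q, 0 ≤ (glassNest K S V).heatTop (glassLeaf U) (quadLaw lam U) (Sum.inr q) :=
    fun q =>
      have h := ampTail_mem K lam S V U (Nat.zero_le (K + 1)) (Sum.inr q)
      h.1.trans h.2
  exact ⟨hnn p, (single_le_sum (fun q _ => hnn q) (mem_univ p)).trans_eq
    (sum_heatTop K lam S V U).1⟩

lemma measurable_heatTop (p : Fin N) : Measurable fun U : ON N =>
    (glassNest K S V).heatTop (glassLeaf U) (quadLaw lam U) (Sum.inr p) := by
  set sq : ℕ → ON N → ℝ := fun i U => 2 * ((((i : ℝ) + 1)⁻¹)⁻¹ *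
    (glassFree K (fun q => lam q + ((i : ℝ) + 1)⁻¹ * (Pi.single p 1 : Fin N → ℝ) q) S V U -
      glassFree K lam S V U)) with hsq
  have hc : ∀ lam' : Fin N → ℝ, Continuous fun U : ON N => glassFree K lam' S V U := fun lam' =>
    (continuous_glassFree (N := N) K).comp (f := fun U : ON N => (lam', S, V, U)) (by fun_prop)
  refine measurable_of_tendsto_metrizable (f := sq) (fun i => ?_) (tendsto_pi_nhds.2 fun U => ?_)
  · exact (continuous_const.mul (continuous_const.mul ((hc _).sub (hc _)))).measurable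
  · have h := hasDerivAt_glassFree K lam (Pi.single p 1) S 0 V 0 U
    simp only [Pi.zero_apply, mul_zero, zero_mul, add_zero, sum_const_zero, Pi.single_apply,
      ite_mul, one_mul, sum_ite_eq', mem_univ, if_true] at h
    have ht : Tendsto (fun i : ℕ => ((i : ℝ) + 1)⁻¹) atTop (𝓝[≠] 0) := by
      refine tendsto_nhdsWithin_iff.2 ⟨?_, .of_forall fun i => ?_⟩
      · simpa only [one_div] using tendsto_one_div_add_atTop_nhds_zero_nat (𝕜 := ℝ)
      · exact inv_ne_zero (Nat.cast_add_one_ne_zero i)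
    have := (h.tendsto_slope_zero.comp ht).const_mul 2
    simp only [Function.comp_def, zero_add, smul_eq_mul, mul_zero, zero_mul, add_zero] at this
    convert this using 2 with i <;> simp [hsq, Pi.single_apply]

lemma integrable_heatTop (p : Fin N) : Integrable (fun U : ON N =>
    (glassNest K S V).heatTop (glassLeaf U) (quadLaw lam U) (Sum.inr p)) (haarON N) :=
  Integrable.of_bound (measurable_heatTop K lam S V p).aestronglyMeasurable N (.of_forall fun U => by
    obtain ⟨h1, h2⟩ := heatTop_mem K lam S V U p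
    rwa [Real.norm_eq_abs, abs_of_nonneg h1])

/-! ### Comparison of frames -/

omit [Fintype J] in
lemma psi_lip {ψ ψ1 ψ2 : ℝ → ℝ} {κ B : ℝ} (h : PsiOk κ B ψ ψ1 ψ2) (x y : ℝ) :
    |ψ x - ψ y| ≤ |B| * |x - y| := by
  have := Convex.norm_image_sub_le_of_norm_hasDerivWithin_le (𝕜 := ℝ) (s := Set.univ)
    (fun z _ => (h.deriv1 z).hasDerivWithinAt) (fun z _ => (h.bound1 z).trans (le_abs_self B))
    convex_univ (Set.mem_univ y) (Set.mem_univ x)
  exact this

omit [Fintype J] in
lemma psi_continuous {ψ ψ1 ψ2 : ℝ → ℝ} {κ B : ℝ} (h : PsiOk κ B ψ ψ1 ψ2) : Continuous ψ :=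
  continuous_iff_continuousAt.2 fun x => (h.deriv1 x).continuousAt

variable {κ B : ℝ} {ψ ψ1 ψ2 : J → ℝ → ℝ} (hψ : ∀ j, PsiOk κ B (ψ j) (ψ1 j) (ψ2 j))
  (e : ℕ → Fin k → ℝ)

include hψ

omit K lam S V e in
lemma sum_psi_le (r : J → ℝ) : |∑ j, ψ j (r j)| ≤ (Fintype.card J : ℝ) * |B| := by
  refine (abs_sum_le_sum_abs _ _).trans ((sum_le_card_nsmul univ _ |B| fun j _ =>
    ((hψ j).bound0 _).trans (le_abs_self B)).trans_eq ?_)
  rw [card_univ, nsmul_eq_mul]

/-- Two frames. -/
theorem frame_compare [DecidableEq J] (t : J → Fin k) (ι : J → Fin N) (X : Matrix J J ℝ) {H : ℝ}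
    (hH : ∀ i, ∫ U, (glassNest K S V).heatTop (glassLeaf U) (quadLaw lam U) (Sum.inr (ι i))
      ∂haarON N ≤ H) :
    |meanExt K lam S V e (framePhi ι t ψ X) - meanExt K lam S V e (framePhi ι t ψ 1)| ≤
      Real.exp (4 * ((Fintype.card J : ℝ) * |B|)) ^ (K + 2) *
        (|B| * ((1 + H) * ∑ i, ∑ j, |X i j - (1 : Matrix J J ℝ) i j|)) := by
  set C := (Fintype.card J : ℝ) * |B| with hC
  set c := Real.exp (4 * C) ^ (K + 2) with hc
  have hcΦ : ∀ Y : Matrix J J ℝ, ∀ τ, Continuous (framePhi ι t ψ Y τ) := fun Y τ => by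
    unfold framePhi
    exact continuous_finsetSum _ fun j _ => (psi_continuous (hψ j)).comp
      (continuous_const.mul (continuous_finsetSum _ fun i _ =>
        continuous_const.mul (continuous_apply _)))
  set R := fun U : ON N => c * (|B| * ∑ i, ∑ j, |X i j - (1 : Matrix J J ℝ) i j| *
    (1 + (glassNest K S V).heatTop (glassLeaf U) (quadLaw lam U) (Sum.inr (ι i)))) with hR
  have hpt : ∀ U, |extFree K lam S V e (framePhi ι t ψ X) U -
      extFree K lam S V e (framePhi ι t ψ 1) U| ≤ R U := by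
    intro U
    set D := fun ω : (Fin N → Bool) × (Fin k → Bool) =>
      |B| * ∑ i, ∑ j, |X i j - (1 : Matrix J J ℝ) i j| * (1 + rotSpin U ω.1 (ι i) ^ 2) with hD
    have hb : ∀ Y : Matrix J J ℝ, ∀ ω : (Fin N → Bool) × (Fin k → Bool),
        |framePhi ι t ψ Y ω.2 (rotSpin U ω.1)| ≤ C := fun Y ω => sum_psi_le hψ _
    refine (extFree_compare K lam S V e U (mul_nonneg (Nat.cast_nonneg _) (abs_nonneg B))
      (hb X) (hb 1) (D := D) fun ω => ?_).trans (le_of_eq ?_)
    · rw [framePhi, framePhi, ← sum_sub_distrib]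
      refine (abs_sum_le_sum_abs _ _).trans ((sum_le_sum fun j _ => (psi_lip (hψ j) _ _).trans
        (mul_le_mul_of_nonneg_left ?_ (abs_nonneg B))).trans_eq
        (b := ∑ j, |B| * ∑ i, |X i j - (1 : Matrix J J ℝ) i j| *
          (1 + rotSpin U ω.1 (ι i) ^ 2)) ?_)
      · rw [← mul_sub, abs_mul, show |spin ω.2 (t j)| = 1 by unfold spin; split <;> simp, one_mul,
          ← sum_sub_distrib]
        refine (abs_sum_le_sum_abs _ _).trans (sum_le_sum fun i _ => ?_)
        rw [← sub_mul, abs_mul]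
        refine mul_le_mul_of_nonneg_left ?_ (abs_nonneg _)
        nlinarith [sq_nonneg (|rotSpin U ω.1 (ι i)| - 1), sq_abs (rotSpin U ω.1 (ι i)),
          abs_nonneg (rotSpin U ω.1 (ι i))]
      · rw [hD, ← mul_sum, sum_comm]
    · simp only [hD, hR, hc]
      congr 1
      rw [avgNode_const_mul]
      congr 1
      rw [avgNode_sum]
      refine sum_congr rfl fun i _ => ?_
      rw [avgNode_sum]
      refine sum_congr rfl fun j _ => ?_
      rw [avgNode_const_mul, avgNode_add, avgNode_const, avgNode_sq]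
  have hI : ∀ i j, Integrable (fun U : ON N => |X i j - (1 : Matrix J J ℝ) i j| *
      (1 + (glassNest K S V).heatTop (glassLeaf U) (quadLaw lam U) (Sum.inr (ι i)))) (haarON N) :=
    fun i j => ((integrable_const 1).add (integrable_heatTop K lam S V (ι i))).const_mul _
  have hIR : Integrable R (haarON N) :=
    ((integrable_finsetSum _ fun i _ => integrable_finsetSum _ fun j _ => hI i j).const_mul
      |B|).const_mul c
  have hF : ∀ Y, Integrable (extFree K lam S V e (framePhi ι t ψ Y)) (haarON N) := fun Y =>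
    integrable_of_cont (continuous_extFree K lam S V e (hcΦ Y))
  rw [meanExt, meanExt, ← integral_sub (hF X) (hF 1)]
  refine (abs_integral_le_integral_abs).trans
    ((integral_mono ((hF X).sub (hF 1)).abs hIR hpt).trans ?_)
  rw [hR, integral_const_mul, integral_const_mul,
    integral_finsetSum _ fun i _ => integrable_finsetSum _ fun j _ => hI i j]
  refine mul_le_mul_of_nonneg_left (mul_le_mul_of_nonneg_left ?_ (abs_nonneg B)) (by positivity)
  rw [mul_sum]
  refine sum_le_sum fun i _ => ?_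
  rw [mul_sum, integral_finsetSum _ fun j _ => hI i j]
  refine sum_le_sum fun j _ => ?_
  rw [integral_const_mul, integral_add (integrable_const 1) (integrable_heatTop K lam S V (ι i)),
    integral_const, probReal_univ, one_smul, mul_comm (1 + H)]
  exact mul_le_mul_of_nonneg_left (by linarith [hH i]) (abs_nonneg _)

/-- Continuity in the projections. -/
theorem continuous_gaussExt [NeZero M] (b : Fin N → Fin M) (t : J → Fin k) :
    Continuous fun G => meanExt K lam S V e (gaussPhi b t ψ G) := by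
  set T := fiber b (topA M) with hT
  have hF : ∀ G, Integrable (extFree K lam S V e (gaussPhi b t ψ G)) (haarON N) := fun G =>
    integrable_of_cont (continuous_extFree K lam S V e fun τ => by
      unfold gaussPhi
      exact continuous_finsetSum _ fun j _ => (psi_continuous (hψ j)).comp (by fun_prop))
  refine continuous_iff_continuousAt.2 fun G0 => ?_
  set c := Real.exp (4 * ((Fintype.card J : ℝ) * |B|)) ^ (K + 2) with hc
  set d := fun G : J × Fin N → ℝ => c * ∑ j, |B| *
    ((∑ p ∈ T, |G (j, p) - G0 (j, p)| * ((N : ℝ) + 1)) / Real.sqrt T.card) with hd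
  have hbd : ∀ G, dist (meanExt K lam S V e (gaussPhi b t ψ G))
      (meanExt K lam S V e (gaussPhi b t ψ G0)) ≤ d G := by
    intro G
    rw [Real.dist_eq, meanExt, meanExt, ← integral_sub (hF G) (hF G0)]
    have hp : ∀ U, |extFree K lam S V e (gaussPhi b t ψ G) U -
        extFree K lam S V e (gaussPhi b t ψ G0) U| ≤ d G := by
      intro U
      refine (extFree_compare K lam S V e U (mul_nonneg (Nat.cast_nonneg _) (abs_nonneg B))
        (fun ω => sum_psi_le hψ _) (fun ω => sum_psi_le hψ _)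
        (D := fun _ => ∑ j, |B| * ((∑ p ∈ T, |G (j, p) - G0 (j, p)| * ((N : ℝ) + 1)) /
          Real.sqrt T.card)) fun ω => ?_).trans (le_of_eq ?_)
      · rw [gaussPhi, gaussPhi, ← sum_sub_distrib]
        refine (abs_sum_le_sum_abs _ _).trans (sum_le_sum fun j _ => (psi_lip (hψ j) _ _).trans
          (mul_le_mul_of_nonneg_left ?_ (abs_nonneg B)))
        rw [← mul_sub, abs_mul, show |spin ω.2 (t j)| = 1 by unfold spin; split <;> simp, one_mul,
          ← sub_div, abs_div, abs_of_nonneg (Real.sqrt_nonneg _), ← sum_sub_distrib]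
        refine div_le_div_of_nonneg_right ((abs_sum_le_sum_abs _ _).trans
          (sum_le_sum fun p _ => ?_)) (Real.sqrt_nonneg _)
        rw [← sub_mul, abs_mul]
        refine mul_le_mul_of_nonneg_left ?_ (abs_nonneg _)
        have h1 : rotSpin U ω.1 p ^ 2 ≤ N := (sum_sq_spin U ω.1) ▸
          single_le_sum (f := fun l => rotSpin U ω.1 l ^ 2) (fun l _ => sq_nonneg _) (mem_univ p)
        nlinarith [sq_nonneg (|rotSpin U ω.1 p| - 1), sq_abs (rotSpin U ω.1 p),
          abs_nonneg (rotSpin U ω.1 p)]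
      · rw [avgNode_const]
    refine abs_integral_le_integral_abs.trans
      ((integral_mono ((hF G).sub (hF G0)).abs (integrable_const (d G)) hp).trans_eq ?_)
    simp
  have hd0 : Tendsto d (𝓝 G0) (𝓝 0) := by
    have hdc : Continuous d := by rw [hd]; fun_prop
    have h := hdc.tendsto G0
    simpa [hd] using h
  exact tendsto_iff_dist_tendsto_zero.2 (squeeze_zero (fun _ => dist_nonneg) hbd hd0)

omit hψ in
lemma abs_le_amgm (x r : ℝ) (hr : 0 < r) : |x| ≤ r / 2 * x ^ 2 + 1 / (2 * r) := by
  have e : r / 2 * x ^ 2 + 1 / (2 * r) - |x| = (r * |x| - 1) ^ 2 / (2 * r) := by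
    rw [← sq_abs x]
    field_simp
    ring
  have := div_nonneg (sq_nonneg (r * |x| - 1)) (by linarith : (0:ℝ) ≤ 2 * r)
  linarith

/-- The bound for fixed `N`. -/
theorem exact_bound [NeZero M] (P : Par) (a : Fin M → ℝ) (s : ℕ → ℝ) (b : Fin N → Fin M)
    (hn : 0 < (fiber b (topA M)).card) (hb : (N : ℝ) ≤ 2 * M * (fiber b (topA M)).card)
    (t : J → Fin k) (ι : J → Fin N) (hι : Function.Injective ι) (hbι : ∀ j, b (ι j) = topA M)
    (v : GBox M P.K → ℝ) :
    |meanExt P.K (P.lamN a b v) (fun l _ => s l) (P.ampN b v) e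
        (fun τ z => ∑ j, ψ j (spin τ (t j) * z (ι j))) -
      ∫ G, meanExt P.K (P.lamN a b v) (fun l _ => s l) (P.ampN b v) e (gaussPhi b t ψ G)
        ∂gauss (J × Fin N)| ≤
      Real.exp (4 * ((Fintype.card J : ℝ) * |B|)) ^ (P.K + 2) * |B| * (1 + 2 * M) *
        (5 * (Fintype.card J : ℝ) ^ 2) / Real.sqrt (fiber b (topA M)).card := by
  classical
  set T := fiber b (topA M) with hT
  set n : ℝ := (T.card : ℝ) with hnd
  have hn0 : 0 < n := by rw [hnd]; exact_mod_cast hn
  set r := Real.sqrt n with hr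
  have hr0 : 0 < r := Real.sqrt_pos.2 hn0
  set lam' := P.lamN a b v with hlam
  set S' : ℕ → Fin N → ℝ := fun l _ => s l with hS'
  set V' := P.ampN b v with hV'
  set f := fun G => meanExt P.K lam' S' V' e (gaussPhi b t ψ G) with hf
  set Cst := Real.exp (4 * ((Fintype.card J : ℝ) * |B|)) ^ (P.K + 2) * |B| * (1 + 2 * M) with hCst
  have hCst0 : 0 ≤ Cst := by rw [hCst]; positivity
  set R := fun G : J × Fin N → ℝ => Cst * ∑ i, ∑ j,
    (r / 2 * (gram T G i j - (1 : Matrix J J ℝ) i j) ^ 2 + 1 / (2 * r)) with hR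
  have hH : ∀ i, ∫ U, (glassNest P.K S' V').heatTop (glassLeaf U) (quadLaw lam' U)
      (Sum.inr (ι i)) ∂haarON N ≤ 2 * M := by
    intro i
    refine (integral_atom_two P.K lam' S' V' T (fun p hp q hq => ?_) (by simp [hT, fiber, hbι i])).trans
      ((div_le_iff₀ hn0).2 hb)
    have hpq : b p = b q := by
      simp only [hT, fiber, mem_filter, mem_univ, true_and] at hp hq
      rw [hp, hq]
    exact ⟨by simp [hlam, Par.lamN, hpq], fun l => by simp [hV', Par.ampN, hpq]⟩
  have hpt : ∀ G, |meanExt P.K lam' S' V' e (framePhi ι t ψ 1) - f G| ≤ R G := by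
    intro G
    obtain ⟨X, hX, hfX⟩ := exists_frame P a S' V' e b v
      (fun l p q h => by simp [hV', Par.ampN, h]) t ψ ι hι hbι G
    rw [abs_sub_comm, hf]
    dsimp only
    rw [hlam, hfX, ← hlam]
    refine (frame_compare P.K lam' S' V' hψ e t ι X hH).trans ?_
    have key : ∑ i, ∑ j, |X i j - (1 : Matrix J J ℝ) i j| ≤ ∑ i, ∑ j,
        (r / 2 * (gram T G i j - (1 : Matrix J J ℝ) i j) ^ 2 + 1 / (2 * r)) := by
      refine (sum_le_sum fun i _ => sum_le_sum fun j _ => abs_le_amgm _ r hr0).trans ?_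
      simp only [sum_add_distrib, ← mul_sum]
      exact add_le_add (mul_le_mul_of_nonneg_left hX (by positivity)) le_rfl
    refine (mul_le_mul_of_nonneg_left (mul_le_mul_of_nonneg_left
      (mul_le_mul_of_nonneg_left key (by positivity : (0:ℝ) ≤ 1 + 2 * (M : ℝ))) (abs_nonneg B))
      (by positivity)).trans (le_of_eq ?_)
    simp only [hR, hCst]
    ring
  have hRI : ∀ i j, Integrable (fun G : J × Fin N → ℝ =>
      r / 2 * (gram T G i j - (1 : Matrix J J ℝ) i j) ^ 2 + 1 / (2 * r)) (gauss (J × Fin N)) :=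
    fun i j => ((((tame_gram T i j).sub (tame_const _)).sq.const_mul (r / 2)).add
      (tame_const _)).integrable
  have hRint : Integrable R (gauss (J × Fin N)) :=
    (integrable_finsetSum _ fun i _ => integrable_finsetSum _ fun j _ => hRI i j).const_mul Cst
  have hfint : Integrable f (gauss (J × Fin N)) := by
    refine ((integrable_const |meanExt P.K lam' S' V' e (framePhi ι t ψ 1)|).add hRint).mono'
      (continuous_gaussExt P.K lam' S' V' hψ e b t).aestronglyMeasurable (.of_forall fun G => ?_)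
    rw [Real.norm_eq_abs]
    show |f G| ≤ |meanExt P.K lam' S' V' e (framePhi ι t ψ 1)| + R G
    have h := hpt G
    rw [abs_sub_comm] at h
    calc |f G| = |(f G - meanExt P.K lam' S' V' e (framePhi ι t ψ 1)) +
          meanExt P.K lam' S' V' e (framePhi ι t ψ 1)| := by ring_nf
      _ ≤ _ := (abs_add_le _ _).trans (by linarith)
  rw [← framePhi_one ι t ψ]
  calc |meanExt P.K lam' S' V' e (framePhi ι t ψ 1) - ∫ G, f G ∂gauss (J × Fin N)|
      = |∫ G, (meanExt P.K lam' S' V' e (framePhi ι t ψ 1) - f G) ∂gauss (J × Fin N)| := by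
        rw [integral_sub (integrable_const _) hfint, integral_const, probReal_univ, one_smul]
    _ ≤ ∫ G, R G ∂gauss (J × Fin N) := abs_integral_le_integral_abs.trans
        (integral_mono ((integrable_const _).sub hfint).abs hRint hpt)
    _ ≤ Cst * ∑ _i : J, ∑ _j : J, (5 / r) := by
        rw [hR, integral_const_mul,
          integral_finsetSum _ fun i _ => integrable_finsetSum _ fun j _ => hRI i j]
        refine mul_le_mul_of_nonneg_left (sum_le_sum fun i _ => ?_) hCst0
        rw [integral_finsetSum _ fun j _ => hRI i j]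
        refine sum_le_sum fun j _ => ?_
        rw [integral_add ((((tame_gram T i j).sub (tame_const _)).sq.const_mul (r / 2)).integrable)
          (integrable_const _), integral_const_mul, integral_const, probReal_univ, one_smul]
        have hv := mul_le_mul_of_nonneg_left (variance_gram T hn i j)
          (by positivity : (0:ℝ) ≤ r / 2)
        have e1 : r / 2 * (8 / n) = 4 / r := by
          rw [show n = r * r from (Real.mul_self_sqrt hn0.le).symm]
          field_simp
          ring
        have e2 : 5 / r = 4 / r + 2 * (1 / (2 * r)) := by field_simp; ring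
        have : 0 ≤ 1 / (2 * r) := by positivity
        linarith
    _ = _ := by
        simp only [sum_const, card_univ, nsmul_eq_mul]
        ring

end GaussExact

variable {M : ℕ} [NeZero M]

/-- Module F1a: exact projections of the top atom may be replaced by Gaussian ones. -/
theorem gauss_exact (J : Type) [Fintype J] (k : ℕ) {κ B : ℝ} {P : Par} (hP : P.Ok) (Λ smax : ℝ)
    {ε : ℝ} (hε : 0 < ε) :
    ∀ᶠ N : ℕ in atTop, ∀ a : Fin M → ℝ, (∀ r, |a r| ≤ Λ) → ∀ s, P.SpinOk smax s →
      ∀ e : ℕ → Fin k → ℝ, (∀ i, P.SpinOk smax fun l => e l i) →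
      ∀ b : Fin N → Fin M, (N : ℝ) ≤ 2 * M * (fiber b (topA M)).card →
      ∀ ψ ψ1 ψ2 : J → ℝ → ℝ, (∀ j, PsiOk κ B (ψ j) (ψ1 j) (ψ2 j)) → ∀ t : J → Fin k,
      ∀ ι : J → Fin N, Function.Injective ι → (∀ j, b (ι j) = topA M) →
      ∀ v : GBox M P.K → ℝ, InBox v →
        |meanExt P.K (P.lamN a b v) (fun l _ => s l) (P.ampN b v) e
            (fun τ z => ∑ j, ψ j (spin τ (t j) * z (ι j))) - P.free a s b v -
          P.insTerm a s b v e t ψ| ≤ ε := by
  set D : ℝ := Real.exp (4 * ((Fintype.card J : ℝ) * |B|)) ^ (P.K + 2) * |B| * (1 + 2 * M) *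
    (5 * (Fintype.card J : ℝ) ^ 2) with hD
  have hD0 : 0 ≤ D := by rw [hD]; positivity
  obtain ⟨N0, hN0⟩ := exists_nat_gt (2 * (M : ℝ) * (D / ε) ^ 2)
  filter_upwards [eventually_gt_atTop (N0 : ℕ)] with N hN a _ s _ e _ b hb ψ ψ1 ψ2 hψ t ι hι hbι v _
  have hNR : (N0 : ℝ) < N := by exact_mod_cast hN
  have hpos : 0 ≤ 2 * (M : ℝ) * (D / ε) ^ 2 := by positivity
  have hn : (D / ε) ^ 2 < (fiber b (topA M)).card := by
    by_contra h
    have := mul_le_mul_of_nonneg_left (not_lt.1 h) (by positivity : (0:ℝ) ≤ 2 * (M : ℝ))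
    linarith
  have hn0 : 0 < (fiber b (topA M)).card := by
    exact_mod_cast (lt_of_le_of_lt (sq_nonneg (D / ε)) hn)
  have h := GaussExact.exact_bound hψ e P a s b hn0 hb t ι hι hbι v
  rw [Par.insTerm, sub_sub_sub_cancel_right]
  refine h.trans ?_
  rw [← hD, div_le_iff₀ (Real.sqrt_pos.2 (Nat.cast_pos.2 hn0))]
  have := Real.lt_sqrt (div_nonneg hD0 hε.le) |>.2 hn
  rw [div_lt_iff₀ hε] at this
  linarith

end Vale.Agent.P166.Parisi
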