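import Vale.Agent.P166.Parisi.QuadCascade.Compress
import Vale.Agent.P166.Parisi.QuadCascade.Cut
import Vale.Agent.P166.Parisi.QuadCascade.Increment

/-!
Module Q: the quadratic cascade and the algebra of the compression (`exists_compress`, `quadCut_ok`,
`tauFree_cut`, `quad_increment`, `topPath_path`, `continuous_topPath`).
-/
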