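import Vale.Agent.P166.Parisi.FrameMove
import Vale.Agent.P166.Parisi.GaussExact
import Vale.Agent.P166.Parisi.FrameNew
import Vale.Agent.P166.Parisi.QuadCascade

/-!
Module F1b: adding one spin to every atom costs the base system coupled to Gaussian projections.
-/

namespace Vale.Agent.P166.Parisi

open MeasureTheory ProbabilityTheory Finset Filter Topology
open Vale.Agent.P157 (gauss)

variable {M : ℕ} [NeZero M]

theorem exists_psiOk {J : Type} [Fintype J] (e b : J → ℝ) (he : ∀ x, 0 < e x) {R : ℝ} (hR : 1 ≤ R) :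
    ∃ κ B : ℝ, ∃ ψ1 ψ2 : J → ℝ → ℝ,
      ∀ x, PsiOk κ B (quadCut R (e x) (b x)) (ψ1 x) (ψ2 x) := by
  choose κ hκ using fun x => quadCut_ok (he x) (b x)
  choose B ψ1 ψ2 h using fun x => hκ x R hR
  exact ⟨∑ x, |κ x|, ∑ x, |B x|, ψ1, ψ2, fun x => Frame.PsiOk.mono (h x)
    ((le_abs_self _).trans (single_le_sum (f := fun x => |κ x|) (fun _ _ => abs_nonneg _)
      (mem_univ x)))
    ((le_abs_self _).trans (single_le_sum (f := fun x => |B x|) (fun _ _ => abs_nonneg _)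
      (mem_univ x)))⟩

/-- Module F1b. -/
theorem frame_step {a : Fin M → ℝ} (ha : StrictMono a) (cp : Compress a) {m : ℝ} (hm : 0 < m)
    (smax C : ℝ) {ε : ℝ} (hε : 0 < ε) :
    ∃ R₀ : ℝ, ∀ R, R₀ ≤ R → ∃ du₀ > 0, ∀ K L0 : ℕ, L0 < K →
      m * ((K : ℝ) + 1) ≤ (L0 : ℝ) + 1 → ∀ du : ℝ, 0 < du → du ≤ du₀ → ∃ η₀ > 0,
      ∀ η : ℝ, 0 < η → η ≤ η₀ → ∀ P : Par, P = ⟨K, L0, du, η⟩ →
      ∀ᶠ N : ℕ in atTop, ∀ s, P.SpinOk smax s → ∀ e : ℕ → Fin M → ℝ,
        (∀ i, P.SpinOk smax fun l => e l i) →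
        ∀ (b : Fin N → Fin M) (b' : Fin (N + M) → Fin M) (bB : Fin N → Fin M), Bal C b →
          (∀ r, (fiber b' r).card = (fiber b r).card + 1) →
          (∀ r, r ≠ topA M → (fiber bB r).card + (M - 1) = (fiber b r).card) →
          ∀ v : GBox M P.K → ℝ, InBox v →
            |P.freeS a (addAmp s e) b' v - P.free a s b v -
              ((M : ℝ) * cp.c0 +
                P.insTerm a s bB v e (fun j : NewIdx M => j.1)
                  (fun j => quadCut R (cp.e j.2) (cp.b j.2)) -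
                P.insTerm (m := 1) a s bB v (fun _ _ => 0) (fun _ : MoveIdx M => 0)
                  (fun j => quadCut R (a (topA M) - a j.1) 0))| ≤ ε := by
  classical
  have hε4 : 0 < ε / 4 := by positivity
  obtain ⟨g, hg0, hg⟩ := Frame.exists_gap ha
  obtain ⟨R₁, h₁⟩ := Frame.new_side ha cp hm C hε4
  obtain ⟨R₂, h₂⟩ := Frame.move_side ha hm C hε4
  refine ⟨max (max R₁ R₂) 1, fun R hR => ?_⟩
  simp only [max_le_iff] at hR
  obtain ⟨du₁, hdu₁, h₁⟩ := h₁ R hR.1.1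
  obtain ⟨du₂, hdu₂, h₂⟩ := h₂ R hR.1.2
  obtain ⟨κn, Bn, ψn1, ψn2, hψn⟩ := exists_psiOk (fun x : NewIdx M => cp.e x.2)
    (fun x => cp.b x.2) (fun x => cp.pos x.2) hR.2
  obtain ⟨κm, Bm, ψm1, ψm2, hψm⟩ := exists_psiOk (fun x : MoveIdx M => a (topA M) - a x.1)
    (fun _ => 0) (fun x => by linarith [hg _ x.1.2]) hR.2
  refine ⟨min (min du₁ du₂) 1, by positivity, fun K L0 hKL hmK du hdu hdu' => ?_⟩
  simp only [le_min_iff] at hdu'
  obtain ⟨η₁, hη₁, h₁⟩ := h₁ K L0 hKL hmK du hdu hdu'.1.1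
  obtain ⟨η₂, hη₂, h₂⟩ := h₂ K L0 hKL hmK du hdu hdu'.1.2
  refine ⟨min (min η₁ η₂) 1, by positivity, fun η hη hη' P hP => ?_⟩
  simp only [le_min_iff] at hη'
  have hPok : P.Ok := by subst hP; exact ⟨hKL, hdu, hdu'.2, hη, hη'.2⟩
  have e₁ := gauss_exact (M := M) (NewIdx M) M (κ := κn) (B := Bn) hPok (∑ r, |a r|) smax hε4
  have e₂ := gauss_exact (M := M) (MoveIdx M) 1 (κ := κm) (B := Bm) hPok (∑ r, |a r|) smax hε4
  filter_upwards [h₁ η hη hη'.1.1 P hP, h₂ η hη hη'.1.2 P hP, e₁, e₂,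
    eventually_ge_atTop (⌈2 * (M : ℝ) * |C|⌉₊ + 2 * M * (M * M))] with N hN₁ hN₂ hN₃ hN₄ hN
  intro s hs e he b b' bB hb hb' hcard v hv
  have hbig : (N : ℝ) ≤ 2 * M * (fiber b (topA M)).card :=
    Frame.bal_half hb ((Nat.le_ceil _).trans
      (Nat.cast_le.2 (show ⌈2 * (M : ℝ) * |C|⌉₊ ≤ N by omega))) _
  have hbT : (N : ℝ) ≤ 2 * M * (fiber bB (topA M)).card := by
    refine hbig.trans (mul_le_mul_of_nonneg_left ?_ (by positivity))
    rw [Frame.card_top hcard]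
    push_cast
    exact le_add_of_nonneg_right (by positivity)
  have hMM : M * M ≤ (fiber bB (topA M)).card := by
    have h : N ≤ 2 * M * (fiber bB (topA M)).card := by exact_mod_cast hbT
    exact Nat.le_of_mul_le_mul_left (by omega : 2 * M * (M * M) ≤ 2 * M * (fiber bB (topA M)).card)
      (by have := Nat.pos_of_ne_zero (NeZero.ne M); omega)
  obtain ⟨jn, hjn⟩ := Frame.exists_emb bB (topA M) (NewIdx M) (by
    simp only [Fintype.card_prod, Fintype.card_fin]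
    exact (Nat.mul_le_mul_left M (Nat.sub_le M 1)).trans hMM)
  obtain ⟨jm, hjm⟩ := Frame.exists_emb bB (topA M) (MoveIdx M) (by
    refine le_trans ?_ hMM
    simp only [Fintype.card_prod, Fintype.card_fin]
    exact Nat.mul_le_mul ((Fintype.card_subtype_le _).trans_eq (Fintype.card_fin M)) (Nat.sub_le M 1))
  have hΛ : ∀ r, |a r| ≤ ∑ r, |a r| := fun r =>
    single_le_sum (f := fun r => |a r|) (fun _ _ => abs_nonneg _) (mem_univ r)
  have hsm : 0 ≤ smax := (abs_nonneg (s 0)).trans (hs.1 0)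
  have A1 := hN₁ s hs.2 e (fun l h1 h2 => funext fun i => (he i).2 l h1 h2) b b' bB hb hb' hcard jn
    hjn v hv
  have A2 := hN₂ s hs.2 b bB hb hcard jm hjm v hv
  have A3 := hN₃ a hΛ s hs e he bB hbT (fun x => quadCut R (cp.e x.2) (cp.b x.2)) ψn1 ψn2 hψn
    (fun x => x.1) (fun x => jn x) jn.injective hjn v hv
  have A4 := hN₄ a hΛ s hs (fun _ _ => 0)
    (fun _ => ⟨fun l => by simpa using hsm, fun l _ _ => rfl⟩) bB hbT
    (fun x => quadCut R (a (topA M) - a x.1) 0) ψm1 ψm2 hψm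
    (fun _ => 0) (fun x => jm x) jm.injective hjm v hv
  rw [abs_le] at A1 A2 A3 A4 ⊢
  unfold Frame.newCut at A1
  unfold Frame.moveCut at A2
  constructor <;> linarith

end Vale.Agent.P166.Parisi
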