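import Vale.Agent.P166.Parisi.Sys
import Vale.Agent.P166.Parisi.Tilt

/-!
Linear algebra of adding one coordinate to every atom.
-/

namespace Vale.Agent.P166.Parisi

open Matrix Finset
open Vale.Agent.P157 Vale.Agent.P157.Parisi

namespace FrameAlg

variable {σ κ : Type} [Fintype σ] [Fintype κ]

/-- The positive semidefinite root of a Gram matrix. -/
lemma exists_psd_sqrt [DecidableEq κ] (A : Matrix σ κ ℝ) :
    ∃ S : Matrix κ κ ℝ, S.PosSemidef ∧ Sᵀ = S ∧ S * S = Aᵀ * A := by
  open scoped MatrixOrder in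
  obtain ⟨S, hS, hSS⟩ : ∃ S : Matrix κ κ ℝ, S.PosSemidef ∧ S * S = Aᵀ * A := by
    have hG : (Aᵀ * A).PosSemidef := by
      simpa [conjTranspose_eq_transpose_of_trivial] using posSemidef_conjTranspose_mul_self A
    exact ⟨CFC.sqrt (Aᵀ * A), Matrix.nonneg_iff_posSemidef.1 (CFC.sqrt_nonneg _),
      CFC.sqrt_mul_sqrt_self _ (Matrix.nonneg_iff_posSemidef.2 hG)⟩
  exact ⟨S, hS, by simpa [conjTranspose_eq_transpose_of_trivial] using hS.isHermitian.eq, hSS⟩

/-- Matrices with equal Gram matrices differ by an orthogonal one. -/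
lemma exists_orth_map [DecidableEq σ] (A T : Matrix σ κ ℝ) (h : Aᵀ * A = Tᵀ * T) :
    ∃ R : Matrix σ σ ℝ, Rᵀ * R = 1 ∧ R * A = T := by
  classical
  set e := Fintype.equivFin κ
  let a : Fin (Fintype.card κ) → EuclideanSpace ℝ σ := fun c =>
    WithLp.toLp 2 fun p => A p (e.symm c)
  let t : Fin (Fintype.card κ) → EuclideanSpace ℝ σ := fun c =>
    WithLp.toLp 2 fun p => T p (e.symm c)
  have hgram : ∀ c d, inner ℝ (a c) (a d) = inner ℝ (t c) (t d) := by
    intro c d
    have := congrFun (congrFun h (e.symm c)) (e.symm d)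
    simp only [mul_apply, transpose_apply] at this
    simpa [a, t, PiLp.inner_apply, mul_comm] using this
  obtain ⟨L, hL⟩ := Tilt.exists_isometry_of_gram a t hgram
  let bs := EuclideanSpace.basisFun σ ℝ
  let R : Matrix σ σ ℝ := Matrix.of fun p j => L (bs j) p
  refine ⟨R, Matrix.ext fun i j => ?_, Matrix.ext fun p c => ?_⟩
  · have h := L.inner_map_map (bs i) (bs j)
    rw [orthonormal_iff_ite.1 bs.orthonormal, PiLp.inner_apply] at h
    simpa [mul_apply, R, one_apply, mul_comm] using h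
  · have hsum : ∑ j, A j c • L (bs j) = L (WithLp.toLp 2 fun q => A q c) := by
      conv_rhs => rw [← bs.sum_repr (WithLp.toLp 2 fun q => A q c)]
      simp [bs, map_sum]
    have h1 : L (WithLp.toLp 2 fun q => A q c) = WithLp.toLp 2 fun q => T q c := by
      simpa [a, t] using hL (e c)
    have := congrArg (fun x : EuclideanSpace ℝ σ => x p) (hsum.trans h1)
    simpa [R, mul_apply, mul_comm] using this

/-- `psd_close_one` for any index type. -/
lemma psd_close [DecidableEq κ] {S : Matrix κ κ ℝ} (hS : S.PosSemidef) :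
    ∑ i, ∑ j, (S i j - if i = j then 1 else 0) ^ 2 ≤
      ∑ i, ∑ j, ((S * S) i j - if i = j then 1 else 0) ^ 2 := by
  set e := (Fintype.equivFin κ).symm
  have h := psd_close_one (hS.submatrix e)
  rw [submatrix_mul_equiv] at h
  simpa only [← Equiv.sum_comp e, submatrix_apply, EmbeddingLike.apply_eq_iff_eq] using h

end FrameAlg

variable {N k : ℕ}

/-- `diag (W, 1)`. -/
noncomputable def embON (k : ℕ) (W : ON N) : ON (N + k) :=
  ⟨(Matrix.fromBlocks (W : Matrix (Fin N) (Fin N) ℝ) 0 0 1).submatrix finSumFinEquiv.symm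
      finSumFinEquiv.symm, by
    rw [mem_orthogonalGroup_iff]
    have hW := (mem_orthogonalGroup_iff (Fin N) ℝ).1 W.2
    simp [Matrix.transpose_submatrix, Matrix.submatrix_mul_equiv, Matrix.fromBlocks_transpose,
      Matrix.fromBlocks_multiply, hW]⟩

theorem continuous_embON (k : ℕ) : Continuous (embON (N := N) k) :=
  ((continuous_subtype_val.matrix_fromBlocks continuous_const continuous_const
    continuous_const).matrix_submatrix _ _).subtype_mk _

/-- Two orthogonal maps with the same last columns differ by an embedded one. -/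
theorem exists_eq_mul_embON (X Q : ON (N + k))
    (h : ∀ p c, (X : Matrix (Fin (N + k)) (Fin (N + k)) ℝ) p (Fin.natAdd N c) =
      (Q : Matrix (Fin (N + k)) (Fin (N + k)) ℝ) p (Fin.natAdd N c)) :
    ∃ O : ON N, X = Q * embON k O := by
  set Xm := (X : Matrix (Fin (N + k)) (Fin (N + k)) ℝ) with hXm
  set Qm := (Q : Matrix (Fin (N + k)) (Fin (N + k)) ℝ) with hQm
  have hQ : Qmᵀ * Qm = 1 := (mem_orthogonalGroup_iff' _ _).1 Q.2
  have hQ' : Qm * Qmᵀ = 1 := (mem_orthogonalGroup_iff _ _).1 Q.2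
  have hX : Xmᵀ * Xm = 1 := (mem_orthogonalGroup_iff' _ _).1 X.2
  set Z := Qmᵀ * Xm with hZ
  have hZZ : Zᵀ * Z = 1 := by
    rw [hZ, transpose_mul, transpose_transpose, Matrix.mul_assoc, ← Matrix.mul_assoc Qm, hQ',
      Matrix.one_mul, hX]
  have hZZ' : Z * Zᵀ = 1 := mul_eq_one_comm.1 hZZ
  have hcol : ∀ i c, Z i (Fin.natAdd N c) =
      (1 : Matrix (Fin (N + k)) (Fin (N + k)) ℝ) i (Fin.natAdd N c) := fun i c => by
    rw [hZ, ← hQ]
    simp only [mul_apply, h]
  have hrow : ∀ c j, Z (Fin.natAdd N c) (Fin.castAdd k j) = 0 := by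
    intro c j
    have h1 := congrFun (congrFun hZZ' (Fin.natAdd N c)) (Fin.natAdd N c)
    rw [mul_apply, Fin.sum_univ_add, one_apply_eq] at h1
    simp only [transpose_apply, hcol, one_apply, (Fin.natAdd_injective k N).eq_iff] at h1
    simp only [mul_ite, mul_one, mul_zero, sum_ite_eq, mem_univ, if_true, add_eq_right] at h1
    exact mul_self_eq_zero.1
      ((sum_eq_zero_iff_of_nonneg fun i _ => mul_self_nonneg _).1 h1 j (mem_univ j))
  set O : Matrix (Fin N) (Fin N) ℝ := fun i j => Z (Fin.castAdd k i) (Fin.castAdd k j) with hO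
  have hOO : Oᵀ * O = 1 := by
    refine Matrix.ext fun i j => ?_
    have h1 := congrFun (congrFun hZZ (Fin.castAdd k i)) (Fin.castAdd k j)
    rw [mul_apply, Fin.sum_univ_add] at h1
    simp only [transpose_apply, hrow, mul_zero, sum_const_zero, add_zero, one_apply,
      (Fin.castAdd_injective N k).eq_iff] at h1
    rw [mul_apply, one_apply]
    exact h1
  refine ⟨⟨O, (mem_orthogonalGroup_iff' _ _).2 hOO⟩, Subtype.ext ?_⟩
  show Xm = Qm * (Matrix.fromBlocks O 0 0 1).submatrix finSumFinEquiv.symm finSumFinEquiv.symm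
  have hZe : Z = (Matrix.fromBlocks O 0 0 1).submatrix finSumFinEquiv.symm finSumFinEquiv.symm := by
    refine Matrix.ext fun p q => ?_
    refine Fin.addCases (fun i => ?_) (fun c => ?_) p <;>
      refine Fin.addCases (fun j => ?_) (fun d => ?_) q
    · rw [submatrix_apply, finSumFinEquiv_symm_apply_castAdd, finSumFinEquiv_symm_apply_castAdd]
      rfl
    · have hne : Fin.castAdd k i ≠ Fin.natAdd N d := by
        intro h'
        have := i.isLt
        simp [Fin.ext_iff] at h'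
        omega
      simp [hcol, hne]
    · simp [hrow]
    · simp [hcol, one_apply]
  rw [← hZe, hZ, ← Matrix.mul_assoc, hQ', Matrix.one_mul]

/-- An orthogonal matrix on a subset of the indices, the identity elsewhere. -/
theorem exists_lift {n : ℕ} {τ : Type} [Fintype τ] [DecidableEq τ] (g : τ ↪ Fin n)
    (A : Matrix τ τ ℝ) (hA : Aᵀ * A = 1) :
    ∃ Q : ON n, (∀ x y, (Q : Matrix (Fin n) (Fin n) ℝ) (g x) (g y) = A x y) ∧
      ∀ p q, ((∀ x, g x ≠ p) ∨ ∀ x, g x ≠ q) →
        (Q : Matrix (Fin n) (Fin n) ℝ) p q = if p = q then 1 else 0 := by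
  classical
  set E : τ ⊕ {p : Fin n // p ∉ Set.range g} ≃ Fin n :=
    (Equiv.sumCongr (Equiv.ofInjective g g.injective) (Equiv.refl _)).trans
      (Equiv.sumCompl fun p => p ∈ Set.range g) with hE
  set B := fromBlocks A 0 0 (1 : Matrix {p : Fin n // p ∉ Set.range g} {p : Fin n // p ∉ Set.range g} ℝ) with hB
  have hBB : Bᵀ * B = 1 := by
    rw [hB, fromBlocks_transpose, fromBlocks_multiply]
    simp [hA, fromBlocks_one]
  have hQ : (B.submatrix E.symm E.symm)ᵀ * B.submatrix E.symm E.symm = 1 := by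
    rw [transpose_submatrix, submatrix_mul_equiv, hBB, submatrix_one_equiv]
  have hg : ∀ x, E.symm (g x) = Sum.inl x := fun x => by
    rw [Equiv.symm_apply_eq]; simp [hE]
  have hn : ∀ (p : Fin n) (hp : p ∉ Set.range g), E.symm p = Sum.inr ⟨p, hp⟩ := fun p hp => by
    rw [Equiv.symm_apply_eq]; simp [hE]
  refine ⟨⟨B.submatrix E.symm E.symm, (mem_orthogonalGroup_iff' _ _).2 hQ⟩,
    fun x y => by simp [hB, hg], fun p q hpq => ?_⟩
  show B (E.symm p) (E.symm q) = _
  rcases Classical.em (p ∈ Set.range g) with ⟨x, rfl⟩ | hp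
  · rcases hpq with h | h
    · exact absurd rfl (h x)
    · rw [hg, hn q fun ⟨y, hy⟩ => h y hy, hB, fromBlocks_apply₁₂, if_neg (h x)]
      rfl
  · rw [hn p hp]
    rcases Classical.em (q ∈ Set.range g) with ⟨y, rfl⟩ | hq
    · rw [hg, hB, fromBlocks_apply₂₁, if_neg fun e => hp ⟨y, e.symm⟩]
      rfl
    · rw [hn q hq, hB, fromBlocks_apply₂₂, one_apply]
      simp

/-- An atom-preserving rotation sending the columns of `A` to chosen positions, with symmetric
positive semidefinite images. -/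
theorem exists_atom_rotate {n M m : ℕ} (b : Fin n → Fin M) (pos : Fin M → Fin m → Fin n)
    (hb : ∀ r i, b (pos r i) = r) (hinj : ∀ r, Function.Injective (pos r))
    (A : Matrix (Fin n) (Fin m) ℝ) :
    ∃ (R : ON n) (S : Fin M → Matrix (Fin m) (Fin m) ℝ),
      (∀ p q, (R : Matrix (Fin n) (Fin n) ℝ) p q ≠ 0 → b p = b q) ∧
      (∀ r, (S r).PosSemidef ∧
        ∀ c c', (S r * S r) c c' = ∑ p ∈ fiber b r, A p c * A p c') ∧
      (∀ r i c, ((R : Matrix (Fin n) (Fin n) ℝ) * A) (pos r i) c = S r i c) ∧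
      ∀ p c, (∀ r i, pos r i ≠ p) → ((R : Matrix (Fin n) (Fin n) ℝ) * A) p c = 0 := by
  classical
  -- one atom
  have hone : ∀ r, ∃ (Rr : Matrix {p // b p = r} {p // b p = r} ℝ)
      (S : Matrix (Fin m) (Fin m) ℝ), Rrᵀ * Rr = 1 ∧ S.PosSemidef ∧
        (∀ c c', (S * S) c c' = ∑ p ∈ fiber b r, A p c * A p c') ∧
        ∀ (x : {p // b p = r}) (c : Fin m), ∑ y, Rr x y * A y c =
          Function.extend (fun i => (⟨pos r i, hb r i⟩ : {p // b p = r})) (fun i => S i c) 0 x := by
    intro r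
    set Ar : Matrix {p // b p = r} (Fin m) ℝ := Matrix.of fun x c => A x c with hAr
    obtain ⟨S, hS, hSt, hSS⟩ := FrameAlg.exists_psd_sqrt Ar
    set f : Fin m → {p // b p = r} := fun i => ⟨pos r i, hb r i⟩
    have hf : Function.Injective f := fun i j h => hinj r (congrArg Subtype.val h)
    set T : Matrix {p // b p = r} (Fin m) ℝ :=
      Matrix.of fun x c => Function.extend f (fun i => S i c) 0 x with hTdef
    have hT : Tᵀ * T = Arᵀ * Ar := by
      rw [← hSS]
      refine Matrix.ext fun c c' => ?_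
      rw [mul_apply, mul_apply]
      refine (Fintype.sum_of_injective f hf _ _ (fun x hx => ?_) fun i => ?_).symm
      · simp only [transpose_apply, hTdef, of_apply, Function.extend_apply' _ _ _ (show ¬∃ i, f i = x from hx)]
        simp
      · simp only [transpose_apply, hTdef, of_apply, hf.extend_apply]
        rw [show S i c = S c i from congrFun (congrFun hSt c) i]
    obtain ⟨Rr, hR, hRA⟩ := FrameAlg.exists_orth_map Ar T hT.symm
    refine ⟨Rr, S, hR, hS, fun c c' => ?_, fun x c => ?_⟩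
    · rw [hSS, mul_apply]
      simp only [transpose_apply, hAr, of_apply]
      exact (Finset.sum_subtype (fiber b r) (p := fun p => b p = r) (fun p => by simp [fiber])
        fun p => A p c * A p c').symm
    · simpa [mul_apply, hAr, hTdef] using congrFun (congrFun hRA x) c
  choose Rr S hR hS hSS hRA using hone
  set e := Equiv.sigmaFiberEquiv b with he
  set R := (blockDiagonal' Rr).submatrix e.symm e.symm with hRdef
  have hRR : Rᵀ * R = 1 := by
    rw [hRdef, transpose_submatrix, submatrix_mul_equiv, blockDiagonal'_transpose,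
      ← blockDiagonal'_mul, show (fun r => (Rr r)ᵀ * Rr r) = 1 from funext hR,
      blockDiagonal'_one, submatrix_one_equiv]
  have hval : ∀ p c, (R * A) p c = Function.extend
      (fun i => (⟨pos (b p) i, hb (b p) i⟩ : {q // b q = b p})) (fun i => S (b p) i c) 0
      ⟨p, rfl⟩ := by
    intro p c
    rw [← hRA (b p) ⟨p, rfl⟩ c, mul_apply, ← e.sum_comp, Fintype.sum_sigma,
      Finset.sum_eq_single (b p) (fun r _ hr => Finset.sum_eq_zero fun y _ => ?_) (by simp)]
    · refine Finset.sum_congr rfl fun y _ => ?_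
      rw [hRdef, submatrix_apply, Equiv.symm_apply_apply,
        show e.symm p = ⟨b p, ⟨p, rfl⟩⟩ from rfl, blockDiagonal'_apply_eq]
      rfl
    · rw [hRdef, submatrix_apply, Equiv.symm_apply_apply,
        show e.symm p = ⟨b p, ⟨p, rfl⟩⟩ from rfl, blockDiagonal'_apply_ne _ _ _ hr.symm, zero_mul]
  refine ⟨⟨R, (mem_orthogonalGroup_iff' _ _).2 hRR⟩, S, fun p q h => ?_,
    fun r => ⟨hS r, hSS r⟩, fun r i c => ?_, fun p c hp => ?_⟩
  · by_contra hne
    refine h ?_
    show blockDiagonal' Rr (e.symm p) (e.symm q) = 0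
    rw [show e.symm p = ⟨b p, ⟨p, rfl⟩⟩ from rfl, show e.symm q = ⟨b q, ⟨q, rfl⟩⟩ from rfl]
    exact blockDiagonal'_apply_ne _ _ _ hne
  · show (R * A) (pos r i) c = S r i c
    rw [hval]
    obtain ⟨r', hr'⟩ : ∃ r', r' = b (pos r i) := ⟨_, rfl⟩
    have key : ∀ (s : Fin M) (hs : b (pos r i) = s), r = s →
        Function.extend (fun j => (⟨pos s j, hb s j⟩ : {q // b q = s})) (fun j => S s j c)
          (0 : {q // b q = s} → ℝ) ⟨pos r i, hs⟩ = S r i c := by
      rintro s hs rfl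
      exact Function.Injective.extend_apply
        (f := fun j => (⟨pos r j, hb r j⟩ : {q // b q = r}))
        (fun j j' h => hinj r (congrArg Subtype.val h)) (fun j => S r j c) 0 i
    exact key (b (pos r i)) rfl (hb r i).symm
  · show (R * A) p c = 0
    rw [hval, Function.extend_apply' _ _ _ (fun ⟨i, hi⟩ => hp _ i (congrArg Subtype.val hi))]
    rfl

/-- An orthonormal family has a completion which is close to a given one when the family is. -/
theorem exists_completion {σ ι κ : Type} [Fintype σ] [Fintype ι] [Fintype κ] [DecidableEq σ]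
    [DecidableEq ι] [DecidableEq κ] (hc : Fintype.card σ = Fintype.card ι + Fintype.card κ)
    (Q₀ : Matrix σ (ι ⊕ κ) ℝ) (h₀ : Q₀ᵀ * Q₀ = 1) {δ : ℝ} (hδ : 0 < δ) :
    ∃ δ' > 0, ∀ S : Matrix σ κ ℝ, Sᵀ * S = 1 →
      ∃ Q : Matrix σ (ι ⊕ κ) ℝ, Qᵀ * Q = 1 ∧ Q * Qᵀ = 1 ∧
        (∀ p c, Q p (Sum.inr c) = S p c) ∧
        ((∀ p c, |S p c - Q₀ p (Sum.inr c)| ≤ δ') → ∀ p j, |Q p j - Q₀ p j| ≤ δ) := by
  set cσ : ℝ := ((Fintype.card σ : ℕ) : ℝ) with hcσ
  set cι : ℝ := ((Fintype.card ι : ℕ) : ℝ) with hcι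
  set cκ : ℝ := ((Fintype.card κ : ℕ) : ℝ) with hcκ
  set D : ℝ := cι ^ 3 * cκ * cσ ^ 2 + cκ * cσ with hD
  have hD0 : 0 ≤ D := by positivity
  refine ⟨min (min 1 δ) (δ / (D + 1)), by positivity, fun S hS => ?_⟩
  set δ' := min (min 1 δ) (δ / (D + 1)) with hδ'
  have hcard : Fintype.card σ = Fintype.card (ι ⊕ κ) := by rw [hc, Fintype.card_sum]
  have h₀' : Q₀ * Q₀ᵀ = 1 := (mul_eq_one_comm_of_card_eq σ (ι ⊕ κ) ℝ hcard).2 h₀
  set E₀ : Matrix σ ι ℝ := Matrix.of fun p i => Q₀ p (Sum.inl i) with hE₀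
  set S₀ : Matrix σ κ ℝ := Matrix.of fun p c => Q₀ p (Sum.inr c) with hS₀
  have hSS₀ : S₀ᵀ * S₀ = 1 := by
    refine Matrix.ext fun c d => ?_
    have := congrFun (congrFun h₀ (Sum.inr c)) (Sum.inr d)
    simpa [mul_apply, one_apply, hS₀] using this
  obtain ⟨R, hRR, hRS⟩ := FrameAlg.exists_orth_map S₀ S (by rw [hSS₀, hS])
  set E : Matrix σ ι ℝ := R * E₀ with hE
  obtain ⟨T, hT, hTt, hTT⟩ := FrameAlg.exists_psd_sqrt (Eᵀ * E₀)
  obtain ⟨R', hR', hR'T⟩ := FrameAlg.exists_orth_map (Eᵀ * E₀) T (by rw [hTt, hTT])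
  set P : Matrix ι ι ℝ := R'ᵀ with hP
  have hPP : Pᵀ * P = 1 := by rw [hP, transpose_transpose]; exact mul_eq_one_comm.1 hR'
  have hPP' : P * Pᵀ = 1 := by rw [hP, transpose_transpose]; exact hR'
  set B : Matrix (ι ⊕ κ) (ι ⊕ κ) ℝ := fromBlocks P 0 0 1 with hB
  set Q : Matrix σ (ι ⊕ κ) ℝ := R * Q₀ * B with hQ
  have hBB : Bᵀ * B = 1 := by
    rw [hB, fromBlocks_transpose, fromBlocks_multiply]; simp [hPP, fromBlocks_one]
  have hQQ : Qᵀ * Q = 1 := by
    rw [hQ, transpose_mul, transpose_mul, Matrix.mul_assoc, Matrix.mul_assoc,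
      ← Matrix.mul_assoc Rᵀ, ← Matrix.mul_assoc Rᵀ, hRR, Matrix.one_mul, ← Matrix.mul_assoc Q₀ᵀ,
      h₀, Matrix.one_mul, hBB]
  have hQr : ∀ p c, Q p (Sum.inr c) = S p c := fun p c => by
    rw [hQ, mul_apply, Fintype.sum_sum_type, ← hRS]
    simp [hB, one_apply, mul_apply, hS₀]
  have hQl : ∀ p i, Q p (Sum.inl i) = (E * P) p i := fun p i => by
    rw [hQ, mul_apply, Fintype.sum_sum_type]
    simp [hB, hE, mul_apply, hE₀]
  refine ⟨Q, hQQ, (mul_eq_one_comm_of_card_eq σ (ι ⊕ κ) ℝ hcard).2 hQQ, hQr, fun hclose p j => ?_⟩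
  have hδ'0 : 0 ≤ δ' := by positivity
  have hδ'1 : δ' ≤ 1 := (min_le_left _ _).trans (min_le_left _ _)
  have hδ'δ : δ' ≤ δ := (min_le_left _ _).trans (min_le_right _ _)
  rcases j with i | c
  swap
  · rw [hQr]; exact (hclose p c).trans hδ'δ
  have hQ'' := (mul_eq_one_comm_of_card_eq σ (ι ⊕ κ) ℝ hcard).2 hQQ
  -- the decomposition of `E₀` along the new frame
  have habs : ∀ q j, |Q q j| ≤ 1 := fun q j => by
    refine abs_le_one_iff_mul_self_le_one.2 ?_
    have := congrFun (congrFun hQQ j) j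
    rw [mul_apply, one_apply_eq] at this
    exact le_of_le_of_eq (Finset.single_le_sum (f := fun q => Qᵀ j q * Q q j)
      (fun x _ => mul_self_nonneg _) (Finset.mem_univ q)) this
  have hsplit : E * Eᵀ + S * Sᵀ = 1 := by
    have h1 : R * Q₀ * (R * Q₀)ᵀ = 1 := by
      rw [transpose_mul, Matrix.mul_assoc, ← Matrix.mul_assoc Q₀, h₀', Matrix.one_mul]
      exact mul_eq_one_comm.1 hRR
    rw [← h1]
    refine Matrix.ext fun p q => ?_
    rw [Matrix.add_apply, mul_apply, mul_apply, mul_apply, Fintype.sum_sum_type, ← hRS]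
    simp [hE, mul_apply, hE₀, hS₀]
  have hPT : P * T = Eᵀ * E₀ := by
    rw [hP, ← hR'T, ← Matrix.mul_assoc, hR', Matrix.one_mul]
  have hdec : E * P * T + S * (Sᵀ * E₀) = E₀ := by
    rw [Matrix.mul_assoc E, hPT, ← Matrix.mul_assoc, ← Matrix.mul_assoc, ← Matrix.add_mul, hsplit,
      Matrix.one_mul]
  have hTone : T * T = 1 - (Sᵀ * E₀)ᵀ * (Sᵀ * E₀) := by
    have h00 : E₀ᵀ * E₀ = 1 := by
      refine Matrix.ext fun i j => ?_
      have := congrFun (congrFun h₀ (Sum.inl i)) (Sum.inl j)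
      simpa [mul_apply, one_apply, hE₀] using this
    have h1 : E₀ᵀ * (E * Eᵀ + S * Sᵀ) * E₀ = 1 := by rw [hsplit, Matrix.mul_one, h00]
    rw [hTT, eq_sub_iff_add_eq, ← h1]
    simp only [transpose_mul, transpose_transpose, Matrix.mul_add, Matrix.add_mul, Matrix.mul_assoc]
  have hsmall : ∀ c i, |(Sᵀ * E₀) c i| ≤ cσ * δ' := fun c i => by
    have h0 : ∑ q, S₀ q c * E₀ q i = 0 := by
      have := congrFun (congrFun h₀ (Sum.inr c)) (Sum.inl i)
      simpa [mul_apply, hS₀, hE₀] using this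
    have hE1 : ∀ q, |E₀ q i| ≤ 1 := fun q => by
      refine abs_le_one_iff_mul_self_le_one.2 ?_
      have := congrFun (congrFun h₀ (Sum.inl i)) (Sum.inl i)
      rw [mul_apply, one_apply_eq] at this
      exact le_of_le_of_eq (Finset.single_le_sum (f := fun q => Q₀ᵀ (Sum.inl i) q * Q₀ q (Sum.inl i))
        (fun x _ => mul_self_nonneg _) (Finset.mem_univ q)) this
    calc |(Sᵀ * E₀) c i| = |∑ q, (S q c - S₀ q c) * E₀ q i| := by
          simp [mul_apply, sub_mul, Finset.sum_sub_distrib, h0]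
      _ ≤ ∑ _q : σ, δ' := (Finset.abs_sum_le_sum_abs _ _).trans (Finset.sum_le_sum fun q _ => by
          rw [abs_mul]
          exact le_trans (mul_le_mul (hclose q c) (hE1 q) (abs_nonneg _) hδ'0) (mul_one _).le)
      _ = cσ * δ' := by simp [hcσ]
  set F := cκ * (cσ * δ') ^ 2 with hF
  have hTd : ∀ i i', |T i i' - if i = i' then 1 else 0| ≤ cι * F := by
    intro i i'
    refine abs_le_of_sq_le_sq ?_ (by positivity)
    calc (T i i' - if i = i' then 1 else 0) ^ 2
        ≤ ∑ a, ∑ a', (T a a' - if a = a' then 1 else 0) ^ 2 :=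
          le_trans (Finset.single_le_sum (f := fun a' => (T i a' - if i = a' then 1 else 0) ^ 2)
            (fun _ _ => sq_nonneg _) (Finset.mem_univ i'))
            (Finset.single_le_sum (f := fun a => ∑ a', (T a a' - if a = a' then 1 else 0) ^ 2)
              (fun _ _ => Finset.sum_nonneg fun _ _ => sq_nonneg _) (Finset.mem_univ i))
      _ ≤ ∑ a, ∑ a', ((T * T) a a' - if a = a' then 1 else 0) ^ 2 := FrameAlg.psd_close hT
      _ ≤ ∑ _a : ι, ∑ _a' : ι, F ^ 2 := Finset.sum_le_sum fun a _ => Finset.sum_le_sum fun a' _ => by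
          rw [hTone, Matrix.sub_apply, one_apply, sub_sub_cancel_left, neg_sq]
          refine sq_le_sq.2 ((le_of_eq rfl).trans ?_)
          rw [abs_of_nonneg (show 0 ≤ F by positivity), mul_apply]
          refine (Finset.abs_sum_le_sum_abs _ _).trans ?_
          calc ∑ c, |(Sᵀ * E₀)ᵀ a c * (Sᵀ * E₀) c a'| ≤ ∑ _c : κ, (cσ * δ') ^ 2 :=
                Finset.sum_le_sum fun c _ => by
                  rw [abs_mul, sq]
                  exact mul_le_mul (hsmall c a) (hsmall c a') (abs_nonneg _) (by positivity)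
            _ = F := by simp [hF, hcκ]
      _ = (cι * F) ^ 2 := by simp [hcι]; ring
  have e : Q p (Sum.inl i) - Q₀ p (Sum.inl i) =
      (E * P * ((1 : Matrix ι ι ℝ) - T)) p i - (S * (Sᵀ * E₀)) p i := by
    rw [hQl, show Q₀ p (Sum.inl i) = E₀ p i from rfl]
    conv_lhs => arg 2; rw [← hdec]
    rw [Matrix.mul_sub, Matrix.mul_one, Matrix.sub_apply, Matrix.add_apply]
    ring
  rw [e]
  have t1 : |(E * P * ((1 : Matrix ι ι ℝ) - T)) p i| ≤ cι * (cι * F) := by
    rw [mul_apply]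
    calc |∑ a, (E * P) p a * ((1 : Matrix ι ι ℝ) - T) a i| ≤ ∑ _a : ι, cι * F :=
          (Finset.abs_sum_le_sum_abs _ _).trans (Finset.sum_le_sum fun a _ => by
            rw [abs_mul, ← hQl, Matrix.sub_apply, one_apply, abs_sub_comm]
            exact le_trans (mul_le_mul (habs _ _) (hTd a i) (abs_nonneg _) zero_le_one)
              (one_mul _).le)
      _ = cι * (cι * F) := by simp [hcι]
  have t2 : |(S * (Sᵀ * E₀)) p i| ≤ cκ * (cσ * δ') := by
    rw [mul_apply]
    calc |∑ c, S p c * (Sᵀ * E₀) c i| ≤ ∑ _c : κ, cσ * δ' :=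
          (Finset.abs_sum_le_sum_abs _ _).trans (Finset.sum_le_sum fun c _ => by
            rw [abs_mul, ← hQr]
            exact le_trans (mul_le_mul (habs _ _) (hsmall c i) (abs_nonneg _) zero_le_one)
              (one_mul _).le)
      _ = cκ * (cσ * δ') := by simp [hcκ]
  have hFle : cι * (cι * F) ≤ cι ^ 3 * cκ * cσ ^ 2 * δ' := by
    rw [hF]
    have hι : (1 : ℝ) ≤ cι := by
      rw [hcι]; exact_mod_cast Fintype.card_pos_iff.2 ⟨i⟩
    calc cι * (cι * (cκ * (cσ * δ') ^ 2)) = cι ^ 2 * (cκ * cσ ^ 2) * (δ' * δ') := by ring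
      _ ≤ cι ^ 3 * (cκ * cσ ^ 2) * (δ' * 1) := by
          gcongr <;> first | exact hι | norm_num | positivity
      _ = _ := by ring
  refine (abs_sub _ _).trans ?_
  have : D * δ' ≤ δ := by
    refine le_trans (mul_le_mul_of_nonneg_left (min_le_right _ _) hD0) ?_
    rw [mul_div_assoc', div_le_iff₀ (by positivity)]
    nlinarith
  rw [hD] at this
  linarith

end Vale.Agent.P166.Parisi
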