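import Vale.Agent.P166.Parisi.Sys

/-!
The energy of new spins in a rotated frame, its ideal form and the cut-off.
-/

namespace Vale.Agent.P166.Parisi.Frame

open Finset Filter Topology
open Vale.Agent.P157 Vale.Agent.P157.Parisi

theorem sq_orth {σ τ : Type} [Fintype σ] [Fintype τ] [DecidableEq τ] {Q : Matrix σ τ ℝ}
    (hQ : Q.transpose * Q = 1) (x : τ → ℝ) : ∑ p, (∑ y, Q p y * x y) ^ 2 = ∑ y, x y ^ 2 := by
  have h : ∀ y z, ∑ p, Q p y * Q p z = if y = z then (1 : ℝ) else 0 := fun y z => by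
    have := congrFun (congrFun hQ y) z
    simpa [Matrix.mul_apply, Matrix.one_apply] using this
  calc ∑ p, (∑ y, Q p y * x y) ^ 2 = ∑ p, ∑ y, ∑ z, x y * x z * (Q p y * Q p z) :=
        sum_congr rfl fun p _ => by
          rw [pow_two, sum_mul_sum]
          exact sum_congr rfl fun y _ => sum_congr rfl fun z _ => by ring
    _ = ∑ y, ∑ z, x y * x z * ∑ p, Q p y * Q p z := by
        rw [sum_comm]
        refine sum_congr rfl fun y _ => ?_
        rw [sum_comm]
        simp only [mul_sum]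
    _ = ∑ y, x y ^ 2 := by simp [h, pow_two]

theorem abs_entry_le {σ τ : Type} [Fintype σ] [Fintype τ] [DecidableEq τ] {Q : Matrix σ τ ℝ}
    (hQ : Q.transpose * Q = 1) (p : σ) (y : τ) : |Q p y| ≤ 1 := by
  have h : ∑ p, Q p y ^ 2 = 1 := by
    have := congrFun (congrFun hQ y) y
    simpa [Matrix.mul_apply, pow_two] using this
  have := (single_le_sum (f := fun p => Q p y ^ 2) (fun _ _ => sq_nonneg _) (mem_univ p)).trans_eq h
  exact (sq_le_one_iff_abs_le_one _).1 this

variable {M : ℕ}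

/-- The energy of the new spins `τ` with special coordinates `w` in the frame `Q`. -/
noncomputable def quadE (d : Fin M → ℝ) (cst : ℝ)
    (Q : Matrix (Fin M × Fin M) (NewIdx M ⊕ Fin M) ℝ) (τ : Fin M → Bool) (w : NewIdx M → ℝ) : ℝ :=
  cst + (∑ p : Fin M × Fin M, d p.1 * (∑ x, Q p x * Sum.elim w (spin τ) x) ^ 2) / 2

theorem continuous_quadE (d : Fin M → ℝ) (cst : ℝ)
    (Q : Matrix (Fin M × Fin M) (NewIdx M ⊕ Fin M) ℝ) (τ : Fin M → Bool) :
    Continuous (quadE d cst Q τ) := by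
  unfold quadE
  refine continuous_const.add ((continuous_finsetSum _ fun p _ => continuous_const.mul
    ((continuous_finsetSum _ fun x _ => continuous_const.mul ?_).pow 2)).div_const _)
  rcases x with j | c
  · exact continuous_apply j
  · exact continuous_const

theorem spin_sq {n : ℕ} (τ : Fin n → Bool) (c : Fin n) : spin τ c ^ 2 = 1 := by
  unfold spin; split <;> norm_num

theorem quadE_bounds {d : Fin M → ℝ} {cst D : ℝ} (hd : ∀ r, d r ≤ 0) (hD : ∀ r, |d r| ≤ D)
    {Q : Matrix (Fin M × Fin M) (NewIdx M ⊕ Fin M) ℝ} (hQ : Q.transpose * Q = 1)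
    (τ : Fin M → Bool) (w : NewIdx M → ℝ) :
    quadE d cst Q τ w ≤ cst ∧ cst - D * (∑ j, w j ^ 2 + M) / 2 ≤ quadE d cst Q τ w := by
  have h := sq_orth hQ (Sum.elim w (spin τ))
  simp only [Fintype.sum_sum_type, Sum.elim_inl, Sum.elim_inr, spin_sq, sum_const, card_univ,
    Fintype.card_fin, nsmul_eq_mul, mul_one] at h
  constructor
  · have : ∑ p : Fin M × Fin M, d p.1 * (∑ x, Q p x * Sum.elim w (spin τ) x) ^ 2 ≤ 0 :=
      sum_nonpos fun p _ => mul_nonpos_of_nonpos_of_nonneg (hd _) (sq_nonneg _)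
    unfold quadE; linarith
  · have : -(D * (∑ j, w j ^ 2 + M)) ≤
        ∑ p : Fin M × Fin M, d p.1 * (∑ x, Q p x * Sum.elim w (spin τ) x) ^ 2 := by
      rw [← h, mul_sum, ← sum_neg_distrib]
      refine sum_le_sum fun p _ => ?_
      simp only [Fintype.sum_sum_type, Sum.elim_inl, Sum.elim_inr]
      have := mul_le_mul_of_nonneg_right ((abs_le.1 (hD p.1)).1)
        (sq_nonneg (∑ x, Q p (Sum.inl x) * w x + ∑ x, Q p (Sum.inr x) * spin τ x))
      linarith
    unfold quadE; linarith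

theorem quadE_close {d d₀ : Fin M → ℝ} {cst cst₀ D θ δ r : ℝ} (hD : ∀ p, |d₀ p| ≤ D)
    (hθ : ∀ p, |d p - d₀ p| ≤ θ) {Q Q₀ : Matrix (Fin M × Fin M) (NewIdx M ⊕ Fin M) ℝ}
    (hQ : Q.transpose * Q = 1) (hQ₀ : Q₀.transpose * Q₀ = 1)
    (hδ : ∀ p x, |Q p x - Q₀ p x| ≤ δ) (τ : Fin M → Bool) {w : NewIdx M → ℝ} (hr : 0 ≤ r)
    (hw : ∑ j, w j ^ 2 ≤ r ^ 2) :
    |quadE d cst Q τ w - quadE d₀ cst₀ Q₀ τ w| ≤
      |cst - cst₀| + ((M : ℝ) * M) * ((Fintype.card (NewIdx M ⊕ Fin M) : ℝ) * (r + 1)) ^ 2 *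
        (θ / 2 + D * δ) := by
  set L := (Fintype.card (NewIdx M ⊕ Fin M) : ℝ) * (r + 1) with hL
  set x := Sum.elim w (spin τ)
  have hx : ∀ y, |x y| ≤ r + 1 := by
    rintro (j | c)
    · have h1 : |w j| ≤ r := by
        rw [← abs_of_nonneg hr, ← sq_le_sq]
        exact (single_le_sum (f := fun j => w j ^ 2) (fun _ _ => sq_nonneg _) (mem_univ j)).trans hw
      exact h1.trans (by linarith)
    · have h2 := spin_sq τ c
      rw [sq_eq_one_iff] at h2
      show |spin τ c| ≤ r + 1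
      rcases h2 with h2 | h2 <;> simp [h2, hr]
  have hsum : ∀ {c : ℝ}, ∀ f : NewIdx M ⊕ Fin M → ℝ, (∀ y, |f y| ≤ c) →
      |∑ y, f y * x y| ≤ c * L := fun {c} f hf => by
    refine (abs_sum_le_sum_abs _ _).trans ?_
    refine (sum_le_card_nsmul _ _ (c * (r + 1)) fun y _ => ?_).trans_eq ?_
    · rw [abs_mul]
      exact mul_le_mul (hf y) (hx y) (abs_nonneg _) ((abs_nonneg _).trans (hf y))
    · simp [hL]; ring
  have key : ∀ p : Fin M × Fin M, |d p.1 * (∑ y, Q p y * x y) ^ 2 -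
      d₀ p.1 * (∑ y, Q₀ p y * x y) ^ 2| ≤ L ^ 2 * (θ + 2 * D * δ) := by
    intro p
    set u := ∑ y, Q p y * x y
    set u₀ := ∑ y, Q₀ p y * x y
    have h1 : |u| ≤ 1 * L := hsum _ (abs_entry_le hQ p)
    have h2 : |u₀| ≤ 1 * L := hsum _ (abs_entry_le hQ₀ p)
    have h3 : |u - u₀| ≤ δ * L := by
      have : u - u₀ = ∑ y, (Q p y - Q₀ p y) * x y := by
        simp only [u, u₀, ← sum_sub_distrib]
        exact sum_congr rfl fun y _ => by ring
      rw [this]
      exact hsum _ (hδ p)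
    rw [one_mul] at h1 h2
    have h0 : 0 ≤ L := (abs_nonneg _).trans h1
    calc |d p.1 * u ^ 2 - d₀ p.1 * u₀ ^ 2|
        = |(d p.1 - d₀ p.1) * (u * u) + d₀ p.1 * ((u - u₀) * (u + u₀))| := by ring_nf
      _ ≤ |(d p.1 - d₀ p.1) * (u * u)| + |d₀ p.1 * ((u - u₀) * (u + u₀))| := abs_add_le _ _
      _ ≤ θ * (L * L) + D * (δ * L * (L + L)) := by
          simp only [abs_mul]
          refine add_le_add (mul_le_mul (hθ _) (mul_le_mul h1 h1 (abs_nonneg _) h0) (by positivity)
            ((abs_nonneg _).trans (hθ p.1))) (mul_le_mul (hD _) (mul_le_mul h3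
              ((abs_add_le _ _).trans (add_le_add h1 h2)) (abs_nonneg _)
              ((abs_nonneg _).trans h3)) (by positivity) ((abs_nonneg _).trans (hD p.1)))
      _ = _ := by ring
  have hS : |∑ p : Fin M × Fin M, d p.1 * (∑ y, Q p y * x y) ^ 2 -
      ∑ p : Fin M × Fin M, d₀ p.1 * (∑ y, Q₀ p y * x y) ^ 2| ≤
        ((M : ℝ) * M) * (L ^ 2 * (θ + 2 * D * δ)) := by
    rw [← sum_sub_distrib]
    refine (abs_sum_le_sum_abs _ _).trans ((sum_le_card_nsmul _ _ _ fun p _ => key p).trans_eq ?_)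
    simp
  unfold quadE
  set A := ∑ p : Fin M × Fin M, d p.1 * (∑ y, Q p y * x y) ^ 2
  set B := ∑ p : Fin M × Fin M, d₀ p.1 * (∑ y, Q₀ p y * x y) ^ 2
  calc |cst + A / 2 - (cst₀ + B / 2)| = |(cst - cst₀) + (A - B) / 2| := by ring_nf
    _ ≤ |cst - cst₀| + |A - B| / 2 := by
        refine (abs_add_le _ _).trans (le_of_eq ?_)
        rw [abs_div, abs_two]
    _ ≤ _ := by
        have e : (M : ℝ) * M * L ^ 2 * (θ / 2 + D * δ) =
          (M : ℝ) * M * (L ^ 2 * (θ + 2 * D * δ)) / 2 := by ring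
        rw [e]
        linarith

/-- The ideal frame. -/
noncomputable def idealQ [NeZero M] {a : Fin M → ℝ} (cp : Compress a) :
    Matrix (Fin M × Fin M) (NewIdx M ⊕ Fin M) ℝ :=
  Matrix.of fun p x => Sum.elim (fun j : NewIdx M => if p.2 = j.1 then cp.H p.1 j.2 else 0)
    (fun c => if p.2 = c then 1 / Real.sqrt M else 0) x

theorem idealQ_orth [NeZero M] {a : Fin M → ℝ} (cp : Compress a) :
    (idealQ cp).transpose * idealQ cp = 1 := by
  have hs : Real.sqrt M * Real.sqrt M = M := Real.mul_self_sqrt (Nat.cast_nonneg M)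
  have hM : (M : ℝ) ≠ 0 := Nat.cast_ne_zero.2 (NeZero.ne M)
  ext x y
  rw [Matrix.mul_apply, Matrix.one_apply, Fintype.sum_prod_type]
  rcases x with ⟨t, i⟩ | c <;> rcases y with ⟨t', i'⟩ | c' <;>
    simp only [Matrix.transpose_apply, idealQ, Matrix.of_apply, Sum.elim_inl, Sum.elim_inr,
      ite_mul, mul_ite, zero_mul, mul_zero]
  · by_cases h : t = t'
    · subst h
      simp [cp.orth, Prod.ext_iff]
    · simp [h, Ne.symm h, Prod.ext_iff]
  · by_cases h : t = c'
    · subst h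
      simp [← sum_mul, cp.perp]
    · simp [Ne.symm h]
  · by_cases h : c = t'
    · subst h
      simp [← mul_sum, cp.perp]
    · simp [Ne.symm h]
  · by_cases h : c = c'
    · subst h
      simp only [sum_ite_eq', mem_univ, if_true, sum_const, card_univ, Fintype.card_fin,
        nsmul_eq_mul]
      field_simp
      rw [Real.sq_sqrt (Nat.cast_nonneg M)]
    · simp [h, Ne.symm h]

theorem quadE_ideal [NeZero M] {a : Fin M → ℝ} (cp : Compress a) (τ : Fin M → Bool)
    (w : NewIdx M → ℝ) :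
    quadE (fun r => a r - a (topA M)) (a (topA M) / 2 * M) (idealQ cp) τ w =
      M * cp.c0 + ∑ j : NewIdx M, quadPsi (cp.e j.2) (cp.b j.2) (spin τ j.1 * w j) := by
  have h : ∀ r k, ∑ x, idealQ cp (r, k) x * Sum.elim w (spin τ) x =
      spin τ k / Real.sqrt M + ∑ i, cp.H r i * w (k, i) := by
    intro r k
    rw [Fintype.sum_sum_type, Fintype.sum_prod_type, add_comm]
    simp [idealQ, ite_mul, mul_comm, div_eq_mul_inv]
  have hk : ∀ k : Fin M,
      (∑ r, (a r - a (topA M)) * (spin τ k / Real.sqrt M + ∑ i, cp.H r i * w (k, i)) ^ 2) / 2 +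
        a (topA M) / 2 = cp.c0 + ∑ i, quadPsi (cp.e i) (cp.b i) (spin τ k * w (k, i)) :=
    fun k => cp.ident (spin τ k) (spin_sq τ k) fun i => w (k, i)
  have hs := congrArg (fun f : Fin M → ℝ => ∑ k, f k) (funext hk)
  simp only [sum_add_distrib, sum_const, card_univ, Fintype.card_fin, nsmul_eq_mul, ← sum_div] at hs
  rw [quadE, Fintype.sum_prod_type_right, Fintype.sum_prod_type (f := fun j : NewIdx M => _)]
  simp only [h]
  linarith

theorem abs_tanh_le_abs (x : ℝ) : |Real.tanh x| ≤ |x| := by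
  have h : ∀ x, 0 ≤ x → |Real.tanh x| ≤ x := fun x hx => by
    rw [Real.tanh_eq_sinh_div_cosh, abs_of_nonneg (div_nonneg (Real.sinh_nonneg_iff.2 hx)
      (Real.cosh_pos x).le), div_le_iff₀ (Real.cosh_pos x)]
    have h1 := monotoneOn_of_hasDerivWithinAt_nonneg (f := fun y => y * Real.cosh y - Real.sinh y)
      (f' := fun y => y * Real.sinh y) (convex_Ici (0 : ℝ)) (by fun_prop)
      (fun y _ => ((((hasDerivAt_id y).mul (Real.hasDerivAt_cosh y)).sub
        (Real.hasDerivAt_sinh y)).congr_deriv (by simp)).hasDerivWithinAt)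
      (fun y hy => by
        rw [interior_Ici] at hy
        exact mul_nonneg (le_of_lt hy) (Real.sinh_nonneg_iff.2 (le_of_lt hy)))
      (Set.self_mem_Ici) (Set.mem_Ici.2 hx) hx
    simp at h1
    linarith
  rcases le_total 0 x with hx | hx
  · rw [abs_of_nonneg hx]; exact h x hx
  · have := h (-x) (by linarith)
    rwa [Real.tanh_neg, abs_neg, ← abs_of_nonpos hx] at this

theorem abs_cut_le {R : ℝ} (hR : 0 < R) (x : ℝ) : |R * Real.tanh (x / R)| ≤ |x| := by
  rw [abs_mul, abs_of_pos hR]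
  have := mul_le_mul_of_nonneg_left (abs_tanh_le_abs (x / R)) hR.le
  rwa [abs_div, abs_of_pos hR, mul_div_cancel₀ _ hR.ne'] at this

theorem quadPsi_bounds {e : ℝ} (he : 0 < e) (b x : ℝ) :
    quadPsi e b x ≤ b ^ 2 / (2 * e) ∧ -(b ^ 2 / 2 + (e + 1) / 2 * x ^ 2) ≤ quadPsi e b x := by
  unfold quadPsi
  constructor
  · rw [le_div_iff₀ (by positivity)]
    nlinarith [sq_nonneg (e * x - b)]
  · nlinarith [sq_nonneg (x + b)]

theorem quadCut_bounds {e R : ℝ} (he : 0 < e) (hR : 0 < R) (b x : ℝ) :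
    quadCut R e b x ≤ b ^ 2 / (2 * e) ∧ -(b ^ 2 / 2 + (e + 1) / 2 * x ^ 2) ≤ quadCut R e b x := by
  refine ⟨(quadPsi_bounds he b _).1, le_trans ?_ (quadPsi_bounds he b _).2⟩
  have h : (R * Real.tanh (x / R)) ^ 2 ≤ x ^ 2 := sq_le_sq.2 (abs_cut_le hR x)
  have := mul_le_mul_of_nonneg_left h (by positivity : 0 ≤ (e + 1) / 2)
  linarith

theorem continuous_quadCut (R e b : ℝ) : Continuous (quadCut R e b) := by
  have : Continuous Real.tanh := by
    rw [show Real.tanh = fun x => Real.sinh x / Real.cosh x from funext Real.tanh_eq_sinh_div_cosh]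
    exact Real.continuous_sinh.div Real.continuous_cosh fun x => (Real.cosh_pos x).ne'
  unfold quadCut quadPsi
  fun_prop

/-- The cut-off disappears, uniformly on bounded sets. -/
theorem quadCut_close (e b : ℝ) {r ε : ℝ} (hε : 0 < ε) :
    ∃ R₀ : ℝ, ∀ R, R₀ ≤ R → ∀ x, |x| ≤ r → |quadCut R e b x - quadPsi e b x| ≤ ε := by
  have hd : HasDerivAt Real.tanh 1 0 := by
    rw [show Real.tanh = fun x => Real.sinh x / Real.cosh x from funext Real.tanh_eq_sinh_div_cosh]
    exact ((Real.hasDerivAt_sinh 0).div (Real.hasDerivAt_cosh 0) (by simp)).congr_deriv (by simp)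
  set r' := max r 1 with hr'
  have hr1 : 1 ≤ r' := le_max_right _ _
  set η := ε / ((|b| + |e| * r' + 1) * r') with hη
  have hη0 : 0 < η := by positivity
  have hev := (hasDerivAt_iff_isLittleO.1 hd).def hη0
  obtain ⟨ρ, hρ, hball⟩ := Metric.eventually_nhds_iff.1 hev
  refine ⟨r' / ρ + 1, fun R hR x hx => ?_⟩
  have hR0 : 0 < R := lt_of_lt_of_le (by positivity) hR
  have hx' : |x| ≤ r' := hx.trans (le_max_left _ _)
  have hu : |x / R| < ρ := by
    rw [abs_div, abs_of_pos hR0, div_lt_iff₀ hR0]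
    have := mul_le_mul_of_nonneg_left hR hρ.le
    rw [mul_add, mul_div_cancel₀ _ hρ.ne'] at this
    linarith
  have h1 := hball (y := x / R) (by rwa [Real.dist_0_eq_abs])
  simp only [Real.tanh_zero, sub_zero, smul_eq_mul, mul_one, Real.norm_eq_abs] at h1
  set y := R * Real.tanh (x / R) with hy
  have h2 : |y - x| ≤ η * r' := by
    have := mul_le_mul_of_nonneg_left h1 hR0.le
    rw [abs_div, abs_of_pos hR0, show R * (η * (|x| / R)) = η * |x| by field_simp,
      ← abs_of_pos hR0, ← abs_mul, abs_of_pos hR0, mul_sub, mul_div_cancel₀ _ hR0.ne'] at this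
    exact this.trans (mul_le_mul_of_nonneg_left hx' hη0.le)
  have h3 : |y + x| ≤ 2 * r' := (abs_add_le _ _).trans (by
    have := abs_cut_le hR0 x
    linarith)
  show |quadPsi e b y - quadPsi e b x| ≤ ε
  calc |quadPsi e b y - quadPsi e b x| = |y - x| * |b - e * (y + x) / 2| := by
        rw [← abs_mul]; unfold quadPsi; ring_nf
    _ ≤ η * r' * (|b| + |e| * r' + 1) := by
        refine mul_le_mul h2 ((abs_sub _ _).trans ?_) (abs_nonneg _) (by positivity)
        rw [abs_div, abs_mul, abs_two]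
        have := mul_le_mul_of_nonneg_left h3 (abs_nonneg e)
        linarith
    _ = ε := by rw [hη]; field_simp

theorem PsiOk.mono {κ κ' B B' : ℝ} {ψ ψ1 ψ2 : ℝ → ℝ} (h : PsiOk κ B ψ ψ1 ψ2) (hκ : κ ≤ κ')
    (hB : B ≤ B') : PsiOk κ' B' ψ ψ1 ψ2 where
  deriv1 := h.deriv1
  deriv2 := h.deriv2
  cont2 := h.cont2
  bound0 x := (h.bound0 x).trans hB
  bound1 x := (h.bound1 x).trans hB
  bound2 x := (h.bound2 x).trans hκ
  upper x := (h.upper x).trans hκ
  lower x := le_trans (neg_le_neg (mul_le_mul_of_nonneg_right hκ (by positivity))) (h.lower x)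
  sq_le x := (h.sq_le x).trans (mul_le_mul_of_nonneg_right hκ (by positivity))

end Vale.Agent.P166.Parisi.Frame
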