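import Vale.Agent.P166.Parisi.FrameField
import Vale.Agent.P166.Parisi.FrameEnergy
import Vale.Agent.P166.Parisi.Blocks

/-!
Constants and elementary bounds for the frame step.
-/

namespace Vale.Agent.P166.Parisi.Frame

open MeasureTheory ProbabilityTheory Finset Filter Topology
open Vale.Agent.P157 Vale.Agent.P157.Parisi

variable {M : ℕ}

/-- The error of the truncation. -/
noncomputable def truncErr (m C Jc r Lc : ℝ) : ℝ :=
  Real.exp (C * (2 + Lc)) / m * ((Lc + 1) / r ^ 2) ^ m + 6 * C / Lc * Jc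

theorem exists_trunc (C Jc : ℝ) {m ε : ℝ} (hm : 0 < m) (hε : 0 < ε) :
    ∃ r Lc : ℝ, 0 < r ∧ 1 ≤ Lc ∧ truncErr m C Jc r Lc ≤ ε := by
  set Lc := max 1 (12 * C * Jc / ε) with hLc
  have hL1 : 1 ≤ Lc := le_max_left _ _
  have h1 : 6 * C / Lc * Jc ≤ ε / 2 := by
    rw [div_mul_eq_mul_div, div_le_iff₀ (by positivity)]
    have h := le_max_right 1 (12 * C * Jc / ε)
    rw [← hLc, div_le_iff₀ hε] at h
    linarith
  set x := ε / 2 * m / Real.exp (C * (2 + Lc)) with hx
  have hx0 : 0 < x := by positivity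
  set r := Real.sqrt ((Lc + 1) / x ^ (1 / m)) with hr
  have hxp : 0 < x ^ (1 / m) := Real.rpow_pos_of_pos hx0 _
  refine ⟨r, Lc, Real.sqrt_pos.2 (by positivity), hL1, ?_⟩
  have e : ((Lc + 1) / r ^ 2) ^ m = x := by
    rw [hr, Real.sq_sqrt (by positivity), div_div_cancel₀ (by positivity), ← Real.rpow_mul hx0.le,
      one_div_mul_cancel hm.ne', Real.rpow_one]
  rw [truncErr, e, hx]
  field_simp at h1 ⊢
  linarith

/-- The crude bound. -/
noncomputable def crudeErr (m C Jc : ℝ) : ℝ := 3 * C + truncErr m C Jc 1 1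

theorem crudeErr_nonneg {m C Jc : ℝ} (hm : 0 < m) (hC : 0 ≤ C) (hJ : 0 ≤ Jc) :
    0 ≤ crudeErr m C Jc := by
  unfold crudeErr truncErr; positivity

section

variable [NeZero M] (P : Par)

/-- The eigenvalue shift of atom `r` against the top one, moved by `κ`. -/
noncomputable def shiftD (a : Fin M → ℝ) (v : GBox M P.K → ℝ) (κ : ℝ) (r : Fin M) : ℝ :=
  if r = topA M then 0 else P.lamV a v r + κ - P.lamV a v (topA M)

variable {P}

omit [NeZero M] in
theorem abs_vTop {v : GBox M P.K → ℝ} (hv : InBox v) (k : GBox M P.K) : |v k| ≤ 2 := by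
  have := hv k
  rw [Set.mem_Icc] at this
  rw [abs_le]; constructor <;> linarith

omit [NeZero M] in
theorem abs_etaV_le (hP : P.Ok) {v : GBox M P.K → ℝ} (hv : InBox v) (l : ℕ) (r : Fin M) :
    |P.etaV v l r| ≤ 3 * P.eta := by
  have h0 : 0 ≤ 3 * P.eta := by linarith [hP.eta_pos]
  unfold Par.etaV
  split_ifs with h h'
  · simpa using h0
  · rw [abs_mul, abs_of_pos hP.eta_pos, mul_comm]
    refine mul_le_mul_of_nonneg_right ?_ hP.eta_pos.le
    have h2 := abs_vTop hv (Sum.inr (⟨l, Nat.lt_succ_of_le h⟩, r))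
    refine (abs_add_le _ _).trans ?_
    rw [abs_one]; linarith
  · simpa using h0

omit [NeZero M] in
theorem etaV_low (hP : P.Ok) (v : GBox M P.K → ℝ) {l : ℕ} (h1 : 1 ≤ l) (h2 : l ≤ P.L0)
    (r : Fin M) : P.etaV v l r = 0 := by
  have := hP.L0_le
  rw [Par.etaV, dif_pos (show l ≤ P.K + 1 by omega), if_pos ⟨h1, h2⟩]

omit [NeZero M] in
theorem abs_lamV_le (hP : P.Ok) {a : Fin M → ℝ} {v : GBox M P.K → ℝ} (hv : InBox v) (r : Fin M) :
    |P.lamV a v r| ≤ (∑ r, |a r|) + 2 := by
  refine (abs_add_le _ _).trans (add_le_add (single_le_sum (f := fun r => |a r|)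
    (fun _ _ => abs_nonneg _) (mem_univ r)) ?_)
  rw [abs_mul, abs_of_pos hP.du_pos]
  exact (mul_le_mul hP.du_le (abs_vTop hv _) (abs_nonneg _) zero_le_one).trans_eq (one_mul _)

theorem shiftD_bounds (hP : P.Ok) {a : Fin M → ℝ} {g : ℝ}
    (hg : ∀ r, r ≠ topA M → a r + g ≤ a (topA M)) {v : GBox M P.K → ℝ} (hv : InBox v) {κ : ℝ}
    (h1 : 4 * P.du + |κ| ≤ g) (h2 : |κ| ≤ 1) (r : Fin M) :
    shiftD P a v κ r ≤ 0 ∧ |shiftD P a v κ r| ≤ 2 * (∑ r, |a r|) + 5 ∧
      |shiftD P a v κ r - (a r - a (topA M))| ≤ 4 * P.du + |κ| := by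
  have hA : 0 ≤ ∑ r, |a r| := sum_nonneg fun _ _ => abs_nonneg _
  by_cases hr : r = topA M
  · subst hr
    simp only [shiftD, if_pos, sub_self, abs_zero, le_refl, true_and]
    exact ⟨by linarith, add_nonneg (by linarith [hP.du_pos]) (abs_nonneg _)⟩
  · have e : shiftD P a v κ r - (a r - a (topA M)) =
        P.du * v (Sum.inl r) - P.du * v (Sum.inl (topA M)) + κ := by
      simp only [shiftD, if_neg hr, Par.lamV]; ring
    have h3 : |shiftD P a v κ r - (a r - a (topA M))| ≤ 4 * P.du + |κ| := by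
      rw [e]
      refine (abs_add_le _ _).trans (add_le_add ?_ le_rfl)
      refine (abs_sub _ _).trans ?_
      simp only [abs_mul, abs_of_pos hP.du_pos]
      have := mul_le_mul_of_nonneg_left (abs_vTop hv (Sum.inl r)) hP.du_pos.le
      have := mul_le_mul_of_nonneg_left (abs_vTop hv (Sum.inl (topA M))) hP.du_pos.le
      linarith
    refine ⟨?_, ?_, h3⟩
    · have := (abs_le.1 h3).2
      linarith [hg r hr]
    · simp only [shiftD, if_neg hr]
      refine (abs_sub _ _).trans ?_
      have := abs_lamV_le (a := a) hP hv r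
      have := abs_lamV_le (a := a) hP hv (topA M)
      have := abs_add_le (P.lamV a v r) κ
      linarith

theorem exists_gap {a : Fin M → ℝ} (ha : StrictMono a) :
    ∃ g > 0, ∀ r, r ≠ topA M → a r + g ≤ a (topA M) := by
  have hlt : ∀ r, r ≠ topA M → a r < a (topA M) := fun r hr => ha (lt_of_le_of_ne
    (Fin.le_iff_val_le_val.2 (Nat.le_sub_one_of_lt r.isLt)) hr)
  rcases (univ.filter fun r => r ≠ topA M).eq_empty_or_nonempty with h | h
  · refine ⟨1, one_pos, fun r hr => absurd (mem_filter.2 ⟨mem_univ r, hr⟩) (by rw [h]; simp)⟩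
  · obtain ⟨r₀, hr₀, hmin⟩ := exists_min_image _ (fun r => a (topA M) - a r) h
    exact ⟨a (topA M) - a r₀, sub_pos.2 (hlt _ (mem_filter.1 hr₀).2), fun r hr => by
      linarith [hmin r (mem_filter.2 ⟨mem_univ r, hr⟩)]⟩

/-- Sizes of the atoms of the base system. -/
theorem card_top {N : ℕ} {b bB : Fin N → Fin M}
    (h : ∀ r, r ≠ topA M → (fiber bB r).card + (M - 1) = (fiber b r).card) :
    (fiber bB (topA M)).card = (fiber b (topA M)).card + (M - 1) * (M - 1) := by
  have h1 := sum_card_fiber b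
  have h2 := sum_card_fiber bB
  rw [← add_sum_erase _ _ (mem_univ (topA M))] at h1 h2
  have h3 : ∑ r ∈ univ.erase (topA M), (fiber b r).card =
      ∑ r ∈ univ.erase (topA M), (fiber bB r).card + (M - 1) * (M - 1) := by
    rw [show (M - 1) * (M - 1) = ∑ r ∈ (univ.erase (topA M) : Finset (Fin M)), (M - 1) by simp,
      ← sum_add_distrib]
    exact sum_congr rfl fun r hr => (h r (ne_of_mem_erase hr)).symm
  omega

theorem bal_half {C : ℝ} {N : ℕ} {b : Fin N → Fin M} (hb : Bal C b) (hN : 2 * M * |C| ≤ N)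
    (r : Fin M) : (N : ℝ) ≤ 2 * M * (fiber b r).card := by
  have hM : (0 : ℝ) < M := Nat.cast_pos.2 (Nat.pos_of_ne_zero (NeZero.ne M))
  have h := (abs_le.1 (hb r)).1
  have h2 := le_abs_self C
  have h3 : (N : ℝ) / M * (2 * M) = 2 * N := by field_simp
  nlinarith

end

/-- Changing the atom of some indices of the top atom. -/
theorem fiber_extend_card {n : ℕ} {J : Type} [Fintype J] (j : J ↪ Fin n) (f : J → Fin M)
    (b₀ : Fin n → Fin M) {top r : Fin M} (hj : ∀ x, b₀ (j x) = top) (hr : r ≠ top) :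
    (fiber (Function.extend j f b₀) r).card =
      (fiber b₀ r).card + (univ.filter fun x => f x = r).card := by
  classical
  have e : fiber (Function.extend j f b₀) r =
      fiber b₀ r ∪ (univ.filter fun x => f x = r).map j := by
    ext p
    simp only [fiber, mem_filter, mem_univ, true_and, mem_union, Finset.mem_map]
    by_cases hp : ∃ x, j x = p
    · obtain ⟨x, rfl⟩ := hp
      rw [j.injective.extend_apply, hj]
      simp [Ne.symm hr]
    · rw [Function.extend_apply' _ _ _ hp]
      push Not at hp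
      simp [hp]
  rw [e, card_union_of_disjoint, card_map]
  rw [disjoint_left]
  intro p hp hp'
  simp only [Finset.mem_map] at hp'
  obtain ⟨x, -, rfl⟩ := hp'
  simp only [fiber, mem_filter, mem_univ, true_and, hj] at hp
  exact hr hp.symm

theorem card_all {n : ℕ} {b b' : Fin n → Fin M} {top : Fin M}
    (h : ∀ r, r ≠ top → (fiber b r).card = (fiber b' r).card) (r : Fin M) :
    (fiber b r).card = (fiber b' r).card := by
  by_cases hr : r = top
  · subst hr
    have h1 := sum_card_fiber b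
    have h2 := sum_card_fiber b'
    rw [← add_sum_erase _ _ (mem_univ r)] at h1 h2
    have h3 : ∑ x ∈ univ.erase r, (fiber b x).card = ∑ x ∈ univ.erase r, (fiber b' x).card :=
      sum_congr rfl fun x hx => h x (ne_of_mem_erase hx)
    omega
  · exact h r hr

theorem continuous_glass_rot {n : ℕ} (K : ℕ) (lam : Fin n → ℝ) (S V : ℕ → Fin n → ℝ) :
    Continuous fun U : ON n => glassFree K lam S V U := by
  have h : Continuous fun U : ON n => (lam, S, V, U) := by fun_prop
  have := (continuous_glassFree (N := n) K).comp h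
  simpa only [Function.comp_def] using this

/-- An embedding into the top atom. -/
theorem exists_emb {N : ℕ} (b : Fin N → Fin M) (r : Fin M) (J : Type) [Fintype J]
    (h : Fintype.card J ≤ (fiber b r).card) :
    ∃ j : J ↪ Fin N, ∀ x, b (j x) = r := by
  obtain ⟨f⟩ := Function.Embedding.nonempty_of_card_le (α := J) (β := {p // p ∈ fiber b r})
    (by simpa using h)
  exact ⟨f.trans (Function.Embedding.subtype _), fun x => (mem_filter.1 (f x).2).2⟩

end Vale.Agent.P166.Parisi.Frame
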