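import Vale.Agent.P166.Parisi.FramePush

/-!
The cost of the fields on a set of rotated spins, and of a small change of the fields of the extra
spins.
-/

namespace Vale.Agent.P166.Parisi.Frame

open MeasureTheory ProbabilityTheory Finset
open Vale.Agent.P157 Vale.Agent.P157.Parisi

variable {N m : ℕ}

/-- `V` with the coordinates in `T` set to zero. -/
def offT (T : Finset (Fin N)) (V : ℕ → Fin N → ℝ) (l : ℕ) (p : Fin N) : ℝ :=
  if p ∈ T then 0 else V l p

/-- The affine path switching on the fields in `T` while removing a shift of the eigenvalues. -/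
noncomputable def fieldPath (K : ℕ) (lam : Fin N → ℝ) (S V : ℕ → Fin N → ℝ) (T : Finset (Fin N))
    (c : ℝ) (U : ON N) (t : ℝ) : ℝ :=
  glassFree K (fun p => lam p + if p ∈ T then 2 * c * (1 - t) else 0) S
    (fun l p => if p ∈ T then t * V l p else V l p) U

theorem hasDerivAt_fieldPath (K : ℕ) (lam : Fin N → ℝ) (S V : ℕ → Fin N → ℝ) (T : Finset (Fin N))
    (c : ℝ) (U : ON N) (t : ℝ) :
    ∃ A : ℕ → Fin N → ℝ, ∃ H : Fin N → ℝ,
      (∀ l, l ≤ K + 1 → ∀ p, 0 ≤ A l p ∧ A l p ≤ H p) ∧
      HasDerivAt (fieldPath K lam S V T c U)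
        (∑ p ∈ T, (-c * H p + t * ∑ l ∈ range (K + 2), V l p ^ 2 * A l p)) t := by
  set lam₀ : Fin N → ℝ := fun p => lam p + if p ∈ T then 2 * c * (1 - t) else 0
  set dlam : Fin N → ℝ := fun p => if p ∈ T then -(2 * c) else 0
  set V₀ : ℕ → Fin N → ℝ := fun l p => if p ∈ T then t * V l p else V l p
  set dV : ℕ → Fin N → ℝ := fun l p => if p ∈ T then V l p else 0
  have h := hasDerivAt_glassFree K lam₀ dlam S (fun _ _ => 0) V₀ dV U
  refine ⟨fun l p => ampTail (glassNest K S V₀) (glassLeaf U) (quadLaw lam₀ U) l (Sum.inr p),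
    fun p => (glassNest K S V₀).heatTop (glassLeaf U) (quadLaw lam₀ U) (Sum.inr p),
    fun l hl p => ampTail_mem K lam₀ S V₀ U hl _, ?_⟩
  have e : (fun s : ℝ => glassFree K (fun p => lam₀ p + s * dlam p) (fun l p => S l p + s * 0)
      (fun l p => V₀ l p + s * dV l p) U) = fun s => fieldPath K lam S V T c U (t + s) := by
    funext s
    simp only [fieldPath, mul_zero, add_zero]
    congr 1
    · funext p
      simp only [lam₀, dlam]
      split_ifs <;> ring
    · funext l p
      simp only [V₀, dV]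
      split_ifs <;> ring
  rw [e] at h
  have h2 := HasDerivAt.comp_sub_const (f := fun s => fieldPath K lam S V T c U (t + s)) t t
    (by rw [sub_self]; exact h)
  simp only [add_sub_cancel] at h2
  refine h2.congr_deriv ?_
  simp only [dlam, dV, V₀, zero_mul, zero_add, mul_sum, sum_add_distrib]
  rw [sum_comm (s := T)]
  congr 1
  · rw [← sum_filter_add_sum_filter_not univ (· ∈ T)]
    rw [sum_eq_zero (s := univ.filter fun p => ¬ p ∈ T) fun p hp => by
      simp only [mem_filter, mem_univ, true_and] at hp; simp [hp]]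
    rw [add_zero, show univ.filter (· ∈ T) = T by ext p; simp]
    exact sum_congr rfl fun p hp => by simp [hp]; ring
  · refine sum_congr rfl fun l _ => ?_
    rw [← sum_filter_add_sum_filter_not univ (· ∈ T)]
    rw [sum_eq_zero (s := univ.filter fun p => ¬ p ∈ T) fun p hp => by
      simp only [mem_filter, mem_univ, true_and] at hp; simp [hp]]
    rw [add_zero, show univ.filter (· ∈ T) = T by ext p; simp]
    exact sum_congr rfl fun p hp => by simp [hp]; ring

theorem fieldPath_zero (K : ℕ) (lam : Fin N → ℝ) (S V : ℕ → Fin N → ℝ) (T : Finset (Fin N))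
    (c : ℝ) (U : ON N) :
    fieldPath K lam S V T c U 0 =
      glassFree K (fun p => lam p + if p ∈ T then 2 * c else 0) S (offT T V) U := by
  unfold fieldPath
  congr 1
  · funext p; simp
  · funext l p; simp [offT]

theorem fieldPath_one (K : ℕ) (lam : Fin N → ℝ) (S V : ℕ → Fin N → ℝ) (T : Finset (Fin N))
    (c : ℝ) (U : ON N) : fieldPath K lam S V T c U 1 = glassFree K lam S V U := by
  simp [fieldPath]

/-- Fields only increase the free energy. -/
theorem glass_field_mono (K : ℕ) (lam : Fin N → ℝ) (S V : ℕ → Fin N → ℝ) (T : Finset (Fin N))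
    (U : ON N) : glassFree K lam S (offT T V) U ≤ glassFree K lam S V U := by
  have hd := hasDerivAt_fieldPath K lam S V T 0 U
  choose A H hA hD using hd
  have := monotoneOn_of_hasDerivWithinAt_nonneg (f' := fun t =>
      ∑ p ∈ T, (-0 * H t p + t * ∑ l ∈ range (K + 2), V l p ^ 2 * A t l p))
    (convex_Icc (0 : ℝ) 1) (fun t _ => (hD t).continuousAt.continuousWithinAt)
    (fun t _ => (hD t).hasDerivWithinAt) (fun t ht => by
      rw [interior_Icc] at ht
      refine sum_nonneg fun p _ => ?_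
      rw [neg_zero, zero_mul, zero_add]
      exact mul_nonneg ht.1.le (sum_nonneg fun l hl => mul_nonneg (sq_nonneg _)
        (hA t l (by simp at hl; omega) p).1))
    (Set.left_mem_Icc.2 zero_le_one) (Set.right_mem_Icc.2 zero_le_one) zero_le_one
  rw [fieldPath_zero, fieldPath_one] at this
  simpa using this

/-- A shift of the eigenvalues absorbs the fields. -/
theorem glass_field_le (K : ℕ) (lam : Fin N → ℝ) (S V : ℕ → Fin N → ℝ) (T : Finset (Fin N))
    {c : ℝ} (hc : ∀ p ∈ T, ∑ l ∈ range (K + 2), V l p ^ 2 ≤ c) (U : ON N) :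
    glassFree K lam S V U ≤
      glassFree K (fun p => lam p + if p ∈ T then 2 * c else 0) S (offT T V) U := by
  have hd := hasDerivAt_fieldPath K lam S V T c U
  choose A H hA hD using hd
  have := antitoneOn_of_hasDerivWithinAt_nonpos (f' := fun t =>
      ∑ p ∈ T, (-c * H t p + t * ∑ l ∈ range (K + 2), V l p ^ 2 * A t l p))
    (convex_Icc (0 : ℝ) 1) (fun t _ => (hD t).continuousAt.continuousWithinAt)
    (fun t _ => (hD t).hasDerivWithinAt) (fun t ht => by
      rw [interior_Icc] at ht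
      refine sum_nonpos fun p hp => ?_
      have hH : 0 ≤ H t p := (hA t 0 (Nat.zero_le _) p).1.trans (hA t 0 (Nat.zero_le _) p).2
      have h1 : ∑ l ∈ range (K + 2), V l p ^ 2 * A t l p ≤ c * H t p := by
        refine le_trans (sum_le_sum fun l hl => mul_le_mul_of_nonneg_left
          (hA t l (by simp at hl; omega) p).2 (sq_nonneg _)) ?_
        rw [← sum_mul]
        exact mul_le_mul_of_nonneg_right (hc p hp) hH
      have h2 : 0 ≤ c * H t p := le_trans (sum_nonneg fun l hl => mul_nonneg (sq_nonneg _)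
        (hA t l (by simp at hl; omega) p).1) h1
      have h3 : t * ∑ l ∈ range (K + 2), V l p ^ 2 * A t l p ≤ c * H t p :=
        (mul_le_mul_of_nonneg_left h1 ht.1.le).trans (mul_le_of_le_one_left h2 ht.2.le)
      linarith)
    (Set.left_mem_Icc.2 zero_le_one) (Set.right_mem_Icc.2 zero_le_one) zero_le_one
  rwa [fieldPath_zero, fieldPath_one] at this

/-- Two fields which differ on `T` only, both at most `A` there. -/
theorem glass_field_swap (K : ℕ) (lam : Fin N → ℝ) (S V V' : ℕ → Fin N → ℝ) (T : Finset (Fin N))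
    {A : ℝ} (hV : ∀ p ∈ T, ∀ l, |V l p| ≤ A) (hoff : ∀ l, ∀ p ∉ T, V' l p = V l p) (U : ON N) :
    glassFree K lam S V U ≤ glassFree K
      (fun p => lam p + if p ∈ T then 2 * (((K : ℝ) + 2) * A ^ 2) else 0) S V' U := by
  have hc : ∀ p ∈ T, ∑ l ∈ range (K + 2), V l p ^ 2 ≤ ((K : ℝ) + 2) * A ^ 2 := fun p hp => by
    refine (sum_le_card_nsmul _ _ (A ^ 2) fun l _ => ?_).trans ?_
    · rw [← sq_abs]; exact pow_le_pow_left₀ (abs_nonneg _) (hV p hp l) 2
    · simp
  refine (glass_field_le K lam S V T hc U).trans ?_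
  have e : offT T V = offT T V' := funext fun l => funext fun p => by
    by_cases h : p ∈ T <;> simp [offT, h, hoff l p]
  rw [e]
  exact glass_field_mono K _ S V' T U

section amp

variable {ι Ω : Type} [Fintype ι] [MeasurableSpace Ω] {Nn : Nest ι} {L : Leaf Ω Unit ι}
  {μ : Measure Ω} [IsProbabilityMeasure μ] {B : ℝ}

theorem ampTail_bounds (hN : Nn.Good) (hL : L.Good B) (h2 : ∀ x, L.φ2 () x = 0) {l : ℕ}
    (hl : l ≤ Nn.K) (i : ι) :
    0 ≤ ampTail Nn L μ l i ∧ ampTail Nn L μ l i ≤ Nn.heatTop L μ i := by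
  have hw : ∀ j ∈ Icc l Nn.K, 0 ≤ Nn.w j := fun j hj => by
    rw [Nest.w, sub_nonneg]; exact hN.x_mono j (mem_Icc.1 hj).2
  have hs : ∀ j, j ≤ Nn.K → 0 ≤ Nn.sqGrad L μ j i := fun j hj => by
    have := mean_mono (μ := μ) hN hL hj (tame_const 0) (grad_tame (μ := μ) hN hL hj i).sq
      fun y => sq_nonneg _
    rwa [mean_const hN hL hj] at this
  have hvec : Obs fun ω v => L.vec i ω v ^ 2 := by
    simpa only [pow_two] using (vec_obs hN hL i).mul (vec_obs hN hL i)
  have htop : Nn.heat L μ Nn.K i = L.gibbs μ fun ω v => L.vec i ω v ^ 2 := funext fun y => by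
    rw [heat_top hN hL i y]
    simp [h2]
  have hle : Nn.sqGrad L μ Nn.K i ≤ Nn.heatTop L μ i := by
    rw [Nest.heatTop, htop]
    refine mean_mono hN hL le_rfl (grad_tame hN hL le_rfl i).sq (tame_gibbs hL hvec) fun y => ?_
    rw [Nest.grad, node_top hN hL]
    set g := L.gibbs μ (L.vec i) y with hg
    have hv := vec_obs hN hL i
    have h := gibbs_mono (μ := μ) hL (f := fun ω v => 2 * g * L.vec i ω v + -(g ^ 2))
      (((obs_const (2 * g)).mul hv).add (obs_const _)) hvec
      (fun ω v => by nlinarith [sq_nonneg (L.vec i ω v - g)]) y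
    rw [gibbs_add hL ((obs_const _).mul hv) (obs_const _), gibbs_const hL,
      gibbs_const_mul, ← hg] at h
    nlinarith
  have h0 : 0 ≤ ∑ j ∈ Icc l Nn.K, Nn.w j * Nn.sqGrad L μ j i :=
    sum_nonneg fun j hj => mul_nonneg (hw j hj) (hs j (mem_Icc.1 hj).2)
  have h1 : ∑ j ∈ Icc l Nn.K, Nn.w j * Nn.sqGrad L μ j i ≤ Nn.heatTop L μ i := by
    refine (sum_le_sum fun j hj => mul_le_mul_of_nonneg_left
      (sqGrad_mono hN hL (mem_Icc.1 hj).2 le_rfl i) (hw j hj)).trans ?_
    rw [← sum_mul]
    have hsum : ∀ n, l ≤ n → ∑ j ∈ Icc l n, Nn.w j = Nn.x (n + 1) - Nn.x l := by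
      intro n hn
      induction n, hn using Nat.le_induction with
      | base => simp [Nest.w]
      | succ n hn ih => rw [sum_Icc_succ_top (by omega), ih, Nest.w]; ring
    rw [hsum _ hl, hN.x_last]
    have hxl : 0 ≤ Nn.x l := by
      rcases Nat.eq_zero_or_pos l with rfl | hp
      · rw [hN.x_zero]
      · exact (hN.x_pos l hp hl).le
    exact (mul_le_of_le_one_left (hs _ le_rfl) (by linarith)).trans hle
  exact ⟨sub_nonneg.2 h1, sub_le_self _ h0⟩

end amp

theorem heatTop_extra (K : ℕ) (lam : Fin N → ℝ) (S V : ℕ → Fin N → ℝ) (e : ℕ → Fin m → ℝ)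
    (Φ : (Fin m → Bool) → (Fin N → ℝ) → ℝ) (U : ON N) (i : Fin m) :
    (extNest K S V e).heatTop (extLeaf m U) (extLaw lam Φ U) (Sum.inr i) = 1 := by
  have := extLaw_prob lam Φ U
  have hN := extNest_good K S V e
  have hL := extLeaf_good (m := m) U
  have h : (extNest K S V e).heat (extLeaf m U) (extLaw lam Φ U) (extNest K S V e).K (Sum.inr i) =
      fun _ => (1 : ℝ) := funext fun y => by
    rw [heat_top hN hL]
    have : (fun (ω : (Fin N → Bool) × (Fin m → Bool)) v =>
        (∑ j, (extLeaf m U).φ2 j ((extLeaf m U).loc ω v j) * (extLeaf m U).a ω j (Sum.inr i) ^ 2) +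
          (extLeaf m U).vec (Sum.inr i) ω v ^ 2) = fun _ _ => (1 : ℝ) := by
      funext ω v
      simp [Leaf.vec, extLeaf, spin]
    rw [this, gibbs_const hL]
  rw [Nest.heatTop, h, mean_const hN hL le_rfl]

theorem extFree_sign (K : ℕ) (lam : Fin N → ℝ) (S V : ℕ → Fin N → ℝ) (e : ℕ → Fin m → ℝ)
    (Φ : (Fin m → Bool) → (Fin N → ℝ) → ℝ) (U : ON N) :
    extFree K lam S V e Φ U = extFree K lam S V (fun l i => |e l i|) Φ U := by
  rw [extFree_eq, extFree_eq, ← root_push (N' := extNest K S V e)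
    (Nn := extNest K S V fun l i => |e l i|) (extNest_good K S V _) rfl rfl
    (fun i j => if i = j then 1 else 0) (fun l _ i k => ?_)
    (semi_expLog (extWeight_pos lam Φ U))]
  · congr 1
    funext y
    congr 1
    funext i
    simp [lin]
  · by_cases h : i = k
    · subst h
      rcases i with i | i <;> simp [extNest]
    · simp [h]

/-- A small increase of the fields of the extra spins. -/
theorem extFree_amp_close (K : ℕ) (lam : Fin N → ℝ) (S V : ℕ → Fin N → ℝ) (e e' : ℕ → Fin m → ℝ)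
    {d : ℝ} (hle : ∀ l i, |e l i| ≤ e' l i) (hsq : ∀ l i, e' l i ^ 2 - e l i ^ 2 ≤ d)
    (Φ : (Fin m → Bool) → (Fin N → ℝ) → ℝ) (U : ON N) :
    |extFree K lam S V e' Φ U - extFree K lam S V e Φ U| ≤ ((K : ℝ) + 2) * m * d := by
  rw [extFree_sign K lam S V e]
  set de : ℕ → Fin m → ℝ := fun l i => e' l i - |e l i| with hde
  set g : ℝ → ℝ := fun t => extFree K lam S V (fun l i => |e l i| + t * de l i) Φ U with hg
  have hd : ∀ t, ∃ A : ℕ → Fin m → ℝ, (∀ l, l ≤ K + 1 → ∀ i, 0 ≤ A l i ∧ A l i ≤ 1) ∧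
      HasDerivAt g (∑ l ∈ range (K + 2), ∑ i, de l i * (|e l i| + t * de l i) * A l i) t := by
    intro t
    set e₀ : ℕ → Fin m → ℝ := fun l i => |e l i| + t * de l i
    have h := hasDerivAt_extFree K lam (fun _ => 0) S (fun _ _ => 0) V (fun _ _ => 0) e₀ de Φ 1 0 U
    simp only [mul_zero, add_zero, one_mul, zero_mul, sum_const_zero, zero_add] at h
    refine ⟨fun l i => ampTail (extNest K S V e₀) (extLeaf m U) (extLaw lam Φ U) l (Sum.inr i),
      fun l hl i => ?_, ?_⟩
    · have := extLaw_prob lam Φ U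
      have hb := ampTail_bounds (μ := extLaw lam Φ U) (extNest_good K S V e₀) (extLeaf_good U)
        (fun _ => rfl) (l := l) hl (Sum.inr i)
      exact ⟨hb.1, hb.2.trans_eq (heatTop_extra K lam S V e₀ Φ U i)⟩
    · have e1 : (fun s : ℝ => extFree K lam S V (fun l i => e₀ l i + s * de l i) Φ U) =
          fun s => g (t + s) := by
        funext s
        simp only [hg, e₀]
        congr 1
        funext l i
        ring
      rw [e1] at h
      have h2 := HasDerivAt.comp_sub_const (f := fun s => g (t + s)) t t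
        (by rw [sub_self]; exact h)
      simp only [add_sub_cancel] at h2
      exact h2
  choose A hA hD using hd
  have hb : ∀ t ∈ Set.Ico (0 : ℝ) 1,
      ‖∑ l ∈ range (K + 2), ∑ i, de l i * (|e l i| + t * de l i) * A t l i‖ ≤
        ((K : ℝ) + 2) * m * d := by
    intro t ht
    rw [Real.norm_eq_abs]
    refine (abs_sum_le_sum_abs _ _).trans ?_
    refine (sum_le_card_nsmul _ _ ((m : ℝ) * d) fun l hl => ?_).trans_eq (by simp; ring)
    refine (abs_sum_le_sum_abs _ _).trans ?_
    refine (sum_le_card_nsmul _ _ d fun i _ => ?_).trans_eq (by simp)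
    obtain ⟨ha0, ha1⟩ := hA t l (by simp at hl; omega) i
    have h0 : 0 ≤ de l i := sub_nonneg.2 (hle l i)
    have h1 : 0 ≤ |e l i| + t * de l i := add_nonneg (abs_nonneg _) (mul_nonneg ht.1 h0)
    rw [abs_of_nonneg (mul_nonneg (mul_nonneg h0 h1) ha0)]
    refine (mul_le_of_le_one_right (mul_nonneg h0 h1) ha1).trans ?_
    have h2 : t * de l i ≤ de l i := mul_le_of_le_one_left h0 ht.2.le
    have h3 := hsq l i
    rw [← sq_abs (e l i)] at h3
    have h4 := mul_le_mul_of_nonneg_left h2 h0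
    simp only [hde] at *
    nlinarith [mul_nonneg h0 (abs_nonneg (e l i))]
  have := norm_image_sub_le_of_norm_deriv_le_segment_01'
    (fun t _ => (hD t).hasDerivWithinAt) hb
  rw [Real.norm_eq_abs] at this
  simpa [hg, hde] using this

theorem meanExt_amp_close (K : ℕ) (lam : Fin N → ℝ) (S V : ℕ → Fin N → ℝ) (e e' : ℕ → Fin m → ℝ)
    {d : ℝ} (hle : ∀ l i, |e l i| ≤ e' l i) (hsq : ∀ l i, e' l i ^ 2 - e l i ^ 2 ≤ d)
    {Φ : (Fin m → Bool) → (Fin N → ℝ) → ℝ} (hΦ : ∀ τ, Continuous (Φ τ)) :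
    |meanExt K lam S V e' Φ - meanExt K lam S V e Φ| ≤ ((K : ℝ) + 2) * m * d := by
  rw [meanExt, meanExt, ← integral_sub (integrable_of_cont (continuous_extFree K lam S V e' hΦ))
    (integrable_of_cont (continuous_extFree K lam S V e hΦ))]
  refine abs_integral_le_integral_abs.trans ?_
  refine (integral_mono_of_nonneg (.of_forall fun _ => abs_nonneg _) (integrable_const _)
    (.of_forall fun U => extFree_amp_close K lam S V e e' hle hsq Φ U)).trans_eq ?_
  simp

end Vale.Agent.P166.Parisi.Frame
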