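import Vale.Agent.P166.Parisi.FramePush
import Vale.Agent.P166.Parisi.FrameAlg
import Vale.Agent.P166.Parisi.FrameEnergy

/-!
The system in the rotated frame is the coupled system.
-/

namespace Vale.Agent.P166.Parisi.Frame

open MeasureTheory ProbabilityTheory Finset Matrix
open Vale.Agent.P157 Vale.Agent.P157.Parisi

variable {N M : ℕ}

/-- The positions of the special coordinates and of the new spins. -/
def newPos (j : NewIdx M ↪ Fin N) : NewIdx M ⊕ Fin M ↪ Fin (N + M) :=
  ⟨Sum.elim (fun x => Fin.castAdd M (j x)) (Fin.natAdd N), by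
    rintro (x | c) (y | c') h <;> simp [Fin.ext_iff] at h
    · exact congrArg Sum.inl (j.injective (Fin.ext h))
    · have := (j x).isLt; omega
    · have := (j y).isLt; omega
    · exact congrArg Sum.inr (Fin.ext h)⟩

@[simp] theorem newPos_inl (j : NewIdx M ↪ Fin N) (x : NewIdx M) :
    newPos j (Sum.inl x) = Fin.castAdd M (j x) := rfl

@[simp] theorem newPos_inr (j : NewIdx M ↪ Fin N) (c : Fin M) :
    newPos j (Sum.inr c) = Fin.natAdd N c := rfl

theorem coe_embON_mul (k : ℕ) (A B : ON N) : embON k (A * B) = embON k A * embON k B := by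
  refine Subtype.ext ?_
  show _ = _ * _
  simp [embON, Matrix.submatrix_mul_equiv, Matrix.fromBlocks_multiply]

theorem embON_mulVec (W : ON N) (u : Fin N → ℝ) (τ : Fin M → ℝ) :
    (embON M W : Matrix (Fin (N + M)) (Fin (N + M)) ℝ) *ᵥ Fin.append u τ =
      Fin.append ((W : Matrix (Fin N) (Fin N) ℝ) *ᵥ u) τ := by
  have h : (Fin.append u τ) ∘ finSumFinEquiv = Sum.elim u τ := by
    funext x; rcases x with i | i <;> simp [Fin.append_left, Fin.append_right]
  funext p
  simp only [embON, Matrix.submatrix_mulVec_equiv, Function.comp_apply, Equiv.symm_symm]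
  rw [h, Matrix.fromBlocks_mulVec]
  simp only [Matrix.zero_mulVec, add_zero, zero_add, Matrix.one_mulVec, Sum.elim_comp_inl,
    Sum.elim_comp_inr]
  refine Fin.addCases (fun i => ?_) (fun i => ?_) p <;> simp [Fin.append_left, Fin.append_right]

/-- The configurations of old and new spins. -/
def joinSpin (N M : ℕ) : (Fin N → Bool) × (Fin M → Bool) ≃ (Fin (N + M) → Bool) where
  toFun ω := Fin.append ω.1 ω.2
  invFun s := (fun i => s (Fin.castAdd M i), fun i => s (Fin.natAdd N i))
  left_inv ω := by simp [Fin.append_left, Fin.append_right]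
  right_inv s := by
    funext p
    refine Fin.addCases (fun i => ?_) (fun i => ?_) p <;> simp [Fin.append_left, Fin.append_right]

theorem spin_join (ω : (Fin N → Bool) × (Fin M → Bool)) :
    spin (joinSpin N M ω) = Fin.append (spin ω.1) (spin ω.2) := by
  funext p
  refine Fin.addCases (fun i => ?_) (fun i => ?_) p <;>
    simp [joinSpin, spin, Fin.append_left, Fin.append_right]

/-- The coordinates of the coupled system in terms of the ones of the rotated system. -/
def pushP (Qm : Matrix (Fin (N + M)) (Fin (N + M)) ℝ) : FIdx N ⊕ Fin M → FIdx (N + M) → ℝ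
  | Sum.inl (Sum.inl k) => Sum.elim (fun p => if p = Fin.castAdd M k then 1 else 0) fun _ => 0
  | Sum.inl (Sum.inr k) => Sum.elim (fun _ => 0) fun p => Qm p (Fin.castAdd M k)
  | Sum.inr c => Sum.elim (fun p => if p = Fin.natAdd N c then 1 else 0)
      fun p => Qm p (Fin.natAdd N c)

theorem frame_field (Qm : Matrix (Fin (N + M)) (Fin (N + M)) ℝ) (W : ON N)
    (ω : (Fin N → Bool) × (Fin M → Bool)) (y : FIdx (N + M) → ℝ) :
    ∑ i, Sum.elim (spin (joinSpin N M ω)) (Qm *ᵥ Fin.append (rotSpin W ω.1) (spin ω.2)) i * y i =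
      ∑ i, extA W ω i * lin (pushP Qm) y i := by
  have h : ∑ p, (Qm *ᵥ Fin.append (rotSpin W ω.1) (spin ω.2)) p * y (Sum.inr p) =
      (∑ k, rotSpin W ω.1 k * ∑ p, Qm p (Fin.castAdd M k) * y (Sum.inr p)) +
        ∑ c, spin ω.2 c * ∑ p, Qm p (Fin.natAdd N c) * y (Sum.inr p) := by
    simp only [Matrix.mulVec, dotProduct, sum_mul, mul_sum]
    rw [sum_comm, Fin.sum_univ_add]
    simp only [Fin.append_left, Fin.append_right]
    congr 1 <;> exact sum_congr rfl fun _ _ => sum_congr rfl fun _ _ => by ring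
  rw [Fintype.sum_sum_type, Fintype.sum_sum_type, Fintype.sum_sum_type]
  simp only [Sum.elim_inl, Sum.elim_inr, h, spin_join, extA, glassA, lin, pushP,
    Fintype.sum_sum_type, ite_mul, one_mul, zero_mul, sum_const_zero, add_zero, zero_add,
    sum_ite_eq', mem_univ, if_true]
  rw [Fin.sum_univ_add]
  simp only [Fin.append_left, Fin.append_right, mul_add, sum_add_distrib]
  ring

theorem frame_cov (Qm : Matrix (Fin (N + M)) (Fin (N + M)) ℝ) (s : Fin N → ℝ) (ee : Fin M → ℝ)
    (vb : Fin N → ℝ) (et : ℝ)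
    (hVQ : ∀ q q', ∑ p, Qm p q * Qm p q' * Fin.append vb (fun _ => et) p ^ 2 =
      if q = q' then Fin.append vb (fun _ => et) q ^ 2 else 0)
    (i k : FIdx N ⊕ Fin M) :
    ∑ j, pushP Qm i j * pushP Qm k j *
        Sum.elim (Fin.append s ee) (Fin.append vb fun _ => et) j ^ 2 =
      if i = k then Sum.elim (Sum.elim s vb) (fun c => Real.sqrt (ee c ^ 2 + et ^ 2)) i ^ 2
      else 0 := by
  have hne : ∀ (a : Fin N) (b : Fin M), Fin.castAdd M a ≠ Fin.natAdd N b := fun a b h => by
    have := a.isLt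
    simp [Fin.ext_iff] at h
    omega
  have hsq : ∀ c, Real.sqrt (ee c ^ 2 + et ^ 2) ^ 2 = ee c ^ 2 + et ^ 2 := fun c =>
    Real.sq_sqrt (by positivity)
  rw [Fintype.sum_sum_type]
  rcases i with (i | i) | i <;> rcases k with (k | k) | k
  all_goals simp only [pushP, Sum.elim_inl, Sum.elim_inr, ite_mul, one_mul, zero_mul, mul_zero,
    sum_const_zero, add_zero, zero_add, sum_ite_eq', mem_univ, if_true, hVQ]
  all_goals simp [Fin.append_left, Fin.append_right, hne, (hne _ _).symm, hsq]
  all_goals (split_ifs with h <;> simp_all)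

theorem frame_eng (lamB : Fin N → ℝ) (lt : ℝ) (j : NewIdx M ↪ Fin N) (hl : ∀ x, lamB (j x) = lt)
    (σe : Fin M × Fin M ≃ NewIdx M ⊕ Fin M)
    {A : Matrix (Fin M × Fin M) (NewIdx M ⊕ Fin M) ℝ} (hA : Aᵀ * A = 1) (Q : ON (N + M))
    (hin : ∀ x y, (Q : Matrix (Fin (N + M)) (Fin (N + M)) ℝ) (newPos j x) (newPos j y) =
      A (σe.symm x) y)
    (hout : ∀ p q, ((∀ x, newPos j x ≠ p) ∨ ∀ x, newPos j x ≠ q) →
      (Q : Matrix (Fin (N + M)) (Fin (N + M)) ℝ) p q = if p = q then 1 else 0)
    (d : Fin M → ℝ) (lam' : Fin (N + M) → ℝ)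
    (hlam : ∀ x, lam' (newPos j x) = lt + d (σe.symm x).1)
    (hlam' : ∀ p, (∀ x, newPos j x ≠ p) → lam' p = Fin.append lamB (fun _ => lt) p)
    (z : Fin N → ℝ) (τ : Fin M → Bool) :
    ∑ p, lam' p *
        ((Q : Matrix (Fin (N + M)) (Fin (N + M)) ℝ) *ᵥ Fin.append z (spin τ)) p ^ 2 =
      ∑ i, lamB i * z i ^ 2 + 2 * quadE d (lt / 2 * M) A τ (fun x => z (j x)) := by
  classical
  set g := newPos j
  set Qm := (Q : Matrix (Fin (N + M)) (Fin (N + M)) ℝ)
  set zb := Fin.append z (spin τ) with hzb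
  set xv : NewIdx M ⊕ Fin M → ℝ := Sum.elim (fun x => z (j x)) (spin τ)
  have hx : ∀ x, zb (g x) = xv x := by
    rintro (x | c) <;> simp [g, zb, xv, Fin.append_left, Fin.append_right]
  have hsplit : ∀ F : Fin (N + M) → ℝ, ∑ p, F p =
      ∑ x, F (g x) + ∑ p ∈ univ.filter (fun p => ∀ x, g x ≠ p), F p := fun F => by
    rw [← sum_filter_add_sum_filter_not univ (fun p => ∀ x, g x ≠ p), add_comm]
    congr 1
    rw [← sum_map univ g F]
    refine sum_congr ?_ fun _ _ => rfl
    ext p; simp only [mem_filter, mem_univ, true_and, mem_map, not_forall, not_not]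
  have hoff : ∀ p, (∀ x, g x ≠ p) → (Qm *ᵥ zb) p = zb p := fun p hp => by
    simp [Matrix.mulVec, dotProduct, hout p _ (Or.inl hp)]
  have hon : ∀ x, (Qm *ᵥ zb) (g x) = ∑ y, A (σe.symm x) y * xv y := fun x => by
    simp only [Matrix.mulVec, dotProduct]
    rw [hsplit, sum_eq_zero (s := univ.filter _) fun p hp => ?_, add_zero]
    · exact sum_congr rfl fun y _ => by rw [hin, hx]
    · rw [mem_filter] at hp
      rw [hout _ p (Or.inr hp.2), if_neg (hp.2 x), zero_mul]
  have h0 : ∑ p, Fin.append lamB (fun _ => lt) p * zb p ^ 2 =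
      ∑ i, lamB i * z i ^ 2 + lt * M := by
    rw [Fin.sum_univ_add]
    simp [zb, Fin.append_left, Fin.append_right, spin_sq, mul_comm]
  have hge : ∀ x, Fin.append lamB (fun _ => lt) (g x) = lt := by
    rintro (x | c) <;> simp [g, Fin.append_left, Fin.append_right, hl]
  rw [hsplit, show (∑ p ∈ univ.filter (fun p => ∀ x, g x ≠ p), lam' p * (Qm *ᵥ zb) p ^ 2) =
    ∑ p ∈ univ.filter (fun p => ∀ x, g x ≠ p),
      Fin.append lamB (fun _ => lt) p * zb p ^ 2 from sum_congr rfl fun p hp => by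
    rw [mem_filter] at hp
    rw [hoff p hp.2, hlam' p hp.2]]
  have h1 := hsplit fun p => Fin.append lamB (fun _ => lt) p * zb p ^ 2
  simp only [hge, hx] at h1
  rw [h0, ← mul_sum] at h1
  simp only [hlam, hon]
  rw [← σe.sum_comp]
  simp only [Equiv.symm_apply_apply, add_mul, sum_add_distrib, ← mul_sum]
  rw [sq_orth hA xv]
  unfold quadE
  linarith

/-- In the rotated frame, with equal fields on the special coordinates, the system is the coupled
system. -/
theorem glass_to_ext (K : ℕ) (lamB : Fin N → ℝ) (lt : ℝ) (S VB : ℕ → Fin N → ℝ)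
    (e : ℕ → Fin M → ℝ) (eta : ℕ → ℝ) (j : NewIdx M ↪ Fin N) (hl : ∀ x, lamB (j x) = lt)
    (hV : ∀ l x, VB l (j x) = eta l) (σe : Fin M × Fin M ≃ NewIdx M ⊕ Fin M)
    {A : Matrix (Fin M × Fin M) (NewIdx M ⊕ Fin M) ℝ} (hA : Aᵀ * A = 1) (Q : ON (N + M))
    (hin : ∀ x y, (Q : Matrix (Fin (N + M)) (Fin (N + M)) ℝ) (newPos j x) (newPos j y) =
      A (σe.symm x) y)
    (hout : ∀ p q, ((∀ x, newPos j x ≠ p) ∨ ∀ x, newPos j x ≠ q) →
      (Q : Matrix (Fin (N + M)) (Fin (N + M)) ℝ) p q = if p = q then 1 else 0)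
    (d : Fin M → ℝ) (lam' : Fin (N + M) → ℝ)
    (hlam : ∀ x, lam' (newPos j x) = lt + d (σe.symm x).1)
    (hlam' : ∀ p, (∀ x, newPos j x ≠ p) → lam' p = Fin.append lamB (fun _ => lt) p) (W : ON N) :
    glassFree K lam' (fun l => Fin.append (S l) (e l))
        (fun l => Fin.append (VB l) (fun _ => eta l)) (Q * embON M W) =
      extFree K lamB S VB (fun l c => Real.sqrt (e l c ^ 2 + eta l ^ 2))
        (fun τ z => quadE d (lt / 2 * M) A τ (fun x => z (j x))) W := by
  classical
  set g := newPos j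
  set Qm := (Q : Matrix (Fin (N + M)) (Fin (N + M)) ℝ)
  set V' : ℕ → Fin (N + M) → ℝ := fun l => Fin.append (VB l) (fun _ => eta l)
  have hQorth : ∀ q q', ∑ p, Qm p q * Qm p q' = if q = q' then (1 : ℝ) else 0 := fun q q' => by
    have := congrFun (congrFun ((mem_orthogonalGroup_iff' _ _).1 Q.2) q) q'
    simpa [Matrix.mul_apply, Matrix.one_apply] using this
  have hVg : ∀ l x, V' l (g x) = eta l := by
    intro l x
    rcases x with x | c <;> simp [g, V', Fin.append_left, Fin.append_right, hV]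
  have hsame : ∀ l p q, Qm p q ≠ 0 → V' l p = V' l q := by
    intro l p q hne
    by_cases hp : ∀ x, g x ≠ p
    · rw [hout p q (Or.inl hp)] at hne
      simp only [ne_eq, ite_eq_right_iff, one_ne_zero, imp_false, not_not] at hne
      rw [hne]
    · by_cases hq : ∀ x, g x ≠ q
      · rw [hout p q (Or.inr hq)] at hne
        simp only [ne_eq, ite_eq_right_iff, one_ne_zero, imp_false, not_not] at hne
        rw [hne]
      · push Not at hp hq
        obtain ⟨x, rfl⟩ := hp
        obtain ⟨y, rfl⟩ := hq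
        rw [hVg, hVg]
  have hVQ : ∀ l q q', ∑ p, Qm p q * Qm p q' * V' l p ^ 2 =
      if q = q' then V' l q ^ 2 else 0 := by
    intro l q q'
    have : ∀ p, Qm p q * Qm p q' * V' l p ^ 2 = V' l q ^ 2 * (Qm p q * Qm p q') := fun p => by
      by_cases h : Qm p q = 0
      · simp [h]
      · rw [hsame l p q h]; ring
    simp only [this, ← mul_sum, hQorth]
    split_ifs <;> ring
  rw [glassFree_eq, extFree_eq, ← root_push (N' := glassNest K (fun l => Fin.append (S l) (e l)) V')
    (Nn := extNest K S VB fun l c => Real.sqrt (e l c ^ 2 + eta l ^ 2))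
    (extNest_good K S VB _) rfl rfl (pushP Qm)
    (fun l _ i k => frame_cov Qm (S l) (e l) (VB l) (eta l) (hVQ l) i k)
    (semi_expLog (extWeight_pos lamB _ W))]
  congr 1
  funext y
  unfold expLog
  congr 1
  rw [← (joinSpin N M).sum_comp]
  refine sum_congr rfl fun ω _ => ?_
  have hrot : rotSpin (Q * embON M W) (joinSpin N M ω) =
      Qm *ᵥ Fin.append (rotSpin W ω.1) (spin ω.2) := by
    show ((Q : Matrix (Fin (N + M)) (Fin (N + M)) ℝ) * (embON M W : Matrix _ _ ℝ)) *ᵥ _ = _
    rw [← Matrix.mulVec_mulVec, spin_join, embON_mulVec]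
    rfl
  congr 1
  · have heng : eng lam' ((Q * embON M W : ON (N + M)) : Matrix _ _ ℝ) (joinSpin N M ω) =
        eng lamB (W : Matrix (Fin N) (Fin N) ℝ) ω.1 +
          2 * quadE d (lt / 2 * M) A ω.2 (fun x => rotSpin W ω.1 (j x)) := by
      refine Eq.trans ?_ (frame_eng lamB lt j hl σe hA Q hin hout d lam' hlam hlam'
        (rotSpin W ω.1) ω.2)
      rw [← hrot]
      rfl
    simp only [glassW, extWeight, heng, pow_add, one_div_mul_one_div]
    congr 2
    ring
  · congr 1
    simp only [glassA, hrot]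
    exact frame_field Qm W ω y

/-- A shift of some eigenvalues as a coupling of a dummy spin. -/
theorem glass_to_ext_move (K : ℕ) (lamB : Fin N → ℝ) (S VB : ℕ → Fin N → ℝ) {J : Type} [Fintype J]
    (j : J → Fin N) (dl : J → ℝ) (U : ON N) :
    glassFree K (fun p => lamB p + ∑ x, if j x = p then dl x else 0) S VB U =
      extFree (m := 1) K lamB S VB (fun _ _ => 0)
        (fun _ z => ∑ x, dl x * z (j x) ^ 2 / 2) U := by
  classical
  set P : FIdx N ⊕ Fin 1 → FIdx N → ℝ := Sum.elim (fun i p => if p = i then 1 else 0) (fun _ _ => 0)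
  rw [glassFree_eq, extFree_eq, ← root_push (N' := glassNest K S VB)
    (Nn := extNest K S VB fun _ (_ : Fin 1) => 0) (extNest_good K S VB _) rfl rfl P ?_
    (semi_expLog (extWeight_pos lamB _ U))]
  · congr 1
    funext y
    unfold expLog
    congr 1
    rw [Fintype.sum_prod_type]
    refine sum_congr rfl fun σ _ => ?_
    have hlin : ∀ τ : Fin 1 → Bool, ∑ i, extA U (σ, τ) i * lin P y i =
        ∑ i, glassA U σ i * y i := fun τ => by
      simp [Fintype.sum_sum_type, extA, lin, P]
    simp only [hlin, extWeight, glassW]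
    rw [sum_const, card_univ]
    simp only [Fintype.card_fun, Fintype.card_bool, Fintype.card_fin, pow_one, nsmul_eq_mul]
    have heng : eng (fun p => lamB p + ∑ x, if j x = p then dl x else 0)
        (U : Matrix (Fin N) (Fin N) ℝ) σ = eng lamB (U : Matrix (Fin N) (Fin N) ℝ) σ +
          2 * ∑ x, dl x * rotSpin U σ (j x) ^ 2 / 2 := by
      simp only [eng, add_mul, sum_add_distrib, sum_mul, ite_mul, zero_mul]
      rw [sum_comm]
      simp [mul_sum, rotSpin, mul_div_cancel₀]
    rw [heng]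
    push_cast
    ring_nf
  · intro l _ i k
    rcases i with i | i <;> rcases k with k | k <;>
      simp [P, extNest, glassNest, glassAmp]
    split_ifs <;> simp_all

end Vale.Agent.P166.Parisi.Frame
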