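import Vale.Agent.P166.Parisi.SymmBase
import Vale.Agent.P166.Parisi.BasicsPar

/-!
Module B2: atoms of nearly equal sizes, derivatives in the amplitudes of some of the spins.
-/

namespace Vale.Agent.P166.Parisi

open MeasureTheory ProbabilityTheory Finset Matrix
open Vale.Agent.P157 Vale.Agent.P157.Parisi
open Vale.Agent.P166.Parisi.Sym

variable {N M m : ℕ}

namespace Sym

lemma abs_etaV_le (P : Par) (hP : P.Ok) {v : GBox M P.K → ℝ} (hv : InBox v) (l : ℕ) (r s : Fin M) :
    |P.etaV v l r| ≤ 5 / 2 ∧ |P.etaV v l s - P.etaV v l r| ≤ 2 := by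
  unfold Par.etaV
  split_ifs with h h'
  · simp only [abs_zero, sub_zero]; norm_num
  · obtain ⟨h1, h2⟩ := hv (Sum.inr (⟨l, Nat.lt_succ_of_le h⟩, r))
    obtain ⟨h3, h4⟩ := hv (Sum.inr (⟨l, Nat.lt_succ_of_le h⟩, s))
    have := hP.eta_pos
    have := hP.eta_le
    constructor <;> rw [abs_le] <;> constructor <;> nlinarith
  · simp only [abs_zero, sub_zero]; norm_num

lemma abs_lamV_sub_le (P : Par) (hP : P.Ok) {Λ : ℝ} {a : Fin M → ℝ} (ha : ∀ r, |a r| ≤ Λ)
    {v : GBox M P.K → ℝ} (hv : InBox v) (r s : Fin M) :
    |P.lamV a v s - P.lamV a v r| ≤ 2 * (Λ + 1) := by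
  obtain ⟨h1, h2⟩ := hv (Sum.inl r)
  obtain ⟨h3, h4⟩ := hv (Sum.inl s)
  obtain ⟨h5, h6⟩ := abs_le.1 (ha r)
  obtain ⟨h7, h8⟩ := abs_le.1 (ha s)
  have := hP.du_pos
  have := hP.du_le
  unfold Par.lamV
  rw [abs_le]
  constructor <;> nlinarith

lemma sum_single {p : Fin N} {f : Fin N → ℝ} (h : ∀ q, q ≠ p → f q = 0) : ∑ q, f q = f p :=
  Finset.sum_eq_single p (fun q _ hq => h q hq) fun h => absurd (mem_univ p) h

lemma hasDerivAt_shift {f : ℝ → ℝ} {f' c : ℝ} (h : HasDerivAt f f' 0) :
    HasDerivAt (fun x => f (x - c)) f' c := by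
  rw [← sub_self c] at h
  exact h.comp_sub_const c c

lemma integrable_glassFree (K : ℕ) (lam : Fin N → ℝ) (S V : ℕ → Fin N → ℝ) :
    Integrable (fun U => glassFree K lam S V U) (haarON N) := by
  have h : Continuous fun U : ON N =>
      ((lam, S, V, U) : (Fin N → ℝ) × (ℕ → Fin N → ℝ) × (ℕ → Fin N → ℝ) × ON N) :=
    continuous_const.prodMk (continuous_const.prodMk (continuous_const.prodMk continuous_id))
  have h' := Continuous.comp (continuous_glassFree (N := N) K) h
  simp only [Function.comp_def] at h'
  exact integrable_of_cont' h' 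

/-- Convexity of the mean free energy along a segment of eigenvalues and amplitudes. -/
lemma convex_line (K : ℕ) (lam dlam : Fin N → ℝ) (S V dV : ℕ → Fin N → ℝ) :
    ConvexOn ℝ Set.univ fun t : ℝ => meanFree K (fun q => lam q + t * dlam q) S
      (fun l q => V l q + t * dV l q) := by
  refine ⟨convex_univ, fun x _ y _ c e hc he hce => ?_⟩
  have hint : ∀ t : ℝ, Integrable (fun U => glassFree K (fun q => lam q + t * dlam q)
      S (fun l q => V l q + t * dV l q) U) (haarON N) := fun t =>
    integrable_glassFree K _ _ _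
  simp only [meanFree, smul_eq_mul]
  rw [← integral_const_mul, ← integral_const_mul,
    ← integral_add ((hint x).const_mul c) ((hint y).const_mul e)]
  refine integral_mono (hint _) (((hint x).const_mul c).add ((hint y).const_mul e)) fun U => ?_
  have h := (glassFree_convex (N := N) K U).2
    (x := ((fun q => lam q + x * dlam q), S, fun l q => V l q + x * dV l q)) (Set.mem_univ _)
    (y := ((fun q => lam q + y * dlam q), S, fun l q => V l q + y * dV l q)) (Set.mem_univ _)
    hc he hce
  have he' : e = 1 - c := by linarith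
  subst he'
  have h1 : (c • fun q => lam q + x * dlam q) + (1 - c) • (fun q => lam q + y * dlam q) =
      fun q => lam q + (c * x + (1 - c) * y) * dlam q := by
    funext q; simp only [Pi.add_apply, Pi.smul_apply, smul_eq_mul]; ring
  have h2 : c • S + (1 - c) • S = S := by
    funext n q; simp only [Pi.add_apply, Pi.smul_apply, smul_eq_mul]; ring
  have h3 : (c • fun l q => V l q + x * dV l q) + (1 - c) • (fun l q => V l q + y * dV l q) =
      fun l q => V l q + (c * x + (1 - c) * y) * dV l q := by
    funext n q; simp only [Pi.add_apply, Pi.smul_apply, smul_eq_mul]; ring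
  simp only [Prod.smul_mk, Prod.mk_add_mk, h1, h2, h3] at h
  exact h

/-- The tangent inequality for a change at one index. -/
lemma tangent_single (K : ℕ) (lam dlam : Fin N → ℝ) (S V dV : ℕ → Fin N → ℝ) (p : Fin N)
    (hl : ∀ q, q ≠ p → dlam q = 0) (hv : ∀ l q, q ≠ p → dV l q = 0) {A B : ℝ}
    (hA : |dlam p| ≤ 2 * A) (hB : ∀ l, |dV l p * V l p| ≤ B) :
    meanFree K lam S V - (A + ((K : ℝ) + 2) * B) *
        ∫ U, (glassNest K S V).heatTop (glassLeaf U) (quadLaw lam U) (Sum.inr p) ∂haarON N ≤
      meanFree K (fun q => lam q + dlam q) S (fun l q => V l q + dV l q) := by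
  have hd := hasDerivAt_meanFree K lam dlam S (fun _ _ => (0:ℝ)) V dV
  simp only [mul_zero, add_zero, zero_mul, zero_add] at hd
  have hslope := (convex_line K lam dlam S V dV).le_slope_of_hasDerivAt (Set.mem_univ 0)
    (Set.mem_univ 1) one_pos hd
  simp only [slope_def_field, sub_zero, div_one, zero_mul, add_zero, one_mul] at hslope
  have hGb : ∀ U, ‖1 / 2 * ∑ q, dlam q *
      (glassNest K S V).heatTop (glassLeaf U) (quadLaw lam U) (Sum.inr q) +
    ∑ l ∈ range (K + 2), ∑ q, dV l q * V l q *
      ampTail (glassNest K S V) (glassLeaf U) (quadLaw lam U) l (Sum.inr q)‖ ≤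
      (A + ((K : ℝ) + 2) * B) *
        (glassNest K S V).heatTop (glassLeaf U) (quadLaw lam U) (Sum.inr p) := by
    intro U
    have hh0 : 0 ≤ (glassNest K S V).heatTop (glassLeaf U) (quadLaw lam U) (Sum.inr p) := by
      rw [heatTop_eq]
      exact gobs_nonneg _ _ _ _ le_rfl (fun z => sq_nonneg _) U
    rw [sum_single (p := p) (fun q hq => by rw [hl q hq, zero_mul]),
      sum_congr rfl fun l _ => sum_single (p := p) fun q hq => by
        rw [hv l q hq, zero_mul, zero_mul]]
    rw [Real.norm_eq_abs, add_mul]
    refine (abs_add_le _ _).trans (add_le_add ?_ ((abs_sum_le_sum_abs _ _).trans ?_))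
    · rw [abs_mul, abs_mul, abs_of_nonneg hh0, abs_of_pos (by norm_num : (0:ℝ) < 1 / 2)]
      linarith [mul_le_mul_of_nonneg_right hA hh0]
    · refine (sum_le_sum fun l hl => (?_ : _ ≤
        B * (glassNest K S V).heatTop (glassLeaf U) (quadLaw lam U) (Sum.inr p))).trans_eq
        (by rw [sum_const, card_range, nsmul_eq_mul]; push_cast; ring)
      obtain ⟨t0, t1⟩ := ampTail_mem K lam S V U (Nat.le_of_lt_succ (mem_range.1 hl)) (Sum.inr p)
      rw [abs_mul, abs_of_nonneg t0]
      exact mul_le_mul (hB l) t1 t0 ((abs_nonneg _).trans (hB l))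
  have hb := norm_integral_le_of_norm_le
    ((integrable_of_cont' (continuous_heatTop_rot K lam S V p)).const_mul (A + ((K : ℝ) + 2) * B))
    (Filter.Eventually.of_forall hGb)
  rw [integral_const_mul, Real.norm_eq_abs] at hb
  linarith [(abs_le.1 hb).1]

/-- The tangent inequality for moving one index. -/
lemma move_ge (P : Par) (hP : P.Ok) {Λ : ℝ} {a : Fin M → ℝ} (ha : ∀ r, |a r| ≤ Λ)
    (S : ℕ → Fin N → ℝ) (b : Fin N → Fin M) (p : Fin N) (s : Fin M)
    (hsize : (N : ℝ) ≤ 2 * M * (fiber b (b p)).card) {v : GBox M P.K → ℝ} (hv : InBox v) :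
    P.freeS a S b v - 2 * M * (Λ + 1 + ((P.K : ℝ) + 2) * 5) ≤
      P.freeS a S (Function.update b p s) v := by
  have hB : ∀ l, |(P.etaV v l s - P.etaV v l (b p)) * P.etaV v l (b p)| ≤ 5 := fun l => by
    obtain ⟨e1, e2⟩ := abs_etaV_le P hP hv l (b p) s
    rw [abs_mul]
    calc |P.etaV v l s - P.etaV v l (b p)| * |P.etaV v l (b p)| ≤ 2 * (5 / 2) :=
          mul_le_mul e2 e1 (abs_nonneg _) (by norm_num)
      _ = 5 := by norm_num
  have h := tangent_single P.K (P.lamN a b v)
    (fun q => P.lamN a (Function.update b p s) v q - P.lamN a b v q) S (P.ampN b v)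
    (fun l q => P.ampN (Function.update b p s) v l q - P.ampN b v l q) p
    (fun q hq => by simp [Par.lamN, Function.update_of_ne hq])
    (fun l q hq => by simp [Par.ampN, Function.update_of_ne hq]) (A := Λ + 1) (B := 5)
    (by simp only [Par.lamN, Function.update_self]; exact abs_lamV_sub_le P hP ha hv (b p) s)
    (fun l => by simp only [Par.ampN, Function.update_self]; exact hB l)
  simp only [add_sub_cancel] at h
  have hmem : p ∈ fiber b (b p) := by simp [fiber]
  have h2M := (integral_atom_two P.K (P.lamN a b v) S (P.ampN b v) (fiber b (b p))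
    (fun q hq q' hq' => by
      simp only [fiber, mem_filter, mem_univ, true_and] at hq hq'
      simp [Par.lamN, Par.ampN, hq, hq']) hmem).trans
    ((div_le_iff₀ (Nat.cast_pos.2 (card_pos.2 ⟨p, hmem⟩))).2 hsize)
  have hΛ : 0 ≤ Λ := (abs_nonneg _).trans (ha s)
  have h3 := mul_le_mul_of_nonneg_left h2M
    (show 0 ≤ Λ + 1 + ((P.K : ℝ) + 2) * 5 by positivity)
  simp only [Par.freeS] at *
  linarith

lemma fiber_update_self {b : Fin N → Fin M} {p : Fin N} {s : Fin M} (h : b p ≠ s) :
    fiber (Function.update b p s) (b p) = (fiber b (b p)).erase p ∧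
      fiber (Function.update b p s) s = insert p (fiber b s) ∧
      ∀ r, r ≠ b p → r ≠ s → fiber (Function.update b p s) r = fiber b r := by
  refine ⟨?_, ?_, fun r hr hrs => ?_⟩ <;> ext q <;> by_cases hq : q = p
  · subst hq; simp [fiber, Ne.symm h]
  · simp [fiber, hq]
  · subst hq; simp [fiber]
  · simp [fiber, hq]
  · subst hq; simp [fiber, Ne.symm hr, Ne.symm hrs]
  · simp [fiber, Function.update_of_ne hq]

end Sym

/-- Atoms of nearly equal sizes have nearly equal free energies. -/
theorem free_card_close [NeZero M] (P : Par) (hP : P.Ok) {Λ : ℝ} (a : Fin M → ℝ)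
    (ha : ∀ r, |a r| ≤ Λ) (S : ℕ → Fin N → ℝ) {b b' : Fin N → Fin M} {d : ℕ}
    (hd : ∀ r, ((fiber b r).card : ℤ) - (fiber b' r).card ≤ d ∧
      ((fiber b' r).card : ℤ) - (fiber b r).card ≤ d)
    (hb : ∀ r, (N : ℝ) ≤ 2 * M * (fiber b r).card) (hb' : ∀ r, (N : ℝ) ≤ 2 * M * (fiber b' r).card)
    {v : GBox M P.K → ℝ} (hv : InBox v) :
    |P.freeS a S b v - P.freeS a S b' v| ≤
      d * (8 * (M : ℝ) ^ 2 * (Λ + 1 + ((P.K : ℝ) + 2) * 10)) := by
  set C : ℝ := Λ + 1 + ((P.K : ℝ) + 2) * 5 with hC
  have hΛ : 0 ≤ Λ := (abs_nonneg _).trans (ha 0)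
  have hsum : ∀ c : Fin N → Fin M, ∑ r, (fiber c r).card = N := fun c => by
    have := Finset.card_eq_sum_card_fiberwise (s := (univ : Finset (Fin N))) (t := univ) (f := c)
      fun _ _ => mem_univ _
    simpa [fiber] using this.symm
  have key : ∀ D : ℕ, ∀ c : Fin N → Fin M, ∑ r, ((fiber c r).card - (fiber b' r).card) = D →
      (∀ r, (N : ℝ) ≤ 2 * M * (fiber c r).card) →
        |P.freeS a S c v - P.freeS a S b' v| ≤ D * (2 * M * C) := by
    intro D
    induction D with
    | zero =>
      intro c hD _
      have hle : ∀ r, (fiber c r).card ≤ (fiber b' r).card := fun r => by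
        have := (Finset.sum_eq_zero_iff.1 hD) r (mem_univ r)
        omega
      have heq : ∀ r, (fiber c r).card = (fiber b' r).card := fun r =>
        (Finset.sum_eq_sum_iff_of_le fun r _ => hle r).1 (by rw [hsum, hsum]) r (mem_univ r)
      rw [free_card P a S heq v]
      simp
    | succ D ih =>
      intro c hD hc
      obtain ⟨r, hr⟩ : ∃ r, (fiber b' r).card < (fiber c r).card := by
        by_contra hne
        push Not at hne
        rw [Finset.sum_eq_zero fun r _ => Nat.sub_eq_zero_of_le (hne r)] at hD
        omega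
      obtain ⟨s, hs⟩ : ∃ s, (fiber c s).card < (fiber b' s).card := by
        by_contra hne
        push Not at hne
        have := Finset.sum_lt_sum (s := univ) (fun r _ => hne r) ⟨r, mem_univ r, hr⟩
        rw [hsum, hsum] at this
        omega
      obtain ⟨p, hp⟩ : (fiber c r).Nonempty := card_pos.1 (by omega)
      simp only [fiber, mem_filter, mem_univ, true_and] at hp
      subst hp
      have hne : c p ≠ s := fun e => by subst e; omega
      obtain ⟨f1, f2, f3⟩ := fiber_update_self hne
      have hmem : p ∈ fiber c (c p) := by simp [fiber]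
      have hnot : p ∉ fiber c s := by simp [fiber, hne]
      have e1 : (fiber (Function.update c p s) (c p)).card = (fiber c (c p)).card - 1 := by
        rw [f1, card_erase_of_mem hmem]
      have e2 : (fiber (Function.update c p s) s).card = (fiber c s).card + 1 := by
        rw [f2, card_insert_of_notMem hnot]
      have hc1 : ∀ q, (N : ℝ) ≤ 2 * M * (fiber (Function.update c p s) q).card := by
        intro q
        by_cases hq : q = c p
        · subst hq
          refine (hb' (c p)).trans (mul_le_mul_of_nonneg_left ?_ (by positivity))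
          exact_mod_cast (by omega : (fiber b' (c p)).card ≤ _)
        by_cases hq' : q = s
        · subst hq'
          refine (hc q).trans (mul_le_mul_of_nonneg_left ?_ (by positivity))
          exact_mod_cast (by omega : (fiber c q).card ≤ _)
        rw [f3 q hq hq']; exact hc q
      have hD1 : ∑ q, ((fiber (Function.update c p s) q).card - (fiber b' q).card) = D := by
        have hpt : ∀ q, ((fiber (Function.update c p s) q).card - (fiber b' q).card) +
            (if q = c p then 1 else 0) = (fiber c q).card - (fiber b' q).card := fun q => by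
          by_cases hq : q = c p
          · subst hq; rw [if_pos rfl, e1]; omega
          by_cases hq' : q = s
          · subst hq'; rw [if_neg hq, e2]; omega
          rw [if_neg hq, f3 q hq hq', add_zero]
        have := (Finset.sum_congr rfl fun q (_ : q ∈ univ) => hpt q)
        rw [sum_add_distrib, Finset.sum_ite_eq' univ (c p) (fun _ => 1), if_pos (mem_univ _),
          hD] at this
        omega
      have h1 := move_ge P hP ha S c p s (hc (c p)) hv
      have h2 := move_ge P hP ha S (Function.update c p s) p (c p)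
        (by rw [Function.update_self]; exact hc1 s) hv
      rw [Function.update_idem, Function.update_eq_self] at h2
      have h3 := abs_le.1 (ih _ hD1 hc1)
      rw [abs_le]
      push_cast
      constructor <;> linarith
  have hDle : ((∑ r, ((fiber b r).card - (fiber b' r).card) : ℕ) : ℝ) ≤ (M : ℝ) * d := by
    have : ∑ r, ((fiber b r).card - (fiber b' r).card) ≤ ∑ _r : Fin M, d :=
      sum_le_sum fun r _ => by have := (hd r).1; omega
    simp only [sum_const, card_univ, Fintype.card_fin, smul_eq_mul] at this
    exact_mod_cast this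
  have hC0 : 0 ≤ C := by rw [hC]; positivity
  calc |P.freeS a S b v - P.freeS a S b' v|
      ≤ (∑ r, ((fiber b r).card - (fiber b' r).card) : ℕ) * (2 * M * C) := key _ b rfl hb
    _ ≤ (M : ℝ) * d * (2 * M * C) := mul_le_mul_of_nonneg_right hDle (by positivity)
    _ = d * ((M : ℝ) ^ 2 * (2 * C)) := by ring
    _ ≤ _ := by
        refine mul_le_mul_of_nonneg_left ?_ (Nat.cast_nonneg d)
        rw [mul_comm (8 : ℝ) _, mul_assoc]
        refine mul_le_mul_of_nonneg_left ?_ (sq_nonneg _)
        rw [hC]
        linarith [Nat.cast_nonneg (α := ℝ) P.K]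

/-- The derivative in the amplitude of some of the spins, all amplitudes being equal. -/
theorem hasDerivAt_new (P : Par) (a : Fin M → ℝ) (s : ℕ → ℝ) {k : ℕ}
    (b : Fin (N + k) → Fin M) (v : GBox M P.K → ℝ) {l : ℕ} (hl : l ≤ P.K) :
    HasDerivAt (fun θ => P.freeS a
        (addAmp s (Function.update (fun n (_ : Fin k) => s n) l fun _ => θ)) b v)
      ((k : ℝ) * s l * (1 - qTail P.K (P.qhat a s b v) l)) (s l) := by
  set lam := P.lamN a b v with hlam
  set V := P.ampN b v with hV
  set S : ℕ → Fin (N + k) → ℝ := fun n _ => s n with hS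
  set A : Fin (N + k) → ON (N + k) → ℝ := fun p U =>
    ampTail (glassNest P.K S V) (glassLeaf U) (quadLaw lam U) l (Sum.inl p) with hA
  have hAc : ∀ p, Continuous (A p) := fun p => by
    simp only [hA, ampTail, fun U => (sum_heatTop P.K lam S V U).2 p]
    exact continuous_const.sub (continuous_finsetSum _ fun j hj => continuous_const.mul
      (continuous_sqGrad_rot P.K lam S V (Finset.mem_Icc.1 hj).2 _))
  have hEA : ∀ p q, ∫ U, A p U ∂haarON (N + k) = ∫ U, A q U ∂haarON (N + k) := by
    intro p q
    have h : ∀ U, A p (U * (permON (Equiv.swap p q))⁻¹) = A q U := fun U => by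
      simp only [hA, ampTail, (sum_heatTop P.K lam S V _).2]
      congr 1
      refine sum_congr rfl fun j hj => ?_
      have ht := ((glass_transport P.K (lam := lam) (lam' := lam) (S := S) (S' := S) (V := V)
        (V' := V) (permON (Equiv.swap p q)) 1 U
        (Equiv.arrowCongr (Equiv.swap p q).symm (Equiv.refl Bool))
        (fun τ => by funext i; simp [permON_mulVec, spin, Equiv.arrowCongr])
        (fun i c h n => rfl) (fun i c h => by rw [one_entry h]; exact ⟨rfl, fun _ => rfl⟩)).2
        j (fun σ => spin σ q) (fun σ => spin σ p) (Finset.mem_Icc.1 hj).2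
        (fun σ => by simp [spin, Equiv.arrowCongr])).2
      rw [one_mul] at ht
      congr 1
      simp only [sqGrad_eq, coef, Sum.elim_inl]
      exact ht
    rw [← integral_mul_right_eq_self (μ := haarON (N + k)) (A p) (permON (Equiv.swap p q))⁻¹]
    simp only [h]
  have hdir : ∀ w : Fin (N + k) → ℝ,
      HasDerivAt (fun t : ℝ => meanFree P.K lam
          (fun n p => S n p + t * if n = l then w p else 0) V)
        (∑ p, w p * (s l * ∫ U, A p U ∂haarON (N + k))) 0 := by
    intro w
    have h := hasDerivAt_meanFree P.K lam (fun _ => (0:ℝ)) S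
      (fun n p => if n = l then w p else 0) V (fun _ _ => (0:ℝ))
    simp only [mul_zero, add_zero, zero_mul, Finset.sum_const_zero, zero_add] at h
    refine h.congr_deriv ?_
    have e : ∀ U, ∑ n ∈ range (P.K + 2), ∑ p, (if n = l then w p else 0) * S n p *
        ampTail (glassNest P.K S V) (glassLeaf U) (quadLaw lam U) n (Sum.inl p) =
        ∑ p, w p * (s l * A p U) := fun U => by
      rw [Finset.sum_eq_single l (fun n _ hn => sum_eq_zero fun p _ => by simp [hn])
        fun hn => absurd (mem_range.2 (by omega)) hn]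
      exact sum_congr rfl fun p _ => by simp [hA, hS, mul_assoc]
    simp only [e]
    rw [integral_finsetSum _ fun p _ =>
      ((integrable_of_cont' (hAc p)).const_mul (s l)).const_mul (w p)]
    exact sum_congr rfl fun p _ => by rw [integral_const_mul, integral_const_mul]
  -- all the spins
  have htot : ∀ p, ((N + k : ℕ) : ℝ) * (s l * ∫ U, A p U ∂haarON (N + k)) =
      ((N + k : ℕ) : ℝ) * s l * (1 - qTail P.K (P.qhat a s b v) l) := by
    intro p
    have hsp := hasDerivAt_spin P a s b v hl
    have e : (fun θ => P.free a (Function.update s l θ) b v) = fun θ => meanFree P.K lam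
        (fun n p => S n p + (θ - s l) * if n = l then (1:ℝ) else 0) V := by
      funext θ
      simp only [Par.free, Par.freeS, ← hlam, ← hV]
      congr 1
      funext n q
      by_cases hn : n = l
      · subst hn; simp [hS]
      · simp [hS, hn]
    rw [e] at hsp
    have h := hsp.unique (hasDerivAt_shift (c := s l) (hdir fun _ => 1))
    rw [h, sum_congr rfl fun q _ => by rw [one_mul, hEA q p], sum_const, card_univ,
      Fintype.card_fin, nsmul_eq_mul]
  set w : Fin (N + k) → ℝ := Fin.append (fun _ => 0) (fun _ => 1) with hw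
  have hnew : (fun θ => P.freeS a
      (addAmp s (Function.update (fun n (_ : Fin k) => s n) l fun _ => θ)) b v) =
      fun θ => meanFree P.K lam (fun n p => S n p + (θ - s l) * if n = l then w p else 0) V := by
    funext θ
    simp only [Par.freeS, ← hlam, ← hV]
    congr 1
    funext n q
    refine Fin.addCases (fun i => ?_) (fun i => ?_) q
    · simp [addAmp, hw, hS]
    · by_cases hn : n = l
      · subst hn; simp [addAmp, hw, hS]
      · simp [addAmp, hS, hn]
  rw [hnew]
  refine (hasDerivAt_shift (c := s l) (hdir w)).congr_deriv ?_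
  rw [Fin.sum_univ_add]
  simp only [hw, Fin.append_left, Fin.append_right, zero_mul, one_mul, sum_const_zero, zero_add]
  rcases Nat.eq_zero_or_pos k with rfl | hk
  · simp
  have hne : ((N + k : ℕ) : ℝ) ≠ 0 := Nat.cast_ne_zero.2 (by omega)
  have heach : ∀ p, s l * ∫ U, A p U ∂haarON (N + k) =
      s l * (1 - qTail P.K (P.qhat a s b v) l) := fun p =>
    mul_left_cancel₀ hne (by rw [htot p, mul_assoc])
  simp only [heach, sum_const, card_univ, Fintype.card_fin, nsmul_eq_mul]
  ring

end Vale.Agent.P166.Parisi
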