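import Vale.Agent.P166.Parisi.FrameCommon
import Vale.Agent.P166.Parisi.FrameGlass
import Vale.Agent.P166.Parisi.Symm
import Vale.Agent.P166.Parisi.FrameTrunc

/-!
The old system as the base system coupled to moved coordinates.
-/

namespace Vale.Agent.P166.Parisi.Frame

open MeasureTheory ProbabilityTheory Finset Filter Topology
open Vale.Agent.P157 Vale.Agent.P157.Parisi

variable {M : ℕ} [NeZero M]

/-- The cut-off coupling of the moved coordinates. -/
noncomputable def moveCut {N : ℕ} (R : ℝ) (a : Fin M → ℝ) (j : MoveIdx M → Fin N)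
    (τ : Fin 1 → Bool) (z : Fin N → ℝ) : ℝ :=
  ∑ x, quadCut R (a (topA M) - a x.1) 0 (spin τ 0 * z (j x))

theorem free_sandwich_move (P : Par) (hP : P.Ok) (a : Fin M → ℝ) (s : ℕ → ℝ) {N : ℕ}
    (b bB : Fin N → Fin M)
    (hcard : ∀ r, r ≠ topA M → (fiber bB r).card + (M - 1) = (fiber b r).card)
    (v : GBox M P.K → ℝ) (hv : InBox v) (j : MoveIdx M ↪ Fin N) (hj : ∀ x, bB (j x) = topA M) :
    let Φ := fun (κ : ℝ) (_ : Fin 1 → Bool) (z : Fin N → ℝ) =>
      ∑ x : MoveIdx M, shiftD P a v κ x.1 * z (j x) ^ 2 / 2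
    meanExt P.K (P.lamN a bB v) (fun l _ => s l) (P.ampN bB v) (fun _ _ => 0)
        (Φ (-(2 * (((P.K : ℝ) + 2) * (3 * P.eta) ^ 2)))) ≤ P.free a s b v ∧
      P.free a s b v ≤
        meanExt P.K (P.lamN a bB v) (fun l _ => s l) (P.ampN bB v) (fun _ _ => 0)
          (Φ (2 * (((P.K : ℝ) + 2) * (3 * P.eta) ^ 2))) := by
  classical
  intro Φ
  set b2 : Fin N → Fin M := Function.extend j (fun x => x.1.1) bB with hb2
  have hb2j : ∀ x, b2 (j x) = x.1.1 := fun x => j.injective.extend_apply _ _ _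
  have hb2o : ∀ p, (∀ x, j x ≠ p) → b2 p = bB p := fun p hp =>
    Function.extend_apply' _ _ _ fun ⟨x, hx⟩ => hp x hx
  have hall : ∀ r, (fiber b r).card = (fiber b2 r).card := fun r => (card_all (fun r hr => by
    rw [hb2, fiber_extend_card j _ bB hj hr, ← hcard r hr]
    congr 1
    have e : (univ.filter fun x : MoveIdx M => x.1.1 = r) =
        (univ : Finset (Fin (M - 1))).image fun i => (⟨r, hr⟩, i) := by
      ext ⟨⟨r', hr'⟩, i⟩
      simp [Prod.ext_iff, Subtype.ext_iff, eq_comm]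
    rw [e, card_image_of_injective _ fun i i' h => by simpa using h]
    simp) r).symm
  rw [Par.free, free_card P a (fun l _ => s l) hall v]
  set T : Finset (Fin N) := univ.filter fun p => b2 p ≠ bB p with hT
  have hTj : ∀ x, j x ∈ T := fun x => by
    simp [hT, hb2j, hj, x.1.2]
  have hTo : ∀ p, p ∈ T → ∃ x, j x = p := fun p hp => by
    by_contra h
    push Not at h
    simp [hT, hb2o p h] at hp
  have hlam : ∀ κ : ℝ, (fun p => P.lamN a b2 v p + if p ∈ T then κ else 0) =
      fun p => P.lamN a bB v p + ∑ x, if j x = p then shiftD P a v κ x.1 else 0 := by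
    intro κ
    funext p
    by_cases hp : ∀ x, j x ≠ p
    · have : p ∉ T := fun h => by obtain ⟨x, hx⟩ := hTo p h; exact hp x hx
      rw [if_neg this, sum_eq_zero (fun x _ => by simp [hp x])]
      simp [Par.lamN, hb2o p hp]
    · push Not at hp
      obtain ⟨x, rfl⟩ := hp
      rw [if_pos (hTj x)]
      simp only [j.injective.eq_iff, sum_ite_eq', mem_univ, if_true, Par.lamN, hb2j, hj, shiftD,
        if_neg x.1.2]
      ring
  have hbound : ∀ (q : Fin N → Fin M), ∀ p ∈ T, ∀ l, |P.ampN q v l p| ≤ 3 * P.eta :=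
    fun q p _ l => abs_etaV_le hP hv l _
  have hoff : ∀ l, ∀ p ∉ T, P.ampN bB v l p = P.ampN b2 v l p := fun l p hp => by
    simp only [hT, mem_filter, mem_univ, true_and, not_not] at hp
    simp [Par.ampN, hp]
  have hid : ∀ κ U, glassFree P.K (fun p => P.lamN a b2 v p + if p ∈ T then κ else 0)
      (fun l _ => s l) (P.ampN bB v) U =
      extFree P.K (P.lamN a bB v) (fun l _ => s l) (P.ampN bB v) (fun _ _ => 0) (Φ κ) U :=
    fun κ U => by
      rw [hlam κ]
      exact glass_to_ext_move P.K _ _ _ j (fun x => shiftD P a v κ x.1) U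
  have hΦc : ∀ κ τ, Continuous (Φ κ τ) := fun κ τ => by
    show Continuous fun z : Fin N → ℝ => ∑ x : MoveIdx M, shiftD P a v κ x.1 * z (j x) ^ 2 / 2
    fun_prop
  have hI : ∀ κ, Integrable (fun U => extFree P.K (P.lamN a bB v) (fun l _ => s l) (P.ampN bB v)
      (fun _ _ => 0) (Φ κ) U) (haarON N) := fun κ =>
    integrable_of_cont (continuous_extFree (m := 1) P.K _ _ _ _ (hΦc κ))
  have hG : Integrable (fun U => glassFree P.K (P.lamN a b2 v) (fun l _ => s l) (P.ampN b2 v) U)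
      (haarON N) :=
    integrable_of_cont (continuous_glass_rot P.K (P.lamN a b2 v) (fun l _ => s l) (P.ampN b2 v))
  unfold meanExt Par.freeS meanFree
  constructor
  · refine integral_mono (hI (-(2 * (((P.K : ℝ) + 2) * (3 * P.eta) ^ 2)))) hG fun U => ?_
    rw [← hid]
    have h := glass_field_swap P.K (fun p => P.lamN a b2 v p +
        if p ∈ T then -(2 * (((P.K : ℝ) + 2) * (3 * P.eta) ^ 2)) else 0) (fun l _ => s l)
      (P.ampN bB v) (P.ampN b2 v) T (hbound bB) (fun l p hp => (hoff l p hp).symm) U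
    refine h.trans_eq ?_
    congr 1
    funext p
    split_ifs <;> ring
  · refine integral_mono hG (hI (2 * (((P.K : ℝ) + 2) * (3 * P.eta) ^ 2))) fun U => ?_
    rw [← hid]
    exact glass_field_swap P.K _ (fun l _ => s l) (P.ampN b2 v) (P.ampN bB v) T (hbound b2) hoff U

/-- The old system against the base system with cut-off couplings. -/
theorem move_side {a : Fin M → ℝ} (ha : StrictMono a) {m : ℝ} (hm : 0 < m) (C : ℝ) {ε : ℝ}
    (hε : 0 < ε) :
    ∃ R₀ : ℝ, ∀ R, R₀ ≤ R → ∃ du₀ > 0, ∀ K L0 : ℕ, L0 < K →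
      m * ((K : ℝ) + 1) ≤ (L0 : ℝ) + 1 → ∀ du : ℝ, 0 < du → du ≤ du₀ → ∃ η₀ > 0,
      ∀ η : ℝ, 0 < η → η ≤ η₀ → ∀ P : Par, P = ⟨K, L0, du, η⟩ →
      ∀ᶠ N : ℕ in atTop, ∀ s : ℕ → ℝ, (∀ l, 1 ≤ l → l ≤ P.L0 → s l = 0) →
        ∀ (b bB : Fin N → Fin M), Bal C b →
          (∀ r, r ≠ topA M → (fiber bB r).card + (M - 1) = (fiber b r).card) →
          ∀ j : MoveIdx M ↪ Fin N, (∀ x, bB (j x) = topA M) →
          ∀ v : GBox M P.K → ℝ, InBox v →
            |P.free a s b v - meanExt P.K (P.lamN a bB v) (fun l _ => s l) (P.ampN bB v)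
              (fun _ _ => 0) (moveCut R a j)| ≤ ε := by
  obtain ⟨g, hg0, hg⟩ := exists_gap ha
  set A := 2 * (∑ r, |a r|) + 5 with hA
  have hA0 : 0 < A := by
    have : 0 ≤ ∑ r, |a r| := sum_nonneg fun _ _ => abs_nonneg _
    positivity
  set n := (Fintype.card (MoveIdx M) : ℝ) with hn
  set Jc := 12 * n ^ 2 * (M : ℝ) ^ 2 with hJc
  obtain ⟨r, Lc, hr, hL, htr⟩ := exists_trunc A Jc hm (show 0 < ε / 3 by positivity)
  have hcut : ∀ x : MoveIdx M, ∃ R₀ : ℝ, ∀ R, R₀ ≤ R → ∀ y, |y| ≤ r →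
      |quadCut R (a (topA M) - a x.1) 0 y - quadPsi (a (topA M) - a x.1) 0 y| ≤
        ε / (3 * (n + 1)) :=
    fun x => quadCut_close _ _ (by positivity)
  choose R₁ hR₁ using hcut
  refine ⟨1 + ∑ x, |R₁ x|, fun R hR => ?_⟩
  have hR0 : 0 < R := lt_of_lt_of_le (by positivity) hR
  refine ⟨min (min 1 (g / 5)) (ε / (15 * (n * r ^ 2 + 1))), by positivity,
    fun K L0 hKL hmK du hdu hdu' => ?_⟩
  refine ⟨min 1 (Real.sqrt (du / (18 * ((K : ℝ) + 2)))), by positivity,
    fun η hη hη' P hP => ?_⟩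
  subst hP
  simp only [le_min_iff] at hdu' hη'
  obtain ⟨⟨hdu1, hdug⟩, hdue⟩ := hdu'
  have hPok : (⟨K, L0, du, η⟩ : Par).Ok := ⟨hKL, hdu, hdu1, hη, hη'.1⟩
  set κ := 2 * (((K : ℝ) + 2) * (3 * η) ^ 2) with hκ
  have hκ0 : 0 ≤ κ := by positivity
  have hκdu : κ ≤ du := by
    have h := pow_le_pow_left₀ hη.le hη'.2 2
    rw [Real.sq_sqrt (by positivity), le_div_iff₀ (by positivity)] at h
    rw [hκ]; linarith
  have hm1 : m ≤ 1 := by
    have : (L0 : ℝ) + 1 ≤ (K : ℝ) + 1 := by
      have : (L0 : ℝ) ≤ K := by exact_mod_cast hKL.le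
      linarith
    nlinarith [(Nat.cast_nonneg K : (0 : ℝ) ≤ K)]
  refine (eventually_ge_atTop (1 + ⌈2 * (M : ℝ) * |C|⌉₊)).mono fun N hN s hs b bB hb hcard j hj v hv => ?_
  have hN0 : 0 < N := by omega
  have hNC : 2 * (M : ℝ) * |C| ≤ N :=
    (Nat.le_ceil _).trans (Nat.cast_le.2 (show ⌈2 * (M : ℝ) * |C|⌉₊ ≤ N by omega))
  have hbT : (N : ℝ) ≤ 2 * M * (fiber bB (topA M)).card := by
    refine (bal_half hb hNC (topA M)).trans (mul_le_mul_of_nonneg_left ?_ (by positivity))
    rw [card_top hcard]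
    push_cast
    exact le_add_of_nonneg_right (by positivity)
  obtain ⟨hlo, hup⟩ := free_sandwich_move ⟨K, L0, du, η⟩ hPok a s b bB hcard v hv j hj
  have key : ∀ κ' : ℝ, |κ'| ≤ du → |meanExt K (Par.lamN ⟨K, L0, du, η⟩ a bB v) (fun l _ => s l)
        (Par.ampN ⟨K, L0, du, η⟩ bB v) (fun _ (_ : Fin 1) => 0)
        (fun _ z => ∑ x : MoveIdx M, shiftD ⟨K, L0, du, η⟩ a v κ' x.1 * z (j x) ^ 2 / 2) -
      meanExt K (Par.lamN ⟨K, L0, du, η⟩ a bB v) (fun l _ => s l)
        (Par.ampN ⟨K, L0, du, η⟩ bB v) (fun _ _ => 0) (moveCut R a j)| ≤ ε := by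
    intro κ' hκ'
    have hb3 := fun r => shiftD_bounds (a := a) hPok hg hv (κ := κ') (by simp only; linarith)
      (hκ'.trans hdu1) r
    have he : ∀ x : MoveIdx M, 0 < a (topA M) - a x.1 := fun x => by linarith [hg _ x.1.2]
    have hcA : ∀ x : MoveIdx M, a (topA M) - a x.1 + 1 ≤ A := fun x => by
      have h1 := single_le_sum (f := fun r => |a r|) (fun _ _ => abs_nonneg _) (mem_univ x.1.1)
      have h2 := single_le_sum (f := fun r => |a r|) (fun _ _ => abs_nonneg _) (mem_univ (topA M))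
      have := le_abs_self (a (topA M))
      have := neg_abs_le (a x.1)
      linarith
    refine (meanExt_trunc ⟨K, L0, du, η⟩ hPok hm hm1 hmK a s hs (fun _ _ => 0)
      (fun _ _ _ => rfl) bB hN0 hbT (fun x => j x) hj v
      (Φ := fun _ z => ∑ x : MoveIdx M, shiftD ⟨K, L0, du, η⟩ a v κ' x.1 * z (j x) ^ 2 / 2)
      (Φ' := moveCut R a j) (fun _ => by fun_prop) (fun τ => continuous_finsetSum _ fun x _ =>
        (continuous_quadCut _ _ _).comp (by fun_prop))
      (C := A) (e₀ := ε / 3 + ε / 3) hA0.le (by positivity) hr hL ?_ ?_ ?_ ?_ ?_).trans ?_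
    · intro τ z
      refine le_trans (sum_nonpos fun x _ => ?_) hA0.le
      exact div_nonpos_of_nonpos_of_nonneg
        (mul_nonpos_of_nonpos_of_nonneg (hb3 _).1 (sq_nonneg _)) zero_le_two
    · intro τ z
      refine le_trans (sum_nonpos fun x _ => ?_) hA0.le
      exact (quadCut_bounds (he x) hR0 0 _).1.trans (by simp)
    · intro τ z
      rw [mul_add, mul_sum, neg_add, ← sum_neg_distrib]
      refine le_trans (add_le_of_nonpos_left (by linarith)) (sum_le_sum fun x _ => ?_)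
      have h := (abs_le.1 (hb3 x.1).2.1).1
      have := mul_le_mul_of_nonneg_right h (sq_nonneg (z (j x)))
      rw [← hA] at this
      have := mul_nonneg hA0.le (sq_nonneg (z (j x)))
      linarith
    · intro τ z
      rw [mul_add, mul_sum, neg_add, ← sum_neg_distrib]
      refine le_trans (add_le_of_nonpos_left (by linarith)) (sum_le_sum fun x _ => ?_)
      have h := (quadCut_bounds (he x) hR0 0 (spin τ 0 * z (j x))).2
      rw [mul_pow, spin_sq, one_mul] at h
      have := mul_le_mul_of_nonneg_right (hcA x) (sq_nonneg (z (j x)))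
      have := mul_nonneg hA0.le (sq_nonneg (z (j x)))
      linarith
    · intro τ z hz
      have hzx : ∀ x, z (j x) ^ 2 ≤ r ^ 2 := fun x =>
        (single_le_sum (f := fun x => z (j x) ^ 2) (fun _ _ => sq_nonneg _) (mem_univ x)).trans hz
      rw [moveCut, ← sum_sub_distrib]
      refine (abs_sum_le_sum_abs _ _).trans ?_
      refine (sum_le_card_nsmul _ _ (5 * du * r ^ 2 / 2 + ε / (3 * (n + 1))) fun x _ => ?_).trans ?_
      · set y := spin τ 0 * z (j x) with hy
        have hy2 : y ^ 2 = z (j x) ^ 2 := by rw [hy, mul_pow, spin_sq, one_mul]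
        have h1 := hR₁ x R (le_trans (by
          have := single_le_sum (f := fun x => |R₁ x|) (fun _ _ => abs_nonneg _) (mem_univ x)
          linarith [le_abs_self (R₁ x)]) hR) y (by
          rw [← abs_of_pos hr, ← sq_le_sq, hy2]; exact hzx x)
        have e : shiftD ⟨K, L0, du, η⟩ a v κ' x.1 * z (j x) ^ 2 / 2 -
            quadCut R (a (topA M) - a x.1) 0 y =
            (shiftD ⟨K, L0, du, η⟩ a v κ' x.1 - (a x.1 - a (topA M))) * z (j x) ^ 2 / 2 -
              (quadCut R (a (topA M) - a x.1) 0 y - quadPsi (a (topA M) - a x.1) 0 y) := by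
          rw [show quadPsi (a (topA M) - a x.1) 0 y = (a x.1 - a (topA M)) * z (j x) ^ 2 / 2 by
            rw [← hy2]; unfold quadPsi; ring]
          ring
        rw [e]
        refine (abs_sub _ _).trans (add_le_add ?_ h1)
        rw [abs_div, abs_mul, abs_two, abs_of_nonneg (sq_nonneg (z (j x)))]
        refine div_le_div_of_nonneg_right ?_ zero_le_two
        exact mul_le_mul ((hb3 x.1).2.2.trans (by simp only; linarith)) (hzx x) (sq_nonneg _)
          (by positivity)
      · rw [card_univ, nsmul_eq_mul, mul_add, ← hn]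
        refine add_le_add ?_ ?_
        · rw [le_div_iff₀ (by positivity)] at hdue
          have := mul_nonneg hdu.le (by norm_num : (0:ℝ) ≤ 15)
          nlinarith
        · rw [← mul_div_assoc, div_le_div_iff₀ (by positivity) (by norm_num)]
          nlinarith
    · rw [show (12 : ℝ) * (Fintype.card (MoveIdx M) : ℝ) ^ 2 * (M : ℝ) ^ 2 = Jc from rfl]
      unfold truncErr at htr
      linarith
  have h1 := abs_le.1 (key κ (by rwa [abs_of_nonneg hκ0]))
  have h2 := abs_le.1 (key (-κ) (by rwa [abs_neg, abs_of_nonneg hκ0]))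
  rw [abs_le]
  simp only [← hκ] at hlo hup ⊢
  constructor <;> linarith

end Vale.Agent.P166.Parisi.Frame
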