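import Vale.Agent.P166.Parisi.Tilt
import Vale.Agent.P166.Parisi.Basics
import Vale.Agent.P157.GaussLaw

/-!
The systems as recursions from finite log-sum-exponential leaves; linear maps of the coordinates
which preserve the covariances of the increments preserve the root.
-/

namespace Vale.Agent.P166.Parisi.Frame

open MeasureTheory ProbabilityTheory Finset
open Vale.Agent.P157 Vale.Agent.P157.Parisi

/-- `log ∑ w exp ⟨a, y⟩`. -/
noncomputable def expLog {Ω ι : Type} [Fintype Ω] [Fintype ι] (w : Ω → ℝ) (a : Ω → ι → ℝ)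
    (y : ι → ℝ) : ℝ :=
  Real.log (∑ ω, w ω * Real.exp (∑ i, a ω i * y i))

section expLog

variable {Ω ι : Type} [Fintype Ω] [Fintype ι] [Nonempty Ω] {w : Ω → ℝ} {a : Ω → ι → ℝ}

theorem expSum_pos (hw : ∀ ω, 0 < w ω) (y : ι → ℝ) :
    0 < ∑ ω, w ω * Real.exp (∑ i, a ω i * y i) :=
  sum_pos (fun ω _ => mul_pos (hw ω) (Real.exp_pos _)) univ_nonempty

theorem linGrowth_expLog (hw : ∀ ω, 0 < w ω) : LinGrowth (expLog w a) := by
  set A := ∑ ω, ∑ i, |a ω i|
  have hA : 0 ≤ A := sum_nonneg fun _ _ => sum_nonneg fun _ _ => abs_nonneg _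
  have hW : 0 < ∑ ω, w ω := sum_pos (fun ω _ => hw ω) univ_nonempty
  refine ⟨(continuous_finsetSum _ fun ω _ => continuous_const.mul
    (Real.continuous_exp.comp (by fun_prop))).log fun y => (expSum_pos hw y).ne',
    |Real.log (∑ ω, w ω)|, A, abs_nonneg _, hA, fun y => ?_⟩
  have hb : ∀ ω, |∑ i, a ω i * y i| ≤ A * l1 y := by
    intro ω
    refine (abs_sum_le_sum_abs _ _).trans ?_
    rw [l1, mul_sum]
    refine sum_le_sum fun i _ => ?_
    rw [abs_mul]
    refine mul_le_mul_of_nonneg_right ?_ (abs_nonneg _)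
    exact (single_le_sum (f := fun i => |a ω i|) (fun _ _ => abs_nonneg _) (mem_univ i)).trans
      (single_le_sum (f := fun ω => ∑ i, |a ω i|) (fun _ _ => sum_nonneg fun _ _ => abs_nonneg _)
        (mem_univ ω))
  have hu : ∑ ω, w ω * Real.exp (∑ i, a ω i * y i) ≤ (∑ ω, w ω) * Real.exp (A * l1 y) := by
    rw [sum_mul]
    exact sum_le_sum fun ω _ => mul_le_mul_of_nonneg_left
      (Real.exp_le_exp.2 (abs_le.1 (hb ω)).2) (hw ω).le
  have hl : (∑ ω, w ω) * Real.exp (-(A * l1 y)) ≤ ∑ ω, w ω * Real.exp (∑ i, a ω i * y i) := by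
    rw [sum_mul]
    exact sum_le_sum fun ω _ => mul_le_mul_of_nonneg_left
      (Real.exp_le_exp.2 (abs_le.1 (hb ω)).1) (hw ω).le
  have h1 := Real.log_le_log (expSum_pos hw y) hu
  have h2 := Real.log_le_log (mul_pos hW (Real.exp_pos _)) hl
  rw [Real.log_mul hW.ne' (Real.exp_ne_zero _), Real.log_exp] at h1 h2
  have := le_abs_self (Real.log (∑ ω, w ω))
  have := neg_abs_le (Real.log (∑ ω, w ω))
  rw [expLog, abs_le]
  constructor <;> linarith

theorem semi_expLog (hw : ∀ ω, 0 < w ω) : Semi (expLog w a) :=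
  Tilt.semi_of_lin (linGrowth_expLog hw)

/-- A linear leaf under a normalised finite law. -/
theorem logZ_dirac [MeasurableSpace Ω] [MeasurableSingletonClass Ω] (L : Leaf Ω Unit ι)
    (hφ : ∀ x, L.φ () x = x) (hw : ∀ ω, 0 < w ω) {Z : ℝ} (hZ : 0 < Z) (y : ι → ℝ) :
    L.logZ (∑ ω, ENNReal.ofReal (w ω / Z) • Measure.dirac ω) y =
      expLog w (fun ω i => L.a ω () i) y + -Real.log Z := by
  have e : ∀ ω, L.ham ω y = ∑ i, L.a ω () i * y i := fun ω => by
    simp [Leaf.ham, Leaf.loc, hφ]
  rw [Leaf.logZ, integral_finsetSum_measure]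
  · simp only [integral_smul_measure, integral_dirac, smul_eq_mul, e,
      ENNReal.toReal_ofReal (div_nonneg (hw _).le hZ.le), div_mul_eq_mul_div, ← sum_div]
    rw [Real.log_div (expSum_pos hw y).ne' hZ.ne']
    rfl
  · intro ω _
    exact (integrable_dirac (by simp)).smul_measure ENNReal.ofReal_ne_top

end expLog

variable {N m : ℕ}

/-- The weight of a configuration. -/
noncomputable def glassW (lam : Fin N → ℝ) (U : ON N) (σ : Fin N → Bool) : ℝ :=
  (1 / (2 : ℝ) ^ N) * Real.exp (1 / 2 * eng lam (U : Matrix (Fin N) (Fin N) ℝ) σ)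

/-- The coefficients of the fields. -/
noncomputable def glassA (U : ON N) (σ : Fin N → Bool) : FIdx N → ℝ :=
  Sum.elim (spin σ) (rotSpin U σ)

/-- The coefficients of the fields with extra spins. -/
noncomputable def extA (U : ON N) (ω : (Fin N → Bool) × (Fin m → Bool)) : FIdx N ⊕ Fin m → ℝ :=
  Sum.elim (glassA U ω.1) (spin ω.2)

theorem glassW_pos (lam : Fin N → ℝ) (U : ON N) (σ : Fin N → Bool) : 0 < glassW lam U σ := by
  unfold glassW; positivity

theorem extWeight_pos (lam : Fin N → ℝ) (Φ : (Fin m → Bool) → (Fin N → ℝ) → ℝ) (U : ON N)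
    (ω : (Fin N → Bool) × (Fin m → Bool)) : 0 < extWeight lam Φ U ω := by
  unfold extWeight; positivity

theorem glassFree_eq (K : ℕ) (lam : Fin N → ℝ) (S V : ℕ → Fin N → ℝ) (U : ON N) :
    glassFree K lam S V U = (glassNest K S V).root (expLog (glassW lam U) (glassA U)) := by
  have hq : quadPart lam U = ∑ σ, glassW lam U σ := by simp [quadPart, glassW, mul_sum]
  have hZ : 0 < quadPart lam U := hq ▸ sum_pos (fun σ _ => glassW_pos lam U σ) univ_nonempty
  have h : (glassLeaf U).logZ (quadLaw lam U) =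
      fun y => expLog (glassW lam U) (glassA U) y + -Real.log (quadPart lam U) :=
    funext fun y => logZ_dirac (glassLeaf U) (fun _ => rfl) (glassW_pos lam U) hZ y
  rw [glassFree, free_eq_root, h, root_add_const (glassNest_good K S V)
    (semi_expLog (glassW_pos lam U))]
  ring

theorem extFree_eq (K : ℕ) (lam : Fin N → ℝ) (S V : ℕ → Fin N → ℝ) (e : ℕ → Fin m → ℝ)
    (Φ : (Fin m → Bool) → (Fin N → ℝ) → ℝ) (U : ON N) :
    extFree K lam S V e Φ U = (extNest K S V e).root (expLog (extWeight lam Φ U) (extA U)) := by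
  have hZ : 0 < extPart lam Φ U := sum_pos (fun ω _ => extWeight_pos lam Φ U ω) univ_nonempty
  have h : (extLeaf m U).logZ (extLaw lam Φ U) =
      fun y => expLog (extWeight lam Φ U) (extA U) y + -Real.log (extPart lam Φ U) :=
    funext fun y => logZ_dirac (extLeaf m U) (fun _ => rfl) (extWeight_pos lam Φ U) hZ y
  rw [extFree, free_eq_root, h, root_add_const (extNest_good K S V e)
    (semi_expLog (extWeight_pos lam Φ U))]
  ring

section push

variable {ι ι' : Type} [Fintype ι] [Fintype ι'] [DecidableEq ι] {Nn : Nest ι} {N' : Nest ι'}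

/-- The image of the coordinates. -/
def lin (P : ι → ι' → ℝ) (y : ι' → ℝ) : ι → ℝ := fun i => ∑ j, P i j * y j

omit [Fintype ι] [DecidableEq ι] in
theorem continuous_lin (P : ι → ι' → ℝ) : Continuous (lin P) := by
  unfold lin; fun_prop

theorem integral_push (P : ι → ι' → ℝ) (c' : ι' → ℝ) (c : ι → ℝ)
    (hP : ∀ i k, ∑ j, P i j * P k j * c' j ^ 2 = if i = k then c i ^ 2 else 0)
    {F : (ι → ℝ) → ℝ} (hF : Continuous F) :
    ∫ z, F (lin P fun j => c' j * z j) ∂gauss ι' = ∫ z, F (fun i => c i * z i) ∂gauss ι := by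
  have h := map_gauss_eq (fun i j => P i j * c' j) (fun i k => if i = k then c i else 0)
    (fun s => by
      have e1 : ∀ j, (∑ l, s l * (P l j * c' j)) ^ 2 =
          ∑ i, ∑ k, s i * s k * (P i j * P k j * c' j ^ 2) := fun j => by
        rw [pow_two, sum_mul_sum]
        exact sum_congr rfl fun i _ => sum_congr rfl fun k _ => by ring
      simp only [e1]
      rw [sum_comm]
      refine sum_congr rfl fun i _ => ?_
      rw [sum_comm]
      simp only [← mul_sum, hP]
      simp only [mul_ite, mul_zero, sum_ite_eq, mem_univ, if_true, Finset.sum_ite_eq']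
      ring)
  have h2 := congrArg (fun ν => ∫ x, F x ∂ν) h
  rw [integral_map (Measurable.aemeasurable (by fun_prop)) hF.aestronglyMeasurable,
    integral_map (Measurable.aemeasurable (by fun_prop)) hF.aestronglyMeasurable] at h2
  refine Eq.trans ?_ (h2.trans ?_)
  · refine integral_congr_ae (.of_forall fun z => congrArg F (funext fun i => ?_))
    exact sum_congr rfl fun j _ => by ring
  · refine integral_congr_ae (.of_forall fun z => congrArg F (funext fun i => ?_))
    simp [mul_comm]

/-- Linear maps of the coordinates preserving the covariances preserve the root. -/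
theorem root_push (hN : Nn.Good) (hK : N'.K = Nn.K) (hx : N'.x = Nn.x) (P : ι → ι' → ℝ)
    (hP : ∀ l, l ≤ Nn.K → ∀ i k,
      ∑ j, P i j * P k j * N'.amp l j ^ 2 = if i = k then Nn.amp l i ^ 2 else 0)
    {U : (ι → ℝ) → ℝ} (hU : Semi U) :
    N'.root (fun y => U (lin P y)) = Nn.root U := by
  have hmove : ∀ l y z, lin P (move (N'.amp l) y z) =
      fun i => lin P y i + lin P (fun j => N'.amp l j * z j) i := fun l y z => funext fun i => by
    simp only [lin, move, ← sum_add_distrib, mul_add]
  have hu : ∀ l, l ≤ Nn.K → ∀ y,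
      N'.u (fun y => U (lin P y)) l y = Nn.u U l (lin P y) := by
    intro l hl
    induction hl using Nat.decreasingInduction with
    | self =>
      intro y
      rw [u_top (N := Nn) le_rfl, ← hK, u_top (N := N') le_rfl]
    | of_succ l hl ih =>
      intro y
      rw [u_succ (N := Nn) hl, u_succ (N := N') (hK ▸ hl), hx]
      simp only [stepLog, ih, hmove]
      rw [integral_push P (N'.amp (l + 1)) (Nn.amp (l + 1)) (hP _ hl)
        (F := fun w => Real.exp (Nn.x (l + 1) * Nn.u U (l + 1) (fun i => lin P y i + w i)))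
        (Real.continuous_exp.comp (continuous_const.mul ((semi_u hN hU hl).1.comp (by fun_prop))))]
      rfl
  simp only [Nest.root, Nest.mean, hu 0 (Nat.zero_le _)]
  exact integral_push P (N'.amp 0) (Nn.amp 0) (hP 0 (Nat.zero_le _)) (semi_u hN hU (Nat.zero_le _)).1

end push

theorem extPart_add_const (lam : Fin N → ℝ) (Φ : (Fin m → Bool) → (Fin N → ℝ) → ℝ) (c : ℝ)
    (U : ON N) (ω : (Fin N → Bool) × (Fin m → Bool)) :
    extWeight lam (fun τ z => Φ τ z + c) U ω = Real.exp c * extWeight lam Φ U ω := by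
  simp only [extWeight]
  rw [← add_assoc, Real.exp_add]
  ring

theorem meanExt_add_const (K : ℕ) (lam : Fin N → ℝ) (S V : ℕ → Fin N → ℝ) (e : ℕ → Fin m → ℝ)
    {Φ : (Fin m → Bool) → (Fin N → ℝ) → ℝ} (hΦ : ∀ τ, Continuous (Φ τ)) (c : ℝ) :
    meanExt K lam S V e (fun τ z => Φ τ z + c) = meanExt K lam S V e Φ + c := by
  have h : ∀ U, extFree K lam S V e (fun τ z => Φ τ z + c) U = extFree K lam S V e Φ U + c := by
    intro U
    have e1 : expLog (extWeight lam (fun τ z => Φ τ z + c) U) (extA U) =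
        fun y => expLog (extWeight lam Φ U) (extA U) y + c := funext fun y => by
      simp only [expLog, extPart_add_const, mul_assoc, ← mul_sum]
      rw [Real.log_mul (Real.exp_ne_zero _) (expSum_pos (extWeight_pos lam Φ U) y).ne',
        Real.log_exp]
      ring
    rw [extFree_eq, extFree_eq, e1, root_add_const (extNest_good K S V e)
      (semi_expLog (extWeight_pos lam Φ U))]
  simp only [meanExt, h]
  rw [integral_add (integrable_of_cont (continuous_extFree K lam S V e hΦ)) (integrable_const c)]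
  simp

end Vale.Agent.P166.Parisi.Frame
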