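import Vale.Agent.P166.Parisi.FrameCommon
import Vale.Agent.P166.Parisi.FrameGlass
import Vale.Agent.P166.Parisi.Symm

/-!
The enlarged system, conditionally on the frame of the new spins.
-/

namespace Vale.Agent.P166.Parisi.Frame

open MeasureTheory ProbabilityTheory Finset Matrix
open Vale.Agent.P157 Vale.Agent.P157.Parisi

variable {M N : ℕ} [NeZero M]

/-- The atoms of the enlarged system. -/
noncomputable def newAtoms (bB : Fin N → Fin M) (j : NewIdx M ↪ Fin N)
    (σe : Fin M × Fin M ≃ NewIdx M ⊕ Fin M) : Fin (N + M) → Fin M :=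
  Function.extend (newPos j) (fun x => (σe.symm x).1) (Fin.append bB fun _ => topA M)

/-- The Gram matrix of the new columns in atom `r`. -/
noncomputable def gram (b : Fin (N + M) → Fin M) (U : ON (N + M)) (r c c' : Fin M) : ℝ :=
  ∑ p ∈ fiber b r, (U : Matrix (Fin (N + M)) (Fin (N + M)) ℝ) p (Fin.natAdd N c) *
    (U : Matrix (Fin (N + M)) (Fin (N + M)) ℝ) p (Fin.natAdd N c')

/-- The fields of the new spins after the rotation. -/
noncomputable def newAmp (P : Par) (v : GBox M P.K → ℝ) (e : ℕ → Fin M → ℝ) (l : ℕ) (c : Fin M) :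
    ℝ :=
  Real.sqrt (e l c ^ 2 + P.etaV v l (topA M) ^ 2)

/-- The coupling of the new spins in the frame `A`. -/
noncomputable def newPhi (P : Par) (a : Fin M → ℝ) (v : GBox M P.K → ℝ) (κ : ℝ)
    (A : Matrix (Fin M × Fin M) (NewIdx M ⊕ Fin M) ℝ) (j : NewIdx M → Fin N) (τ : Fin M → Bool)
    (z : Fin N → ℝ) : ℝ :=
  quadE (shiftD P a v κ) (P.lamV a v (topA M) / 2 * M) A τ fun x => z (j x)

theorem continuous_newPhi (P : Par) (a : Fin M → ℝ) (v : GBox M P.K → ℝ) (κ : ℝ)
    (A : Matrix (Fin M × Fin M) (NewIdx M ⊕ Fin M) ℝ) (j : NewIdx M → Fin N) (τ : Fin M → Bool) :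
    Continuous (newPhi P a v κ A j τ) :=
  (continuous_quadE _ _ _ _).comp (continuous_pi fun x => continuous_apply (j x))

theorem frame_sandwich (P : Par) (hP : P.Ok) (a : Fin M → ℝ) (s : ℕ → ℝ) (e : ℕ → Fin M → ℝ)
    (bB : Fin N → Fin M) (j : NewIdx M ↪ Fin N) (hj : ∀ x, bB (j x) = topA M)
    (σe : Fin M × Fin M ≃ NewIdx M ⊕ Fin M) (v : GBox M P.K → ℝ) (hv : InBox v)
    {A : Matrix (Fin M × Fin M) (NewIdx M ⊕ Fin M) ℝ} (hA : Aᵀ * A = 1) (Q : ON (N + M))
    (hin : ∀ x y, (Q : Matrix (Fin (N + M)) (Fin (N + M)) ℝ) (newPos j x) (newPos j y) =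
      A (σe.symm x) y)
    (hout : ∀ p q, ((∀ x, newPos j x ≠ p) ∨ ∀ x, newPos j x ≠ q) →
      (Q : Matrix (Fin (N + M)) (Fin (N + M)) ℝ) p q = if p = q then 1 else 0) (W : ON N) :
    extFree P.K (P.lamN a bB v) (fun l _ => s l) (P.ampN bB v) (newAmp P v e)
        (newPhi P a v (-(2 * (((P.K : ℝ) + 2) * (3 * P.eta) ^ 2))) A j) W ≤
      glassFree P.K (P.lamN a (newAtoms bB j σe) v) (addAmp s e) (P.ampN (newAtoms bB j σe) v)
        (Q * embON M W) ∧
    glassFree P.K (P.lamN a (newAtoms bB j σe) v) (addAmp s e) (P.ampN (newAtoms bB j σe) v)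
        (Q * embON M W) ≤
      extFree P.K (P.lamN a bB v) (fun l _ => s l) (P.ampN bB v) (newAmp P v e)
        (newPhi P a v (2 * (((P.K : ℝ) + 2) * (3 * P.eta) ^ 2)) A j) W := by
  classical
  set b2 := newAtoms bB j σe with hb2
  set b0 : Fin (N + M) → Fin M := Fin.append bB fun _ => topA M with hb0
  have hb0g : ∀ x, b0 (newPos j x) = topA M := by
    rintro (x | c) <;> simp [b0, Fin.append_left, Fin.append_right, hj]
  have hb2g : ∀ x, b2 (newPos j x) = (σe.symm x).1 := fun x =>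
    (newPos j).injective.extend_apply _ _ _
  have hb2o : ∀ p, (∀ x, newPos j x ≠ p) → b2 p = b0 p := fun p hp =>
    Function.extend_apply' _ _ _ fun ⟨x, hx⟩ => hp x hx
  set T : Finset (Fin (N + M)) := univ.filter fun p => b2 p ≠ b0 p with hT
  set V' : ℕ → Fin (N + M) → ℝ := fun l => Fin.append (P.ampN bB v l) fun _ => P.etaV v l (topA M)
    with hV'
  have hV'eq : V' = P.ampN b0 v := by
    funext l p
    refine Fin.addCases (fun i => ?_) (fun i => ?_) p <;>
      simp [V', b0, Par.ampN, Fin.append_left, Fin.append_right]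
  have hbound : ∀ (q : Fin (N + M) → Fin M), ∀ p ∈ T, ∀ l, |P.ampN q v l p| ≤ 3 * P.eta :=
    fun q p _ l => abs_etaV_le hP hv l _
  have hoff : ∀ l, ∀ p ∉ T, P.ampN b0 v l p = P.ampN b2 v l p := fun l p hp => by
    simp only [hT, mem_filter, mem_univ, true_and, not_not] at hp
    simp [Par.ampN, hp]
  have hid : ∀ κ : ℝ, glassFree P.K (fun p => P.lamN a b2 v p + if p ∈ T then κ else 0)
      (addAmp s e) V' (Q * embON M W) =
      extFree P.K (P.lamN a bB v) (fun l _ => s l) (P.ampN bB v) (newAmp P v e)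
        (newPhi P a v κ A j) W := by
    intro κ
    refine glass_to_ext P.K (P.lamN a bB v) (P.lamV a v (topA M)) (fun l _ => s l) (P.ampN bB v) e
      (fun l => P.etaV v l (topA M)) j (fun x => by simp [Par.lamN, hj])
      (fun l x => by simp [Par.ampN, hj]) σe hA Q hin hout (shiftD P a v κ) _ ?_ ?_ W
    · intro x
      simp only [hT, mem_filter, mem_univ, true_and, hb2g, hb0g, Par.lamN, shiftD]
      by_cases hr : (σe.symm x).1 = topA M
      · simp [hr]
      · simp [hr]
    · intro p hp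
      have h : p ∉ T := by simp [hT, hb2o p hp]
      rw [if_neg h, add_zero, Par.lamN, hb2o p hp]
      refine Fin.addCases (fun i => ?_) (fun i => ?_) p <;>
        simp [b0, Fin.append_left, Fin.append_right, Par.lamN]
  rw [← hid, ← hid, hV'eq]
  constructor
  · have h := glass_field_swap P.K (fun p => P.lamN a b2 v p +
        if p ∈ T then -(2 * (((P.K : ℝ) + 2) * (3 * P.eta) ^ 2)) else 0) (addAmp s e)
      (P.ampN b0 v) (P.ampN b2 v) T (hbound b0) (fun l p hp => (hoff l p hp).symm) (Q * embON M W)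
    refine h.trans_eq ?_
    congr 1
    funext p
    split_ifs <;> ring
  · exact glass_field_swap P.K _ (addAmp s e) (P.ampN b2 v) (P.ampN b0 v) T (hbound b2) hoff _

/-- For each frame of the new columns, the enlarged system lies between coupled systems. -/
theorem exists_frame (P : Par) (hP : P.Ok) (a : Fin M → ℝ) (s : ℕ → ℝ) (e : ℕ → Fin M → ℝ)
    (bB : Fin N → Fin M) (j : NewIdx M ↪ Fin N) (hj : ∀ x, bB (j x) = topA M)
    (σe : Fin M × Fin M ≃ NewIdx M ⊕ Fin M) (v : GBox M P.K → ℝ) (hv : InBox v)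
    (Q₀ : Matrix (Fin M × Fin M) (NewIdx M ⊕ Fin M) ℝ)
    (hQ₀ : ∀ p c, Q₀ p (Sum.inr c) = if p.2 = c then 1 / Real.sqrt M else 0) {δ δ' : ℝ}
    (hcomp : ∀ S : Matrix (Fin M × Fin M) (Fin M) ℝ, Sᵀ * S = 1 →
      ∃ A : Matrix (Fin M × Fin M) (NewIdx M ⊕ Fin M) ℝ, Aᵀ * A = 1 ∧ A * Aᵀ = 1 ∧
        (∀ p c, A p (Sum.inr c) = S p c) ∧
        ((∀ p c, |S p c - Q₀ p (Sum.inr c)| ≤ δ') → ∀ p x, |A p x - Q₀ p x| ≤ δ))
    (U : ON (N + M)) :
    ∃ A : Matrix (Fin M × Fin M) (NewIdx M ⊕ Fin M) ℝ, Aᵀ * A = 1 ∧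
      ((∀ r c c', |gram (newAtoms bB j σe) U r c c' - if c = c' then 1 / (M : ℝ) else 0| ≤
          δ' / (M : ℝ) ^ 2) → ∀ p x, |A p x - Q₀ p x| ≤ δ) ∧
      meanExt P.K (P.lamN a bB v) (fun l _ => s l) (P.ampN bB v) (newAmp P v e)
          (newPhi P a v (-(2 * (((P.K : ℝ) + 2) * (3 * P.eta) ^ 2))) A j) ≤
        ∫ W, glassFree P.K (P.lamN a (newAtoms bB j σe) v) (addAmp s e)
          (P.ampN (newAtoms bB j σe) v) (U * embON M W) ∂haarON N ∧
      ∫ W, glassFree P.K (P.lamN a (newAtoms bB j σe) v) (addAmp s e)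
          (P.ampN (newAtoms bB j σe) v) (U * embON M W) ∂haarON N ≤
        meanExt P.K (P.lamN a bB v) (fun l _ => s l) (P.ampN bB v) (newAmp P v e)
          (newPhi P a v (2 * (((P.K : ℝ) + 2) * (3 * P.eta) ^ 2)) A j) := by
  classical
  set b2 := newAtoms bB j σe with hb2
  set g := newPos j
  set pos : Fin M → Fin M → Fin (N + M) := fun r k => g (σe (r, k)) with hposdef
  have hpos : ∀ r k, b2 (pos r k) = r := fun r k => by
    simp only [hb2, newAtoms, pos]
    rw [(newPos j).injective.extend_apply]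
    simp
  have hinj : ∀ r, Function.Injective (pos r) := fun r k k' h => by
    simpa [pos] using h
  obtain ⟨R, S, hR, hS, hval, hzero⟩ := exists_atom_rotate b2 pos hpos hinj
    (Matrix.of fun p c => (U : Matrix (Fin (N + M)) (Fin (N + M)) ℝ) p (Fin.natAdd N c))
  set St : Matrix (Fin M × Fin M) (Fin M) ℝ := Matrix.of fun p c => S p.1 p.2 c with hSt
  have hsym : ∀ r i c, S r i c = S r c i := fun r i c => by
    simpa using congrFun (congrFun (hS r).1.isHermitian.symm i) c
  have hgram : ∀ r c c', (S r * S r) c c' = gram b2 U r c c' := fun r c c' => (hS r).2 c c'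
  have hStorth : Stᵀ * St = 1 := by
    ext c c'
    rw [Matrix.mul_apply, Matrix.one_apply, Fintype.sum_prod_type]
    simp only [Matrix.transpose_apply, hSt, Matrix.of_apply]
    have h1 : ∀ r, ∑ k, S r k c * S r k c' = gram b2 U r c c' := fun r => by
      rw [← hgram, Matrix.mul_apply]
      exact sum_congr rfl fun k _ => by rw [hsym r k c]
    simp only [h1, gram, fiber]
    rw [sum_fiberwise]
    have := congrFun (congrFun ((mem_orthogonalGroup_iff' _ _).1 U.2) (Fin.natAdd N c))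
      (Fin.natAdd N c')
    simpa [Matrix.mul_apply, Matrix.one_apply] using this
  obtain ⟨A, hA, -, hAS, hclose⟩ := hcomp St hStorth
  have hAg : (Matrix.of fun x y => A (σe.symm x) y)ᵀ * (Matrix.of fun x y => A (σe.symm x) y) = 1 := by
    rw [← hA]
    ext y y'
    simp only [Matrix.mul_apply, Matrix.transpose_apply, Matrix.of_apply]
    exact σe.symm.sum_comp (fun p => A p y * A p y')
  obtain ⟨Q, hQin, hQout⟩ := exists_lift g _ hAg
  have hcol : ∀ p c, ((R * U : ON (N + M)) : Matrix (Fin (N + M)) (Fin (N + M)) ℝ) p (Fin.natAdd N c) =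
      (Q : Matrix (Fin (N + M)) (Fin (N + M)) ℝ) p (Fin.natAdd N c) := by
    intro p c
    have hnat : Fin.natAdd N c = g (Sum.inr c) := rfl
    have hRU : ((R * U : ON (N + M)) : Matrix (Fin (N + M)) (Fin (N + M)) ℝ) p (Fin.natAdd N c) =
        ((R : Matrix (Fin (N + M)) (Fin (N + M)) ℝ) * Matrix.of fun p c =>
          (U : Matrix (Fin (N + M)) (Fin (N + M)) ℝ) p (Fin.natAdd N c)) p c := by
      simp [Matrix.mul_apply]
    rw [hRU]
    by_cases hp : ∀ x, g x ≠ p
    · rw [hzero p c fun r i => hp _, hQout p _ (Or.inl hp), hnat,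
        if_neg fun h => hp _ h.symm]
    · push Not at hp
      obtain ⟨x, rfl⟩ := hp
      have e1 : g x = pos (σe.symm x).1 (σe.symm x).2 := by simp [pos]
      conv_lhs => rw [e1]
      rw [hval, hnat, hQin, Matrix.of_apply, hAS]
      rfl
  obtain ⟨O, hO⟩ := exists_eq_mul_embON (R * U) Q hcol
  refine ⟨A, hA, fun hG => hclose fun p c => ?_, ?_⟩
  · obtain ⟨r, k⟩ := p
    rw [hQ₀, hSt, Matrix.of_apply]
    show |S r k c - if k = c then 1 / Real.sqrt M else 0| ≤ δ'
    have hM : (0 : ℝ) < M := Nat.cast_pos.2 (Nat.pos_of_ne_zero (NeZero.ne M))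
    have hM1 : (1 : ℝ) ≤ M := Nat.one_le_cast.2 (Nat.pos_of_ne_zero (NeZero.ne M))
    set q := Real.sqrt M with hq
    have hq1 : 1 ≤ q := by rw [hq, Real.one_le_sqrt]; exact hM1
    have hqq : q * q = M := Real.mul_self_sqrt hM.le
    have hd0 : 0 ≤ δ' / (M : ℝ) ^ 2 := (abs_nonneg _).trans (hG r c c)
    have hδ : 0 ≤ δ' := by
      rwa [le_div_iff₀ (by positivity), zero_mul] at hd0
    have h := psd_close_one ((hS r).1.smul (show 0 ≤ q by positivity))
    have hb : ∑ i, ∑ i', (((q • S r) * (q • S r)) i i' - if i = i' then 1 else 0) ^ 2 ≤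
        ((M : ℝ) * M) * ((M : ℝ) * (δ' / (M : ℝ) ^ 2)) ^ 2 := by
      refine (sum_le_card_nsmul _ _ ((M : ℝ) * ((M : ℝ) * (δ' / (M : ℝ) ^ 2)) ^ 2)
        fun i _ => ?_).trans_eq (by simp; ring)
      refine (sum_le_card_nsmul _ _ (((M : ℝ) * (δ' / (M : ℝ) ^ 2)) ^ 2)
        fun i' _ => ?_).trans_eq (by simp)
      rw [Matrix.smul_mul, Matrix.mul_smul, smul_smul, hqq, Matrix.smul_apply, smul_eq_mul, hgram,
        ← sq_abs]
      refine pow_le_pow_left₀ (abs_nonneg _) ?_ 2
      have e : (M : ℝ) * gram b2 U r i i' - (if i = i' then 1 else 0) =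
          (M : ℝ) * (gram b2 U r i i' - if i = i' then 1 / (M : ℝ) else 0) := by
        split_ifs <;> first | (field_simp; done) | (field_simp; ring)
      rw [e, abs_mul, abs_of_pos hM]
      exact mul_le_mul_of_nonneg_left (hG r i i') hM.le
    have h2 : ((q • S r) k c - if k = c then 1 else 0) ^ 2 ≤ δ' ^ 2 := by
      refine ((single_le_sum (f := fun i' => ((q • S r) k i' - if k = i' then 1 else 0) ^ 2)
        (fun _ _ => sq_nonneg _) (mem_univ c)).trans (single_le_sum (f := fun i =>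
        ∑ i', ((q • S r) i i' - if i = i' then 1 else 0) ^ 2)
        (fun _ _ => sum_nonneg fun _ _ => sq_nonneg _) (mem_univ k))).trans ((h.trans hb).trans_eq ?_)
      field_simp
    rw [Matrix.smul_apply, smul_eq_mul] at h2
    have h3 : |q * S r k c - if k = c then 1 else 0| ≤ δ' := abs_le_of_sq_le_sq h2 hδ
    have e : q * (S r k c - if k = c then 1 / q else 0) =
        q * S r k c - if k = c then 1 else 0 := by
      split_ifs <;> first | (field_simp; done) | (field_simp; ring)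
    rw [← e, abs_mul, abs_of_nonneg (by positivity : 0 ≤ q)] at h3
    exact le_trans (le_mul_of_one_le_left (abs_nonneg _) hq1) h3
  · have hlamR : ∀ p q, (R : Matrix (Fin (N + M)) (Fin (N + M)) ℝ) p q ≠ 0 →
        P.lamN a b2 v p = P.lamN a b2 v q ∧ ∀ l, P.ampN b2 v l p = P.ampN b2 v l q := fun p q h => by
      simp [Par.lamN, Par.ampN, hR p q h]
    set F : ON N → ℝ := fun W => glassFree P.K (P.lamN a b2 v) (addAmp s e) (P.ampN b2 v)
      (Q * embON M W) with hF
    have hFc : Continuous F := (continuous_glass_rot _ _ _ _).comp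
      (continuous_const.mul (continuous_embON M))
    have heq : ∫ W, glassFree P.K (P.lamN a b2 v) (addAmp s e) (P.ampN b2 v) (U * embON M W)
        ∂haarON N = ∫ W, F W ∂haarON N := by
      have h1 : ∀ W, glassFree P.K (P.lamN a b2 v) (addAmp s e) (P.ampN b2 v) (U * embON M W) =
          F (O * W) := fun W => by
        rw [← glassFree_rot P.K _ _ _ R _ hlamR, ← mul_assoc, hO, mul_assoc, ← coe_embON_mul]
      simp only [h1]
      exact integral_mul_left_eq_self F O
    rw [heq]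
    have hsw := fun W => frame_sandwich P hP a s e bB j hj σe v hv hA Q
      (fun x y => by rw [hQin, Matrix.of_apply]) hQout W
    have hI : ∀ κ, Integrable (fun W => extFree P.K (P.lamN a bB v) (fun l _ => s l)
        (P.ampN bB v) (newAmp P v e) (newPhi P a v κ A j) W) (haarON N) := fun κ =>
      integrable_of_cont (continuous_extFree P.K _ _ _ _ (continuous_newPhi P a v κ A j))
    unfold meanExt
    exact ⟨integral_mono (hI _) (integrable_of_cont hFc) fun W => (hsw W).1,
      integral_mono (integrable_of_cont hFc) (hI _) fun W => (hsw W).2⟩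

end Vale.Agent.P166.Parisi.Frame
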