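import Vale.Agent.P166.Parisi.Basics.Glass
import Vale.Agent.P157.Parisi.CalcAmpCont

/-!
Comparison of two couplings of the extra spins: the difference of the free energies is at most a
multiple of the averaged node value of the difference of the couplings in the uncoupled system.
-/

namespace Vale.Agent.P166.Parisi

open MeasureTheory ProbabilityTheory Finset
open Vale.Agent.P157 Vale.Agent.P157.Parisi

namespace GaussExact

section recursion

variable {ι : Type} [Fintype ι]

lemma stepLog_add_const {u : (ι → ℝ) → ℝ} (hu : LinGrowth u) {m : ℝ} (hm : m ≠ 0) (s : ι → ℝ)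
    (c : ℝ) (y : ι → ℝ) : stepLog m s (fun w => u w + c) y = stepLog m s u y + c := by
  simp only [stepLog, mul_add, Real.exp_add, integral_mul_const]
  rw [Real.log_mul (stepDen_pos hu m s y).ne' (Real.exp_ne_zero _), Real.log_exp, mul_add,
    ← mul_assoc, inv_mul_cancel₀ hm, one_mul]

lemma linGrowth_add_const {u : (ι → ℝ) → ℝ} (hu : LinGrowth u) (c : ℝ) :
    LinGrowth fun w => u w + c := by
  obtain ⟨hc, C, k, hC, hk, h⟩ := hu
  exact ⟨hc.add continuous_const, C + |c|, k, by positivity, hk, fun y =>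
    (abs_add_le _ _).trans (by linarith [h y])⟩

lemma stepLog_le_add {u v : (ι → ℝ) → ℝ} (hu : LinGrowth u) (hv : LinGrowth v) {m : ℝ}
    (hm : 0 < m) (s : ι → ℝ) {C : ℝ} (h : ∀ w, u w ≤ v w + C) (y : ι → ℝ) :
    stepLog m s u y ≤ stepLog m s v y + C :=
  (stepLog_mono s hu (linGrowth_add_const hv C) hm h y).trans_eq
    (stepLog_add_const hv hm.ne' s C y)

lemma stepLog_compare {u0 u1 u2 G : (ι → ℝ) → ℝ} (h0 : LinGrowth u0) (h1 : LinGrowth u1)
    (h2 : LinGrowth u2) (hG : Tame G) (hG0 : ∀ w, 0 ≤ G w) {m C : ℝ} (hm : 0 < m) (hm1 : m ≤ 1)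
    (hC : 0 ≤ C) (c1 : ∀ w, |u1 w - u0 w| ≤ C) (c2 : ∀ w, |u2 w - u0 w| ≤ C)
    (hd : ∀ w, u2 w ≤ u1 w + G w) (s y : ι → ℝ) :
    stepLog m s u2 y ≤ stepLog m s u1 y + Real.exp (4 * C) * stepAvg m s u0 G y := by
  set E0 := ∫ z, Real.exp (m * u0 (move s y z)) ∂gauss ι with hE0
  set E1 := ∫ z, Real.exp (m * u1 (move s y z)) ∂gauss ι with hE1
  set E2 := ∫ z, Real.exp (m * u2 (move s y z)) ∂gauss ι with hE2
  set I0 := ∫ z, Real.exp (m * u0 (move s y z)) * G (move s y z) ∂gauss ι with hI0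
  have p0 : 0 < E0 := stepDen_pos h0 m s y
  have p1 : 0 < E1 := stepDen_pos h1 m s y
  have p2 : 0 < E2 := stepDen_pos h2 m s y
  have i0 := integrable_exp_move h0 m s y
  have i1 := integrable_exp_move h1 m s y
  have i2 := integrable_exp_move h2 m s y
  have iG : Integrable (fun z => Real.exp (m * u0 (move s y z)) * G (move s y z)) (gauss ι) :=
    (((h0.exp_tame m).mul hG).comp_move s y).integrable
  have hI : 0 ≤ I0 := integral_nonneg fun z => mul_nonneg (Real.exp_pos _).le (hG0 _)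
  have hpt : ∀ w, Real.exp (m * u2 w) ≤
      Real.exp (m * u1 w) + Real.exp (3 * C) * m * (Real.exp (m * u0 w) * G w) := by
    intro w
    set d := u2 w - u1 w with hd'
    have a1 := abs_le.1 (c1 w)
    have a2 := abs_le.1 (c2 w)
    have e2 : Real.exp (m * u2 w) = Real.exp (m * u1 w) * Real.exp (m * d) := by
      rw [← Real.exp_add, hd']; ring_nf
    have e1 : Real.exp (m * u1 w) ≤ Real.exp C * Real.exp (m * u0 w) := by
      rw [← Real.exp_add]
      refine Real.exp_le_exp.2 ?_
      nlinarith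
    have e3 : Real.exp (m * d) ≤ 1 + m * G w * Real.exp (2 * C) := by
      rcases le_or_gt d 0 with hdn | hdp
      · have : Real.exp (m * d) ≤ 1 := Real.exp_le_one_iff.2 (by nlinarith)
        have : 0 ≤ m * G w * Real.exp (2 * C) :=
          mul_nonneg (mul_nonneg hm.le (hG0 w)) (Real.exp_pos _).le
        linarith
      · have k1 := Real.add_one_le_exp (-(m * d))
        have k2 : Real.exp (m * d) - 1 ≤ m * d * Real.exp (m * d) := by
          have := mul_le_mul_of_nonneg_left k1 (Real.exp_pos (m * d)).le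
          rw [← Real.exp_add, add_neg_cancel, Real.exp_zero] at this
          nlinarith
        have k3 : Real.exp (m * d) ≤ Real.exp (2 * C) := Real.exp_le_exp.2 (by nlinarith)
        have k4 : m * d * Real.exp (m * d) ≤ m * G w * Real.exp (2 * C) :=
          mul_le_mul (mul_le_mul_of_nonneg_left (by linarith [hd w]) hm.le) k3
            (Real.exp_pos _).le (mul_nonneg hm.le (hG0 w))
        linarith
    rw [e2]
    calc Real.exp (m * u1 w) * Real.exp (m * d)
        ≤ Real.exp (m * u1 w) * (1 + m * G w * Real.exp (2 * C)) :=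
          mul_le_mul_of_nonneg_left e3 (Real.exp_pos _).le
      _ = Real.exp (m * u1 w) + Real.exp (m * u1 w) * (m * G w * Real.exp (2 * C)) := by ring
      _ ≤ Real.exp (m * u1 w) +
          Real.exp C * Real.exp (m * u0 w) * (m * G w * Real.exp (2 * C)) := by
          have := mul_le_mul_of_nonneg_right e1
            (mul_nonneg (mul_nonneg hm.le (hG0 w)) (Real.exp_pos (2 * C)).le)
          linarith
      _ = _ := by
          rw [show (3:ℝ) * C = C + 2 * C by ring, Real.exp_add]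
          ring
  have hE : E2 ≤ E1 + Real.exp (3 * C) * m * I0 := by
    rw [hE2, hI0, ← integral_const_mul, hE1, ← integral_add i1 (iG.const_mul _)]
    exact integral_mono i2 (i1.add (iG.const_mul _)) fun z => hpt _
  have hE10 : E0 ≤ Real.exp C * E1 := by
    rw [hE0, hE1, ← integral_const_mul]
    refine integral_mono i0 (i1.const_mul _) fun z => ?_
    rw [← Real.exp_add]
    refine Real.exp_le_exp.2 ?_
    have := abs_le.1 (c1 (move s y z))
    nlinarith
  have hlog : Real.log E2 - Real.log E1 ≤ m * (Real.exp (4 * C) * (I0 / E0)) := by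
    rw [← Real.log_div p2.ne' p1.ne']
    refine (Real.log_le_sub_one_of_pos (div_pos p2 p1)).trans ?_
    rw [div_sub_one p1.ne', div_le_iff₀ p1]
    have key : Real.exp (3 * C) * m * I0 ≤ m * (Real.exp (4 * C) * (I0 / E0)) * E1 := by
      rw [show m * (Real.exp (4 * C) * (I0 / E0)) * E1
        = Real.exp (3 * C) * m * I0 * (Real.exp C * E1 / E0) by
          rw [show (4:ℝ) * C = 3 * C + C by ring, Real.exp_add]; ring]
      refine le_mul_of_one_le_right (by positivity) ?_
      rw [le_div_iff₀ p0, one_mul]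
      exact hE10
    linarith
  have := mul_le_mul_of_nonneg_left hlog (inv_nonneg.2 hm.le)
  rw [← mul_assoc, inv_mul_cancel₀ hm.ne', one_mul] at this
  show m⁻¹ * Real.log E2 ≤ m⁻¹ * Real.log E1 + Real.exp (4 * C) * (I0 / E0)
  linarith

variable {Nn : Nest ι} (hN : Nn.Good)

include hN

lemma x_le_one {l : ℕ} (hl : l ≤ Nn.K + 1) : Nn.x l ≤ 1 := by
  induction hl using Nat.decreasingInduction with
  | self => exact hN.x_last.le
  | of_succ l hl ih => exact (hN.x_mono l (by omega)).trans ih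

lemma linGrowth_u' {U : (ι → ℝ) → ℝ} (hU : LinGrowth U) {l : ℕ} (hl : l ≤ Nn.K) :
    LinGrowth (Nn.u U l) := by
  induction hl using Nat.decreasingInduction with
  | self => rwa [u_top le_rfl]
  | of_succ l hl ih => rw [u_succ hl]; exact linGrowth_stepLog ih _ _

lemma u_add_const {U : (ι → ℝ) → ℝ} (hU : LinGrowth U) (c : ℝ) {l : ℕ} (hl : l ≤ Nn.K)
    (y : ι → ℝ) : Nn.u (fun w => U w + c) l y = Nn.u U l y + c := by
  induction hl using Nat.decreasingInduction generalizing y with
  | self => simp [u_top le_rfl]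
  | of_succ l hl ih =>
    rw [u_succ hl, u_succ hl, show Nn.u (fun w => U w + c) (l + 1) =
      fun w => Nn.u U (l + 1) w + c from funext ih]
    exact stepLog_add_const (linGrowth_u' hN hU (by omega)) (hN.x_pos _ (by omega) (by omega)).ne'
      _ c y

lemma u_le_add {U V : (ι → ℝ) → ℝ} (hU : LinGrowth U) (hV : LinGrowth V) {C : ℝ}
    (h : ∀ w, U w ≤ V w + C) {l : ℕ} (hl : l ≤ Nn.K) (y : ι → ℝ) :
    Nn.u U l y ≤ Nn.u V l y + C := by
  induction hl using Nat.decreasingInduction generalizing y with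
  | self => simpa [u_top le_rfl] using h y
  | of_succ l hl ih =>
    rw [u_succ hl, u_succ hl]
    exact stepLog_le_add (linGrowth_u' hN hU (by omega)) (linGrowth_u' hN hV (by omega))
      (hN.x_pos _ (by omega) (by omega)) _ ih y

lemma u_close {U V : (ι → ℝ) → ℝ} (hU : LinGrowth U) (hV : LinGrowth V) {C : ℝ}
    (h : ∀ w, |U w - V w| ≤ C) {l : ℕ} (hl : l ≤ Nn.K) (y : ι → ℝ) :
    |Nn.u U l y - Nn.u V l y| ≤ C := by
  have h1 := u_le_add hN hU hV (C := C) (fun w => by linarith [(abs_le.1 (h w)).2]) hl y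
  have h2 := u_le_add hN hV hU (C := C) (fun w => by linarith [(abs_le.1 (h w)).1]) hl y
  exact abs_le.2 ⟨by linarith, by linarith⟩

lemma u_compare {U0 U1 U2 G : (ι → ℝ) → ℝ} (h0 : LinGrowth U0) (h1 : LinGrowth U1)
    (h2 : LinGrowth U2) (hG : Tame G) (hG0 : ∀ w, 0 ≤ G w) {C : ℝ} (hC : 0 ≤ C)
    (c1 : ∀ w, |U1 w - U0 w| ≤ C) (c2 : ∀ w, |U2 w - U0 w| ≤ C)
    (hd : ∀ w, U2 w ≤ U1 w + G w) {l : ℕ} (hl : l ≤ Nn.K) :
    Tame (Nn.down U0 l G) ∧ (∀ y, 0 ≤ Nn.down U0 l G y) ∧
      ∀ y, Nn.u U2 l y ≤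
        Nn.u U1 l y + Real.exp (4 * C) ^ (Nn.K - l) * Nn.down U0 l G y := by
  induction hl using Nat.decreasingInduction with
  | self =>
    refine ⟨by rwa [down_top le_rfl], fun y => by rw [down_top le_rfl]; exact hG0 y, fun y => ?_⟩
    simpa [u_top le_rfl, down_top le_rfl] using hd y
  | of_succ l hl ih =>
    obtain ⟨iT, i0, ile⟩ := ih
    have g0 := linGrowth_u' hN h0 (l := l + 1) (by omega)
    rw [down_succ hl, avg_eq_stepAvg]
    refine ⟨tame_stepAvg g0 _ _ iT, fun y => ?_, fun y => ?_⟩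
    · exact (stepAvg_const g0 (Nn.x (l + 1)) (Nn.amp (l + 1)) 0 y).symm.trans_le
        (stepAvg_mono g0 _ _ (tame_const 0) iT i0 y)
    · rw [u_succ hl, u_succ hl]
      refine (stepLog_compare g0 (linGrowth_u' hN h1 (by omega)) (linGrowth_u' hN h2 (by omega))
        (iT.const_mul (Real.exp (4 * C) ^ (Nn.K - (l + 1))))
        (fun w => mul_nonneg (by positivity) (i0 w)) (hN.x_pos _ (by omega) (by omega))
        (x_le_one hN (by omega)) hC (fun w => u_close hN h1 h0 c1 (by omega) w)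
        (fun w => u_close hN h2 h0 c2 (by omega) w) ile _ y).trans (le_of_eq ?_)
      rw [stepAvg_const_mul, show Nn.K - l = Nn.K - (l + 1) + 1 by omega, pow_succ]
      ring

end recursion

/-! ### The extra spins -/

variable {N m : ℕ}

section finite

variable {α : Type} [Fintype α]

lemma log_sum_close [Nonempty α] {a p : α → ℝ} (ha : ∀ x, 0 < a x) {C : ℝ}
    (hp : ∀ x, |p x| ≤ C) :
    |Real.log (∑ x, a x * Real.exp (p x)) - Real.log (∑ x, a x)| ≤ C := by
  have hA : 0 < ∑ x, a x := sum_pos (fun x _ => ha x) univ_nonempty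
  have hP : 0 < ∑ x, a x * Real.exp (p x) :=
    sum_pos (fun x _ => mul_pos (ha x) (Real.exp_pos _)) univ_nonempty
  have h1 : ∑ x, a x * Real.exp (p x) ≤ Real.exp C * ∑ x, a x := by
    rw [mul_sum]
    refine sum_le_sum fun x _ => ?_
    rw [mul_comm]
    exact mul_le_mul_of_nonneg_right (Real.exp_le_exp.2 (abs_le.1 (hp x)).2) (ha x).le
  have h2 : Real.exp (-C) * ∑ x, a x ≤ ∑ x, a x * Real.exp (p x) := by
    rw [mul_sum]
    refine sum_le_sum fun x _ => ?_
    rw [mul_comm (a x)]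
    exact mul_le_mul_of_nonneg_right (Real.exp_le_exp.2 (abs_le.1 (hp x)).1) (ha x).le
  have l1 := Real.log_le_log hP h1
  have l2 := Real.log_le_log (by positivity) h2
  rw [Real.log_mul (Real.exp_ne_zero _) hA.ne', Real.log_exp] at l1 l2
  exact abs_le.2 ⟨by linarith, by linarith⟩

lemma log_sum_compare [Nonempty α] {a p q D : α → ℝ} (ha : ∀ x, 0 < a x) {C : ℝ}
    (hp : ∀ x, |p x| ≤ C) (hq : ∀ x, |q x| ≤ C) (hD : ∀ x, 0 ≤ D x) (h : ∀ x, q x ≤ p x + D x) :
    Real.log (∑ x, a x * Real.exp (q x)) ≤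
      Real.log (∑ x, a x * Real.exp (p x)) +
        Real.exp (4 * C) * ((∑ x, a x * D x) / ∑ x, a x) := by
  have hC : 0 ≤ C := (abs_nonneg _).trans (hp (Classical.arbitrary α))
  have hA : 0 < ∑ x, a x := sum_pos (fun x _ => ha x) univ_nonempty
  have hP : 0 < ∑ x, a x * Real.exp (p x) :=
    sum_pos (fun x _ => mul_pos (ha x) (Real.exp_pos _)) univ_nonempty
  have hQ : 0 < ∑ x, a x * Real.exp (q x) :=
    sum_pos (fun x _ => mul_pos (ha x) (Real.exp_pos _)) univ_nonempty
  have hpt : ∀ x, Real.exp (q x) ≤ Real.exp (p x) + Real.exp (3 * C) * D x := by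
    intro x
    rcases le_or_gt (q x) (p x) with hle | hlt
    · have := mul_nonneg (Real.exp_pos (3 * C)).le (hD x)
      linarith [Real.exp_le_exp.2 hle]
    · have k1 := Real.add_one_le_exp (p x - q x)
      have k2 : Real.exp (q x) * (p x - q x + 1) ≤ Real.exp (p x) := by
        refine (mul_le_mul_of_nonneg_left k1 (Real.exp_pos _).le).trans_eq ?_
        rw [← Real.exp_add]; ring_nf
      have k3 : Real.exp (q x) ≤ Real.exp (3 * C) :=
        Real.exp_le_exp.2 (by linarith [(abs_le.1 (hq x)).2])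
      have k4 : Real.exp (q x) * (q x - p x) ≤ Real.exp (3 * C) * D x :=
        mul_le_mul k3 (by linarith [h x]) (by linarith) (Real.exp_pos _).le
      linarith
  have hAP : ∑ x, a x ≤ Real.exp C * ∑ x, a x * Real.exp (p x) := by
    rw [mul_sum]
    refine sum_le_sum fun x _ => ?_
    rw [mul_left_comm, ← Real.exp_add]
    exact le_mul_of_one_le_right (ha x).le
      (Real.one_le_exp (by linarith [(abs_le.1 (hp x)).1]))
  have hsum : ∑ x, a x * Real.exp (q x) ≤
      (∑ x, a x * Real.exp (p x)) + Real.exp (3 * C) * ∑ x, a x * D x := by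
    rw [mul_sum, ← sum_add_distrib]
    refine sum_le_sum fun x _ => ?_
    have := mul_le_mul_of_nonneg_left (hpt x) (ha x).le
    linarith
  have hDnn : 0 ≤ ∑ x, a x * D x := sum_nonneg fun x _ => mul_nonneg (ha x).le (hD x)
  have hlog : Real.log (∑ x, a x * Real.exp (q x)) - Real.log (∑ x, a x * Real.exp (p x)) ≤
      Real.exp (4 * C) * ((∑ x, a x * D x) / ∑ x, a x) := by
    rw [← Real.log_div hQ.ne' hP.ne']
    refine (Real.log_le_sub_one_of_pos (div_pos hQ hP)).trans ?_
    rw [div_sub_one hP.ne', div_le_iff₀ hP]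
    generalize hA' : ∑ x, a x = A at hA hAP ⊢
    generalize ∑ x, a x * Real.exp (p x) = Pp at hP hAP hsum ⊢
    generalize ∑ x, a x * D x = Dd at hDnn hsum ⊢
    have : Real.exp (3 * C) * Dd ≤ Real.exp (4 * C) * (Dd / A) * Pp := by
      rw [show Real.exp (4 * C) * (Dd / A) * Pp
        = Real.exp (3 * C) * Dd * (Real.exp C * Pp / A) by
          rw [show (4:ℝ) * C = 3 * C + C by ring, Real.exp_add]; ring]
      refine le_mul_of_one_le_right (by positivity) ?_
      rwa [le_div_iff₀ hA, one_mul]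
    linarith
  linarith

end finite

/-- The leaf function of a coupling, with its normalisation. -/
noncomputable def extLog (lam : Fin N → ℝ) (Φ : (Fin m → Bool) → (Fin N → ℝ) → ℝ) (U : ON N)
    (y : FIdx N ⊕ Fin m → ℝ) : ℝ :=
  (extLeaf m U).logZ (extLaw lam Φ U) y + Real.log (extPart lam Φ U)

lemma extWeight_pos (lam : Fin N → ℝ) (Φ : (Fin m → Bool) → (Fin N → ℝ) → ℝ) (U : ON N)
    (ω : (Fin N → Bool) × (Fin m → Bool)) : 0 < extWeight lam Φ U ω :=
  mul_pos (by positivity) (Real.exp_pos _)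

lemma extPart_pos (lam : Fin N → ℝ) (Φ : (Fin m → Bool) → (Fin N → ℝ) → ℝ) (U : ON N) :
    0 < extPart lam Φ U :=
  sum_pos (fun ω _ => extWeight_pos lam Φ U ω) univ_nonempty

lemma integral_extLaw (lam : Fin N → ℝ) (Φ : (Fin m → Bool) → (Fin N → ℝ) → ℝ) (U : ON N)
    (f : (Fin N → Bool) × (Fin m → Bool) → ℝ) :
    ∫ ω, f ω ∂extLaw lam Φ U = ∑ ω, extWeight lam Φ U ω / extPart lam Φ U * f ω := by
  unfold extLaw
  rw [integral_finsetSum_measure]
  · refine sum_congr rfl fun ω _ => ?_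
    rw [integral_smul_measure, integral_dirac, ENNReal.toReal_ofReal, smul_eq_mul]
    exact div_nonneg (extWeight_pos lam Φ U ω).le (extPart_pos lam Φ U).le
  · intro ω _
    exact (integrable_dirac (by simp)).smul_measure ENNReal.ofReal_ne_top

lemma extWeight_eq (lam : Fin N → ℝ) (Φ : (Fin m → Bool) → (Fin N → ℝ) → ℝ) (U : ON N)
    (ω : (Fin N → Bool) × (Fin m → Bool)) :
    extWeight lam Φ U ω =
      extWeight lam (fun _ _ => 0) U ω * Real.exp (Φ ω.2 (rotSpin U ω.1)) := by
  simp only [extWeight, add_zero, Real.exp_add]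
  ring

lemma extLog_eq (lam : Fin N → ℝ) (Φ : (Fin m → Bool) → (Fin N → ℝ) → ℝ) (U : ON N)
    (y : FIdx N ⊕ Fin m → ℝ) :
    extLog lam Φ U y = Real.log (∑ ω, extWeight lam (fun _ _ => 0) U ω *
      Real.exp ((extLeaf m U).ham ω y) * Real.exp (Φ ω.2 (rotSpin U ω.1))) := by
  have hP := extPart_pos lam Φ U
  unfold extLog Leaf.logZ
  rw [integral_extLaw]
  simp only [div_mul_eq_mul_div, ← sum_div]
  rw [Real.log_div (sum_pos (fun ω _ => mul_pos (extWeight_pos lam Φ U ω) (Real.exp_pos _))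
      univ_nonempty).ne' hP.ne', sub_add_cancel]
  refine congrArg Real.log (sum_congr rfl fun ω _ => ?_)
  rw [extWeight_eq lam Φ U ω]
  ring

lemma gibbs_eq (lam : Fin N → ℝ) (U : ON N) (D : (Fin N → Bool) × (Fin m → Bool) → ℝ)
    (y : FIdx N ⊕ Fin m → ℝ) :
    (extLeaf m U).gibbs (extLaw lam (fun _ _ => 0) U) (fun ω _ => D ω) y =
      (∑ ω, extWeight lam (fun _ _ => 0) U ω * Real.exp ((extLeaf m U).ham ω y) * D ω) /
        ∑ ω, extWeight lam (fun _ _ => 0) U ω * Real.exp ((extLeaf m U).ham ω y) := by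
  unfold Leaf.gibbs
  rw [integral_extLaw, integral_extLaw]
  simp only [div_mul_eq_mul_div, ← sum_div, mul_assoc]
  exact div_div_div_cancel_right₀ (extPart_pos lam _ U).ne' _ _

lemma obs_fin {Ω ι : Type} [Finite Ω] [MeasurableSpace Ω] [MeasurableSingletonClass Ω] [Fintype ι]
    (f : Ω → ℝ) : Obs (fun ω (_ : ι → ℝ) => f ω) := by
  cases nonempty_fintype Ω
  exact ⟨fun _ => measurable_of_finite f, fun _ => continuous_const, ∑ ω, |f ω|,
    fun ω _ => single_le_sum (fun ω _ => abs_nonneg (f ω)) (mem_univ ω)⟩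

/-- The averaged node value of an observable in the uncoupled system. -/
noncomputable def avgNode (K : ℕ) (lam : Fin N → ℝ) (S V : ℕ → Fin N → ℝ) (e : ℕ → Fin m → ℝ)
    (U : ON N) (f : (Fin N → Bool) × (Fin m → Bool) → ℝ) : ℝ :=
  (extNest K S V e).mean ((extLeaf m U).logZ (extLaw lam (fun _ _ => 0) U)) 0
    ((extNest K S V e).node (extLeaf m U) (extLaw lam (fun _ _ => 0) U) 0 fun ω _ => f ω)

variable (K : ℕ) (lam : Fin N → ℝ) (S V : ℕ → Fin N → ℝ) (e : ℕ → Fin m → ℝ) (U : ON N)

lemma avgNode_mono {f g : (Fin N → Bool) × (Fin m → Bool) → ℝ} (h : ∀ ω, f ω ≤ g ω) :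
    avgNode K lam S V e U f ≤ avgNode K lam S V e U g := by
  have := extLaw_prob lam (fun (_ : Fin m → Bool) _ => (0:ℝ)) U
  have hN := extNest_good K S V e
  have hL := extLeaf_good (m := m) U
  exact mean_mono hN hL (Nat.zero_le _) (node_tame hN hL (Nat.zero_le _) (obs_fin f))
    (node_tame hN hL (Nat.zero_le _) (obs_fin g))
    (node_mono hN hL (Nat.zero_le _) (obs_fin f) (obs_fin g) fun ω _ => h ω)

lemma avgNode_const (c : ℝ) : avgNode K lam S V e U (fun _ => c) = c := by
  have := extLaw_prob lam (fun (_ : Fin m → Bool) _ => (0:ℝ)) U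
  have hN := extNest_good K S V e
  have hL := extLeaf_good (m := m) U
  unfold avgNode
  dsimp only
  rw [funext fun y => node_const (μ := extLaw lam (fun _ _ => 0) U) hN hL (Nat.zero_le _) c y]
  exact mean_const hN hL (Nat.zero_le _) c

lemma avgNode_add (f g : (Fin N → Bool) × (Fin m → Bool) → ℝ) :
    avgNode K lam S V e U (fun ω => f ω + g ω) =
      avgNode K lam S V e U f + avgNode K lam S V e U g := by
  have := extLaw_prob lam (fun (_ : Fin m → Bool) _ => (0:ℝ)) U
  have hN := extNest_good K S V e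
  have hL := extLeaf_good (m := m) U
  unfold avgNode
  dsimp only
  rw [funext fun y => node_add (μ := extLaw lam (fun _ _ => 0) U) hN hL (Nat.zero_le _) (obs_fin f) (obs_fin g) y]
  exact mean_add hN hL (Nat.zero_le _) (node_tame hN hL (Nat.zero_le _) (obs_fin f))
    (node_tame hN hL (Nat.zero_le _) (obs_fin g))

lemma avgNode_const_mul (c : ℝ) (f : (Fin N → Bool) × (Fin m → Bool) → ℝ) :
    avgNode K lam S V e U (fun ω => c * f ω) = c * avgNode K lam S V e U f := by
  have := extLaw_prob lam (fun (_ : Fin m → Bool) _ => (0:ℝ)) U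
  have hN := extNest_good K S V e
  have hL := extLeaf_good (m := m) U
  unfold avgNode
  dsimp only
  rw [funext fun y => node_const_mul (μ := extLaw lam (fun _ _ => 0) U) hN hL 0 c (fun ω _ => f ω) y]
  exact mean_const_mul hN hL 0 c _

lemma avgNode_sum {β : Type} (T : Finset β) (f : β → (Fin N → Bool) × (Fin m → Bool) → ℝ) :
    avgNode K lam S V e U (fun ω => ∑ b ∈ T, f b ω) = ∑ b ∈ T, avgNode K lam S V e U (f b) := by
  classical
  induction T using Finset.induction with
  | empty => simpa using avgNode_const K lam S V e U 0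
  | insert b T hb ih =>
    simp only [sum_insert hb]
    rw [avgNode_add, ih]

/-- Comparison of two couplings. -/
theorem extFree_compare {C : ℝ} (hC : 0 ≤ C) {Φ Φ' : (Fin m → Bool) → (Fin N → ℝ) → ℝ}
    {D : (Fin N → Bool) × (Fin m → Bool) → ℝ}
    (h1 : ∀ ω : (Fin N → Bool) × (Fin m → Bool), |Φ ω.2 (rotSpin U ω.1)| ≤ C)
    (h2 : ∀ ω : (Fin N → Bool) × (Fin m → Bool), |Φ' ω.2 (rotSpin U ω.1)| ≤ C)
    (hD : ∀ ω, |Φ ω.2 (rotSpin U ω.1) - Φ' ω.2 (rotSpin U ω.1)| ≤ D ω) :
    |extFree K lam S V e Φ U - extFree K lam S V e Φ' U| ≤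
      Real.exp (4 * C) ^ (K + 2) * avgNode K lam S V e U D := by
  have hp := fun Ψ => extLaw_prob lam (Ψ : (Fin m → Bool) → (Fin N → ℝ) → ℝ) U
  have hN := extNest_good K S V e
  have hL := extLeaf_good (m := m) U
  set Nn := extNest K S V e with hNn
  set L := extLeaf m U with hLd
  set μ0 := extLaw lam (fun (_ : Fin m → Bool) _ => (0:ℝ)) U with hμ0
  have := hp fun _ _ => 0
  have hU0 : LinGrowth (L.logZ μ0) := linGrowth_logZ hL
  have hlin : ∀ Ψ, LinGrowth (extLog (m := m) lam Ψ U) := fun Ψ => by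
    have := hp Ψ
    exact linGrowth_add_const (linGrowth_logZ hL) _
  set c0 := Real.log (extPart lam (fun (_ : Fin m → Bool) _ => (0:ℝ)) U) with hc0
  set U0 := extLog (m := m) lam (fun _ _ => 0) U with hU0d
  set a := fun (y : FIdx N ⊕ Fin m → ℝ) (ω : (Fin N → Bool) × (Fin m → Bool)) =>
    extWeight lam (fun _ _ => 0) U ω * Real.exp (L.ham ω y) with had
  have ha : ∀ y ω, 0 < a y ω := fun y ω => mul_pos (extWeight_pos _ _ _ _) (Real.exp_pos _)
  have hU0e : ∀ y, U0 y = Real.log (∑ ω, a y ω) := fun y => by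
    rw [hU0d, extLog_eq]
    simp [had, hLd]
  have hD0 : ∀ ω, 0 ≤ D ω := fun ω => (abs_nonneg _).trans (hD ω)
  set G := fun y => Real.exp (4 * C) * L.gibbs μ0 (fun ω _ => D ω) y with hGd
  have hG : Tame G := (tame_gibbs hL (obs_fin D)).const_mul _
  have hG0 : ∀ y, 0 ≤ G y := fun y => mul_nonneg (Real.exp_pos _).le
    ((gibbs_const (μ := μ0) hL 0 y).symm.trans_le
      (gibbs_mono hL (obs_const 0) (obs_fin D) (fun ω _ => hD0 ω) y))
  have key : ∀ Ψ Ψ' : (Fin m → Bool) → (Fin N → ℝ) → ℝ,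
      (∀ ω : (Fin N → Bool) × (Fin m → Bool), |Ψ ω.2 (rotSpin U ω.1)| ≤ C) →
      (∀ ω : (Fin N → Bool) × (Fin m → Bool), |Ψ' ω.2 (rotSpin U ω.1)| ≤ C) →
      (∀ ω, Ψ' ω.2 (rotSpin U ω.1) ≤ Ψ ω.2 (rotSpin U ω.1) + D ω) →
      extFree K lam S V e Ψ' U ≤
        extFree K lam S V e Ψ U + Real.exp (4 * C) ^ (K + 2) * avgNode K lam S V e U D := by
    intro Ψ Ψ' g1 g2 g3
    have := hp Ψ
    have := hp Ψ'
    have hc : ∀ Θ : (Fin m → Bool) → (Fin N → ℝ) → ℝ, (∀ ω : (Fin N → Bool) × (Fin m → Bool), |Θ ω.2 (rotSpin U ω.1)| ≤ C) →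
        ∀ y, |extLog lam Θ U y - U0 y| ≤ C := fun Θ hΘ y => by
      rw [hU0e, extLog_eq]
      exact log_sum_close (ha y) hΘ
    obtain ⟨hT, -, hle⟩ := u_compare hN (hlin fun _ _ => 0) (hlin Ψ) (hlin Ψ') hG hG0 hC
      (hc Ψ g1) (hc Ψ' g2) (fun y => by
        rw [extLog_eq, extLog_eq, hGd]
        simp only [hμ0, hLd, gibbs_eq]
        exact log_sum_compare (ha y) g1 g2 hD0 g3) (l := 0) (Nat.zero_le _)
    have hroot : ∀ Θ : (Fin m → Bool) → (Fin N → ℝ) → ℝ,
        extFree K lam S V e Θ U =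
          ∫ z, Nn.u (extLog lam Θ U) 0 (fun i => Nn.amp 0 i * z i) ∂gauss _ := by
      intro Θ
      have := hp Θ
      have hint : Integrable (fun z => Nn.u (L.logZ (extLaw lam Θ U)) 0 fun i => Nn.amp 0 i * z i)
          (gauss _) := by
        convert ((u_tame (μ := extLaw lam Θ U) hN hL 0).comp_move (Nn.amp 0) 0).integrable
          using 3 with z
        funext i
        simp [move]
      have e1 : ∀ y, Nn.u (extLog lam Θ U) 0 y =
          Nn.u (L.logZ (extLaw lam Θ U)) 0 y + Real.log (extPart lam Θ U) := fun y =>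
        u_add_const hN (linGrowth_logZ hL) _ (Nat.zero_le _) y
      rw [funext fun z : FIdx N ⊕ Fin m → ℝ => e1 fun i => Nn.amp 0 i * z i,
        integral_add hint (integrable_const _), integral_const, probReal_univ, one_smul,
        add_comm]
      rfl
    have hi : ∀ F : (FIdx N ⊕ Fin m → ℝ) → ℝ, Tame F →
        Integrable (fun z => F fun i => Nn.amp 0 i * z i) (gauss _) := fun F hF => by
      convert (hF.comp_move (Nn.amp 0) 0).integrable using 3 with z
      funext i
      simp [move]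
    rw [hroot, hroot]
    have hu : ∀ Θ, Tame (Nn.u (extLog (m := m) lam Θ U) 0) := fun Θ =>
      (linGrowth_u' hN (hlin Θ) (Nat.zero_le _)).tame
    refine (integral_mono (hi _ (hu Ψ'))
      ((hi _ (hu Ψ)).add (hi _ (hT.const_mul _))) fun z => hle _).trans (le_of_eq ?_)
    rw [integral_add' (hi _ (hu Ψ)) (hi _ (hT.const_mul _)), integral_const_mul]
    congr 1
    -- the last term
    have e2 : Nn.down U0 0 G = fun y => Real.exp (4 * C) *
        Nn.node L μ0 0 (fun ω _ => D ω) y := by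
      have hU0' : U0 = fun y => L.logZ μ0 y + c0 := rfl
      have hav : ∀ l, l < Nn.K → ∀ (F : (FIdx N ⊕ Fin m → ℝ) → ℝ) y,
          Nn.avg U0 l F y = Nn.avg (L.logZ μ0) l F y := by
        intro l hl F y
        rw [avg_eq_stepAvg, avg_eq_stepAvg, hU0',
          funext fun w => u_add_const hN hU0 c0 (show l + 1 ≤ Nn.K from hl) w]
        simp only [stepAvg, tilt, mul_add, Real.exp_add, mul_right_comm _ (Real.exp (_ * c0)),
          integral_mul_const]
        exact mul_div_mul_right _ _ (Real.exp_ne_zero _)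
      have hd : ∀ l, l ≤ Nn.K → Nn.down U0 l G = fun y => Real.exp (4 * C) *
          Nn.node L μ0 l (fun ω _ => D ω) y := by
        intro l hl
        induction hl using Nat.decreasingInduction with
        | self => rw [down_top le_rfl, node_top hN hL]
        | of_succ l hl ih =>
          funext y
          rw [down_succ hl, hav l hl, ih, avg_const_mul (μ := μ0) hN hL, node_succ hN hL hl]
      exact hd 0 (Nat.zero_le _)
    have hK : Nn.K = K + 1 := rfl
    simp only [← hU0d, e2, integral_const_mul, hK, Nat.sub_zero]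
    rw [← mul_assoc, ← pow_succ]
    rfl
  have k1 := key Φ Φ' h1 h2 fun ω => by linarith [(abs_le.1 (hD ω)).1]
  have k2 := key Φ' Φ h2 h1 fun ω => by linarith [(abs_le.1 (hD ω)).2]
  exact abs_le.2 ⟨by linarith, by linarith⟩

lemma mean_node_zero {ι Ω κ : Type} [Fintype ι] [Fintype κ] [MeasurableSpace Ω] (Nn : Nest ι)
    (L : Leaf Ω κ ι) (μ : Measure Ω) [IsProbabilityMeasure μ] (f : Ω → (ι → ℝ) → ℝ) {l : ℕ} (hl : l ≤ Nn.K) :
    Nn.mean (L.logZ μ) l (Nn.node L μ l f) = Nn.mean (L.logZ μ) 0 (Nn.node L μ 0 f) := by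
  induction l with
  | zero => rfl
  | succ l ih =>
    rw [← ih (by omega), node_succ_eq (show l < Nn.K by omega)]
    rfl

/-- The second moment of a rotated spin in the uncoupled system is that of the glass. -/
theorem avgNode_sq (p : Fin N) :
    avgNode K lam S V e U (fun ω => rotSpin U ω.1 p ^ 2) =
      (glassNest K S V).heatTop (glassLeaf U) (quadLaw lam U) (Sum.inr p) := by
  have := extLaw_prob lam (fun (_ : Fin m → Bool) _ => (0:ℝ)) U
  have hN := extNest_good K S V e
  have hL := extLeaf_good (m := m) U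
  have h1 := hasDerivAt_extFree K lam (Pi.single p 1) S 0 V 0 e 0
    (fun (_ : Fin m → Bool) _ => (0:ℝ)) 0 0 U
  have h2 := hasDerivAt_glassFree K lam (Pi.single p 1) S 0 V 0 U
  simp only [Pi.zero_apply, mul_zero, zero_mul, add_zero, extFree_zero, sum_const_zero] at h1 h2
  have h3 := h1.unique (h2.add_const _)
  simp only [Pi.single_apply, ite_mul, one_mul, zero_mul, sum_ite_eq', mem_univ, if_true] at h3
  have h4 : (extNest K S V e).heatTop (extLeaf m U) (extLaw lam (fun _ _ => 0) U)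
      (Sum.inl (Sum.inr p)) = avgNode K lam S V e U (fun ω => rotSpin U ω.1 p ^ 2) := by
    unfold Nest.heatTop avgNode
    rw [← mean_node_zero _ _ _ _ le_rfl, node_top hN hL, funext fun y => heat_top (μ := extLaw lam (fun _ _ => 0) U) hN hL (Sum.inl (Sum.inr p)) y]
    simp [Leaf.vec, extLeaf]
  linarith

end GaussExact

end Vale.Agent.P166.Parisi
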