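import Vale.Agent.P166.Parisi.FrameTrunc
import Vale.Agent.P166.Parisi.Basics.Glass
import Vale.Agent.P166.Parisi.Spin

/-!
The gain of a bounded coupling to new spins is bounded (part of module I).
-/

set_option linter.unusedSectionVars false

namespace Vale.Agent.P166.Parisi

open MeasureTheory ProbabilityTheory Finset Filter Topology
open Vale.Agent.P157 Vale.Agent.P157.Parisi
open Vale.Agent.P166.Parisi.SpinAux

attribute [local instance] spinLaw_prob

namespace InsertBound

/-- One spin gains between nothing and half of the variance of its field. -/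
lemma oneSpin_mem (K : ℕ) (e : ℕ → ℝ) :
    0 ≤ oneSpin K e ∧ oneSpin K e ≤ (∑ l ∈ range (K + 2), e l ^ 2) / 2 := by
  constructor
  · have hN := spinNest_good K e
    have hU : Tilt.Lin (spinLeaf.logZ spinLaw) := linGrowth_logZ spinLeaf_good
    have h0 : Tilt.Lin (fun _ : Unit → ℝ => (0:ℝ)) :=
      ⟨continuous_const, 0, 0, le_rfl, le_rfl, fun _ => by simp⟩
    have hu : ∀ l ≤ (spinNest K e).K, (spinNest K e).u (fun _ => 0) l = fun _ => 0 := by
      intro l hl
      induction hl using Nat.decreasingInduction with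
      | self => exact u_top le_rfl _
      | of_succ l hl ih => rw [u_succ hl, ih]; funext y; simp [stepLog]
    have hz : (spinNest K e).root (fun _ => 0) = 0 := by
      simp [Nest.root, Nest.mean, hu 0 (Nat.zero_le _)]
    rw [oneSpin, free_eq_root, ← hz]
    exact root_mono hN (Tilt.semi_of_lin h0) (Tilt.semi_of_lin hU)
      fun y => by rw [logZ_spin]; exact Real.log_nonneg (Real.one_le_cosh _)
  · have h := oneSpin_le (K := K) (fun _ => 0) (v := fun l => e l ^ 2) fun l => sq_nonneg _
    rw [oneSpin_congr_sq (e' := e) fun i => by rw [Real.sq_sqrt (sq_nonneg _)]] at h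
    have h0 : oneSpin K (fun _ => (0:ℝ)) = 0 := by
      rw [oneSpin_eq]
      have hc : cumVar K (fun _ => (0:ℝ)) = fun _ => 0 := by funext l; simp [cumVar]
      simp [hc, isingField_zero]
    rw [h0, zero_add] at h
    refine h.trans ?_
    rw [sum_div]
    refine sum_le_sum fun l _ => ?_
    have hq := qTail_nonneg (K := K) (isPath_spinPath (K := K) fun _ => (0:ℝ)) l
    have := mul_nonneg hq (sq_nonneg (e l))
    nlinarith

variable {N k : ℕ} (K : ℕ) (lam : Fin N → ℝ) (S V : ℕ → Fin N → ℝ) (e : ℕ → Fin k → ℝ)

/-- A bounded coupling changes the free energy by at most its bound. -/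
lemma extFree_bdd {Φ : (Fin k → Bool) → (Fin N → ℝ) → ℝ} {D : ℝ} (hΦ : ∀ τ z, |Φ τ z| ≤ D)
    (U : ON N) :
    |extFree K lam S V e Φ U - extFree K lam S V e (fun _ _ => 0) U| ≤ D := by
  have hN : (extNest K S V e).Good := extNest_good K S V e
  rw [FrameTrunc.extFree_eq_root, FrameTrunc.extFree_eq_root]
  have hA := Tilt.semi_of_lin (FrameTrunc.lin_leafFun lam Φ U)
  have h0 := Tilt.semi_of_lin (FrameTrunc.lin_leafFun lam (fun (_ : Fin k → Bool) _ => (0:ℝ)) U)
  have up := fun y => FrameTrunc.leaf_upper lam Φ (C := D) (fun τ z => (abs_le.1 (hΦ τ z)).2) U y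
  have lo : ∀ y, FrameTrunc.leafFun lam (fun (_ : Fin k → Bool) _ => (0:ℝ)) U y - D ≤
      FrameTrunc.leafFun lam Φ U y := by
    intro y
    refine Real.exp_le_exp.1 ?_
    rw [sub_eq_add_neg, Real.exp_add, FrameTrunc.leafFun, FrameTrunc.leafFun,
      FrameTrunc.exp_lse (FrameTrunc.weight_pos lam Φ U),
      FrameTrunc.exp_lse (FrameTrunc.weight_pos lam _ U), sum_mul]
    refine sum_le_sum fun ω _ => ?_
    simp only [FrameTrunc.ew, FrameTrunc.weight_eq, Real.exp_zero, mul_one]
    rw [mul_right_comm (FrameTrunc.qw lam U ω.1 * (1 / (2:ℝ) ^ k))]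
    have := FrameTrunc.qw_pos lam U ω.1
    refine mul_le_mul_of_nonneg_right (mul_le_mul_of_nonneg_left ?_ (by positivity))
      (Real.exp_pos _).le
    exact Real.exp_le_exp.2 (abs_le.1 (hΦ _ _)).1
  rw [abs_le]
  constructor
  · have h1 := root_mono hN (Tilt.semi_add_const h0 (-D)) hA fun y => by linarith [lo y]
    rw [root_add_const hN h0] at h1
    linarith
  · have h1 := root_mono hN hA (Tilt.semi_add_const h0 D) up
    rw [root_add_const hN h0] at h1
    linarith

/-- The coupling may depend continuously on a parameter. -/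
lemma continuous_meanExt {T : Type} [TopologicalSpace T] [FirstCountableTopology T]
    [LocallyCompactSpace T]
    {Φ : T → (Fin k → Bool) → (Fin N → ℝ) → ℝ}
    (hΦ : ∀ τ, Continuous fun x : T × (Fin N → ℝ) => Φ x.1 τ x.2) :
    Continuous fun x => meanExt K lam S V e (Φ x) := by
  have hw : ∀ ω, Continuous fun p : T × ON N => extWeight lam (Φ p.1) p.2 ω := fun ω => by
    simp only [FrameTrunc.weight_eq]
    exact (((FrameTrunc.continuous_qw lam ω.1).comp continuous_snd).mul continuous_const).mul
      (Real.continuous_exp.comp ((hΦ ω.2).comp (continuous_fst.prodMk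
        (continuous_pi fun p => (FrameTrunc.continuous_rotSpin ω.1 p).comp continuous_snd))))
  have h := (FrameTrunc.plin_u' (extNest K S V e) (FrameTrunc.plin_lse hw
    (fun p => FrameTrunc.weight_pos lam (Φ p.1) p.2)
    (a := fun (p : T × ON N) ω => (extLeaf k p.2).a ω ())
    (fun ω i => (FrameTrunc.continuous_ext_coef ω i).comp continuous_snd)
    (fun p => FrameTrunc.abs_ext_coef p.2)) (Nat.zero_le _)).ptame.continuous_integral
      (s := fun _ => (extNest K S V e).amp 0) fun _ => continuous_const
  have h' : Continuous (Function.uncurry fun x U => extFree K lam S V e (Φ x) U) := by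
    refine h.congr fun p => ?_
    exact (FrameTrunc.extFree_eq_root lam (Φ p.1) K S V e p.2).symm
  exact (continuous_parametric_integral_of_continuous (μ := haarON N) h' isCompact_univ).congr
    fun x => by simp [meanExt]

end InsertBound

open Vale.Agent.P166.Parisi.InsertBound

variable {M : ℕ} [NeZero M]

theorem insTerm_bound {J : Type} [Fintype J] {k : ℕ} (P : Par) {N : ℕ} {smax B : ℝ}
    (a : Fin M → ℝ) (s : ℕ → ℝ) (b : Fin N → Fin M) (v : GBox M P.K → ℝ) (e : ℕ → Fin k → ℝ)
    (he : ∀ l i, |e l i| ≤ smax) (t : J → Fin k) (ψ : J → ℝ → ℝ) (hψ : ∀ j, Continuous (ψ j))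
    (hB : ∀ j x, |ψ j x| ≤ B) :
    |P.insTerm a s b v e t ψ| ≤
      Fintype.card J * B + (k : ℝ) * ((P.K : ℝ) + 2) * smax ^ 2 / 2 := by
  set lam := P.lamN a b v
  set S : ℕ → Fin N → ℝ := fun l _ => s l
  set V := P.ampN b v
  set D := (Fintype.card J : ℝ) * B
  set c := ∑ i, oneSpin P.K fun l => e l i
  have hc : 0 ≤ c ∧ c ≤ (k : ℝ) * ((P.K : ℝ) + 2) * smax ^ 2 / 2 := by
    refine ⟨sum_nonneg fun i _ => (oneSpin_mem _ _).1, ?_⟩
    calc c ≤ ∑ _i : Fin k, ((P.K : ℝ) + 2) * smax ^ 2 / 2 := by
          refine sum_le_sum fun i _ => (oneSpin_mem _ _).2.trans ?_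
          refine div_le_div_of_nonneg_right ?_ zero_le_two
          refine (sum_le_card_nsmul _ _ (smax ^ 2) fun l _ => ?_).trans_eq ?_
          · exact sq_le_sq.2 ((he l i).trans (le_abs_self smax))
          · rw [card_range, nsmul_eq_mul]; push_cast; ring
      _ = _ := by rw [sum_const, card_univ, Fintype.card_fin, nsmul_eq_mul]; ring
  have hΦ : ∀ G τ z, |gaussPhi b t ψ G τ z| ≤ D := fun G τ z => by
    refine (abs_sum_le_sum_abs _ _).trans ((sum_le_card_nsmul _ _ B fun j _ => hB j _).trans_eq ?_)
    rw [card_univ, nsmul_eq_mul]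
  have hcG : ∀ τ, Continuous fun x : (J × Fin N → ℝ) × (Fin N → ℝ) =>
      gaussPhi b t ψ x.1 τ x.2 := fun τ => by
    unfold gaussPhi
    exact continuous_finsetSum _ fun j _ => (hψ j).comp (continuous_const.mul
      ((continuous_finsetSum _ fun p _ => ((continuous_apply (j, p)).comp continuous_fst).mul
        ((continuous_apply p).comp continuous_snd)).div_const _))
  have hbd : ∀ G, |meanExt P.K lam S V e (gaussPhi b t ψ G) - (P.free a s b v + c)| ≤ D := by
    intro G
    have i1 := Vale.Agent.P166.integrable_of_cont (FrameTrunc.continuous_extFree' lam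
      (gaussPhi b t ψ G) P.K S V e fun τ =>
        (hcG τ).comp (continuous_const.prodMk continuous_id))
    have i0 := Vale.Agent.P166.integrable_of_cont (FrameTrunc.continuous_extFree' lam
      (fun (_ : Fin k → Bool) _ => (0:ℝ)) P.K S V e fun _ => continuous_const)
    have e0 : P.free a s b v + c =
        ∫ U, extFree P.K lam S V e (fun _ _ => 0) U ∂haarON N := by
      simp only [extFree_zero]
      have ig : Integrable (fun U => glassFree P.K lam S V U) (haarON N) :=
        Vale.Agent.P166.integrable_of_cont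
          ((continuous_glassFree P.K).comp (f := fun U : ON N => (lam, S, V, U)) (by fun_prop))
      rw [integral_add ig (integrable_const _), integral_const, probReal_univ, one_smul]
      rfl
    rw [e0, meanExt, ← integral_sub i1 i0]
    refine abs_integral_le_integral_abs.trans ((integral_mono (i1.sub i0).abs (integrable_const D)
      fun U => extFree_bdd P.K lam S V e (hΦ G) U).trans_eq ?_)
    simp
  have hint : Integrable (fun G => meanExt P.K lam S V e (gaussPhi b t ψ G))
      (gauss (J × Fin N)) :=
    (integrable_const (|P.free a s b v + c| + D)).mono'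
      (continuous_meanExt P.K lam S V e hcG).aestronglyMeasurable (.of_forall fun G => by
        rw [Real.norm_eq_abs]
        linarith [abs_sub_abs_le_abs_sub (meanExt P.K lam S V e (gaussPhi b t ψ G))
          (P.free a s b v + c), hbd G])
  rw [Par.insTerm]
  have key : |(∫ G, meanExt P.K lam S V e (gaussPhi b t ψ G) ∂gauss (J × Fin N)) -
      (P.free a s b v + c)| ≤ D := by
    have : ∫ G, (meanExt P.K lam S V e (gaussPhi b t ψ G) - (P.free a s b v + c))
        ∂gauss (J × Fin N) =
        (∫ G, meanExt P.K lam S V e (gaussPhi b t ψ G) ∂gauss (J × Fin N)) -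
          (P.free a s b v + c) := by
      rw [integral_sub hint (integrable_const _), integral_const, probReal_univ, one_smul]
    rw [← this]
    refine abs_integral_le_integral_abs.trans ((integral_mono
      (hint.sub (integrable_const _)).abs (integrable_const D) hbd).trans_eq ?_)
    simp
  have := abs_le.1 key
  rw [abs_le]
  constructor <;> linarith [hc.1, hc.2]

end Vale.Agent.P166.Parisi
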