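import Vale.Agent.P166.Parisi.BasicsPar
import Vale.Agent.P157.Parisi.BoxAvg
import Vale.Agent.P157.Parisi.LowerBasics

/-!
Systems with free energies a bounded distance apart have the same overlaps on average: both free
energies are convex in every amplitude of the rotated spins.
-/

namespace Vale.Agent.P166.Parisi

open MeasureTheory ProbabilityTheory Finset Filter Topology Matrix
open Vale.Agent.P157 Vale.Agent.P157.Parisi

variable {M N : ℕ}

namespace OvlClose

variable (P : Par) (a : Fin M → ℝ) (s : ℕ → ℝ) (b : Fin N → Fin M)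

/-- The tail of the overlaps of atom `r` above level `l`. -/
noncomputable def tailO (r : Fin M) (l : ℕ) (v : GBox M P.K → ℝ) : ℝ :=
  P.diag a s b v r - (∑ m ∈ Ico l (P.K + 1), P.ovl a s b v r m) / ((P.K : ℝ) + 1)

lemma continuous_tailO (r : Fin M) (l : ℕ) : Continuous (tailO P a s b r l) :=
  (continuous_diag_box P a s b r).sub ((continuous_finsetSum _ fun _ hm =>
    continuous_ovl_box P a s b r (mem_Ico.1 hm).2.le).div_const _)

lemma sum_atomSet (r : Fin M) (g : FIdx N → ℝ) :
    ∑ i ∈ atomSet b r, g i = ∑ p ∈ fiber b r, g (Sum.inr p) := by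
  rw [atomSet, rotSet, sum_image fun x _ y _ h => Sum.inr_injective h]

lemma w_glass (K : ℕ) (S V : ℕ → Fin N → ℝ) {l m : ℕ} (hlm : l ≤ m) (hm : m ≤ K + 1) :
    (glassNest K S V).w m = if m ∈ Ico l (K + 1) then 1 / ((K : ℝ) + 1) else 0 := by
  show gridX K (m + 1) - gridX K m = _
  have h1 : ∀ j, j ≤ K + 1 → gridX K j = lvl K j := fun j hj => min_eq_right (by
    rw [lvl, div_le_one (by positivity)]; exact_mod_cast hj)
  rcases eq_or_lt_of_le hm with rfl | hlt
  · rw [(Lin.gridX_facts K).2.1, h1 _ le_rfl, if_neg (by simp), lvl]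
    push_cast
    rw [div_self (by positivity), sub_self]
  · rw [h1 _ hm, h1 _ hlt, if_pos (mem_Ico.2 ⟨hlm, hlt⟩), lvl, lvl]
    push_cast
    ring

lemma continuous_atom_sum (r : Fin M) (v : GBox M P.K → ℝ) :
    Continuous (fun U => ∑ p ∈ fiber b r,
      (P.nest s b v).heatTop (glassLeaf U) (quadLaw (P.lamN a b v) U) (Sum.inr p)) ∧
    ∀ m, m ≤ P.K + 1 → Continuous (fun U => ∑ p ∈ fiber b r,
      (P.nest s b v).sqGrad (glassLeaf U) (quadLaw (P.lamN a b v) U) m (Sum.inr p)) :=
  ⟨continuous_finsetSum _ fun p _ => Lin.continuous_glass_heatTop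
      (continuous_const (y := P.lamN a b v)) (continuous_const (y := fun l (_ : Fin N) => s l))
      (continuous_const (y := P.ampN b v)) continuous_id P.K (Sum.inr p),
    fun _ hm => continuous_finsetSum _ fun p _ => Lin.continuous_glass_sqGrad
      (continuous_const (y := P.lamN a b v)) (continuous_const (y := fun l (_ : Fin N) => s l))
      (continuous_const (y := P.ampN b v)) continuous_id P.K hm (Sum.inr p)⟩

/-- The integral of the amplitude derivatives of one atom is its tail. -/
lemma integral_ampTail (hN : 0 < N) (r : Fin M) (l : ℕ) (v : GBox M P.K → ℝ) :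
    ∫ U, ∑ p ∈ fiber b r,
        ampTail (P.nest s b v) (glassLeaf U) (quadLaw (P.lamN a b v) U) l (Sum.inr p) ∂haarON N =
      (N : ℝ) * tailO P a s b r l v := by
  set H : ON N → ℝ := fun U => ∑ p ∈ fiber b r,
    (P.nest s b v).heatTop (glassLeaf U) (quadLaw (P.lamN a b v) U) (Sum.inr p)
  set G : ℕ → ON N → ℝ := fun m U => ∑ p ∈ fiber b r,
    (P.nest s b v).sqGrad (glassLeaf U) (quadLaw (P.lamN a b v) U) m (Sum.inr p)
  obtain ⟨hH, hG⟩ := continuous_atom_sum P a s b r v
  have hN' : (N : ℝ) ≠ 0 := by exact_mod_cast hN.ne'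
  have hd : ∫ U, H U ∂haarON N = (N : ℝ) * P.diag a s b v r := by
    simp only [Par.diag, sum_atomSet, integral_div]
    rw [mul_div_cancel₀ _ hN']
  have ho : ∀ m, ∫ U, G m U ∂haarON N = (N : ℝ) * P.ovl a s b v r m := fun m => by
    simp only [Par.ovl, Nest.ovl, sum_atomSet, integral_div]
    rw [mul_div_cancel₀ _ hN']
  have he : (fun U => ∑ p ∈ fiber b r,
      ampTail (P.nest s b v) (glassLeaf U) (quadLaw (P.lamN a b v) U) l (Sum.inr p)) =
      fun U => H U - ∑ m ∈ Icc l (P.K + 1), (P.nest s b v).w m * G m U := by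
    funext U
    simp only [ampTail, H, G, sum_sub_distrib, mul_sum]
    rw [sum_comm]
    rfl
  have hcs : Continuous fun U => ∑ m ∈ Icc l (P.K + 1), (P.nest s b v).w m * G m U :=
    continuous_finsetSum _ fun m hm => continuous_const.mul (hG m (mem_Icc.1 hm).2)
  rw [he, integral_sub (integrable_of_cont hH) (integrable_of_cont hcs), hd,
    integral_finsetSum _ fun m hm => (integrable_of_cont (hG m (mem_Icc.1 hm).2)).const_mul _]
  have hw : ∑ m ∈ Icc l (P.K + 1), ∫ U, (P.nest s b v).w m * G m U ∂haarON N =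
      (N : ℝ) * ((∑ m ∈ Ico l (P.K + 1), P.ovl a s b v r m) / ((P.K : ℝ) + 1)) := by
    simp only [integral_const_mul, ho]
    rw [sum_congr rfl fun m hm => show (P.nest s b v).w m * ((N : ℝ) * P.ovl a s b v r m) =
      if m ∈ Ico l (P.K + 1) then (N : ℝ) * (P.ovl a s b v r m / ((P.K : ℝ) + 1)) else 0 by
        rw [Par.nest, w_glass P.K _ _ (mem_Icc.1 hm).1 (mem_Icc.1 hm).2]
        split_ifs <;> ring]
    rw [sum_ite_mem, inter_eq_right.2 Ico_subset_Icc_self, ← mul_sum, ← sum_div]
  rw [hw, tailO, mul_sub]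

lemma tailO_mem (hN : 0 < N) (r : Fin M) {l : ℕ} (hl : l ≤ P.K + 1) (v : GBox M P.K → ℝ) :
    0 ≤ tailO P a s b r l v ∧ tailO P a s b r l v ≤ 1 := by
  have hi := integral_ampTail P a s b hN r l v
  have hN' : (0 : ℝ) < N := by exact_mod_cast hN
  have hm := fun (U : ON N) (p : Fin N) =>
    ampTail_mem P.K (P.lamN a b v) (fun l _ => s l) (P.ampN b v) U hl (Sum.inr p)
  have h0 : 0 ≤ (N : ℝ) * tailO P a s b r l v :=
    hi ▸ integral_nonneg fun U => sum_nonneg fun p _ => (hm U p).1
  have h1 : (N : ℝ) * tailO P a s b r l v ≤ N := by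
    rw [← hi]
    refine (integral_mono_of_nonneg (.of_forall fun U => sum_nonneg fun p _ => (hm U p).1)
      (integrable_const (N : ℝ)) (.of_forall fun U => ?_)).trans_eq (by simp)
    refine (sum_le_sum fun p _ => (hm U p).2).trans ?_
    refine (sum_le_sum_of_subset_of_nonneg (subset_univ _) fun p _ _ => ?_).trans_eq
      (sum_heatTop P.K (P.lamN a b v) (fun l _ => s l) (P.ampN b v) U).1
    exact (hm U p).1.trans (hm U p).2
  exact ⟨nonneg_of_mul_nonneg_right h0 hN',
    le_of_mul_le_mul_left (h1.trans_eq (mul_one _).symm) hN'⟩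

lemma meanFree_convex' (K : ℕ) : ConvexOn ℝ Set.univ
    fun x : (Fin N → ℝ) × (ℕ → Fin N → ℝ) × (ℕ → Fin N → ℝ) => meanFree K x.1 x.2.1 x.2.2 := by
  have hi := fun x : (Fin N → ℝ) × (ℕ → Fin N → ℝ) × (ℕ → Fin N → ℝ) =>
    Lin.integrable_glassFree K x.1 x.2.1 x.2.2
  refine ⟨convex_univ, fun x _ y _ p q hp hq hpq => ?_⟩
  simp only [meanFree, smul_eq_mul]
  rw [← integral_const_mul, ← integral_const_mul, ← integral_add ((hi x).const_mul p)
    ((hi y).const_mul q)]
  exact integral_mono (hi (p • x + q • y)) (((hi x).const_mul p).add ((hi y).const_mul q))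
    fun U => (glassFree_convex K U).2 (Set.mem_univ x) (Set.mem_univ y) hp hq hpq

/-! ### One coordinate of the box -/

/-- The levels with fields. -/
def Ctrl (l : ℕ) : Prop := l ≤ P.K + 1 ∧ ¬(1 ≤ l ∧ l ≤ P.L0)

variable {r : Fin M} {l : ℕ} (hl : Ctrl P l)

/-- The coordinate of the box moving the amplitude of atom `r` at level `l`. -/
def coord : GBox M P.K := Sum.inr (⟨l, Nat.lt_succ_of_le hl.1⟩, r)

lemma ampN_update (v : GBox M P.K → ℝ) (x t : ℝ) (m : ℕ) (p : Fin N) :
    P.ampN b (Function.update v (coord (r := r) P hl) (x + t)) m p =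
      P.ampN b (Function.update v (coord (r := r) P hl) x) m p +
        t * if m = l ∧ b p = r then P.eta else 0 := by
  by_cases hmp : m = l ∧ b p = r
  · obtain ⟨rfl, rfl⟩ := hmp
    simp only [Par.ampN, Par.etaV, coord, dif_pos hl.1, if_neg hl.2, Function.update_self,
      and_self, if_true]
    ring
  · simp only [Par.ampN, Par.etaV, coord, if_neg hmp, mul_zero, add_zero]
    split_ifs with h1 h2
    · rfl
    · have hne : (Sum.inr (⟨m, Nat.lt_succ_of_le h1⟩, b p) : GBox M P.K) ≠
          Sum.inr (⟨l, Nat.lt_succ_of_le hl.1⟩, r) := fun he => by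
        simp only [Sum.inr.injEq, Prod.mk.injEq, Fin.mk.injEq] at he
        exact hmp he
      rw [Function.update_of_ne hne, Function.update_of_ne hne]
    · rfl

lemma lamN_update (v : GBox M P.K → ℝ) (x : ℝ) :
    P.lamN a b (Function.update v (coord (r := r) P hl) x) = P.lamN a b v := by
  funext p
  simp [Par.lamN, Par.lamV, coord]

lemma hasDerivAt_coord (hN : 0 < N) (v : GBox M P.K → ℝ) (x : ℝ) :
    HasDerivAt (fun y => P.free a s b (Function.update v (coord (r := r) P hl) y))
      (P.eta ^ 2 * (1 + x) * ((N : ℝ) *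
        tailO P a s b r l (Function.update v (coord (r := r) P hl) x))) x := by
  set w := Function.update v (coord (r := r) P hl) x
  set dV : ℕ → Fin N → ℝ := fun m p => if m = l ∧ b p = r then P.eta else 0
  have h := hasDerivAt_meanFree P.K (P.lamN a b w) (fun _ => 0) (fun l _ => s l) (fun _ _ => 0)
    (P.ampN b w) dV
  have hval : ∫ U, (1 / 2 * ∑ p, (0 : ℝ) *
        (P.nest s b w).heatTop (glassLeaf U) (quadLaw (P.lamN a b w) U) (Sum.inr p) +
      ∑ m ∈ range (P.K + 2), ∑ p,
        ((0 : ℝ) * s m * ampTail (P.nest s b w) (glassLeaf U) (quadLaw (P.lamN a b w) U) m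
            (Sum.inl p) +
          dV m p * P.ampN b w m p *
            ampTail (P.nest s b w) (glassLeaf U) (quadLaw (P.lamN a b w) U) m (Sum.inr p)))
      ∂haarON N = P.eta ^ 2 * (1 + x) * ((N : ℝ) * tailO P a s b r l w) := by
    rw [← integral_ampTail P a s b hN r l w, ← integral_const_mul]
    refine integral_congr_ae (.of_forall fun U => ?_)
    simp only [zero_mul, sum_const_zero, mul_zero, zero_add]
    rw [sum_eq_single l (fun m _ hm => sum_eq_zero fun p _ => by simp [dV, hm])
      fun hn => absurd (mem_range.2 (Nat.lt_succ_of_le hl.1)) hn, mul_sum, fiber, sum_filter]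
    refine sum_congr rfl fun p _ => ?_
    simp only [dV, true_and]
    split_ifs with hp
    · subst hp
      simp only [Par.ampN, Par.etaV, dif_pos hl.1, if_neg hl.2, w, coord, Function.update_self]
      ring
    · ring
  rw [← hval]
  set F : ℝ → ℝ := fun t => meanFree P.K (fun p => P.lamN a b w p + t * (0 : ℝ))
    (fun l (_ : Fin N) => s l + t * 0) fun m p => P.ampN b w m p + t * dV m p with hFdef
  have hy : HasDerivAt (fun y => F (y - x)) _ x :=
    HasDerivAt.comp_sub_const x x (f := F) (by rw [sub_self]; exact h)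
  refine hy.congr_of_eventuallyEq (.of_forall fun y => ?_)
  simp only [hFdef]
  simp only [Par.free, Par.freeS, dV, w]
  have e := ampN_update P b (r := r) hl v x (y - x)
  rw [add_sub_cancel] at e
  congr 1
  · funext p
    simp [lamN_update]
  · funext m p
    simp
  · funext m p
    rw [e]

/-- Two systems: the tails are close on the average over one coordinate. -/
lemma coord_close {k : ℕ} (b' : Fin (N + k) → Fin M) (hN : 0 < N) (heta : 0 < P.eta) {Cd : ℝ}
    (hC : ∀ v, InBox v → |P.free a s b v - P.free a s b' v| ≤ Cd) {δ : ℝ} (hδ : 0 < δ)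
    (hδ' : δ ≤ 1 / 2) {v : GBox M P.K → ℝ} (hv : ∀ i, v i ∈ Set.Icc (0 : ℝ) 1) :
    ∫ x in (0 : ℝ)..1, |tailO P a s b r l (Function.update v (coord (r := r) P hl) x) -
        tailO P a s b' r l (Function.update v (coord (r := r) P hl) x)| ≤
      (4 * Cd / δ) / (P.eta ^ 2 * N) + 12 * δ * ((N : ℝ) + k) / N + 2 * k / N := by
  set c := coord (r := r) P hl
  set T : ℝ → ℝ := fun x => tailO P a s b r l (Function.update v c x)
  set T' : ℝ → ℝ := fun x => tailO P a s b' r l (Function.update v c x)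
  set f' : ℝ → ℝ := fun x => P.eta ^ 2 * (1 + x) * ((N : ℝ) * T x)
  set g' : ℝ → ℝ := fun x => P.eta ^ 2 * (1 + x) * (((N : ℝ) + k) * T' x)
  have hN' : (0 : ℝ) < N := by exact_mod_cast hN
  have hk0 : (0 : ℝ) ≤ k := Nat.cast_nonneg k
  have hcT : Continuous T := (continuous_tailO P a s b r l).comp
    (Continuous.update (continuous_const (y := v)) c continuous_id)
  have hcT' : Continuous T' := (continuous_tailO P a s b' r l).comp
    (Continuous.update (continuous_const (y := v)) c continuous_id)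
  have hT : ∀ x, 0 ≤ T x ∧ T x ≤ 1 := fun x => tailO_mem P a s b hN r hl.1 _
  have hT' : ∀ x, 0 ≤ T' x ∧ T' x ≤ 1 := fun x => tailO_mem P a s b' (by omega) r hl.1 _
  have hf : ∀ x, HasDerivAt (fun y => P.free a s b (Function.update v c y)) (f' x) x :=
    fun x => hasDerivAt_coord P a s b hl hN v x
  have hg : ∀ x, HasDerivAt (fun y => P.free a s b' (Function.update v c y)) (g' x) x := fun x => by
    have h := hasDerivAt_coord P a s b' (r := r) hl (by omega) v x
    push_cast at h
    exact h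
  have hconv : ∀ {N : ℕ} (b : Fin N → Fin M) (F' : ℝ → ℝ),
      (∀ x, HasDerivAt (fun y => P.free a s b (Function.update v c y)) (F' x) x) →
        Monotone F' := by
    intro N b F' hF
    have hcv : ConvexOn ℝ Set.univ fun y => P.free a s b (Function.update v c y) := by
      refine ⟨convex_univ, fun x _ y _ p q hp hq hpq => ?_⟩
      have h := (meanFree_convex' (N := N) P.K).2
        (Set.mem_univ (P.lamN a b v, (fun l _ => s l), P.ampN b (Function.update v c x)))
        (Set.mem_univ (P.lamN a b v, (fun l _ => s l), P.ampN b (Function.update v c y))) hp hq hpq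
      refine le_of_eq_of_le ?_ (h.trans_eq ?_)
      · simp only [Prod.smul_fst, Prod.smul_snd, Prod.fst_add, Prod.snd_add, Par.free, Par.freeS]
        congr 1
        · funext i
          simp only [lamN_update, c, Pi.add_apply, Pi.smul_apply, smul_eq_mul]
          linear_combination (-(P.lamN a b v i)) * hpq
        · funext m i
          simp only [Pi.add_apply, Pi.smul_apply, smul_eq_mul]
          linear_combination (-(s m)) * hpq
        · funext m i
          simp only [Pi.add_apply, Pi.smul_apply, smul_eq_mul]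
          have e0 := ampN_update P b (r := r) hl v 0 (p * x + q * y) m i
          have e1 := ampN_update P b (r := r) hl v 0 x m i
          have e2 := ampN_update P b (r := r) hl v 0 y m i
          rw [zero_add] at e0 e1 e2
          rw [e0, e1, e2]
          linear_combination
            (-(P.ampN b (Function.update v (coord (r := r) P hl) 0) m i)) * hpq
      · simp only [Par.free, Par.freeS, smul_eq_mul, lamN_update, c]
    intro x y hxy
    rcases eq_or_lt_of_le hxy with rfl | hlt
    · exact le_rfl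
    · exact (hcv.le_slope_of_hasDerivAt (Set.mem_univ x) (Set.mem_univ y) hlt (hF x)).trans
        (hcv.slope_le_of_hasDerivAt (Set.mem_univ x) (Set.mem_univ y) hlt (hF y))
  have hbox : ∀ x ∈ Set.Icc (0 - δ) (1 + δ), InBox (Function.update v c x) := fun x hx i => by
    rw [Function.update_apply]
    split_ifs
    · exact ⟨by linarith [hx.1], by linarith [hx.2]⟩
    · exact ⟨by linarith [(hv i).1], by linarith [(hv i).2]⟩
  have hbd : ∀ x ∈ Set.Icc (0 - δ) (1 + δ), ∀ n τ : ℝ, 0 ≤ τ → τ ≤ 1 → 0 ≤ n → n ≤ N + k →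
      |P.eta ^ 2 * (1 + x) * (n * τ)| ≤ 3 * P.eta ^ 2 * ((N : ℝ) + k) := by
    intro x hx n τ h0 h1 hn0 hn
    have hx0 : 0 ≤ 1 + x := by linarith [hx.1]
    have hx1 : 1 + x ≤ 3 := by linarith [hx.2]
    rw [abs_of_nonneg (by positivity), mul_comm 3]
    refine mul_le_mul (mul_le_mul_of_nonneg_left hx1 (sq_nonneg _))
      ((mul_le_of_le_one_right hn0 h1).trans hn) (by positivity) (by positivity)
  have key := integral_abs_deriv_sub_le (a := 0) (b := 1) (d := δ) (c := 0)
    (G := 3 * P.eta ^ 2 * ((N : ℝ) + k)) (C := Cd) hδ zero_le_one le_rfl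
    ((abs_nonneg _).trans (hC _ (hbox 0 ⟨by linarith, by linarith⟩)))
    (fun x _ => hf x) (fun x _ => hg x)
    (((continuous_const.mul (continuous_const.add continuous_id)).mul
      (continuous_const.mul hcT)).continuousOn)
    (((continuous_const.mul (continuous_const.add continuous_id)).mul
      (continuous_const.mul hcT')).continuousOn)
    (by simpa using (hconv b f' hf).monotoneOn _) (by simpa using (hconv b' g' hg).monotoneOn _)
    (fun x hx => hbd x hx N _ (hT x).1 (hT x).2 hN'.le (by linarith))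
    (fun x hx => hbd x hx _ _ (hT' x).1 (hT' x).2 (by positivity) le_rfl)
    (fun x hx => hC _ (hbox x hx))
  simp only [sub_zero, one_mul, mul_zero, zero_mul, add_zero] at key
  have hpt : ∀ x ∈ Set.Icc (0 : ℝ) 1,
      P.eta ^ 2 * (N : ℝ) * |T x - T' x| ≤ |f' x - g' x| + P.eta ^ 2 * (2 * k) := by
    intro x hx
    have h1 : f' x - g' x = P.eta ^ 2 * (1 + x) * (N : ℝ) * (T x - T' x) -
        P.eta ^ 2 * (1 + x) * k * T' x := by simp only [f', g']; ring
    have h2 : 0 ≤ P.eta ^ 2 * (1 + x) * k := by have := hx.1; positivity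
    have h3 : P.eta ^ 2 * (N : ℝ) * |T x - T' x| ≤
        |P.eta ^ 2 * (1 + x) * (N : ℝ) * (T x - T' x)| := by
      have := hx.1
      rw [abs_mul, abs_of_nonneg (by positivity : 0 ≤ P.eta ^ 2 * (1 + x) * (N : ℝ))]
      refine mul_le_mul_of_nonneg_right ?_ (abs_nonneg _)
      nlinarith [mul_pos (pow_pos heta 2) hN']
    have h4 : |P.eta ^ 2 * (1 + x) * k * T' x| ≤ P.eta ^ 2 * (2 * k) := by
      rw [abs_of_nonneg (mul_nonneg h2 (hT' x).1)]
      refine (mul_le_of_le_one_right h2 (hT' x).2).trans ?_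
      nlinarith [hx.2, mul_nonneg (sq_nonneg P.eta) hk0]
    have h5 := abs_add_le (f' x - g' x) (P.eta ^ 2 * (1 + x) * k * T' x)
    rw [h1, sub_add_cancel, ← h1] at h5
    linarith
  have hcf : Continuous fun x => |f' x - g' x| :=
    (((continuous_const.mul (continuous_const.add continuous_id)).mul
      (continuous_const.mul hcT)).sub ((continuous_const.mul
        (continuous_const.add continuous_id)).mul (continuous_const.mul hcT'))).abs
  have hint := intervalIntegral.integral_mono_on zero_le_one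
    (((hcT.sub hcT').abs.intervalIntegrable (μ := volume) 0 1).const_mul (P.eta ^ 2 * (N : ℝ)))
    ((hcf.intervalIntegrable 0 1).add intervalIntegrable_const) hpt
  rw [intervalIntegral.integral_const_mul, intervalIntegral.integral_add
    (hcf.intervalIntegrable 0 1) intervalIntegrable_const, intervalIntegral.integral_const] at hint
  simp only [sub_zero, one_smul, Pi.sub_apply] at hint
  have hη : 0 < P.eta ^ 2 * (N : ℝ) := by positivity
  have e : (4 * Cd / δ) / (P.eta ^ 2 * N) + 12 * δ * ((N : ℝ) + k) / N + 2 * k / N =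
      (4 * Cd / δ + 4 * (3 * P.eta ^ 2 * ((N : ℝ) + k)) * δ + P.eta ^ 2 * (2 * k)) /
        (P.eta ^ 2 * N) := by
    field_simp
    ring
  rw [e, le_div_iff₀ hη]
  show (∫ x in (0 : ℝ)..1, |T x - T' x|) * _ ≤ _
  linarith

/-! ### From the tails to the overlaps -/

/-- The distance of the overlaps is controlled by the distances of the tails with fields. -/
lemma ovl_le_tail {k : ℕ} (b' : Fin (N + k) → Fin M) (hs : ∀ l, 1 ≤ l → l ≤ P.L0 → s l = 0)
    (hL : P.L0 ≤ P.K) (v : GBox M P.K → ℝ) (r : Fin M) :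
    (∑ l ∈ range (P.K + 1), |P.ovl a s b v r l - P.ovl a s b' v r l|) / ((P.K : ℝ) + 1) +
        |P.diag a s b v r - P.diag a s b' v r| ≤
      3 * ∑ l ∈ insert 0 (Icc (P.L0 + 1) (P.K + 1)),
        |tailO P a s b r l v - tailO P a s b' r l v| := by
  set S := insert 0 (Icc (P.L0 + 1) (P.K + 1))
  set D : ℕ → ℝ := fun l => tailO P a s b r l v - tailO P a s b' r l v
  set O : ℕ → ℝ := fun l => P.ovl a s b v r l - P.ovl a s b' v r l
  have hk : (0 : ℝ) < (P.K : ℝ) + 1 := by positivity
  have hdiag : P.diag a s b v r - P.diag a s b' v r = D (P.K + 1) := by simp [D, tailO]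
  have hstep : ∀ i j, i ≤ j → j ≤ P.K + 1 →
      (∑ m ∈ Ico i j, O m) / ((P.K : ℝ) + 1) = D j - D i := by
    intro i j hij hj
    simp only [O, D, tailO, ← sum_Ico_consecutive _ hij hj, sum_sub_distrib]
    ring
  have hlow : ∀ l ∈ range (P.L0 + 1), O l = O 0 := fun l hl => by
    have hl' := Nat.lt_succ_iff.1 (mem_range.1 hl)
    simp only [O, ovl_low P a s b v hs hL r hl', ovl_low P a s b' v hs hL r hl']
  have e0 : ∑ l ∈ range (P.L0 + 1), |O l| = |∑ m ∈ Ico 0 (P.L0 + 1), O m| := by
    rw [← range_eq_Ico, sum_congr rfl hlow, sum_congr rfl fun l hl => congrArg abs (hlow l hl),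
      sum_const, sum_const, card_range, nsmul_eq_mul, nsmul_eq_mul, abs_mul, Nat.abs_cast]
  have habs : ∀ x : ℝ, |x| / ((P.K : ℝ) + 1) = |x / ((P.K : ℝ) + 1)| := fun x => by
    rw [abs_div, abs_of_pos hk]
  have h0 : (∑ l ∈ range (P.L0 + 1), |O l|) / ((P.K : ℝ) + 1) ≤ |D (P.L0 + 1)| + |D 0| := by
    rw [e0, habs, hstep 0 (P.L0 + 1) (Nat.zero_le _) (by omega)]
    exact abs_sub _ _
  have h1 : ∀ l ∈ Icc (P.L0 + 1) P.K, |O l| / ((P.K : ℝ) + 1) ≤ |D (l + 1)| + |D l| := by
    intro l hl
    have h := hstep l (l + 1) (Nat.le_succ l) (Nat.succ_le_succ (mem_Icc.1 hl).2)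
    rw [Nat.Ico_succ_singleton, sum_singleton] at h
    rw [habs, h]
    exact abs_sub _ _
  have hsplit : range (P.K + 1) = range (P.L0 + 1) ∪ Icc (P.L0 + 1) P.K := by
    ext l
    simp only [mem_range, mem_union, mem_Icc]
    omega
  have hdisj : Disjoint (range (P.L0 + 1)) (Icc (P.L0 + 1) P.K) :=
    Finset.disjoint_left.2 fun l h h' => by simp only [mem_range, mem_Icc] at h h'; omega
  rw [hdiag]
  show (∑ l ∈ range (P.K + 1), |O l|) / ((P.K : ℝ) + 1) + |D (P.K + 1)| ≤ 3 * ∑ l ∈ S, |D l|
  rw [hsplit, sum_union hdisj, add_div, sum_div (Icc (P.L0 + 1) P.K)]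
  have hA : ∑ l ∈ Icc (P.L0 + 1) P.K, |O l| / ((P.K : ℝ) + 1) ≤
      (∑ l ∈ Icc (P.L0 + 1) P.K, |D (l + 1)|) + ∑ l ∈ Icc (P.L0 + 1) P.K, |D l| := by
    rw [← sum_add_distrib]; exact sum_le_sum h1
  have hmem : ∀ l ∈ S, 0 ≤ |D l| := fun l _ => abs_nonneg _
  have hB : |D (P.L0 + 1)| + ∑ l ∈ Icc (P.L0 + 1) P.K, |D (l + 1)| ≤ ∑ l ∈ S, |D l| := by
    have e : ∑ l ∈ Icc (P.L0 + 1) P.K, |D (l + 1)| =
        ∑ l ∈ (Icc (P.L0 + 1) P.K).map (addRightEmbedding 1), |D l| := by
      rw [sum_map]; rfl
    rw [e, map_add_right_Icc, ← sum_insert (a := P.L0 + 1) (f := fun l => |D l|)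
      (by simp only [mem_Icc]; omega)]
    exact sum_le_sum_of_subset_of_nonneg (fun l hl => by
      simp only [S, mem_insert, mem_Icc] at hl ⊢; omega) fun l hl _ => hmem l hl
  have hC : |D 0| + ∑ l ∈ Icc (P.L0 + 1) P.K, |D l| ≤ ∑ l ∈ S, |D l| := by
    rw [← sum_insert (a := 0) (f := fun l => |D l|) (by simp only [mem_Icc]; omega)]
    exact sum_le_sum_of_subset_of_nonneg (fun l hl => by
      simp only [S, mem_insert, mem_Icc] at hl ⊢; omega) fun l hl _ => hmem l hl
  have hE : |D (P.K + 1)| ≤ ∑ l ∈ S, |D l| :=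
    single_le_sum hmem (by simp only [S, mem_insert, mem_Icc]; omega)
  linarith

end OvlClose

open OvlClose

/-- Systems with free energies a bounded distance apart have the same overlaps on average. -/
theorem ovl_close {P : Par} (hP : P.Ok) (Λ smax Cd : ℝ) (d : ℕ) {ε : ℝ} (hε : 0 < ε) :
    ∀ᶠ N : ℕ in atTop, ∀ k ≤ d, ∀ a : Fin M → ℝ, (∀ r, |a r| ≤ Λ) → ∀ s, P.SpinOk smax s →
      ∀ (b : Fin N → Fin M) (b' : Fin (N + k) → Fin M),
        (∀ v, InBox v → |P.free a s b v - P.free a s b' v| ≤ Cd) →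
        Integrable (fun v => ∑ r,
            ((∑ l ∈ range (P.K + 1), |P.ovl a s b v r l - P.ovl a s b' v r l|) / ((P.K : ℝ) + 1) +
              |P.diag a s b v r - P.diag a s b' v r|)) (cubeLaw (GBox M P.K)) ∧
          ∫ v, (∑ r,
            ((∑ l ∈ range (P.K + 1), |P.ovl a s b v r l - P.ovl a s b' v r l|) / ((P.K : ℝ) + 1) +
              |P.diag a s b v r - P.diag a s b' v r|)) ∂cubeLaw (GBox M P.K) ≤ ε := by
  set S := insert 0 (Icc (P.L0 + 1) (P.K + 1))
  set m : ℝ := 3 * (M : ℝ) * (S.card : ℝ) + 1 with hm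
  have hm0 : 0 < m := by positivity
  set η := ε / m
  have hη : 0 < η := div_pos hε hm0
  set δ := min (1 / 2) (η / 50)
  have hδ : 0 < δ := lt_min (by norm_num) (by positivity)
  have hδη : 24 * δ ≤ η / 2 := by linarith [min_le_right (1 / 2 : ℝ) (η / 50)]
  have heta := hP.eta_pos
  have hlim : Tendsto (fun N : ℕ => ((4 * Cd / δ) / P.eta ^ 2 + 2 * (d : ℝ)) / (N : ℝ)) atTop (𝓝 0) :=
    tendsto_const_div_atTop_nhds_zero_nat _
  filter_upwards [eventually_ge_atTop (d + 1), hlim.eventually (ge_mem_nhds (half_pos hη))]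
    with N hNd hsmall k hk a _ s hs b b' hC
  have hN : 0 < N := by omega
  have hN' : (0 : ℝ) < N := by exact_mod_cast hN
  have hcont : Continuous fun v => ∑ r,
      ((∑ l ∈ range (P.K + 1), |P.ovl a s b v r l - P.ovl a s b' v r l|) / ((P.K : ℝ) + 1) +
        |P.diag a s b v r - P.diag a s b' v r|) :=
    continuous_finsetSum _ fun r _ => ((continuous_finsetSum _ fun l hl =>
      ((continuous_ovl_box P a s b r (mem_range.1 hl).le).sub
        (continuous_ovl_box P a s b' r (mem_range.1 hl).le)).abs).div_const _).add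
      ((continuous_diag_box P a s b r).sub (continuous_diag_box P a s b' r)).abs
  refine ⟨Box.integrable_cube hcont, ?_⟩
  have hct : ∀ r l, Continuous fun v => |tailO P a s b r l v - tailO P a s b' r l v| :=
    fun r l => ((continuous_tailO P a s b r l).sub (continuous_tailO P a s b' r l)).abs
  have hb : ∀ r, ∀ l ∈ S,
      ∫ v, |tailO P a s b r l v - tailO P a s b' r l v| ∂cubeLaw (GBox M P.K) ≤ η := by
    intro r l hl
    have hctrl : Ctrl P l := by
      simp only [S, mem_insert, mem_Icc] at hl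
      refine ⟨?_, fun h => ?_⟩ <;> omega
    have hC0 : 0 ≤ Cd := (abs_nonneg _).trans (hC (fun _ => 0) fun _ => ⟨by norm_num, by norm_num⟩)
    refine (Box.cube_integral_le (hct r l) (coord (r := r) P hctrl) zero_lt_one
      (M := η) fun v hv => ?_).trans_eq (by rw [sub_zero, div_one])
    simp only [sub_zero, div_one]
    refine (coord_close P a s b hctrl b' hN heta hC hδ (min_le_left _ _) hv).trans ?_
    have hk' : (k : ℝ) ≤ d := Nat.cast_le.2 hk
    have hdN : (d : ℝ) ≤ N := Nat.cast_le.2 (by omega)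
    have h1 : 12 * δ * ((N : ℝ) + k) / N ≤ 24 * δ := by
      rw [div_le_iff₀ hN']; nlinarith
    have h2 : (4 * Cd / δ) / (P.eta ^ 2 * N) + 2 * k / N ≤
        ((4 * Cd / δ) / P.eta ^ 2 + 2 * (d : ℝ)) / (N : ℝ) := by
      rw [add_div, div_div (4 * Cd / δ)]
      gcongr
    linarith
  have hc3 : Continuous fun v =>
      ∑ r, 3 * ∑ l ∈ S, |tailO P a s b r l v - tailO P a s b' r l v| :=
    continuous_finsetSum _ fun r _ =>
      continuous_const.mul (continuous_finsetSum S fun l _ => hct r l)
  have hd := integral_mono (μ := cubeLaw (GBox M P.K)) (Box.integrable_cube hcont)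
    (Box.integrable_cube hc3)
    fun v => sum_le_sum fun r _ => ovl_le_tail P a s b b' hs.2 hP.L0_le.le v r
  refine hd.trans ?_
  rw [integral_finsetSum _ fun r _ => (Box.integrable_cube
    (continuous_finsetSum S fun l _ => hct r l)).const_mul _]
  simp only [integral_const_mul]
  calc ∑ r, 3 * ∫ v, ∑ l ∈ S, |tailO P a s b r l v - tailO P a s b' r l v| ∂cubeLaw (GBox M P.K)
      ≤ ∑ _r : Fin M, 3 * ((S.card : ℝ) * η) := sum_le_sum fun r _ => by
        rw [integral_finsetSum _ fun l _ => Box.integrable_cube (hct r l)]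
        refine mul_le_mul_of_nonneg_left ((sum_le_sum (hb r)).trans_eq ?_) (by norm_num)
        rw [sum_const, nsmul_eq_mul]
    _ = (m - 1) * η := by
        rw [sum_const, card_univ, Fintype.card_fin, nsmul_eq_mul, hm]; ring
    _ ≤ ε := by
        have : m * η = ε := mul_div_cancel₀ _ hm0.ne'
        linarith

end Vale.Agent.P166.Parisi
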