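import Vale.Agent.P166.Parisi.InsertDiff
import Vale.Agent.P166.Parisi.InsertBound
import Vale.Agent.P166.Parisi.BasicsPar
import Vale.Agent.P166.Parisi.OvlClose
import Vale.Agent.P166.Parisi.Conc

/-!
Module I: the gain of a bounded coupling of new spins to Gaussian projections of the top atom is,
on average over the box, the free energy of the new spins alone along the normalised overlaps of
the top atom.
-/

set_option linter.unusedSectionVars false

namespace Vale.Agent.P166.Parisi.Ins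

open MeasureTheory ProbabilityTheory Finset Matrix Filter Topology
open Vale.Agent.P157 Vale.Agent.P157.Parisi
open Vale.Agent.P166 (spin)
open Vale.Agent.P166.Parisi.Sym (finLaw linL)

variable {M N k : ℕ} [NeZero M] {J : Type} [Fintype J]

/-! ### The pinning error for a fixed rotation -/

section pin

variable (P : Par) (a : Fin M → ℝ) (s : ℕ → ℝ) (b : Fin N → Fin M) (v : GBox M P.K → ℝ)

/-- The integrand of `levelErr`. -/
noncomputable def levAt (l : ℕ) (U : ON N) : ℝ :=
  ∑ r, ((P.nest s b v).mean ((glassLeaf U).logZ (quadLaw (P.lamN a b v) U)) l (fun y =>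
        |(P.nest s b v).sqSum (glassLeaf U) (quadLaw (P.lamN a b v) U) (atomSet b r) l y / N -
          P.ovl a s b v r l|) +
      (P.nest s b v).mean ((glassLeaf U).logZ (quadLaw (P.lamN a b v) U)) l (fun y =>
        (P.nest s b v).covNorm (glassLeaf U) (quadLaw (P.lamN a b v) U) (atomSet b r) l y / N))

/-- The integrand of `diagErr`. -/
noncomputable def devAt (U : ON N) : ℝ :=
  ∑ r, (P.nest s b v).mean ((glassLeaf U).logZ (quadLaw (P.lamN a b v) U)) P.K (fun y =>
    |(P.nest s b v).node (glassLeaf U) (quadLaw (P.lamN a b v) U) P.K (atomSq b U r) y -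
      P.diag a s b v r|)

/-- The integrand of `leafVar`. -/
noncomputable def varAt (U : ON N) : ℝ :=
  ∑ r, (P.nest s b v).mean ((glassLeaf U).logZ (quadLaw (P.lamN a b v) U)) P.K (fun y =>
    (P.nest s b v).node (glassLeaf U) (quadLaw (P.lamN a b v) U) P.K
        (fun σ y => atomSq b U r σ y ^ 2) y -
      (P.nest s b v).node (glassLeaf U) (quadLaw (P.lamN a b v) U) P.K (atomSq b U r) y ^ 2)

/-- The integrand of `pinErr`. -/
noncomputable def pinAt (U : ON N) : ℝ :=
  (∑ l ∈ Ioc P.L0 P.K, levAt P a s b v l U) / ((P.K : ℝ) + 1) + devAt P a s b v U +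
    varAt P a s b v U

lemma ptame_node (lam : Fin N → ℝ) (Nn : Nest (FIdx N)) {l : ℕ}
    (hl : l ≤ Nn.K) {f : ON N → (Fin N → Bool) → ℝ} (hf : ∀ σ, Continuous fun U => f U σ) :
    PTame fun U => Nn.node (glassLeaf U) (quadLaw lam U) l fun σ _ => f U σ := by
  simp only [Sym.glassLeaf_eq, Sym.quadLaw_eq]
  exact Sym.ptame_node_lin Sym.continuous_coef (Sym.continuous_wgt lam) Sym.abs_coef_le
    (Sym.wgt_nonneg lam) (Sym.sum_wgt lam) Nn hl hf

lemma continuous_mean_glass (lam : Fin N → ℝ) (Nn : Nest (FIdx N)) {l : ℕ}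
    (hl : l ≤ Nn.K) {f : ON N → (FIdx N → ℝ) → ℝ} (hf : PTame f) :
    Continuous fun U => Nn.mean ((glassLeaf U).logZ (quadLaw lam U)) l (f U) := by
  simp only [Sym.glassLeaf_eq, Sym.quadLaw_eq]
  exact Sym.continuous_mean_lin Sym.continuous_coef (Sym.continuous_wgt lam) Sym.abs_coef_le
    (Sym.wgt_nonneg lam) (Sym.sum_wgt lam) Nn hl hf

lemma continuous_atomSq_U (r : Fin M) (σ : Fin N → Bool) :
    Continuous fun U : ON N => atomSq b U r σ (fun _ => 0) := by
  unfold atomSq
  exact (continuous_finsetSum _ fun p _ => (Sym.continuous_rotSpin σ p).pow 2).div_const _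

lemma continuous_levAt {l : ℕ} (hl : l ≤ P.K + 1) : Continuous (levAt P a s b v l) := by
  have hl' : l ≤ (P.nest s b v).K := hl
  have hg : ∀ i, PTame fun U =>
      (P.nest s b v).grad (glassLeaf U) (quadLaw (P.lamN a b v) U) l i := fun i => by
    simp only [Nest.grad, Sym.glassLeaf_eq, Sym.vec_linL]
    exact ptame_node _ _ hl' fun σ => Sym.continuous_coef σ i
  have hv : ∀ i i', PTame fun U => (P.nest s b v).node (glassLeaf U) (quadLaw (P.lamN a b v) U) l
      (fun σ y => (glassLeaf U).vec i σ y * (glassLeaf U).vec i' σ y) := fun i i' => by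
    simp only [Sym.glassLeaf_eq, Sym.vec_linL]
    exact ptame_node _ _ hl' fun σ =>
      (Sym.continuous_coef σ i).mul (Sym.continuous_coef σ i')
  unfold levAt
  refine continuous_finsetSum _ fun r _ => (continuous_mean_glass _ _ hl' ?_).add
    (continuous_mean_glass _ _ hl' ?_)
  · simp only [Nest.sqSum, div_eq_inv_mul, pow_two]
    exact (((ptame_sum _ fun i _ => (hg i).mul (hg i)).const_mul _).sub
      (ptame_param continuous_const)).abs
  · simp only [Nest.covNorm, Nest.cov, div_eq_inv_mul, pow_two]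
    exact (ptame_sqrt (ptame_sum _ fun i _ => ptame_sum _ fun i' _ =>
      ((hv i i').sub ((hg i).mul (hg i'))).mul ((hv i i').sub ((hg i).mul (hg i'))))).const_mul _

lemma ptame_node_atomSq (r : Fin M) :
    (PTame fun U => (P.nest s b v).node (glassLeaf U) (quadLaw (P.lamN a b v) U) P.K
      (atomSq b U r)) ∧
    PTame fun U => (P.nest s b v).node (glassLeaf U) (quadLaw (P.lamN a b v) U) P.K
      (fun σ y => atomSq b U r σ y ^ 2) := by
  have hK : P.K ≤ (P.nest s b v).K := Nat.le_succ _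
  exact ⟨ptame_node _ _ hK fun σ => continuous_atomSq_U b r σ,
    ptame_node _ _ hK fun σ => (continuous_atomSq_U b r σ).pow 2⟩

lemma continuous_devAt : Continuous (devAt P a s b v) := by
  have hK : P.K ≤ (P.nest s b v).K := Nat.le_succ _
  exact continuous_finsetSum _ fun r _ => continuous_mean_glass _ _ hK
    (((ptame_node_atomSq P a s b v r).1.sub (ptame_param continuous_const)).abs)

lemma continuous_varAt : Continuous (varAt P a s b v) := by
  have hK : P.K ≤ (P.nest s b v).K := Nat.le_succ _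
  refine continuous_finsetSum _ fun r _ => continuous_mean_glass _ _ hK ?_
  have h := ptame_node_atomSq P a s b v r
  simp only [pow_two]
  exact (by simpa only [pow_two] using h.2 : PTame _).sub (h.1.mul h.1)

lemma integral_pinAt : Integrable (pinAt P a s b v) (haarON N) ∧
    ∫ U, pinAt P a s b v U ∂haarON N = P.pinErr a s b v := by
  have i1 : ∀ l ∈ Ioc P.L0 P.K, Integrable (levAt P a s b v l) (haarON N) := fun l hl =>
    Vale.Agent.P166.integrable_of_cont
      (continuous_levAt P a s b v ((mem_Ioc.1 hl).2.trans (Nat.le_succ _)))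
  have i2 := Vale.Agent.P166.integrable_of_cont (continuous_devAt P a s b v)
  have i3 := Vale.Agent.P166.integrable_of_cont (continuous_varAt P a s b v)
  have i4 : Integrable (fun U => (∑ l ∈ Ioc P.L0 P.K, levAt P a s b v l U) / ((P.K : ℝ) + 1))
      (haarON N) := (integrable_finsetSum _ i1).div_const _
  have i5 : Integrable (fun U => (∑ l ∈ Ioc P.L0 P.K, levAt P a s b v l U) / ((P.K : ℝ) + 1) +
      devAt P a s b v U) (haarON N) := i4.add i2
  refine ⟨i5.add i3, ?_⟩
  simp only [pinAt]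
  rw [integral_add i5 i3, integral_add i4 i2, integral_div, integral_finsetSum _ i1]
  rfl

lemma covNorm_nonneg {ι Ω κ' : Type} [Fintype ι] [Fintype κ'] [MeasurableSpace Ω] (Nn : Nest ι)
    (L : Leaf Ω κ' ι) (μ : Measure Ω) (S : Finset ι) (l : ℕ) (y : ι → ℝ) :
    0 ≤ Nn.covNorm L μ S l y := Real.sqrt_nonneg _

lemma top_le_pin (U : ON N) :
    (∀ l, levTop b U P.K (P.lamN a b v) (fun l _ => s l) (P.ampN b v)
        (P.ovl a s b v (topA M) l) l ≤ levAt P a s b v l U) ∧
    devTop b U P.K (P.lamN a b v) (fun l _ => s l) (P.ampN b v) (P.diag a s b v (topA M)) ≤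
        devAt P a s b v U ∧
    varTop b U P.K (P.lamN a b v) (fun l _ => s l) (P.ampN b v) ≤ varAt P a s b v U := by
  refine ⟨fun l => ?_, ?_, ?_⟩
  · unfold levAt levTop
    refine le_trans (le_of_eq ?_) (single_le_sum (fun r _ => ?_) (mem_univ (topA M)))
    · rfl
    exact add_nonneg (ParAux.mean_nonneg' _ _ _ fun y => abs_nonneg _)
      (ParAux.mean_nonneg' _ _ _ fun y => div_nonneg (covNorm_nonneg _ _ _ _ _ _)
        (Nat.cast_nonneg N))
  · unfold devAt devTop
    refine le_trans (le_of_eq ?_) (single_le_sum (fun r _ => ?_) (mem_univ (topA M)))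
    · rfl
    exact ParAux.mean_nonneg' _ _ _ fun y => abs_nonneg _
  · unfold varAt varTop
    refine le_trans (le_of_eq ?_) (single_le_sum (fun r _ => ?_) (mem_univ (topA M)))
    · rfl
    have := Sym.prob_quad (P.lamN a b v) U
    refine ParAux.mean_nonneg' _ _ _ fun y => sub_nonneg.2 ?_
    simp only [Sym.glassLeaf_eq, Sym.quadLaw_eq]
    exact node_sq_ge (Sym.nest_good _ _ _) (Sym.leaf_good U) (Nat.le_succ _) (Sym.obs_fin _) y

end pin

/-! ### The gain -/

section gain

variable (P : Par) (a : Fin M → ℝ) (s : ℕ → ℝ) (b : Fin N → Fin M) (e : ℕ → Fin k → ℝ)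
variable (t : J → Fin k) (ψ : J → ℝ → ℝ)

/-- The gain for a fixed rotation and fixed projections. -/
noncomputable def gain (v : GBox M P.K → ℝ) (x : ON N × (J × Fin N → ℝ)) : ℝ :=
  extFree P.K (P.lamN a b v) (fun l _ => s l) (P.ampN b v) e (gaussPhi b t ψ x.2) x.1 -
    glassFree P.K (P.lamN a b v) (fun l _ => s l) (P.ampN b v) x.1

variable {B : ℝ} (hψ : ∀ j, Continuous (ψ j)) (hB : ∀ j x, |ψ j x| ≤ B)

include hψ in
lemma continuous_gain :
    Continuous fun p : (GBox M P.K → ℝ) × (ON N × (J × Fin N → ℝ)) =>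
      gain P a s b e t ψ p.1 p.2 := by
  have hl : Continuous fun p : (GBox M P.K → ℝ) × (ON N × (J × Fin N → ℝ)) => P.lamN a b p.1 :=
    (continuous_pi fun q => ParAux.continuous_lamN P a b q).comp continuous_fst
  have hV : ∀ l q, Continuous fun p : (GBox M P.K → ℝ) × (ON N × (J × Fin N → ℝ)) =>
      P.ampN b p.1 l q := fun l q => (ParAux.continuous_ampN P b l q).comp continuous_fst
  have hU : Continuous fun p : (GBox M P.K → ℝ) × (ON N × (J × Fin N → ℝ)) => p.2.1 :=
    continuous_fst.comp continuous_snd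
  refine (continuous_extFree_param (S := fun l _ => s l) P.K hl hV e
    (Φf := fun p => gaussPhi b t ψ p.2.2) (fun τ => ?_) hU).sub
      (continuous_glassFree_param (S := fun l _ => s l) P.K hl hV hU)
  simp only [gaussPhi]
  exact continuous_finsetSum _ fun j _ => (hψ j).comp (continuous_const.mul
    ((continuous_finsetSum _ fun q _ => ((continuous_apply (j, q)).comp
      (continuous_snd.comp (continuous_snd.comp continuous_fst))).mul
        ((continuous_apply q).comp continuous_snd)).div_const _))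

include hB in
lemma abs_gain_le (v : GBox M P.K → ℝ) (x : ON N × (J × Fin N → ℝ)) :
    |gain P a s b e t ψ v x| ≤
      Fintype.card J * B + (∑ l ∈ range (P.K + 2), ∑ i, e l i ^ 2) / 2 := by
  have hΦ : ∀ τ z, |gaussPhi b t ψ x.2 τ z - (fun (_ : Fin k → Bool) _ => (0 : ℝ)) τ z| ≤
      Fintype.card J * B := fun τ z => by
    rw [sub_zero]
    exact (abs_sum_le_sum_abs _ _).trans ((sum_le_card_nsmul _ _ B fun j _ => hB j _).trans_eq
      (by rw [card_univ, nsmul_eq_mul]))
  have h1 := abs_le.1 (extFree_close P.K (P.lamN a b v) (fun l _ => s l) (P.ampN b v) e x.1 hΦ)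
  have h2 := extFree_none_bounds P.K (P.lamN a b v) (fun l _ => s l) (P.ampN b v) e x.1
  have h3 : 0 ≤ (∑ l ∈ range (P.K + 2), ∑ i, e l i ^ 2) / 2 := by positivity
  simp only [gain, abs_le]
  constructor <;> linarith [h1.1, h1.2, h2.1, h2.2]

include hψ hB

lemma integrable_gain (v : GBox M P.K → ℝ) :
    Integrable (gain P a s b e t ψ v) ((haarON N).prod (gauss (J × Fin N))) :=
  (integrable_const _).mono'
    ((continuous_gain P a s b e t ψ hψ).comp
      (continuous_const.prodMk continuous_id)).aestronglyMeasurable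
    (.of_forall fun x => abs_gain_le P a s b e t ψ hB v x)

lemma insTerm_eq (v : GBox M P.K → ℝ) :
    P.insTerm a s b v e t ψ = ∫ x, gain P a s b e t ψ v x ∂(haarON N).prod (gauss (J × Fin N)) := by
  have hi := integrable_gain P a s b e t ψ hψ hB v
  have hg : Continuous fun U => glassFree P.K (P.lamN a b v) (fun l _ => s l) (P.ampN b v) U :=
    continuous_glassFree_param (S := fun l _ => s l) P.K continuous_const
      (Vf := fun _ => P.ampN b v) (fun _ _ => continuous_const) continuous_id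
  have he : ∀ G, ∫ U, gain P a s b e t ψ v (U, G) ∂haarON N =
      meanExt P.K (P.lamN a b v) (fun l _ => s l) (P.ampN b v) e (gaussPhi b t ψ G) -
        P.free a s b v := by
    intro G
    have hc : Continuous fun U => extFree P.K (P.lamN a b v) (fun l _ => s l) (P.ampN b v) e
        (gaussPhi b t ψ G) U :=
      continuous_extFree_param (S := fun l _ => s l) P.K continuous_const
        (Vf := fun _ => P.ampN b v) (fun _ _ => continuous_const) e
        (Φf := fun _ => gaussPhi b t ψ G) (fun τ => by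
          simp only [gaussPhi]
          exact (continuous_finsetSum _ fun j _ => (hψ j).comp (continuous_const.mul
            ((continuous_finsetSum _ fun q _ => continuous_const.mul (continuous_apply q)).div_const
              _))).comp continuous_snd) continuous_id
    simp only [gain]
    rw [integral_sub (Vale.Agent.P166.integrable_of_cont hc)
      (Vale.Agent.P166.integrable_of_cont hg)]
    rfl
  have hj : Integrable (fun G => meanExt P.K (P.lamN a b v) (fun l _ => s l) (P.ampN b v) e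
      (gaussPhi b t ψ G)) (gauss (J × Fin N)) := by
    refine (hi.integral_prod_right.add (integrable_const (P.free a s b v))).congr
      (.of_forall fun G => ?_)
    show ∫ U, gain P a s b e t ψ v (U, G) ∂haarON N + P.free a s b v = _
    rw [he]; ring
  rw [integral_prod_symm _ hi]
  simp only [he]
  rw [integral_sub hj (integrable_const _), integral_const, probReal_univ, one_smul, Par.insTerm]

lemma continuous_insTerm : Continuous fun v => P.insTerm a s b v e t ψ := by
  simp only [insTerm_eq P a s b e t ψ hψ hB]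
  refine continuous_of_dominated
    (fun v => (integrable_gain P a s b e t ψ hψ hB v).aestronglyMeasurable)
    (fun v => .of_forall fun x => abs_gain_le P a s b e t ψ hB v x) (integrable_const _)
    (.of_forall fun x => ?_)
  have h := (continuous_gain P a s b e t ψ hψ).comp
    (f := fun v : GBox M P.K → ℝ => (v, x)) (by fun_prop)
  exact h

end gain

/-! ### The bound at one point of the box -/

lemma integral_inr {A₁ A₂ : Type} [Fintype A₁] [Fintype A₂] {f : (A₂ → ℝ) → ℝ}
    (hf : Continuous f) :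
    ∫ z, f (fun q => z (Sum.inr q)) ∂gauss (A₁ ⊕ A₂) = ∫ w, f w ∂gauss A₂ := by
  have hm := measurePreserving_snd.comp (gauss_comp_pair
    (⟨Sum.inl, Sum.inl_injective⟩ : A₁ ↪ A₁ ⊕ A₂) ⟨Sum.inr, Sum.inr_injective⟩
    fun i j h => Sum.inl_ne_inr h)
  rw [← hm.map_eq, integral_map hm.measurable.aemeasurable hf.aestronglyMeasurable]
  rfl

lemma w_ins [DecidableEq J] (K : ℕ) (b : Fin N → Fin M) (π : ℕ → ℝ) (S V : ℕ → Fin N → ℝ)
    (e : ℕ → Fin k → ℝ) (u : ℝ) {m : ℕ} (hm : m ≤ K + 1) :
    (insNest (J := J) K b π S V e u).w m = if m ≤ K then 1 / ((K : ℝ) + 1) else 0 := by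
  show (glassNest K S V).w m = _
  rw [OvlClose.w_glass K S V le_rfl hm]
  simp [mem_Ico]

lemma PsiOk.mono {κ B κ' B' : ℝ} {f f1 f2 : ℝ → ℝ} (h : PsiOk κ B f f1 f2) (hκ : κ ≤ κ')
    (hB : B ≤ B') : PsiOk κ' B' f f1 f2 where
  deriv1 := h.deriv1
  deriv2 := h.deriv2
  cont2 := h.cont2
  bound0 x := (h.bound0 x).trans hB
  bound1 x := (h.bound1 x).trans hB
  bound2 x := (h.bound2 x).trans hκ
  upper x := (h.upper x).trans hκ
  lower x := le_trans (neg_le_neg (mul_le_mul_of_nonneg_right hκ (by positivity))) (h.lower x)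
  sq_le x := (h.sq_le x).trans (mul_le_mul_of_nonneg_right hκ (by positivity))

variable {ψ ψ1 ψ2 : J → ℝ → ℝ} {κ B : ℝ}

lemma deriv_arith {T Sg pp dK r0 Ld dv vr s A1 A2 A3 cκ G W : ℝ} (hs : 1 ≤ s) (hc : 0 ≤ cκ)
    (hG : 0 ≤ G) (hW : 0 ≤ W) (h1 : 0 ≤ A1) (h2 : 0 ≤ A2) (h3 : 0 ≤ A3) (hpp : 0 ≤ pp)
    (hdK : 0 ≤ dK) (hr0 : 0 ≤ r0) (hLd : 0 ≤ Ld) (hdv : 0 ≤ dv) (hvr : 0 ≤ vr)
    (hT : |T| ≤ dK * (cκ + G) + A3 * (dv + s / 2 * vr + 1 / (2 * s)))
    (hS : |Sg| ≤ W * r0 + (A1 * s * Ld + A2 / s + G * pp)) :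
    |1 / 2 * (T - Sg)| ≤
      (cκ + G + W) * (pp + dK + r0) + (A1 + A3 + A2) * (s * (Ld + dv + vr) + 1 / s) := by
  have hs0 : 0 < s := by linarith
  have hi : 0 < 1 / s := by positivity
  have hh : 1 / (2 * s) ≤ 1 / s := one_div_le_one_div_of_le hs0 (by linarith)
  set Z := s * (Ld + dv + vr) + 1 / s with hZ
  have i1 : dv + s / 2 * vr + 1 / (2 * s) ≤ Z := by
    have a1 : dv ≤ s * dv := le_mul_of_one_le_left hdv hs
    have a2 : 0 ≤ s * Ld := mul_nonneg hs0.le hLd
    have a3 : 0 ≤ s * vr := mul_nonneg hs0.le hvr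
    rw [hZ, mul_add, mul_add]; linarith
  have i2 : s * Ld ≤ Z := by
    have a1 : 0 ≤ s * dv := mul_nonneg hs0.le hdv
    have a3 : 0 ≤ s * vr := mul_nonneg hs0.le hvr
    rw [hZ, mul_add, mul_add]; linarith
  have i3 : 1 / s ≤ Z := le_add_of_nonneg_left (by positivity)
  have j1 : A3 * (dv + s / 2 * vr + 1 / (2 * s)) ≤ A3 * Z := mul_le_mul_of_nonneg_left i1 h3
  have j2 : A1 * s * Ld ≤ A1 * Z := by rw [mul_assoc]; exact mul_le_mul_of_nonneg_left i2 h1
  have j3 : A2 / s ≤ A2 * Z := by
    rw [div_eq_mul_one_div]; exact mul_le_mul_of_nonneg_left i3 h2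
  have k1 : dK * (cκ + G) + W * r0 + G * pp ≤ (cκ + G + W) * (pp + dK + r0) := by
    nlinarith [mul_nonneg hc hpp, mul_nonneg hc hr0, mul_nonneg hG hr0, mul_nonneg hW hpp,
      mul_nonneg hW hdK]
  rw [abs_mul, abs_of_nonneg (by norm_num : (0 : ℝ) ≤ 1 / 2)]
  have h4 := abs_sub T Sg
  have h5 := abs_nonneg (T - Sg)
  linarith

/-- The derivative along the interpolation is controlled by the pinning quantities. -/
theorem abs_deriv_le [DecidableEq J] (hψ : ∀ j, PsiOk κ B (ψ j) (ψ1 j) (ψ2 j)) (hκ : 0 ≤ κ) (hB : 0 ≤ B)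
    (P : Par) (hL : P.L0 < P.K) (a : Fin M → ℝ) (sp : ℕ → ℝ) (b : Fin N → Fin M)
    (v : GBox M P.K → ℝ) (e : ℕ → Fin k → ℝ) (t : J → Fin k) {π : ℕ → ℝ} (hπ : IsPath π)
    {H : ℝ} (hH : π (P.K + 1) ≤ H) (hN : 0 < N)
    (hb : (N : ℝ) ≤ 2 * M * (fiber b (topA M)).card)
    (U : ON N) {u : ℝ} (hu : u ∈ Set.Ioo (0 : ℝ) 1) :
    let c : ℝ := Fintype.card J
    let G := κ * (c * (1 + 2 * κ) + κ * c * (1 + 2 * (2 * M) + 2 * H))
    let R := Real.exp (10 * (c * B))
    let s := Real.sqrt ((P.K : ℝ) + 1)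
    |1 / 2 * (topX b t ψ ψ1 ψ2 U P.K (P.lamN a b v) π (fun l _ => sp l) (P.ampN b v) e u -
      ∑ m ∈ range (P.K + 2),
        (insNest (J := J) P.K b π (fun l _ => sp l) (P.ampN b v) e u).w m *
          levX b t ψ ψ1 ψ2 U P.K (P.lamN a b v) π (fun l _ => sp l) (P.ampN b v) e u m)| ≤
      (c * κ + G + (2 * M + H) * G) *
          (P.pathDist a sp b v π + ((P.L0 : ℝ) + 1) / ((P.K : ℝ) + 1)) +
        (2 * (2 * M * (c * B ^ 2) * R) + (c * κ + c * B ^ 2) * (2 * M) * R +
            2 * M * (c * B ^ 2)) * (s * pinAt P a sp b v U + 1 / s) := by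
  intro c G R s
  set lam := P.lamN a b v
  set S : ℕ → Fin N → ℝ := fun l _ => sp l
  set V := P.ampN b v
  set Q := c * κ + G + (2 * M + H) * G
  set D := 2 * (2 * M * (c * B ^ 2) * R) + (c * κ + c * B ^ 2) * (2 * M) * R + 2 * M * (c * B ^ 2)
  set pd := P.pathDist a sp b v π + ((P.L0 : ℝ) + 1) / ((P.K : ℝ) + 1)
  have hK1 : (0 : ℝ) < (P.K : ℝ) + 1 := by positivity
  have hs : 0 < s := Real.sqrt_pos.2 hK1
  have hs1 : 1 ≤ s := Real.one_le_sqrt.2 (by linarith [Nat.cast_nonneg (α := ℝ) P.K])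
  have hcard : 0 < ((fiber b (topA M)).card : ℝ) := by
    by_contra h
    have : (fiber b (topA M)).card = 0 := by exact_mod_cast le_antisymm (not_lt.1 h) (Nat.cast_nonneg _)
    rw [this, Nat.cast_zero, mul_zero] at hb
    exact absurd hb (not_le.2 (by exact_mod_cast hN))
  have hMb : (N : ℝ) / (fiber b (topA M)).card ≤ 2 * M := (div_le_iff₀ hcard).2 hb
  have hH0 : 0 ≤ H := (hπ.2.trans (hπ.1 (Nat.zero_le _))).trans hH
  have hG0 : 0 ≤ G := by positivity
  obtain ⟨hlev, hdev, hvar⟩ := top_le_pin P a sp b v U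
  have hgm := gMean_le (b := b) (t := t) (U := U) (K := P.K) (lam := lam) (S := S) (V := V)
    (e := e) hψ hπ hH hMb hκ (Set.Ioo_subset_Icc_self hu)
  set g := gMean b t ψ ψ1 ψ2 U P.K lam π S V e u
  change g ≤ G at hgm
  have htop := abs_topX_le (b := b) (t := t) (U := U) (K := P.K) (lam := lam) (S := S) (V := V)
    (π := π) (e := e) (u := u) (D := P.diag a sp b v (topA M)) hψ hB hκ hMb hs hN
  have hfr : ∀ x : ℝ, x * ((N : ℝ) / (fiber b (topA M)).card) = x / frac b (topA M) := fun x => by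
    rw [frac, div_div_eq_mul_div, mul_div_assoc]
  rw [hfr] at htop
  set X := levX b t ψ ψ1 ψ2 U P.K lam π S V e u
  have hw : ∑ m ∈ range (P.K + 2), (insNest (J := J) P.K b π S V e u).w m * X m =
      (∑ m ∈ range (P.K + 1), X m) / ((P.K : ℝ) + 1) := by
    rw [sum_range_succ, w_ins P.K b π S V e u le_rfl, if_neg (by omega), zero_mul, add_zero,
      sum_div]
    exact sum_congr rfl fun m hm => by
      rw [w_ins P.K b π S V e u (mem_range.1 hm).le, if_pos (Nat.lt_succ_iff.1 (mem_range.1 hm))]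
      ring
  rw [hw]
  have hIoc : Ico (P.L0 + 1) (P.K + 1) = Ioc P.L0 P.K := by ext m; simp [mem_Ico, mem_Ioc]
  have hlow : |∑ m ∈ range (P.L0 + 1), X m| ≤ ((P.L0 : ℝ) + 1) * ((2 * M + H) * G) := by
    refine (abs_sum_le_sum_abs _ _).trans ((sum_le_card_nsmul _ _ ((2 * M + H) * G)
      fun m hm => ?_).trans_eq ?_)
    · have hm' : m ≤ P.K + 1 := by have := mem_range.1 hm; omega
      exact (abs_levX_le hψ hπ hm' ((hπ.1 hm').trans hH) hMb).trans
        (mul_le_mul_of_nonneg_left hgm (by positivity))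
    · rw [card_range, nsmul_eq_mul]; push_cast; ring
  have hhigh : |∑ m ∈ Ioc P.L0 P.K, X m| ≤
      2 * (2 * M * (c * B ^ 2) * R) * s * ∑ m ∈ Ioc P.L0 P.K, levAt P a sp b v m U +
        ((P.K : ℝ) + 1) * (2 * M * (c * B ^ 2) / s) +
        G * ∑ m ∈ range (P.K + 1), |P.ovl a sp b v (topA M) m / frac b (topA M) - π m| := by
    refine (abs_sum_le_sum_abs _ _).trans ?_
    refine (sum_le_sum (g := fun m => 2 * (2 * M * (c * B ^ 2) * R) * s * levAt P a sp b v m U +
      2 * M * (c * B ^ 2) / s +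
      G * |P.ovl a sp b v (topA M) m / frac b (topA M) - π m|) fun m hm => ?_).trans ?_
    · have hm' : m ≤ P.K + 1 := (mem_Ioc.1 hm).2.trans (Nat.le_succ _)
      have h := abs_levX_pin (b := b) (t := t) (U := U) (K := P.K) (lam := lam) (S := S)
        (V := V) (e := e) (u := u) (q := P.ovl a sp b v (topA M) m) hψ hπ hB hm' hMb hs hN
      rw [hfr] at h
      refine h.trans (add_le_add (add_le_add ?_ le_rfl) ?_)
      · calc 2 * (M : ℝ) * (c * B ^ 2) * ((1 + s) * R) *
              levTop b U P.K lam S V (P.ovl a sp b v (topA M) m) m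
            ≤ 2 * (M : ℝ) * (c * B ^ 2) * ((1 + s) * R) * levAt P a sp b v m U :=
              mul_le_mul_of_nonneg_left (hlev m) (by positivity)
          _ ≤ 2 * (M : ℝ) * (c * B ^ 2) * ((2 * s) * R) * levAt P a sp b v m U := by
              refine mul_le_mul_of_nonneg_right ?_ ?_
              · gcongr; linarith
              · exact le_trans (add_nonneg (ParAux.mean_nonneg' _ _ _ fun y => abs_nonneg _)
                  (ParAux.mean_nonneg' _ _ _ fun y => div_nonneg (covNorm_nonneg _ _ _ _ _ _)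
                    (Nat.cast_nonneg N))) (hlev m)
          _ = _ := by ring
      · rw [mul_comm G]
        exact mul_le_mul_of_nonneg_left hgm (abs_nonneg _)
    · rw [sum_add_distrib, sum_add_distrib, ← mul_sum, ← mul_sum, sum_const, nsmul_eq_mul]
      refine add_le_add (add_le_add le_rfl (mul_le_mul_of_nonneg_right ?_ (by positivity)))
        (mul_le_mul_of_nonneg_left (sum_le_sum_of_subset_of_nonneg ?_ fun _ _ _ => abs_nonneg _)
          hG0)
      · rw [Nat.card_Ioc]
        exact_mod_cast (Nat.sub_le _ _).trans (Nat.le_succ P.K)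
      · intro m hm
        exact mem_range.2 (Nat.lt_succ_of_le (mem_Ioc.1 hm).2)
  set dv := devTop b U P.K lam S V (P.diag a sp b v (topA M))
  set vr := varTop b U P.K lam S V
  set Ld := (∑ m ∈ Ioc P.L0 P.K, levAt P a sp b v m U) / ((P.K : ℝ) + 1)
  set dK := |P.diag a sp b v (topA M) / frac b (topA M) - π (P.K + 1)|
  set pp := (∑ m ∈ range (P.K + 1), |P.ovl a sp b v (topA M) m / frac b (topA M) - π m|) /
    ((P.K : ℝ) + 1)
  set r0 := ((P.L0 : ℝ) + 1) / ((P.K : ℝ) + 1)
  have hsum : |(∑ m ∈ range (P.K + 1), X m) / ((P.K : ℝ) + 1)| ≤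
      (2 * M + H) * G * r0 + (2 * (2 * M * (c * B ^ 2) * R) * s * Ld +
        2 * M * (c * B ^ 2) / s + G * pp) := by
    rw [abs_div, abs_of_pos hK1, div_le_iff₀ hK1, ← sum_range_add_sum_Ico X (m := P.L0 + 1)
      (by omega), hIoc]
    refine (abs_add_le _ _).trans ((add_le_add hlow hhigh).trans_eq ?_)
    simp only [r0, Ld, pp]
    field_simp
  have hp : pinAt P a sp b v U = Ld + devAt P a sp b v U + varAt P a sp b v U := rfl
  have hv0 : 0 ≤ devAt P a sp b v U :=
    (ParAux.mean_nonneg' _ _ _ fun y => abs_nonneg _ : 0 ≤ dv).trans hdev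
  have hpd : pd = pp + dK + r0 := rfl
  have hC1 : 0 ≤ c * B ^ 2 * (2 * M) := by positivity
  have hc3 : 0 ≤ (c * κ + c * B ^ 2) * (2 * M) * R := by positivity
  have htop' : |topX b t ψ ψ1 ψ2 U P.K lam π S V e u| ≤ dK * (c * κ + G) +
      (c * κ + c * B ^ 2) * (2 * M) * R *
        (devAt P a sp b v U + s / 2 * varAt P a sp b v U + 1 / (2 * s)) := by
    refine htop.trans (add_le_add (mul_le_mul_of_nonneg_left (by linarith) (abs_nonneg _))
      (mul_le_mul_of_nonneg_left (add_le_add (add_le_add hdev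
        (mul_le_mul_of_nonneg_left hvar (by positivity))) le_rfl) hc3))
  have hL0 : 0 ≤ Ld := by
    refine div_nonneg (sum_nonneg fun m _ => le_trans ?_ (hlev m)) hK1.le
    exact add_nonneg (ParAux.mean_nonneg' _ _ _ fun y => abs_nonneg _)
      (ParAux.mean_nonneg' _ _ _ fun y => div_nonneg (covNorm_nonneg _ _ _ _ _ _)
        (Nat.cast_nonneg N))
  have hV0 : 0 ≤ varAt P a sp b v U := by
    refine sum_nonneg fun r _ => ?_
    have := Sym.prob_quad lam U
    refine ParAux.mean_nonneg' _ _ _ fun y => sub_nonneg.2 ?_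
    simp only [Sym.glassLeaf_eq, Sym.quadLaw_eq]
    exact node_sq_ge (Sym.nest_good _ _ _) (Sym.leaf_good U) (Nat.le_succ _) (Sym.obs_fin _) y
  rw [hpd, hp]
  exact deriv_arith hs1 (by positivity) hG0 (by positivity) (by positivity) (by positivity)
    (by positivity) (by positivity) (abs_nonneg _) (by positivity) hL0 hv0 hV0 htop' hsum

/-- The gain as the increment of the interpolation. -/
lemma integral_gain_sub [DecidableEq J] (hψ : ∀ j, PsiOk κ B (ψ j) (ψ1 j) (ψ2 j)) (P : Par) (a : Fin M → ℝ)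
    (sp : ℕ → ℝ) (b : Fin N → Fin M) (v : GBox M P.K → ℝ) (e : ℕ → Fin k → ℝ) (t : J → Fin k)
    (π : ℕ → ℝ) (U : ON N) :
    (∫ g, gain P a sp b e t ψ v (U, g) ∂gauss (J × Fin N)) - tauFree P.K π e t ψ =
      (insNest P.K b π (fun l _ => sp l) (P.ampN b v) e 1).free (insLeaf b t ψ ψ1 ψ2 U)
          (insLaw (P.lamN a b v) U) -
        (insNest P.K b π (fun l _ => sp l) (P.ampN b v) e 0).free (insLeaf b t ψ ψ1 ψ2 U)
          (insLaw (P.lamN a b v) U) := by
  have e0 := free_at_zero P.K (P.lamN a b v) π (fun l _ => sp l) (P.ampN b v) e b t hψ U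
  obtain ⟨hi, e1⟩ := free_at_one P.K (P.lamN a b v) π (fun l _ => sp l) (P.ampN b v) e b t hψ U rfl
  have h := (continuous_gain P a sp b e t ψ (continuous_psi hψ)).comp
    (f := fun g : J × Fin N → ℝ => (v, (U, g))) (by fun_prop)
  have hc : Continuous fun g => gain P a sp b e t ψ v (U, g) := h
  rw [← integral_inr (A₁ := J) hc]
  simp only [gain]
  rw [integral_sub hi (integrable_const _), integral_const, probReal_univ, one_smul, ← e1]
  linarith

/-- The distance to the free energy of the new spins at a point of the box. -/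
theorem abs_insTerm_sub_le (hψ : ∀ j, PsiOk κ B (ψ j) (ψ1 j) (ψ2 j)) (hκ : 0 ≤ κ) (hB : 0 ≤ B)
    (P : Par) (hL : P.L0 < P.K) (a : Fin M → ℝ) (sp : ℕ → ℝ) (b : Fin N → Fin M)
    (v : GBox M P.K → ℝ) (e : ℕ → Fin k → ℝ) (t : J → Fin k) {π : ℕ → ℝ} (hπ : IsPath π)
    {H : ℝ} (hH : π (P.K + 1) ≤ H) (hN : 0 < N)
    (hb : (N : ℝ) ≤ 2 * M * (fiber b (topA M)).card) :
    let c : ℝ := Fintype.card J
    let G := κ * (c * (1 + 2 * κ) + κ * c * (1 + 2 * (2 * M) + 2 * H))
    let R := Real.exp (10 * (c * B))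
    let s := Real.sqrt ((P.K : ℝ) + 1)
    |P.insTerm a sp b v e t ψ - tauFree P.K π e t ψ| ≤
      (c * κ + G + (2 * M + H) * G) *
          (P.pathDist a sp b v π + ((P.L0 : ℝ) + 1) / ((P.K : ℝ) + 1)) +
        (2 * (2 * M * (c * B ^ 2) * R) + (c * κ + c * B ^ 2) * (2 * M) * R +
            2 * M * (c * B ^ 2)) * (s * P.pinErr a sp b v + 1 / s) := by
  intro c G R s
  classical
  set lam := P.lamN a b v
  set S : ℕ → Fin N → ℝ := fun l _ => sp l
  set V := P.ampN b v
  set Q := c * κ + G + (2 * M + H) * G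
  set D := 2 * (2 * M * (c * B ^ 2) * R) + (c * κ + c * B ^ 2) * (2 * M) * R + 2 * M * (c * B ^ 2)
  set pd := P.pathDist a sp b v π + ((P.L0 : ℝ) + 1) / ((P.K : ℝ) + 1)
  have hK1 : (0 : ℝ) < (P.K : ℝ) + 1 := by positivity
  have hs : 0 < s := Real.sqrt_pos.2 hK1
  have hs1 : 1 ≤ s := Real.one_le_sqrt.2 (by linarith [Nat.cast_nonneg (α := ℝ) P.K])
  have hcard : 0 < ((fiber b (topA M)).card : ℝ) := by
    by_contra h
    have : (fiber b (topA M)).card = 0 := by exact_mod_cast le_antisymm (not_lt.1 h) (Nat.cast_nonneg _)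
    rw [this, Nat.cast_zero, mul_zero] at hb
    exact absurd hb (not_le.2 (by exact_mod_cast hN))
  have hMb : (N : ℝ) / (fiber b (topA M)).card ≤ 2 * M := (div_le_iff₀ hcard).2 hb
  have hH0 : 0 ≤ H := (hπ.2.trans (hπ.1 (Nat.zero_le _))).trans hH
  have hG0 : 0 ≤ G := by positivity
  have point : ∀ U, |(∫ g, gain P a sp b e t ψ v (U, g) ∂gauss (J × Fin N)) -
      tauFree P.K π e t ψ| ≤ Q * pd + D * (s * pinAt P a sp b v U + 1 / s) := by
    intro U
    rw [integral_gain_sub hψ]
    exact insFree_diff_le hψ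
      (fun u hu => abs_deriv_le hψ hκ hB P hL a sp b v e t hπ hH hN hb U hu) hπ
  obtain ⟨ipin, epin⟩ := integral_pinAt P a sp b v
  have hi := integrable_gain P a sp b e t ψ (continuous_psi hψ) (fun j x => (hψ j).bound0 x) v
  have hi1 : Integrable (fun U => (∫ g, gain P a sp b e t ψ v (U, g) ∂gauss (J × Fin N)) -
      tauFree P.K π e t ψ) (haarON N) := hi.integral_prod_left.sub (integrable_const _)
  have hr1 : Integrable (fun U => D * (s * pinAt P a sp b v U + 1 / s)) (haarON N) :=
    ((ipin.const_mul _).add (integrable_const _)).const_mul _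
  have e1 : P.insTerm a sp b v e t ψ - tauFree P.K π e t ψ =
      ∫ U, ((∫ g, gain P a sp b e t ψ v (U, g) ∂gauss (J × Fin N)) - tauFree P.K π e t ψ)
        ∂haarON N := by
    rw [insTerm_eq P a sp b e t ψ (continuous_psi hψ) (fun j x => (hψ j).bound0 x) v,
      integral_prod _ hi, integral_sub hi.integral_prod_left (integrable_const _), integral_const,
      probReal_univ, one_smul]
  rw [e1]
  refine abs_integral_le_integral_abs.trans ((integral_mono hi1.abs
    ((integrable_const (Q * pd)).add hr1) point).trans_eq ?_)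
  simp only [Pi.add_apply]
  rw [integral_add (integrable_const _) hr1, integral_const, probReal_univ, one_smul,
    integral_const_mul, integral_add (ipin.const_mul _) (integrable_const _), integral_const_mul,
    epin, integral_const, probReal_univ, one_smul]

lemma continuous_tauFree (hψ : ∀ j, PsiOk κ B (ψ j) (ψ1 j) (ψ2 j)) (K : ℕ)
    (e : ℕ → Fin k → ℝ) (t : J → Fin k) {T : Type} [TopologicalSpace T]
    [FirstCountableTopology T] {π : T → ℕ → ℝ} (hπ : ∀ l, Continuous fun x => π x l) :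
    Continuous fun x => tauFree K (π x) e t ψ := by
  classical
  simp only [tauFree_eq K _ e t hψ]
  have := Sym.prob_finLaw (w := fun _ : Fin k → Bool => 1 / (2 : ℝ) ^ k)
    (fun _ => by positivity) (by simp)
  refine (continuous_free (N := tauNest (J := J) K (fun _ => 0) e) (A := fun x =>
    (tauNest (J := J) K (π x) e).amp) (grid_good K _) (tauLeaf_good t hψ) fun l _ i => ?_)
  rcases i with j | i
  · show Continuous fun x => Real.sqrt (if l = 0 then π x 0 else π x l - π x (l - 1))
    split_ifs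
    · exact (hπ 0).sqrt
    · exact ((hπ l).sub (hπ (l - 1))).sqrt
  · exact continuous_const

end Vale.Agent.P166.Parisi.Ins

namespace Vale.Agent.P166.Parisi

open MeasureTheory ProbabilityTheory Finset Filter Topology
open Vale.Agent.P157.Parisi (cubeLaw IsPath)

variable {M : ℕ} [NeZero M]

/-- The gain is the free energy of the new spins alone along any path close to the normalised
overlaps of the top atom; the factor of the distance does not see the bound of the potential. -/
theorem insert_gauss (J : Type) [Fintype J] (k : ℕ) (κ H : ℝ) :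
    ∃ Cκ : ℝ, ∀ B : ℝ, ∃ CB : ℝ, ∀ P : Par, P.Ok → ∀ Λ smax ε : ℝ, 0 < ε →
      ∀ᶠ N : ℕ in atTop, ∀ a : Fin M → ℝ, (∀ r, |a r| ≤ Λ) → ∀ s, P.SpinOk smax s →
        ∀ e : ℕ → Fin k → ℝ, (∀ i, P.SpinOk smax fun l => e l i) →
        ∀ b : Fin N → Fin M, (N : ℝ) ≤ 2 * M * (fiber b (topA M)).card →
        ∀ ψ ψ1 ψ2 : J → ℝ → ℝ, (∀ j, PsiOk κ B (ψ j) (ψ1 j) (ψ2 j)) → ∀ t : J → Fin k,
        ∀ π : (GBox M P.K → ℝ) → ℕ → ℝ, (∀ l, Continuous fun v => π v l) →
          (∀ v, IsPath (π v) ∧ π v (P.K + 1) ≤ H ∧ ∀ l ≤ P.L0, π v l = π v 0) →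
          Integrable (fun v => |P.insTerm a s b v e t ψ - tauFree P.K (π v) e t ψ|)
              (cubeLaw (GBox M P.K)) ∧
            ∫ v, |P.insTerm a s b v e t ψ - tauFree P.K (π v) e t ψ| ∂cubeLaw (GBox M P.K) ≤
              Cκ * ((∫ v, P.pathDist a s b v (π v) ∂cubeLaw (GBox M P.K)) +
                  ((P.L0 : ℝ) + 1) / ((P.K : ℝ) + 1)) +
                CB / Real.sqrt ((P.K : ℝ) + 1) + ε := by
  classical
  obtain ⟨C₀, hC₀⟩ := pin_small M
  set c : ℝ := (Fintype.card J : ℝ)
  set κ' := max κ 0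
  set H' := max H 0
  set G := κ' * (c * (1 + 2 * κ') + κ' * c * (1 + 2 * (2 * M) + 2 * H'))
  refine ⟨c * κ' + G + (2 * M + H') * G, fun B => ?_⟩
  set B' := max B 0
  set R := Real.exp (10 * (c * B'))
  set D := 2 * (2 * M * (c * B' ^ 2) * R) + (c * κ' + c * B' ^ 2) * (2 * M) * R +
    2 * M * (c * B' ^ 2)
  have hD : 0 ≤ D := by positivity
  refine ⟨D * (C₀ + 1), fun P hP Λ smax ε hε => ?_⟩
  set rK := Real.sqrt ((P.K : ℝ) + 1)
  have hK1 : (0 : ℝ) < (P.K : ℝ) + 1 := by positivity
  have hr : 0 < rK := Real.sqrt_pos.2 hK1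
  filter_upwards [hC₀ P hP Λ smax (ε / ((D + 1) * rK)) (by positivity),
    eventually_gt_atTop 0] with N hN hN0 a ha s hs e _ b hb ψ ψ1 ψ2 hψ t π hπc hπ
  obtain ⟨ipin, hpin⟩ := hN a ha s hs b
  have hψ' : ∀ j, PsiOk κ' B' (ψ j) (ψ1 j) (ψ2 j) := fun j =>
    Ins.PsiOk.mono (hψ j) (le_max_left _ _) (le_max_left _ _)
  have hpt := fun v => Ins.abs_insTerm_sub_le hψ' (le_max_right _ _) (le_max_right _ _) P hP.L0_le
    a s b v e t (hπ v).1 ((hπ v).2.1.trans (le_max_left H 0)) hN0 hb
  have hcont : Continuous fun v => |P.insTerm a s b v e t ψ - tauFree P.K (π v) e t ψ| :=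
    ((Ins.continuous_insTerm P a s b e t ψ (Ins.continuous_psi hψ)
      fun j x => (hψ j).bound0 x).sub (Ins.continuous_tauFree hψ P.K e t hπc)).abs
  have hpd : Continuous fun v => P.pathDist a s b v (π v) := by
    unfold Par.pathDist
    exact ((continuous_finsetSum _ fun l hl => (((continuous_ovl_box P a s b (topA M)
      ((mem_range.1 hl).le)).div_const _).sub (hπc l)).abs).div_const _).add
      ((((continuous_diag_box P a s b (topA M))).div_const _).sub (hπc _)).abs
  have iabs := P157.Parisi.Box.integrable_cube hcont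
  have ipd := P157.Parisi.Box.integrable_cube hpd
  refine ⟨iabs, ?_⟩
  have ir : Integrable (fun v => D * (rK * P.pinErr a s b v + 1 / rK)) (cubeLaw (GBox M P.K)) :=
    ((ipin.const_mul _).add (integrable_const _)).const_mul _
  have il : Integrable (fun v => (c * κ' + G + (2 * M + H') * G) *
      (P.pathDist a s b v (π v) + ((P.L0 : ℝ) + 1) / ((P.K : ℝ) + 1))) (cubeLaw (GBox M P.K)) :=
    (ipd.add (integrable_const _)).const_mul _
  refine (integral_mono iabs (il.add ir) hpt).trans ?_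
  simp only [Pi.add_apply]
  rw [integral_add il ir, integral_const_mul, integral_add ipd (integrable_const _),
    integral_const_mul, integral_add (ipin.const_mul _) (integrable_const _), integral_const_mul,
    integral_const, integral_const, probReal_univ, one_smul, one_smul]
  refine (add_le_add le_rfl ?_).trans_eq (add_assoc _ _ _).symm
  have hsq : rK * rK = (P.K : ℝ) + 1 := Real.mul_self_sqrt hK1.le
  calc D * (rK * ∫ v, P.pinErr a s b v ∂cubeLaw (GBox M P.K) + 1 / rK)
      ≤ D * (rK * (C₀ / ((P.K : ℝ) + 1) + ε / ((D + 1) * rK)) + 1 / rK) := by gcongr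
    _ = D * (C₀ + 1) / rK + D / (D + 1) * ε := by
        rw [← hsq]; field_simp; ring
    _ ≤ _ := by
        have : D / (D + 1) ≤ 1 := (div_le_one (by linarith)).2 (by linarith)
        nlinarith

end Vale.Agent.P166.Parisi
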