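import Vale.Agent.P166.Parisi.InsertEnds

/-!
Module I, part 4: the derivative along the interpolation and its bound by the pinning quantities of
the base system.
-/

set_option linter.unusedSectionVars false

namespace Vale.Agent.P166.Parisi.Ins

open MeasureTheory ProbabilityTheory Finset Matrix
open Vale.Agent.P157 Vale.Agent.P157.Parisi
open Vale.Agent.P166 (spin)
open Vale.Agent.P166.Parisi.Sym (finLaw linL)

variable {M : ℕ} [NeZero M] {N k : ℕ} {J : Type} [Fintype J] [DecidableEq J]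

section defs

variable (b : Fin N → Fin M) (t : J → Fin k) (ψ ψ1 ψ2 : J → ℝ → ℝ) (U : ON N)

/-- The derivative of coupling `j` in its field. -/
noncomputable def cplB (j : J) (ω : InsCfg N k) (y : InsIdx N k J → ℝ) : ℝ :=
  ψ1 j (cplArg b t U j ω y) * spin ω.2 (t j)

/-- The sum of their squares. -/
noncomputable def cplB2 (ω : InsCfg N k) (y : InsIdx N k J → ℝ) : ℝ :=
  ∑ j, cplB b t ψ1 U j ω y ^ 2

/-- The sum of the curvatures of the couplings. -/
noncomputable def cplH (ω : InsCfg N k) (y : InsIdx N k J → ℝ) : ℝ :=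
  ∑ j, (ψ2 j (cplArg b t U j ω y) + cplB b t ψ1 U j ω y ^ 2)

/-- The squared norm of the top atom over its size. -/
noncomputable def topSq (σ : Fin N → Bool) : ℝ :=
  (∑ p ∈ fiber b (topA M), rotSpin U σ p ^ 2) / ((fiber b (topA M)).card : ℝ)

variable (K : ℕ) (lam : Fin N → ℝ) (π : ℕ → ℝ) (S V : ℕ → Fin N → ℝ) (e : ℕ → Fin k → ℝ) (u : ℝ)

/-- The mean of the squared derivatives. -/
noncomputable def gMean : ℝ :=
  (insNest K b π S V e u).mean ((insLeaf b t ψ ψ1 ψ2 U).logZ (insLaw lam U)) (K + 1)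
    ((insLeaf b t ψ ψ1 ψ2 U).gibbs (insLaw lam U) (cplB2 b t ψ1 U))

/-- The defect at level `m`. -/
noncomputable def levX (m : ℕ) : ℝ :=
  (insNest K b π S V e u).mean ((insLeaf b t ψ ψ1 ψ2 U).logZ (insLaw lam U)) m fun y => ∑ j,
    ((∑ p ∈ fiber b (topA M), (insNest K b π S V e u).node (insLeaf b t ψ ψ1 ψ2 U) (insLaw lam U) m
        (fun ω v => rotSpin U ω.1 p * cplB b t ψ1 U j ω v) y ^ 2) /
      ((fiber b (topA M)).card : ℝ) -
      π m * (insNest K b π S V e u).node (insLeaf b t ψ ψ1 ψ2 U) (insLaw lam U) m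
        (cplB b t ψ1 U j) y ^ 2)

/-- The defect of the last level. -/
noncomputable def topX : ℝ :=
  (insNest K b π S V e u).mean ((insLeaf b t ψ ψ1 ψ2 U).logZ (insLaw lam U)) (K + 1)
    ((insLeaf b t ψ ψ1 ψ2 U).gibbs (insLaw lam U) fun ω v =>
      cplH b t ψ1 ψ2 U ω v * (topSq b U ω.1 - π (K + 1)))

/-- The deviations at level `m` of the base system. -/
noncomputable def levTop (q : ℝ) (m : ℕ) : ℝ :=
  (glassNest K S V).mean ((glassLeaf U).logZ (quadLaw lam U)) m (fun y =>
      |(glassNest K S V).sqSum (glassLeaf U) (quadLaw lam U) (atomSet b (topA M)) m y / N - q|) +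
    (glassNest K S V).mean ((glassLeaf U).logZ (quadLaw lam U)) m (fun y =>
      (glassNest K S V).covNorm (glassLeaf U) (quadLaw lam U) (atomSet b (topA M)) m y / N)

/-- The deviation of the squared norm of the top atom given the level `K`. -/
noncomputable def devTop (D : ℝ) : ℝ :=
  (glassNest K S V).mean ((glassLeaf U).logZ (quadLaw lam U)) K (fun y =>
    |(glassNest K S V).node (glassLeaf U) (quadLaw lam U) K (atomSq b U (topA M)) y - D|)

/-- Its variance given the level `K`. -/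
noncomputable def varTop : ℝ :=
  (glassNest K S V).mean ((glassLeaf U).logZ (quadLaw lam U)) K (fun y =>
    (glassNest K S V).node (glassLeaf U) (quadLaw lam U) K
        (fun σ y => atomSq b U (topA M) σ y ^ 2) y -
      (glassNest K S V).node (glassLeaf U) (quadLaw lam U) K (atomSq b U (topA M)) y ^ 2)

end defs

/-! ### Elementary facts -/

section facts

variable {b : Fin N → Fin M} {t : J → Fin k} {ψ ψ1 ψ2 : J → ℝ → ℝ} {κ B : ℝ} {U : ON N}
variable (hψ : ∀ j, PsiOk κ B (ψ j) (ψ1 j) (ψ2 j))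

include hψ

lemma continuous_psi (j : J) : Continuous (ψ j) :=
  continuous_iff_continuousAt.2 fun x => ((hψ j).deriv1 x).continuousAt

lemma continuous_psi1 (j : J) : Continuous (ψ1 j) :=
  continuous_iff_continuousAt.2 fun x => ((hψ j).deriv2 x).continuousAt

lemma obs_cplB (j : J) : Obs (cplB b t ψ1 U j) :=
  ⟨fun _ => measurable_of_finite _,
    fun ω => ((continuous_psi1 hψ j).comp (continuous_cplArg b t U j ω)).mul continuous_const, B,
    fun ω y => by rw [cplB, abs_mul, abs_spin, mul_one]; exact (hψ j).bound1 _⟩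

lemma cplB_sq_le (j : J) (ω : InsCfg N k) (y : InsIdx N k J → ℝ) :
    cplB b t ψ1 U j ω y ^ 2 ≤ B ^ 2 := by
  rw [cplB, mul_pow, spin_sq, mul_one, ← sq_abs]
  exact pow_le_pow_left₀ (abs_nonneg _) ((hψ j).bound1 _) 2

lemma cplB2_le (ω : InsCfg N k) (y : InsIdx N k J → ℝ) :
    cplB2 b t ψ1 U ω y ≤ Fintype.card J * B ^ 2 :=
  (sum_le_card_nsmul _ _ (B ^ 2) fun j _ => cplB_sq_le hψ j ω y).trans_eq (by simp)

lemma obs_cplB2 : Obs (cplB2 b t ψ1 U) :=
  obs_sum univ fun j => Obs.sq (obs_cplB (b := b) (t := t) (U := U) hψ j)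

lemma obs_cplH : Obs (cplH b t ψ1 ψ2 U) := by
  refine obs_sum univ fun j => Obs.add ?_ (Obs.sq (obs_cplB (b := b) (t := t) (U := U) hψ j))
  exact ⟨fun _ => measurable_of_finite _,
    fun ω => (hψ j).cont2.comp (continuous_cplArg b t U j ω), κ, fun ω y => (hψ j).bound2 _⟩

lemma abs_cplH_le (ω : InsCfg N k) (y : InsIdx N k J → ℝ) :
    |cplH b t ψ1 ψ2 U ω y| ≤ Fintype.card J * κ + cplB2 b t ψ1 U ω y := by
  refine (abs_sum_le_sum_abs _ _).trans ((sum_le_sum fun j _ =>
    (abs_add_le _ _).trans (add_le_add ((hψ j).bound2 _) (le_of_eq (abs_of_nonneg (sq_nonneg _))))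
    ).trans_eq ?_)
  rw [sum_add_distrib, cplB2]
  simp

end facts

lemma atomSum_le (b : Fin N → Fin M) (U : ON N) (σ : Fin N → Bool) :
    ∑ p ∈ fiber b (topA M), rotSpin U σ p ^ 2 ≤ N :=
  (sum_le_sum_of_subset_of_nonneg (subset_univ _) fun _ _ _ => sq_nonneg _).trans_eq
    (Sym.sum_rotSpin_sq U σ)

variable {K : ℕ} {lam : Fin N → ℝ} {π : ℕ → ℝ} {S V : ℕ → Fin N → ℝ} {e : ℕ → Fin k → ℝ}
variable {b : Fin N → Fin M} {t : J → Fin k} {ψ ψ1 ψ2 : J → ℝ → ℝ} {κ B : ℝ} {U : ON N} {u : ℝ}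

lemma abs_mean_le {ι Ω κ' : Type} [Fintype ι] [Fintype κ'] [MeasurableSpace Ω] {Nn : Nest ι}
    {L : Leaf Ω κ' ι} {μ : Measure Ω} [IsProbabilityMeasure μ] {B' : ℝ} (hN : Nn.Good)
    (hL : L.Good B') {l : ℕ} (hl : l ≤ Nn.K) {f : (ι → ℝ) → ℝ} (hf : Tame f) :
    |Nn.mean (L.logZ μ) l f| ≤ Nn.mean (L.logZ μ) l (fun y => |f y|) := by
  rw [abs_le]
  refine ⟨?_, mean_mono hN hL hl hf hf.abs fun y => le_abs_self _⟩
  rw [neg_le, ← neg_one_mul, ← mean_const_mul hN hL]
  exact mean_mono hN hL hl (hf.const_mul _) hf.abs fun y => by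
    rw [neg_one_mul]; exact neg_le_abs _

lemma mean_node_eq {ι Ω κ' : Type} [Fintype ι] [Fintype κ'] [MeasurableSpace Ω] (Nn : Nest ι)
    (L : Leaf Ω κ' ι) (μ : Measure Ω) {l : ℕ} (hl : l ≤ Nn.K) (f : Ω → (ι → ℝ) → ℝ) :
    Nn.mean (L.logZ μ) l (Nn.node L μ l f) = Nn.mean (L.logZ μ) Nn.K (L.gibbs μ f) :=
  mean_down _ _ hl

/-! ### The derivative -/

/-- The derivative of the squared amplitudes. -/
noncomputable def insDelta (b : Fin N → Fin M) (π : ℕ → ℝ) (l : ℕ) : InsIdx N k J → ℝ :=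
  Sum.elim (fun _ => 0) (Sum.elim (fun _ => 0 - inc π l)
    fun q => if l = 0 ∧ b q.2 = topA M then 1 / ((fiber b (topA M)).card : ℝ) - 0 else 0)

lemma insAmp_sqPath (hπ : IsPath π) (l : ℕ) (i : InsIdx N k J) :
    ModelFacts.SqPath (fun u => insAmp b π S V e u) (insDelta b π) l i := by
  rcases i with i | j | q
  · exact Or.inl ⟨⟨_, fun _ => rfl⟩, rfl⟩
  · exact Or.inr ⟨inc π l, 0, inc_nonneg hπ l, le_rfl, fun _ => rfl, rfl⟩
  · by_cases h : l = 0 ∧ b q.2 = topA M
    · exact Or.inr ⟨0, 1 / ((fiber b (topA M)).card : ℝ), le_rfl, by positivity,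
        fun u => by simp [insAmp, h], by simp [insDelta, h]⟩
    · exact Or.inl ⟨⟨0, fun u => by simp [insAmp, h]⟩, by simp [insDelta, h]⟩

lemma sum_delta_proj (q : J × Fin N) (m : ℕ) :
    ∑ l ∈ range (m + 1), insDelta (k := k) b π l (Sum.inr (Sum.inr q)) =
      if b q.2 = topA M then 1 / ((fiber b (topA M)).card : ℝ) else 0 := by
  rw [sum_eq_single_of_mem 0 (mem_range.2 (Nat.succ_pos m)) fun l _ hl => by simp [insDelta, hl]]
  simp [insDelta]

lemma sum_delta_cpl (j : J) (m : ℕ) :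
    ∑ l ∈ range (m + 1), insDelta (N := N) (k := k) b π l (Sum.inr (Sum.inl j)) = -π m := by
  simp [insDelta, sum_inc]

lemma weighted_sum (m : ℕ) (F : InsIdx N k J → ℝ) :
    ∑ i, (∑ l ∈ range (m + 1), insDelta b π l i) * F i =
      ∑ j, ((∑ p ∈ fiber b (topA M), F (Sum.inr (Sum.inr (j, p)))) /
        ((fiber b (topA M)).card : ℝ) - π m * F (Sum.inr (Sum.inl j))) := by
  rw [Fintype.sum_sum_type, sum_eq_zero (s := (univ : Finset (FIdx N ⊕ Fin k))) fun i _ => by
    simp [insDelta], zero_add, Fintype.sum_sum_type, Fintype.sum_prod_type]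
  simp only [sum_delta_cpl, sum_delta_proj]
  rw [sum_sub_distrib, add_comm, sub_eq_add_neg, ← sum_neg_distrib]
  congr 1
  · refine sum_congr rfl fun j _ => ?_
    rw [fiber, sum_filter, sum_div]
    refine sum_congr rfl fun p _ => ?_
    split_ifs <;> ring
  · exact sum_congr rfl fun j _ => by ring

/-- The derivative along the interpolation. -/
theorem hasDerivAt_insFree (hψ : ∀ j, PsiOk κ B (ψ j) (ψ1 j) (ψ2 j)) (hπ : IsPath π)
    (hu : u ∈ Set.Ioo (0 : ℝ) 1) :
    HasDerivAt
      (fun u => (insNest K b π S V e u).free (insLeaf b t ψ ψ1 ψ2 U) (insLaw lam U))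
      (1 / 2 * (topX b t ψ ψ1 ψ2 U K lam π S V e u -
        ∑ m ∈ range (K + 2), (insNest (J := J) K b π S V e u).w m *
          levX b t ψ ψ1 ψ2 U K lam π S V e u m)) u := by
  set Nu := insNest (J := J) K b π S V e u with hNu
  have hN : Nu.Good := insNest_good u
  set L := insLeaf b t ψ ψ1 ψ2 U
  have hL := insLeaf_good b t hψ U
  set μ := insLaw (k := k) lam U
  have h := ModelFacts.free_deriv_sq (μ := μ) (insNest_good (J := J) (K := K) (b := b) (π := π)
    (S := S) (V := V) (e := e) 0) hL (A := fun u => insAmp b π S V e u) (Δ := insDelta b π)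
    (fun l _ i => insAmp_sqPath hπ l i) hu
  refine h.congr_deriv ?_
  change 1 / 2 * ∑ i, ((∑ l ∈ range (K + 2), insDelta b π l i) * Nu.heatTop L μ i -
      ∑ m ∈ range (K + 2), Nu.w m * Nu.sqGrad L μ m i * ∑ l ∈ range (m + 1), insDelta b π l i) = _
  rw [sum_sub_distrib]
  refine congrArg _ (congrArg₂ _ ?_ ?_)
  · rw [weighted_sum (K + 1)]
    have ht : ∀ i, Tame (Nu.heat L μ Nu.K i) := fun i => heat_tame hN hL le_rfl i
    have e1 : ∀ j, (∑ p ∈ fiber b (topA M), Nu.heatTop L μ (Sum.inr (Sum.inr (j, p)))) /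
          ((fiber b (topA M)).card : ℝ) - π (K + 1) * Nu.heatTop L μ (Sum.inr (Sum.inl j)) =
        Nu.mean (L.logZ μ) Nu.K (fun y =>
          (∑ p ∈ fiber b (topA M), Nu.heat L μ Nu.K (Sum.inr (Sum.inr (j, p))) y) *
              ((fiber b (topA M)).card : ℝ)⁻¹ -
            π (K + 1) * Nu.heat L μ Nu.K (Sum.inr (Sum.inl j)) y) := by
      intro j
      simp only [mul_comm _ ((fiber b (topA M)).card : ℝ)⁻¹]
      rw [Pin.mean_sub hN hL le_rfl ((tame_sum _ fun p _ => ht _).const_mul _)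
        ((ht _).const_mul _), mean_const_mul hN hL, mean_const_mul hN hL,
        Pin.mean_sum hN hL le_rfl _ fun p _ => ht _, div_eq_inv_mul]
      rfl
    simp only [e1]
    rw [← Pin.mean_sum hN hL le_rfl univ fun j _ => by
      simp only [mul_comm _ ((fiber b (topA M)).card : ℝ)⁻¹]
      exact ((tame_sum _ fun p _ => ht _).const_mul _).sub ((ht _).const_mul _)]
    refine congrArg _ (funext fun y => ?_)
    have ob : ∀ i, Obs fun ω v => (∑ c, L.φ2 c (L.loc ω v c) * L.a ω c i ^ 2) + L.vec i ω v ^ 2 :=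
      fun i => (heat_top_obs hN hL i).1
    have e2 : ∀ i, Nu.heat L μ Nu.K i y = _ := fun i => heat_top (L := L) (μ := μ) hN hL i y
    simp only [e2]
    simp only [Leaf.gibbs, ← integral_div]
    simp only [insLaw, μ, Sym.integral_finLaw (insW_nonneg lam U)]
    have hg : ∀ j, ∀ p ∈ fiber b (topA M), ∀ ω : InsCfg N k,
        (∑ c, L.φ2 c (L.loc ω y c) * L.a ω c (Sum.inr (Sum.inr (j, p))) ^ 2) +
            L.vec (Sum.inr (Sum.inr (j, p))) ω y ^ 2 =
          rotSpin U ω.1 p ^ 2 * (ψ2 j (cplArg b t U j ω y) + cplB b t ψ1 U j ω y ^ 2) := by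
      intro j p hp ω
      have hpb : b p = topA M := (mem_filter.1 hp).2
      rw [vec_gField b t ψ ψ1 ψ2 U ω y j hpb, Fintype.sum_sum_type,
        sum_eq_single (s := (univ : Finset J)) j]
      · simp only [loc_cpl, L, cplB]
        simp [insLeaf, baseCoef, cplCoef, hpb, mul_pow, spin_sq]
        ring
      · intro j' _ hj
        simp [L, insLeaf, cplCoef, hj.symm]
      · simp
    have hc : ∀ j (ω : InsCfg N k),
        (∑ c, L.φ2 c (L.loc ω y c) * L.a ω c (Sum.inr (Sum.inl j)) ^ 2) +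
            L.vec (Sum.inr (Sum.inl j)) ω y ^ 2 =
          ψ2 j (cplArg b t U j ω y) + cplB b t ψ1 U j ω y ^ 2 := by
      intro j ω
      rw [vec_cField, Fintype.sum_sum_type, sum_eq_single (s := (univ : Finset J)) j]
      · simp only [loc_cpl, L, cplB]
        simp [insLeaf, baseCoef, cplCoef, mul_pow, spin_sq]
      · intro j' _ hj
        simp [L, insLeaf, cplCoef, hj.symm]
      · simp
    simp +contextual only [hg]
    simp only [hc, cplH, topSq]
    simp only [sum_mul, mul_sum]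
    simp only [Finset.sum_comm (s := fiber b (topA M)), ← sum_sub_distrib]
    rw [sum_comm]
    refine sum_congr rfl fun ω _ => ?_
    simp only [L]
    simp only [sum_div, mul_sub, mul_sum]
    refine sum_congr rfl fun j _ => ?_
    rw [sub_div, mul_sub (insW lam U ω), sum_div, mul_sum]
    refine congrArg₂ _ (sum_congr rfl fun p _ => ?_) ?_ <;> ring
  · rw [sum_comm]
    refine sum_congr rfl fun m hm => ?_
    have hmK : m ≤ Nu.K := by
      simp only [hNu, insNest]
      exact Nat.lt_succ_iff.1 (mem_range.1 hm)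
    have e0 : ∑ i, Nu.w m * Nu.sqGrad L μ m i * ∑ l ∈ range (m + 1), insDelta b π l i =
        Nu.w m * ∑ i, (∑ l ∈ range (m + 1), insDelta b π l i) * Nu.sqGrad L μ m i := by
      rw [mul_sum]
      exact sum_congr rfl fun i _ => by ring
    rw [e0, weighted_sum m, levX]
    refine congrArg _ ?_
    have tg : ∀ i, Tame fun y => Nu.grad L μ m i y ^ 2 := fun i => (grad_tame hN hL hmK i).sq
    have eq1 : (fun y : InsIdx N k J → ℝ => ∑ j,
        ((∑ p ∈ fiber b (topA M), Nu.node L μ m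
            (fun ω v => rotSpin U ω.1 p * cplB b t ψ1 U j ω v) y ^ 2) /
          ((fiber b (topA M)).card : ℝ) - π m * Nu.node L μ m (cplB b t ψ1 U j) y ^ 2)) =
        fun y => ∑ j, (((fiber b (topA M)).card : ℝ)⁻¹ *
          (∑ p ∈ fiber b (topA M), Nu.grad L μ m (Sum.inr (Sum.inr (j, p))) y ^ 2) -
          π m * Nu.grad L μ m (Sum.inr (Sum.inl j)) y ^ 2) := by
      funext y
      refine sum_congr rfl fun j _ => ?_
      rw [div_eq_inv_mul]
      have ec : L.vec (Sum.inr (Sum.inl j)) = cplB b t ψ1 U j :=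
        funext fun ω => funext fun v => vec_cField b t ψ ψ1 ψ2 U ω v j
      refine congrArg₂ _ (congrArg _ (sum_congr rfl fun p hp => ?_)) (by rw [Nest.grad, ec])
      have eg : L.vec (Sum.inr (Sum.inr (j, p))) =
          fun ω v => rotSpin U ω.1 p * cplB b t ψ1 U j ω v :=
        funext fun ω => funext fun v => vec_gField b t ψ ψ1 ψ2 U ω v j (mem_filter.1 hp).2
      rw [Nest.grad, eg]
    rw [eq1, Pin.mean_sum hN hL hmK univ fun j _ =>
      ((tame_sum _ fun p _ => tg _).const_mul _).sub ((tg _).const_mul _)]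
    refine sum_congr rfl fun j _ => ?_
    rw [Pin.mean_sub hN hL hmK ((tame_sum _ fun p _ => tg _).const_mul _) ((tg _).const_mul _),
      mean_const_mul hN hL, mean_const_mul hN hL, Pin.mean_sum hN hL hmK _ fun p _ => tg _,
      div_eq_inv_mul]
    rfl

/-! ### The mean squared derivative -/

lemma root_sub_le {ι : Type} [Fintype ι] {Nn : Nest ι} (hN : Nn.Good) {A A' : (ι → ℝ) → ℝ}
    (hA : P157.Parisi.LinGrowth A) (hA' : P157.Parisi.LinGrowth A') :
    Nn.mean A Nn.K (fun y => A' y - A y) ≤ Nn.root A' - Nn.root A := by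
  have hsub : Semi fun y => A y + (A' y - A y) := by
    simpa using Tilt.semi_of_lin hA'
  have he : Tame fun y => Real.exp (A' y - A y) := by
    have h := (hA'.exp_tame 1).mul (hA.exp_tame (-1))
    refine (show (fun y => Real.exp (A' y - A y)) = _ from funext fun y => ?_) ▸ h
    rw [← Real.exp_add]
    ring_nf
  have h := (root_add_bounds hN hA hsub (hA'.1.sub hA.1) he (hA'.tame.sub hA.tame)).1
  rw [mean_down _ _ (Nat.zero_le _)] at h
  simp only [add_sub_cancel] at h
  linarith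

variable (hψ : ∀ j, PsiOk κ B (ψ j) (ψ1 j) (ψ2 j))

include hψ

/-- The mean squared derivative does not see the bound of the potential. -/
theorem gMean_le (hπ : IsPath π) {H Mb : ℝ} (hH : π (K + 1) ≤ H)
    (hMb : (N : ℝ) / (fiber b (topA M)).card ≤ Mb) (hκ : 0 ≤ κ) (hu : u ∈ Set.Icc (0 : ℝ) 1) :
    gMean b t ψ ψ1 ψ2 U K lam π S V e u ≤
      κ * (Fintype.card J * (1 + 2 * κ) + κ * Fintype.card J * (1 + 2 * Mb + 2 * H)) := by
  set Nu := insNest (J := J) K b π S V e u with hNu
  have hN : Nu.Good := insNest_good u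
  set L := insLeaf b t ψ ψ1 ψ2 U
  have hL := insLeaf_good b t hψ U
  set L0 := baseLeaf (J := J) (k := k) U
  have hL0 := baseLeaf_good (J := J) (k := k) U
  set μ := insLaw (k := k) lam U
  set A := L0.logZ μ with hA
  set A' := L.logZ μ with hA'
  have lA : P157.Parisi.LinGrowth A := linGrowth_logZ hL0
  have lA' : P157.Parisi.LinGrowth A' := linGrowth_logZ hL
  obtain ⟨hΨ, hΨc⟩ := obs_cplSum b t (continuous_psi hψ) (fun j => (hψ j).bound0) U
  have hham : ∀ ω y, L.ham ω y = L0.ham ω y + cplSum b t ψ U ω y := fun ω y =>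
    ham_insLeaf b t ψ ψ1 ψ2 U ω y
  have hgs := gibbs_le_logZ_sub (μ := μ) hL0 hL hΨ hΨc hham
  have hK : Nu.K = K + 1 := rfl
  have hT : Nu.K ≤ Nu.K := le_rfl
  set n : ℝ := ((fiber b (topA M)).card : ℝ)
  have hn0 : 0 ≤ n := Nat.cast_nonneg _
  have hMb0 : 0 ≤ Mb := le_trans (div_nonneg (Nat.cast_nonneg N) hn0) hMb
  set J' : ℝ := (Fintype.card J : ℝ) with hJ'
  -- the squared derivative through the potential
  have h1 : gMean b t ψ ψ1 ψ2 U K lam π S V e u ≤
      κ * (J' * (1 + 2 * κ) + -Nu.mean A' Nu.K (L.gibbs μ (cplSum b t ψ U))) := by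
    have tS := tame_gibbs (μ := μ) hL hΨ
    refine (mean_mono hN hL hT (tame_gibbs hL (obs_cplB2 (b := b) (t := t) (U := U) hψ))
      (((tame_const (J' * (1 + 2 * κ))).add (tS.const_mul (-1))).const_mul κ) fun y => ?_).trans_eq ?_
    · have o : Obs fun ω v => κ * (J' * (1 + 2 * κ) + -1 * cplSum b t ψ U ω v) :=
        (obs_const κ).mul ((obs_const _).add ((obs_const (-1)).mul hΨ))
      refine (gibbs_mono (μ := μ) hL (obs_cplB2 (b := b) (t := t) (U := U) hψ) o (fun ω v => ?_) y).trans_eq ?_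
      · rw [cplSum, cplB2, hJ', mul_add, mul_sum, mul_sum,
          show κ * ((Fintype.card J : ℝ) * (1 + 2 * κ)) = ∑ _j : J, κ * (1 + 2 * κ) by simp; ring,
          ← sum_add_distrib]
        refine sum_le_sum fun j _ => ?_
        rw [cplB, mul_pow, spin_sq, mul_one]
        set x := cplArg b t U j ω v
        have h2 := (hψ j).upper x
        have h3 : |ψ j x| ≤ 2 * κ - ψ j x := abs_le.2 ⟨by linarith, by linarith⟩
        refine ((hψ j).sq_le x).trans ?_
        have := mul_le_mul_of_nonneg_left h3 hκ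
        linarith
      · rw [gibbs_const_mul, gibbs_add hL (obs_const _) ((obs_const (-1)).mul hΨ), gibbs_const hL,
          gibbs_const_mul]
    · rw [mean_const_mul hN hL, mean_add hN hL hT (tame_const _) (tS.const_mul (-1)),
        mean_const hN hL hT, mean_const_mul hN hL, neg_one_mul]
  -- down to the system without couplings
  have h2 : Nu.mean A Nu.K (L0.gibbs μ (cplSum b t ψ U)) ≤
      Nu.mean A' Nu.K (L.gibbs μ (cplSum b t ψ U)) := by
    have a1 : Nu.mean A Nu.K (L0.gibbs μ (cplSum b t ψ U)) ≤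
        Nu.mean A Nu.K (fun y => A' y - A y) :=
      mean_mono_gen lA _ (tame_gibbs hL0 hΨ) (lA'.tame.sub lA.tame) fun y => (hgs y).1
    have a2 := root_sub_le hN lA lA'
    have a3 := root_sub_le hN lA' lA
    have a4 : Nu.mean A' Nu.K (fun y => A' y - A y) ≤
        Nu.mean A' Nu.K (L.gibbs μ (cplSum b t ψ U)) :=
      mean_mono_gen lA' _ (lA'.tame.sub lA.tame) (tame_gibbs hL hΨ) fun y => (hgs y).2
    have a5 : Nu.mean A' Nu.K (fun y => A y - A' y) = -Nu.mean A' Nu.K (fun y => A' y - A y) := by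
      rw [show (fun y => A y - A' y) = fun y => -1 * (A' y - A y) from funext fun y => by ring,
        mean_const_mul_gen, neg_one_mul]
    linarith
  -- the second moments of the arguments
  set hh : Fin N → Fin N → (FIdx N → ℝ) → ℝ := fun p p' =>
    (glassLeaf U).gibbs (quadLaw lam U) fun σ _ => rotSpin U σ p * rotSpin U σ p'
  have thh : ∀ p p', Tame (hh p p') := fun p p' => tame_glass_gibbs lam U _
  set R := fiber b (topA M)
  set Hlow : (InsIdx N k J → ℝ) → ℝ := fun y => -κ * ∑ j, (1 +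
    (2 * ∑ p ∈ R, ∑ p' ∈ R, hh p p' (fun i => y (eF i)) *
        (y (Sum.inr (Sum.inr (j, p))) * y (Sum.inr (Sum.inr (j, p')))) +
      2 * (y (Sum.inr (Sum.inl j)) * y (Sum.inr (Sum.inl j))))) with hHlow
  have tq : ∀ (p p' : Fin N) (j : J), Tame fun y : InsIdx N k J → ℝ =>
      hh p p' (fun i => y (eF i)) *
        (y (Sum.inr (Sum.inr (j, p))) * y (Sum.inr (Sum.inr (j, p')))) :=
    fun p p' j => (tame_precomp eF (thh p p')).mul ((tame_coord _).mul (tame_coord _))
  have tc : ∀ j, Tame fun y : InsIdx N k J → ℝ =>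
      y (Sum.inr (Sum.inl j)) * y (Sum.inr (Sum.inl j)) :=
    fun j => (tame_coord _).mul (tame_coord _)
  have t1 : ∀ j, Tame fun y : InsIdx N k J → ℝ => ∑ p ∈ R, ∑ p' ∈ R,
      hh p p' (fun i => y (eF i)) *
        (y (Sum.inr (Sum.inr (j, p))) * y (Sum.inr (Sum.inr (j, p')))) :=
    fun j => tame_sum _ fun p _ => tame_sum _ fun p' _ => tq p p' j
  have tLow : Tame Hlow := (tame_sum _ fun j _ =>
    (tame_const (1 : ℝ)).add (((t1 j).const_mul 2).add ((tc j).const_mul 2))).const_mul _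
  have h3 : ∀ y, Hlow y ≤ L0.gibbs μ (cplSum b t ψ U) y := by
    intro y
    set f : InsCfg N k → ℝ := fun ω => -κ * ∑ j, (1 +
      (2 * ∑ p ∈ R, ∑ p' ∈ R, y (Sum.inr (Sum.inr (j, p))) * y (Sum.inr (Sum.inr (j, p'))) *
          (rotSpin U ω.1 p * rotSpin U ω.1 p') +
        2 * (y (Sum.inr (Sum.inl j)) * y (Sum.inr (Sum.inl j))))) with hf
    have e1 : L0.gibbs μ (fun ω _ => f ω) y = Hlow y := by
      have oq : ∀ (p p' : Fin N) (j : J), Obs fun (ω : InsCfg N k) (_ : InsIdx N k J → ℝ) =>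
          y (Sum.inr (Sum.inr (j, p))) * y (Sum.inr (Sum.inr (j, p'))) *
            (rotSpin U ω.1 p * rotSpin U ω.1 p') := fun p p' j => Sym.obs_fin _
      simp only [hf, hHlow]
      rw [gibbs_const_mul]
      refine congrArg _ ?_
      have gs : ∀ {α : Type} (s : Finset α) (g : α → InsCfg N k → ℝ),
          L0.gibbs μ (fun ω _ => ∑ a ∈ s, g a ω) y = ∑ a ∈ s, L0.gibbs μ (fun ω _ => g a ω) y := by
        intro α s g
        classical
        induction s using Finset.induction with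
        | empty => simpa using gibbs_const (μ := μ) hL0 0 y
        | insert a s ha ih =>
          simp only [sum_insert ha]
          rw [gibbs_add (μ := μ) hL0 (Sym.obs_fin (g a))
            (Sym.obs_fin fun ω => ∑ a ∈ s, g a ω), ih]
      rw [gs]
      refine sum_congr rfl fun j _ => ?_
      rw [gibbs_add (μ := μ) hL0 (obs_const 1) (Sym.obs_fin _), gibbs_const hL0,
        gibbs_add (μ := μ) hL0 (Sym.obs_fin _) (obs_const _), gibbs_const hL0, gibbs_const_mul, gs]
      simp only [gs, gibbs_const_mul]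
      refine congrArg _ (congrArg₂ _ (congrArg _ (sum_congr rfl fun p _ =>
        sum_congr rfl fun p' _ => ?_)) rfl)
      rw [mul_comm (hh p p' _)]
      exact congrArg _ (base_gibbs (k := k) lam U (fun σ => rotSpin U σ p * rotSpin U σ p') y)
    rw [← e1]
    refine (gibbs_mono (μ := μ) hL0 (Sym.obs_fin f)
      (Sym.obs_fin fun ω => cplSum b t ψ U ω y) (fun ω _ => ?_) y).trans_eq rfl
    simp only [hf, cplSum, mul_sum]
    refine sum_le_sum fun j _ => ?_
    set x := cplArg b t U j ω y with hx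
    have hl := (hψ j).lower x
    have hx2 : x ^ 2 ≤ 2 * (∑ p ∈ R, ∑ p' ∈ R, y (Sum.inr (Sum.inr (j, p))) *
        y (Sum.inr (Sum.inr (j, p'))) * (rotSpin U ω.1 p * rotSpin U ω.1 p')) +
        2 * (y (Sum.inr (Sum.inl j)) * y (Sum.inr (Sum.inl j))) := by
      have e : ∑ p ∈ R, ∑ p' ∈ R, y (Sum.inr (Sum.inr (j, p))) * y (Sum.inr (Sum.inr (j, p'))) *
          (rotSpin U ω.1 p * rotSpin U ω.1 p') =
            (∑ p ∈ R, rotSpin U ω.1 p * y (Sum.inr (Sum.inr (j, p)))) ^ 2 := by
        rw [sq, sum_mul_sum]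
        exact sum_congr rfl fun p _ => sum_congr rfl fun p' _ => by ring
      rw [e, hx, cplArg, mul_pow, spin_sq, one_mul]
      nlinarith [sq_nonneg (y (Sum.inr (Sum.inl j)) -
        ∑ p ∈ R, rotSpin U ω.1 p * y (Sum.inr (Sum.inr (j, p))))]
    have hm := mul_le_mul_of_nonneg_left hx2 hκ
    simp only [← mul_sum, neg_mul, mul_add, mul_one] at hm ⊢
    linarith
  have h4 : Nu.mean A Nu.K Hlow ≤ Nu.mean A Nu.K (L0.gibbs μ (cplSum b t ψ U)) :=
    mean_mono_gen lA _ tLow (tame_gibbs hL0 hΨ) h3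
  have h5 : Nu.mean A Nu.K Hlow = -κ * ∑ j, (1 + (2 * ∑ p ∈ R, ∑ p' ∈ R,
      Nu.mean A Nu.K (fun y : InsIdx N k J → ℝ => hh p p' (fun i => y (eF i)) *
        (y (Sum.inr (Sum.inr (j, p))) * y (Sum.inr (Sum.inr (j, p'))))) +
      2 * Nu.mean A Nu.K (fun y : InsIdx N k J → ℝ =>
        y (Sum.inr (Sum.inl j)) * y (Sum.inr (Sum.inl j))))) := by
    simp only [hHlow]
    rw [mean_const_mul_gen, mean_sum_gen lA _ _ fun j _ =>
      (tame_const (1 : ℝ)).add (((t1 j).const_mul 2).add ((tc j).const_mul 2))]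
    refine congrArg _ (sum_congr rfl fun j _ => ?_)
    rw [mean_add_gen lA _ (tame_const 1) (((t1 j).const_mul 2).add ((tc j).const_mul 2)),
      mean_const_gen lA, mean_add_gen lA _ ((t1 j).const_mul 2) ((tc j).const_mul 2),
      mean_const_mul_gen, mean_const_mul_gen,
      mean_sum_gen lA _ _ fun p _ => tame_sum _ fun p' _ => tq p p' j]
    refine congrArg _ (congrArg₂ _ (congrArg _ (sum_congr rfl fun p _ => ?_)) rfl)
    exact mean_sum_gen lA _ _ fun p' _ => tq p p' j
  have hc : ∀ j, Nu.mean A Nu.K (fun y : InsIdx N k J → ℝ =>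
      y (Sum.inr (Sum.inl j)) * y (Sum.inr (Sum.inl j))) ≤ H := by
    intro j
    have h := base_mean_quad (K := K) (b := b) (π := π) (S := S) (V := V) (e := e) lam U u (K + 1)
      (tame_const (1 : ℝ)) (Sum.inl j : J ⊕ J × Fin N) (Sum.inl j)
    simp only [one_mul, mean_const_gen (linGrowth_glass lam U), ↓reduceIte] at h
    refine le_of_eq_of_le h ?_
    have e' : ∀ m, insAmp (J := J) b π S V e u m (Sum.inr (Sum.inl j)) ^ 2 = (1 - u) * inc π m := by
      intro m
      simp only [insAmp, Sum.elim_inr, Sum.elim_inl, mul_zero, add_zero]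
      exact Real.sq_sqrt (mul_nonneg (by linarith [hu.2]) (inc_nonneg hπ m))
    simp only [e', ← mul_sum, sum_inc]
    have : 0 ≤ π (K + 1) := hπ.2.trans (hπ.1 (Nat.zero_le _))
    nlinarith [hu.1]
  have hg : ∀ j, ∑ p ∈ R, ∑ p' ∈ R, Nu.mean A Nu.K (fun y : InsIdx N k J → ℝ =>
      hh p p' (fun i => y (eF i)) *
        (y (Sum.inr (Sum.inr (j, p))) * y (Sum.inr (Sum.inr (j, p'))))) ≤ Mb := by
    intro j
    have h : ∀ p ∈ R, ∀ p' ∈ R, Nu.mean A Nu.K (fun y : InsIdx N k J → ℝ =>
        hh p p' (fun i => y (eF i)) *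
          (y (Sum.inr (Sum.inr (j, p))) * y (Sum.inr (Sum.inr (j, p'))))) =
        if p = p' then (glassNest K S V).mean ((glassLeaf U).logZ (quadLaw lam U)) (K + 1)
          (hh p p) * (u / n) else 0 := by
      intro p hp p' _
      refine (base_mean_quad (K := K) (b := b) (π := π) (S := S) (V := V) (e := e) lam U u (K + 1)
        (thh p p') (Sum.inr (j, p) : J ⊕ J × Fin N) (Sum.inr (j, p'))).trans ?_
      by_cases hpp : p = p'
      · subst hpp
        rw [if_pos rfl, if_pos rfl]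
        congr 1
        rw [sum_eq_single_of_mem 0 (mem_range.2 (Nat.succ_pos _))
          fun m _ hm => by simp [insAmp, hm]]
        have hb' : b p = topA M := (mem_filter.1 hp).2
        simp only [insAmp, Sum.elim_inr, hb', and_self, ↓reduceIte, mul_zero, zero_add]
        rw [Real.sq_sqrt (mul_nonneg hu.1 (by positivity)), mul_one_div]
      · rw [if_neg hpp, if_neg (by simp [hpp]), mul_zero]
    rw [sum_congr rfl fun p hp => sum_congr rfl fun p' hp' => h p hp p' hp']
    simp only [sum_ite_eq]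
    rw [sum_congr rfl fun p hp => by rw [if_pos hp], ← sum_mul,
      ← mean_sum_gen (linGrowth_glass lam U) _ _ fun p _ => thh p p]
    have hle : (glassNest K S V).mean ((glassLeaf U).logZ (quadLaw lam U)) (K + 1)
        (fun y => ∑ p ∈ R, hh p p y) ≤ N := by
      have := Sym.prob_quad lam U
      refine (mean_mono_gen (linGrowth_glass lam U) _ (tame_sum _ fun p _ => thh p p)
        (tame_const (N : ℝ)) fun y => ?_).trans_eq (mean_const_gen (linGrowth_glass lam U) _ _)
      have e2 : ∑ p ∈ R, hh p p y = (glassLeaf U).gibbs (quadLaw lam U)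
          (fun σ _ => ∑ p ∈ R, rotSpin U σ p * rotSpin U σ p) y := by
        simp only [hh, Leaf.gibbs, ← sum_div, Sym.quadLaw_eq,
          Sym.integral_finLaw (Sym.wgt_nonneg lam U), mul_sum]
        rw [sum_comm]
      rw [e2, Sym.glassLeaf_eq, Sym.quadLaw_eq]
      refine (gibbs_mono (Sym.leaf_good U) (Sym.obs_fin _) (obs_const (N : ℝ))
        (fun σ _ => ?_) y).trans_eq (gibbs_const (Sym.leaf_good U) _ y)
      simpa [sq] using atomSum_le b U σ
    calc _ ≤ (N : ℝ) * (u / n) := mul_le_mul_of_nonneg_right hle (div_nonneg hu.1 hn0)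
      _ = u * ((N : ℝ) / n) := by ring
      _ ≤ 1 * Mb := mul_le_mul hu.2 hMb (div_nonneg (Nat.cast_nonneg N) hn0) zero_le_one
      _ = Mb := one_mul _
  have h6 : -(κ * J' * (1 + 2 * Mb + 2 * H)) ≤ Nu.mean A Nu.K Hlow := by
    rw [h5, neg_mul, neg_le_neg_iff, mul_assoc]
    refine mul_le_mul_of_nonneg_left ((sum_le_card_nsmul _ _ (1 + 2 * Mb + 2 * H)
      fun j _ => ?_).trans_eq (by simp [hJ']; ring)) hκ
    linarith [hg j, hc j]
  refine h1.trans ?_
  exact mul_le_mul_of_nonneg_left (by linarith [h6, h4, h2]) hκ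

/-! ### The levels -/

/-- A crude bound of the defect at a level. -/
theorem abs_levX_le (hπ : IsPath π) {H Mb : ℝ} {m : ℕ} (hm : m ≤ K + 1) (hH : π m ≤ H)
    (hMb : (N : ℝ) / (fiber b (topA M)).card ≤ Mb) :
    |levX b t ψ ψ1 ψ2 U K lam π S V e u m| ≤ (Mb + H) * gMean b t ψ ψ1 ψ2 U K lam π S V e u := by
  set Nu := insNest (J := J) K b π S V e u
  have hN : Nu.Good := insNest_good u
  set L := insLeaf b t ψ ψ1 ψ2 U
  have hL := insLeaf_good b t hψ U
  set μ := insLaw (k := k) lam U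
  set n : ℝ := ((fiber b (topA M)).card : ℝ)
  have hn0 : 0 ≤ n := Nat.cast_nonneg _
  have hπ0 : 0 ≤ π m := hπ.2.trans (hπ.1 (Nat.zero_le _))
  have oz : ∀ p, Obs fun (ω : InsCfg N k) (_ : InsIdx N k J → ℝ) => rotSpin U ω.1 p :=
    fun p => Sym.obs_fin _
  have ozb : ∀ j p, Obs fun (ω : InsCfg N k) (v : InsIdx N k J → ℝ) =>
      rotSpin U ω.1 p * cplB b t ψ1 U j ω v := fun j p => (oz p).mul (obs_cplB (b := b) (t := t) (U := U) hψ j)
  have tn : ∀ j, Tame fun y => Nu.node L μ m (cplB b t ψ1 U j) y ^ 2 :=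
    fun j => (node_tame hN hL hm (obs_cplB (b := b) (t := t) (U := U) hψ j)).sq
  have tp : ∀ j, Tame fun y => (∑ p ∈ fiber b (topA M), Nu.node L μ m
      (fun ω v => rotSpin U ω.1 p * cplB b t ψ1 U j ω v) y ^ 2) / n := fun j => by
    simp only [div_eq_mul_inv, mul_comm _ n⁻¹]
    exact (tame_sum _ fun p _ => (node_tame hN hL hm (ozb j p)).sq).const_mul _
  have tX : Tame fun y => ∑ j, ((∑ p ∈ fiber b (topA M), Nu.node L μ m
      (fun ω v => rotSpin U ω.1 p * cplB b t ψ1 U j ω v) y ^ 2) / n -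
      π m * Nu.node L μ m (cplB b t ψ1 U j) y ^ 2) :=
    tame_sum _ fun j _ => (tp j).sub ((tn j).const_mul _)
  have tG := node_tame (μ := μ) hN hL hm (obs_cplB2 (b := b) (t := t) (U := U) hψ)
  have key : ∀ y, |∑ j, ((∑ p ∈ fiber b (topA M), Nu.node L μ m
      (fun ω v => rotSpin U ω.1 p * cplB b t ψ1 U j ω v) y ^ 2) / n -
      π m * Nu.node L μ m (cplB b t ψ1 U j) y ^ 2)| ≤
      (Mb + H) * Nu.node L μ m (cplB2 b t ψ1 U) y := by
    intro y
    rw [show cplB2 b t ψ1 U = fun ω v => ∑ j, cplB b t ψ1 U j ω v ^ 2 from rfl,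
      node_sum hN hL hm univ fun j => Obs.sq (obs_cplB (b := b) (t := t) (U := U) hψ j), mul_sum]
    refine (abs_sum_le_sum_abs _ _).trans (sum_le_sum fun j _ => ?_)
    set E := Nu.node L μ m (fun ω v => cplB b t ψ1 U j ω v ^ 2) y
    have e2 := node_sq_ge (μ := μ) hN hL hm (obs_cplB (b := b) (t := t) (U := U) hψ j) y
    have e1 : ∑ p ∈ fiber b (topA M), Nu.node L μ m
        (fun ω v => rotSpin U ω.1 p * cplB b t ψ1 U j ω v) y ^ 2 ≤ N * E := by
      refine (sum_le_sum fun p _ => node_sq_ge hN hL hm (ozb j p) y).trans ?_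
      rw [← node_sum hN hL hm _ fun p => Obs.sq (ozb j p), ← node_const_mul hN hL]
      refine node_mono hN hL hm (obs_sum _ fun p => Obs.sq (ozb j p))
        ((obs_const _).mul (Obs.sq (obs_cplB (b := b) (t := t) (U := U) hψ j))) (fun ω v => ?_) y
      simp only [mul_pow]
      rw [← sum_mul]
      exact mul_le_mul_of_nonneg_right (atomSum_le b U ω.1) (sq_nonneg _)
    have hE : 0 ≤ E := (sq_nonneg _).trans e2
    have p1 : 0 ≤ ∑ p ∈ fiber b (topA M), Nu.node L μ m
        (fun ω v => rotSpin U ω.1 p * cplB b t ψ1 U j ω v) y ^ 2 :=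
      sum_nonneg fun p _ => sq_nonneg _
    refine (abs_sub _ _).trans ?_
    rw [abs_of_nonneg (div_nonneg p1 hn0), abs_of_nonneg (mul_nonneg hπ0 (sq_nonneg _)), add_mul]
    refine add_le_add ((div_le_div_of_nonneg_right e1 hn0).trans ?_)
      (mul_le_mul hH e2 (sq_nonneg _) (hπ0.trans hH))
    rw [mul_div_right_comm]
    exact mul_le_mul_of_nonneg_right hMb hE
  have hle := mean_mono (μ := μ) hN hL hm tX.abs (tG.const_mul (Mb + H)) key
  rw [mean_const_mul hN hL, mean_node_eq Nu L μ hm] at hle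
  exact (abs_mean_le hN hL hm tX).trans hle

/-- The defect at a level through the pinning of the base system. -/
theorem abs_levX_pin (hπ : IsPath π) {Mb s q : ℝ} (hB : 0 ≤ B) {m : ℕ} (hm : m ≤ K + 1)
    (hMb : (N : ℝ) / (fiber b (topA M)).card ≤ Mb) (hs : 0 < s) (hN0 : 0 < N) :
    |levX b t ψ ψ1 ψ2 U K lam π S V e u m| ≤
      Mb * (Fintype.card J * B ^ 2) * ((1 + s) * Real.exp (10 * (Fintype.card J * B))) *
          levTop b U K lam S V q m +
        Mb * (Fintype.card J * B ^ 2) / s +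
        |q * ((N : ℝ) / (fiber b (topA M)).card) - π m| *
          gMean b t ψ ψ1 ψ2 U K lam π S V e u := by
  set Nu := insNest (J := J) K b π S V e u
  have hN : Nu.Good := insNest_good u
  set L := insLeaf b t ψ ψ1 ψ2 U
  have hL := insLeaf_good b t hψ U
  set L0 := baseLeaf (J := J) (k := k) U
  have hL0 := baseLeaf_good (J := J) (k := k) U
  set μ := insLaw (k := k) lam U
  obtain ⟨hΨ, hΨc⟩ := obs_cplSum b t (continuous_psi hψ) (fun j => (hψ j).bound0) U
  have hham : ∀ ω y, L.ham ω y = L0.ham ω y + cplSum b t ψ U ω y := fun ω y =>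
    ham_insLeaf b t ψ ψ1 ψ2 U ω y
  set c : ℝ := (Fintype.card J : ℝ) * B with hc
  have hc0 : 0 ≤ c := by positivity
  set β : ℝ := (Fintype.card J : ℝ) * B ^ 2
  have hβ : 0 ≤ β := by positivity
  set n : ℝ := ((fiber b (topA M)).card : ℝ)
  have hn0 : 0 ≤ n := Nat.cast_nonneg _
  have hMb0 : 0 ≤ Mb := le_trans (div_nonneg (Nat.cast_nonneg N) hn0) hMb
  set R := Real.exp (5 * c)
  have hR1 : 1 ≤ R := Real.one_le_exp (by linarith)
  set Gn := glassNest K S V
  set Lg := glassLeaf (N := N) U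
  set μg := quadLaw lam U
  have := Sym.prob_quad lam U
  rw [← Sym.quadLaw_eq] at this
  have hNg : Gn.Good := Sym.nest_good K S V
  have hLg : Lg.Good (|(N : ℝ) + 1| + 1) := Sym.leaf_good U
  set R' := fiber b (topA M)
  set T := atomSet b (topA M)
  set dev : (FIdx N → ℝ) → ℝ := fun w => |Gn.sqSum Lg μg T m w / N - q|
  set cov : (FIdx N → ℝ) → ℝ := fun w => Gn.covNorm Lg μg T m w / N
  have tdev : Tame dev := by
    simp only [dev, div_eq_mul_inv, mul_comm _ (N : ℝ)⁻¹]
    exact (((Pin.tame_sqSum hNg hLg hm T)).const_mul _ |>.sub (tame_const q)).abs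
  have tcov : Tame cov := by
    simp only [cov, div_eq_mul_inv, mul_comm _ (N : ℝ)⁻¹]
    exact (Pin.tame_covNorm hNg hLg hm T).const_mul _
  have cov0 : ∀ w, 0 ≤ cov w := fun w => div_nonneg (Real.sqrt_nonneg _) (Nat.cast_nonneg N)
  -- the reference quantities
  have ez : ∀ p, (fun (ω : InsCfg N k) (_ : InsIdx N k J → ℝ) => rotSpin U ω.1 p) =
      fun ω _ => (fun σ => rotSpin U σ p) ω.1 := fun _ => rfl
  have vg : ∀ p, Lg.vec (Sum.inr p) = fun σ _ => rotSpin U σ p := fun p => by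
    funext σ w
    simp [Lg, glassLeaf, Leaf.vec]
  have esq : ∀ y : InsIdx N k J → ℝ,
      ∑ p ∈ R', Nu.node L0 μ m (fun ω _ => rotSpin U ω.1 p) y ^ 2 =
        Gn.sqSum Lg μg T m fun i => y (eF i) := by
    intro y
    rw [Nest.sqSum, show T = R'.image Sum.inr from rfl,
      sum_image fun a _ c _ h => Sum.inr_injective h]
    refine sum_congr rfl fun p _ => ?_
    rw [Nest.grad, vg, ez, base_node (K := K) (b := b) (π := π) (S := S) (V := V) (e := e) lam U u m
      (fun σ => rotSpin U σ p) y]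
  have ecov : ∀ y : InsIdx N k J → ℝ,
      Real.sqrt (∑ p ∈ R', ∑ p' ∈ R',
        (Nu.node L0 μ m (fun ω _ => rotSpin U ω.1 p * rotSpin U ω.1 p') y -
          Nu.node L0 μ m (fun ω _ => rotSpin U ω.1 p) y *
            Nu.node L0 μ m (fun ω _ => rotSpin U ω.1 p') y) ^ 2) =
        Gn.covNorm Lg μg T m fun i => y (eF i) := by
    intro y
    rw [Nest.covNorm, show T = R'.image Sum.inr from rfl,
      sum_image fun a _ c _ h => Sum.inr_injective h]
    refine congrArg _ (sum_congr rfl fun p _ => ?_)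
    rw [sum_image fun a _ c _ h => Sum.inr_injective h]
    refine sum_congr rfl fun p' _ => ?_
    rw [Nest.cov, Nest.grad, Nest.grad, vg, vg,
      base_node (K := K) (b := b) (π := π) (S := S) (V := V) (e := e) lam U u m
        (fun σ => rotSpin U σ p * rotSpin U σ p') y,
      base_node (K := K) (b := b) (π := π) (S := S) (V := V) (e := e) lam U u m
        (fun σ => rotSpin U σ p) y,
      base_node (K := K) (b := b) (π := π) (S := S) (V := V) (e := e) lam U u m
        (fun σ => rotSpin U σ p') y]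
  have hRn : ∀ f : InsCfg N k → (InsIdx N k J → ℝ) → ℝ, Obs f → (∀ ω v, 0 ≤ f ω v) → ∀ v,
      Nu.node L μ m f v ≤ R * Nu.node L0 μ m f v := fun f hf h0 v =>
    node_le_close hL0 hL hΨ hΨc hham hN hm hf h0 v
  have key : ∀ y, |∑ j, ((∑ p ∈ R', Nu.node L μ m
      (fun ω v => rotSpin U ω.1 p * cplB b t ψ1 U j ω v) y ^ 2) / n -
      π m * Nu.node L μ m (cplB b t ψ1 U j) y ^ 2)| ≤
      (Mb * β * ((1 + s) * R) * (dev (fun i => y (eF i)) + cov fun i => y (eF i)) + Mb * β / s) +
        |q * ((N : ℝ) / n) - π m| * Nu.node L μ m (cplB2 b t ψ1 U) y := by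
    intro y
    set sq := Gn.sqSum Lg μg T m fun i => y (eF i) with hsq
    set cv := Gn.covNorm Lg μg T m fun i => y (eF i) with hcv
    set w : InsIdx N k J → ℝ := y
    have hN' : (0 : ℝ) < N := by exact_mod_cast hN0
    have sq0 : 0 ≤ sq := sum_nonneg fun _ _ => sq_nonneg _
    have sqN : sq ≤ N := by
      have hT : ∀ σ (v : FIdx N → ℝ), ∑ i ∈ T, Lg.vec i σ v ^ 2 ≤ (N : ℝ) := fun σ v => by
        rw [show T = R'.image Sum.inr from rfl, sum_image fun a _ c _ h => Sum.inr_injective h]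
        simp only [vg]
        exact atomSum_le b U σ
      exact (Pin.sqSum_le (μ := μg) hNg hLg hm hT _).1.trans
        (Pin.sqSum_le (μ := μg) hNg hLg hm hT _).2
    have cv0 : 0 ≤ cv := Real.sqrt_nonneg _
    set E : J → ℝ := fun j => Nu.node L μ m (fun ω v => cplB b t ψ1 U j ω v ^ 2) y
    have hE : ∑ j, E j = Nu.node L μ m (cplB2 b t ψ1 U) y :=
      (node_sum hN hL hm univ (fun j => Obs.sq (obs_cplB (b := b) (t := t) (U := U) hψ j)) y).symm
    have hEβ : Nu.node L μ m (cplB2 b t ψ1 U) y ≤ β := by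
      have := node_mono (μ := μ) hN hL hm (obs_cplB2 (b := b) (t := t) (U := U) hψ) (obs_const β) (cplB2_le (b := b) (t := t) (U := U) hψ) y
      rwa [node_const hN hL hm] at this
    have hE0 : ∀ j, 0 ≤ E j := fun j =>
      (sq_nonneg _).trans (node_sq_ge hN hL hm (obs_cplB (b := b) (t := t) (U := U) hψ j) y)
    have hj : ∀ j, |(∑ p ∈ R', Nu.node L μ m
        (fun ω v => rotSpin U ω.1 p * cplB b t ψ1 U j ω v) y ^ 2) / n -
        π m * Nu.node L μ m (cplB b t ψ1 U j) y ^ 2| ≤
        E j * (((N : ℝ) / n) * ((1 + s) * R * (cv / N) + 1 / s + |sq / N - q|) +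
          |q * ((N : ℝ) / n) - π m|) := by
      intro j
      have h := prod_close (μ := μ) hN hL0 hL hm hRn (le_trans zero_le_one hR1) R'
        (z := fun p (ω : InsCfg N k) (_ : InsIdx N k J → ℝ) => rotSpin U ω.1 p)
        (fun p => Sym.obs_fin _) (obs_cplB (b := b) (t := t) (U := U) hψ j) hs y
      rw [esq, ecov, ← hsq, ← hcv] at h
      have e2 := node_sq_ge (μ := μ) hN hL hm (obs_cplB (b := b) (t := t) (U := U) hψ j) y
      set P := ∑ p ∈ R', Nu.node L μ m
        (fun ω v => rotSpin U ω.1 p * cplB b t ψ1 U j ω v) y ^ 2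
      set a := Nu.node L μ m (cplB b t ψ1 U j) y ^ 2
      have ha : 0 ≤ a := sq_nonneg _
      have eq : P / n - π m * a = (P - sq * a) / n +
          (((N : ℝ) / n) * (sq / N - q) * a + (q * ((N : ℝ) / n) - π m) * a) := by
        field_simp
        ring
      rw [eq, mul_add (E j)]
      have hν : 0 ≤ (N : ℝ) / n := div_nonneg hN'.le hn0
      refine (abs_add_le _ _).trans ((add_le_add le_rfl (abs_add_le _ _)).trans_eq (add_assoc _ _ _).symm
        |>.trans (add_le_add ?_ ?_))
      · rw [abs_div, abs_of_nonneg hn0, mul_add ((N : ℝ) / n), mul_add (E j)]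
        refine add_le_add ((div_le_div_of_nonneg_right h hn0).trans ?_) ?_
        · calc E j * ((1 + s) * R * cv + sq / s) / n
              ≤ E j * ((1 + s) * R * cv + (N : ℝ) / s) / n :=
                div_le_div_of_nonneg_right (mul_le_mul_of_nonneg_left
                  (add_le_add le_rfl (div_le_div_of_nonneg_right sqN hs.le)) (hE0 j)) hn0
            _ = _ := by field_simp
        · rw [abs_mul, abs_mul, abs_of_nonneg hν, abs_of_nonneg ha, mul_comm (E j)]
          exact mul_le_mul_of_nonneg_left e2 (mul_nonneg hν (abs_nonneg _))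
      · rw [abs_mul, abs_of_nonneg ha, mul_comm (E j)]
        exact mul_le_mul_of_nonneg_left e2 (abs_nonneg _)
    refine (abs_sum_le_sum_abs _ _).trans ((sum_le_sum fun j _ => hj j).trans ?_)
    rw [← sum_mul, hE, mul_add]
    refine add_le_add ?_ (le_of_eq (mul_comm _ _))
    have hG0 : 0 ≤ Nu.node L μ m (cplB2 b t ψ1 U) y := hE ▸ sum_nonneg fun j _ => hE0 j
    have h1s : 1 ≤ (1 + s) * R := one_le_mul_of_one_le_of_one_le (by linarith) hR1
    have cN : 0 ≤ cv / N := div_nonneg cv0 hN'.le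
    calc _ ≤ β * (Mb * ((1 + s) * R * (cv / N) + 1 / s + |sq / N - q|)) := by
          refine mul_le_mul hEβ (mul_le_mul_of_nonneg_right hMb (by positivity))
            (mul_nonneg (div_nonneg hN'.le hn0) (by positivity)) hβ
      _ ≤ β * (Mb * ((1 + s) * R * (|sq / N - q| + cv / N) + 1 / s)) := by
          refine mul_le_mul_of_nonneg_left (mul_le_mul_of_nonneg_left ?_ hMb0) hβ
          have := mul_le_mul_of_nonneg_right h1s (abs_nonneg (sq / N - q))
          rw [one_mul] at this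
          linarith
      _ = _ := by simp only [dev, cov, hsq, hcv]; ring
  -- averaging
  have tdc : Tame fun w => dev w + cov w := tdev.add tcov
  have tn : ∀ j, Tame fun y => Nu.node L μ m (cplB b t ψ1 U j) y ^ 2 :=
    fun j => (node_tame hN hL hm (obs_cplB (b := b) (t := t) (U := U) hψ j)).sq
  have tX : Tame fun y => ∑ j, ((∑ p ∈ R', Nu.node L μ m
      (fun ω v => rotSpin U ω.1 p * cplB b t ψ1 U j ω v) y ^ 2) / n -
      π m * Nu.node L μ m (cplB b t ψ1 U j) y ^ 2) := tame_sum _ fun j _ => by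
    refine Tame.sub ?_ ((tn j).const_mul _)
    simp only [div_eq_mul_inv, mul_comm _ n⁻¹]
    exact (tame_sum _ fun p _ =>
      (node_tame hN hL hm ((Sym.obs_fin _).mul (obs_cplB (b := b) (t := t) (U := U) hψ j))).sq).const_mul _
  have tG := node_tame (μ := μ) hN hL hm (obs_cplB2 (b := b) (t := t) (U := U) hψ)
  set C1 := Mb * β * ((1 + s) * R) with hC1
  have hC10 : 0 ≤ C1 := by positivity
  set Δ := |q * ((N : ℝ) / n) - π m|
  have tdcF : Tame fun y : InsIdx N k J → ℝ => dev (fun i => y (eF i)) + cov fun i => y (eF i) :=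
    tame_precomp eF tdc
  refine (abs_mean_le hN hL hm tX).trans ((mean_mono (μ := μ) hN hL hm tX.abs
    (((tdcF.const_mul C1).add (tame_const (Mb * β / s))).add (tG.const_mul Δ)) key).trans ?_)
  rw [mean_add hN hL hm ((tdcF.const_mul C1).add (tame_const _)) (tG.const_mul Δ),
    mean_add hN hL hm (tdcF.const_mul C1) (tame_const _), mean_const hN hL hm,
    mean_const_mul hN hL, mean_const_mul hN hL, mean_node_eq Nu L μ hm]
  refine add_le_add (add_le_add ?_ le_rfl) le_rfl
  have hmc := mean_le_of_close hN (linGrowth_logZ (μ := μ) hL0) (linGrowth_logZ (μ := μ) hL)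
    (logZ_close hL0 hL hΨ hΨc hham) tdcF
    (fun y => add_nonneg (abs_nonneg _) (cov0 _)) (hm : m ≤ Nu.K)
  have hb := base_mean (K := K) (b := b) (π := π) (S := S) (V := V) (e := e) lam U u m (h := fun w =>
    dev w + cov w) tdc (J := J) (k := k)
  rw [hb, mean_add_gen (linGrowth_glass lam U) m tdev tcov] at hmc
  have hlev0 : 0 ≤ levTop b U K lam S V q m := by
    refine add_nonneg ?_ ?_
    · exact (mean_const_gen (linGrowth_glass lam U) 0 m).symm.le.trans
        (mean_mono_gen (linGrowth_glass lam U) m (tame_const 0) tdev fun w => abs_nonneg _)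
    · exact (mean_const_gen (linGrowth_glass lam U) 0 m).symm.le.trans
        (mean_mono_gen (linGrowth_glass lam U) m (tame_const 0) tcov cov0)
  calc C1 * _ ≤ C1 * (Real.exp (3 * c) * levTop b U K lam S V q m) :=
        mul_le_mul_of_nonneg_left hmc hC10
    _ ≤ C1 * (R * levTop b U K lam S V q m) := by
        refine mul_le_mul_of_nonneg_left (mul_le_mul_of_nonneg_right
          (Real.exp_le_exp.2 (by linarith)) hlev0) hC10
    _ = _ := by
        rw [hC1, show Real.exp (10 * ((Fintype.card J : ℝ) * B)) = R * R by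
          rw [← Real.exp_add, hc]; ring_nf]
        ring

/-- The defect of the last level. -/
theorem abs_topX_le {Mb s D : ℝ} (hB : 0 ≤ B) (hκ : 0 ≤ κ)
    (hMb : (N : ℝ) / (fiber b (topA M)).card ≤ Mb) (hs : 0 < s) (hN0 : 0 < N) :
    |topX b t ψ ψ1 ψ2 U K lam π S V e u| ≤
      |D * ((N : ℝ) / (fiber b (topA M)).card) - π (K + 1)| *
          (Fintype.card J * κ + gMean b t ψ ψ1 ψ2 U K lam π S V e u) +
        (Fintype.card J * κ + Fintype.card J * B ^ 2) * Mb *
          Real.exp (10 * (Fintype.card J * B)) *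
          (devTop b U K lam S V D + s / 2 * varTop b U K lam S V + 1 / (2 * s)) := by
  set Nu := insNest (J := J) K b π S V e u
  have hN : Nu.Good := insNest_good u
  set L := insLeaf b t ψ ψ1 ψ2 U
  have hL := insLeaf_good b t hψ U
  set L0 := baseLeaf (J := J) (k := k) U
  have hL0 := baseLeaf_good (J := J) (k := k) U
  set μ := insLaw (k := k) lam U
  obtain ⟨hΨ, hΨc⟩ := obs_cplSum b t (continuous_psi hψ) (fun j => (hψ j).bound0) U
  have hham : ∀ ω y, L.ham ω y = L0.ham ω y + cplSum b t ψ U ω y := fun ω y =>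
    ham_insLeaf b t ψ ψ1 ψ2 U ω y
  set c : ℝ := (Fintype.card J : ℝ) * B with hc
  have hc0 : 0 ≤ c := by positivity
  set A : ℝ := (Fintype.card J : ℝ) * κ + Fintype.card J * B ^ 2
  have hA : 0 ≤ A := by positivity
  set n : ℝ := ((fiber b (topA M)).card : ℝ)
  have hn0 : 0 ≤ n := Nat.cast_nonneg _
  have hN' : (0 : ℝ) < N := by exact_mod_cast hN0
  have hν : 0 ≤ (N : ℝ) / n := div_nonneg hN'.le hn0
  set Δ := |D * ((N : ℝ) / n) - π (K + 1)|
  have hK : K + 1 ≤ Nu.K := le_rfl
  set X : (Fin N → Bool) → ℝ := fun σ => |(∑ p ∈ fiber b (topA M), rotSpin U σ p ^ 2) / N - D|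
  set g : (InsIdx N k J → ℝ) → ℝ := fun y => L.gibbs μ (fun ω _ => X ω.1) y
  have oX : Obs fun (ω : InsCfg N k) (_ : InsIdx N k J → ℝ) => X ω.1 := Sym.obs_fin _
  have of' : Obs fun ω v => cplH b t ψ1 ψ2 U ω v * (topSq b U ω.1 - π (K + 1)) :=
    (obs_cplH (b := b) (t := t) (U := U) hψ).mul (Sym.obs_fin fun ω : InsCfg N k => topSq b U ω.1 - π (K + 1))
  have obnd : Obs fun ω v => Δ * ((Fintype.card J : ℝ) * κ + cplB2 b t ψ1 U ω v) +
      A * ((N : ℝ) / n) * X ω.1 :=
    ((obs_const Δ).mul ((obs_const _).add (obs_cplB2 (b := b) (t := t) (U := U) hψ))).add ((obs_const _).mul oX)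
  have hpt : ∀ ω v, |cplH b t ψ1 ψ2 U ω v * (topSq b U ω.1 - π (K + 1))| ≤
      Δ * ((Fintype.card J : ℝ) * κ + cplB2 b t ψ1 U ω v) + A * ((N : ℝ) / n) * X ω.1 := by
    intro ω v
    set Z := ∑ p ∈ fiber b (topA M), rotSpin U ω.1 p ^ 2
    have e : topSq b U ω.1 - π (K + 1) =
        (D * ((N : ℝ) / n) - π (K + 1)) + ((N : ℝ) / n) * (Z / N - D) := by
      rw [topSq]
      field_simp
      ring
    have h1 := abs_cplH_le (b := b) (t := t) (U := U) hψ ω v
    have h2 := cplB2_le (b := b) (t := t) (U := U) hψ ω v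
    have h0 : 0 ≤ (Fintype.card J : ℝ) * κ + cplB2 b t ψ1 U ω v := (abs_nonneg _).trans h1
    rw [abs_mul, e]
    refine (mul_le_mul h1 (abs_add_le _ _) (abs_nonneg _) h0).trans ?_
    rw [mul_add, abs_mul, abs_of_nonneg hν]
    refine add_le_add (le_of_eq (mul_comm _ _)) ?_
    rw [mul_assoc A]
    exact mul_le_mul_of_nonneg_right (by simp only [A]; linarith)
      (mul_nonneg hν (abs_nonneg _))
  have tg : Tame g := tame_gibbs hL oX
  have tb2 := tame_gibbs (μ := μ) hL (obs_cplB2 (b := b) (t := t) (U := U) hψ)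
  have step1 : |topX b t ψ ψ1 ψ2 U K lam π S V e u| ≤
      Δ * ((Fintype.card J : ℝ) * κ + gMean b t ψ ψ1 ψ2 U K lam π S V e u) +
        A * ((N : ℝ) / n) * Nu.mean (L.logZ μ) (K + 1) g := by
    refine (abs_mean_le hN hL hK (tame_gibbs hL of')).trans ?_
    refine (mean_mono (μ := μ) hN hL hK (tame_gibbs hL of').abs
      ((((tame_const ((Fintype.card J : ℝ) * κ)).add tb2).const_mul Δ).add
        (tg.const_mul (A * ((N : ℝ) / n)))) fun y => ?_).trans_eq ?_
    · have habs : |L.gibbs μ (fun ω v => cplH b t ψ1 ψ2 U ω v * (topSq b U ω.1 - π (K + 1))) y| ≤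
          L.gibbs μ (fun ω v => Δ * ((Fintype.card J : ℝ) * κ + cplB2 b t ψ1 U ω v) +
            A * ((N : ℝ) / n) * X ω.1) y := by
        rw [abs_le]
        constructor
        · have := gibbs_mono (μ := μ) hL ((obs_const (-1 : ℝ)).mul obnd) of'
            (fun ω v => by linarith [(abs_le.1 (hpt ω v)).1]) y
          rw [gibbs_const_mul] at this
          linarith
        · exact gibbs_mono (μ := μ) hL of' obnd (fun ω v => (abs_le.1 (hpt ω v)).2) y
      refine habs.trans_eq ?_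
      rw [gibbs_add (μ := μ) hL ((obs_const Δ).mul ((obs_const _).add (obs_cplB2 (b := b) (t := t) (U := U) hψ)))
        ((obs_const _).mul oX), gibbs_const_mul, gibbs_const_mul,
        gibbs_add (μ := μ) hL (obs_const _) (obs_cplB2 (b := b) (t := t) (U := U) hψ), gibbs_const hL]
    · rw [mean_add hN hL hK (((tame_const _).add tb2).const_mul Δ) (tg.const_mul _),
        mean_const_mul hN hL, mean_const_mul hN hL, mean_add hN hL hK (tame_const _) tb2,
        mean_const hN hL hK]
      rfl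
  -- to the base system
  set Gn := glassNest K S V
  set Lg := glassLeaf (N := N) U
  set μg := quadLaw lam U
  have := Sym.prob_quad lam U
  rw [← Sym.quadLaw_eq] at this
  have hNg : Gn.Good := Sym.nest_good K S V
  have hLg : Lg.Good (|(N : ℝ) + 1| + 1) := Sym.leaf_good U
  have hKg : K ≤ Gn.K := Nat.le_succ K
  set h0 : (FIdx N → ℝ) → ℝ := fun w => Lg.gibbs μg (fun σ _ => X σ) w
  have th0 : Tame h0 := tame_glass_gibbs lam U X
  have lg0 := linGrowth_logZ (μ := μ) hL0
  have lg := linGrowth_logZ (μ := μ) hL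
  have g0 : ∀ v, 0 ≤ g v := fun v =>
    (gibbs_const (μ := μ) hL 0 v).symm.le.trans
      (gibbs_mono hL (obs_const 0) oX (fun ω _ => abs_nonneg _) v)
  have step2 : Nu.mean (L.logZ μ) (K + 1) g ≤ Real.exp (10 * c) *
      Gn.mean (Lg.logZ μg) (K + 1) h0 := by
    have e := base_mean (K := K) (b := b) (π := π) (S := S) (V := V) (e := e) lam U u (K + 1)
      (J := J) (k := k) th0
    have tF : Tame fun y : InsIdx N k J → ℝ => h0 fun i => y (eF i) := tame_precomp eF th0
    have a1 := mean_le_of_close hN lg0 lg (logZ_close hL0 hL hΨ hΨc hham) tg g0 hK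
    have a2 : Nu.mean (L0.logZ μ) (K + 1) g ≤
        Real.exp (2 * c) * Nu.mean (L0.logZ μ) (K + 1) (fun y => h0 fun i => y (eF i)) := by
      rw [← mean_const_mul_gen]
      refine mean_mono_gen lg0 _ tg (tF.const_mul _) fun y => ?_
      refine (gibbs_le_close hL0 hL hΨ hΨc hham oX (fun ω _ => abs_nonneg _) y).trans_eq ?_
      exact congrArg _ (base_gibbs lam U X y)
    rw [e] at a2
    have h0g : 0 ≤ Gn.mean (Lg.logZ μg) (K + 1) h0 :=
      (mean_const_gen (linGrowth_glass lam U) 0 _).symm.le.trans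
        (mean_mono_gen (linGrowth_glass lam U) _ (tame_const 0) th0 fun w =>
          (gibbs_const (μ := μg) hLg 0 w).symm.le.trans
            (gibbs_mono hLg (obs_const 0) (Sym.obs_fin X) (fun σ _ => abs_nonneg _) w))
    refine a1.trans ((mul_le_mul_of_nonneg_left a2 (Real.exp_pos _).le).trans ?_)
    rw [← mul_assoc, ← Real.exp_add]
    exact mul_le_mul_of_nonneg_right (Real.exp_le_exp.2 (by linarith)) h0g
  have step3 : Gn.mean (Lg.logZ μg) (K + 1) h0 ≤
      devTop b U K lam S V D + s / 2 * varTop b U K lam S V + 1 / (2 * s) := by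
    have e : Gn.mean (Lg.logZ μg) (K + 1) h0 =
        Gn.mean (Lg.logZ μg) K (Gn.node Lg μg K fun σ _ => X σ) :=
      (mean_node_eq Gn Lg μg hKg _).symm
    set Y := atomSq (M := M) b U (topA M)
    have oY : Obs Y := Sym.obs_fin fun σ => (∑ p ∈ fiber b (topA M), rotSpin U σ p ^ 2) / N
    have tY := node_tame (μ := μg) hNg hLg hKg oY
    have tY2 := node_tame (μ := μg) hNg hLg hKg (Obs.sq oY)
    have tv : Tame fun w => Gn.node Lg μg K (fun σ v => Y σ v ^ 2) w - Gn.node Lg μg K Y w ^ 2 :=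
      tY2.sub tY.sq
    have td : Tame fun w => |Gn.node Lg μg K Y w - D| := (tY.sub (tame_const D)).abs
    rw [e]
    refine (mean_mono (μ := μg) hNg hLg hKg (node_tame hNg hLg hKg (Sym.obs_fin X))
      ((td.add (tv.const_mul (s / 2))).add (tame_const (1 / (2 * s)))) fun w => ?_).trans_eq ?_
    · set m₀ := Gn.node Lg μg K Y w
      have o1 : Obs fun σ v => s / 2 * Y σ v ^ 2 + -(s * m₀) * Y σ v :=
        ((obs_const _).mul (Obs.sq oY)).add ((obs_const _).mul oY)
      refine (node_mono (μ := μg) hNg hLg hKg (Sym.obs_fin X)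
        (o1.add (obs_const (|m₀ - D| + s / 2 * m₀ ^ 2 + 1 / (2 * s)))) (fun σ v => ?_) w).trans_eq ?_
      · have hX : X σ = |Y σ v - D| := rfl
        rw [hX]
        set x := Y σ v
        have h1 : |x - D| ≤ |x - m₀| + |m₀ - D| := abs_sub_le _ _ _
        have h2 : |x - m₀| ≤ s / 2 * (x - m₀) ^ 2 + 1 / (2 * s) := by
          rw [show s / 2 * (x - m₀) ^ 2 + 1 / (2 * s) = ((s * |x - m₀|) ^ 2 + 1) / (2 * s) by
            rw [mul_pow, sq_abs]; field_simp, le_div_iff₀ (by positivity)]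
          nlinarith [sq_nonneg (s * |x - m₀| - 1)]
        linarith
      · rw [node_add hNg hLg hKg o1 (obs_const _),
          node_add hNg hLg hKg ((obs_const _).mul (Obs.sq oY)) ((obs_const _).mul oY),
          node_const_mul hNg hLg, node_const_mul hNg hLg, node_const hNg hLg hKg]
        ring
    · rw [mean_add hNg hLg hKg (td.add (tv.const_mul _)) (tame_const _),
        mean_add hNg hLg hKg td (tv.const_mul _), mean_const_mul hNg hLg,
        mean_const hNg hLg hKg]
      rfl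
  have h3 := step2.trans (mul_le_mul_of_nonneg_left step3 (Real.exp_pos _).le)
  have hd0 : 0 ≤ Nu.mean (L.logZ μ) (K + 1) g :=
    (mean_const hN hL hK (0 : ℝ)).symm.le.trans (mean_mono hN hL hK (tame_const 0) tg g0)
  refine step1.trans (add_le_add le_rfl ?_)
  calc A * ((N : ℝ) / n) * Nu.mean (L.logZ μ) (K + 1) g
      ≤ A * Mb * (Real.exp (10 * c) *
          (devTop b U K lam S V D + s / 2 * varTop b U K lam S V + 1 / (2 * s))) :=
        mul_le_mul (mul_le_mul_of_nonneg_left hMb hA) h3 hd0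
          (mul_nonneg hA (hν.trans hMb))
    _ = _ := by ring

/-- The increment along the interpolation. -/
theorem insFree_diff_le {Bd : ℝ}
    (h : ∀ u ∈ Set.Ioo (0 : ℝ) 1, |1 / 2 * (topX b t ψ ψ1 ψ2 U K lam π S V e u -
      ∑ m ∈ range (K + 2), (insNest (J := J) K b π S V e u).w m *
        levX b t ψ ψ1 ψ2 U K lam π S V e u m)| ≤ Bd) (hπ : IsPath π) :
    |(insNest K b π S V e 1).free (insLeaf b t ψ ψ1 ψ2 U) (insLaw lam U) -
      (insNest K b π S V e 0).free (insLeaf b t ψ ψ1 ψ2 U) (insLaw lam U)| ≤ Bd := by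
  have hc : Continuous fun u =>
      (insNest K b π S V e u).free (insLeaf b t ψ ψ1 ψ2 U) (insLaw lam U) :=
    ModelFacts.continuous_free_sq (μ := insLaw lam U)
      (insNest_good (J := J) (K := K) (b := b) (π := π) (S := S) (V := V) (e := e) 0)
      (insLeaf_good b t hψ U) (A := fun u => insAmp b π S V e u) (Δ := insDelta b π)
      fun l _ i => insAmp_sqPath hπ l i
  obtain ⟨u, hu, hslope⟩ := exists_hasDerivAt_eq_slope _ _ zero_lt_one hc.continuousOn
    fun u hu => hasDerivAt_insFree hψ hπ hu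
  have := h u hu
  rw [hslope] at this
  simpa using this

end Vale.Agent.P166.Parisi.Ins
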