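import Vale.Agent.P166.Parisi.InsertSys
import Vale.Agent.P166.Parisi.Haar

/-!
Module I, part 3: the two ends of the interpolation, continuity, and the trivial bound of the gain.
-/

set_option linter.unusedSectionVars false

namespace Vale.Agent.P166.Parisi.Ins

open MeasureTheory ProbabilityTheory Finset Matrix Topology
open Vale.Agent.P157 Vale.Agent.P157.Parisi
open Vale.Agent.P166 (spin)
open Vale.Agent.P166.Parisi.Sym (finLaw linL)

variable {ι : Type} [Fintype ι] {Nn : Nest ι}

/-! ### Roots -/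

lemma root_join {ι₁ ι₂ : Type} [Fintype ι₁] [Fintype ι₂] (e₁ : ι₁ ↪ ι) (e₂ : ι₂ ↪ ι)
    (hd : ∀ i j, e₁ i ≠ e₂ j) {U₁ : (ι₁ → ℝ) → ℝ} {U₂ : (ι₂ → ℝ) → ℝ}
    (h₁ : P157.Parisi.LinGrowth U₁) (h₂ : P157.Parisi.LinGrowth U₂) :
    Nn.root (join e₁ e₂ U₁ U₂) = (sub Nn e₁).root U₁ + (sub Nn e₂).root U₂ := by
  have t₁ := (linGrowth_u_gen h₁ (sub Nn e₁) ((sub Nn e₁).K - 0)).tame
  have t₂ := (linGrowth_u_gen h₂ (sub Nn e₂) ((sub Nn e₂).K - 0)).tame
  simp only [Nest.root, Nest.u]
  rw [show Nn.uUp (join e₁ e₂ U₁ U₂) (Nn.K - 0) = fun y =>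
      (sub Nn e₁).uUp U₁ ((sub Nn e₁).K - 0) (fun i => y (e₁ i)) +
        (sub Nn e₂).uUp U₂ ((sub Nn e₂).K - 0) (fun j => y (e₂ j)) from
    funext (uUp_join e₁ e₂ hd h₁ h₂ _)]
  simp only [Nest.mean]
  rw [integral_add]
  · exact congrArg₂ _ (integral_comp_embedding e₁
      (f := fun w => (sub Nn e₁).uUp U₁ ((sub Nn e₁).K - 0) fun i => Nn.amp 0 (e₁ i) * w i)
      (t₁.1.comp (by fun_prop)))
      (integral_comp_embedding e₂
        (f := fun w => (sub Nn e₂).uUp U₂ ((sub Nn e₂).K - 0) fun i => Nn.amp 0 (e₂ i) * w i)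
        (t₂.1.comp (by fun_prop)))
  · exact integrable_root (Nn := Nn) (tame_precomp e₁ t₁)
  · exact integrable_root (Nn := Nn) (tame_precomp e₂ t₂)

lemma root_close (hN : Nn.Good) {U V : (ι → ℝ) → ℝ} (hU : P157.Parisi.LinGrowth U)
    (hV : P157.Parisi.LinGrowth V) {C : ℝ} (h : ∀ y, |V y - U y| ≤ C) :
    |Nn.root V - Nn.root U| ≤ C := by
  simp only [Nest.root, Nest.mean, Nest.u]
  have iV := integrable_root (Nn := Nn) (linGrowth_u_gen hV Nn (Nn.K - 0)).tame
  have iU := integrable_root (Nn := Nn) (linGrowth_u_gen hU Nn (Nn.K - 0)).tame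
  rw [← integral_sub iV iU]
  refine abs_integral_le_integral_abs.trans ((integral_mono (iV.sub iU).abs (integrable_const C)
    fun z => u_sub_le hN hU hV h 0 _).trans_eq (by simp))

/-! ### A block of new spins -/

section tau

variable {k : ℕ}

/-- The log-partition function of `k` spins. -/
noncomputable def tauBlock (k : ℕ) (w : Fin k → ℝ) : ℝ :=
  Real.log (∑ τ : Fin k → Bool, 1 / (2 : ℝ) ^ k * Real.exp (∑ i, spin τ i * w i))

lemma linGrowth_tau : P157.Parisi.LinGrowth (tauBlock k) := linGrowth_tauBlock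

lemma tauBlock_nonneg (w : Fin k → ℝ) : 0 ≤ tauBlock k w := by
  refine Real.log_nonneg ?_
  have hflip : ∑ τ : Fin k → Bool, Real.exp (∑ i, spin τ i * w i) =
      ∑ τ : Fin k → Bool, Real.exp (-∑ i, spin τ i * w i) := by
    refine Fintype.sum_equiv (Equiv.arrowCongr (Equiv.refl _) Equiv.boolNot) _ _ fun τ => ?_
    rw [← sum_neg_distrib]
    refine congrArg _ (sum_congr rfl fun i _ => ?_)
    simp only [spin, Equiv.arrowCongr_apply, Equiv.refl_symm, Equiv.coe_refl, Function.comp_apply,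
      id_eq, Equiv.boolNot_apply]
    cases τ i <;> simp
  have h2 : ∑ τ : Fin k → Bool, (2 : ℝ) ≤ ∑ τ : Fin k → Bool,
      (Real.exp (∑ i, spin τ i * w i) + Real.exp (-∑ i, spin τ i * w i)) :=
    sum_le_sum fun τ _ => by
      linarith [Real.add_one_le_exp (∑ i, spin τ i * w i),
        Real.add_one_le_exp (-∑ i, spin τ i * w i)]
  rw [sum_add_distrib, ← hflip] at h2
  simp only [Finset.sum_const, card_univ, Fintype.card_pi, Fintype.card_bool, prod_const,
    Fintype.card_fin, nsmul_eq_mul, Nat.cast_pow, Nat.cast_ofNat] at h2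
  rw [← mul_sum, div_mul_eq_mul_div, one_le_div (by positivity), one_mul]
  linarith

lemma integral_exp_dot (c : ι → ℝ) :
    ∫ z, Real.exp (∑ i, c i * z i) ∂gauss ι = Real.exp ((∑ i, c i ^ 2) / 2) := by
  simp only [Real.exp_sum, gauss]
  rw [integral_fintype_prod_eq_prod (fun i (x : ℝ) => Real.exp (c i * x))]
  rw [sum_div, Real.exp_sum]
  refine prod_congr rfl fun i _ => ?_
  have := congrFun (mgf_id_gaussianReal (μ := 0) (v := 1)) (c i)
  simpa [mgf] using this

variable (Nt : Nest (Fin k))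

/-- The sum of the squared amplitudes above level `K - d`. -/
def varUp (d : ℕ) : ℝ := ∑ j ∈ range d, ∑ i, Nt.amp (Nt.K - j) i ^ 2

lemma tau_downUp : ∀ d, d ≤ Nt.K → ∀ y : Fin k → ℝ,
    Nt.downUp (fun _ => 0) (fun v => Real.exp (tauBlock k v)) d y =
      Real.exp (tauBlock k y) * Real.exp (varUp Nt d / 2)
  | 0, _, y => by simp [Nest.downUp, varUp]
  | d + 1, hd, y => by
    have hpos : ∀ v : Fin k → ℝ,
        0 < ∑ τ : Fin k → Bool, 1 / (2 : ℝ) ^ k * Real.exp (∑ i, spin τ i * v i) :=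
      fun v => sum_pos (fun τ _ => by positivity) univ_nonempty
    simp only [Nest.downUp]
    rw [show Nt.downUp (fun _ => 0) (fun v => Real.exp (tauBlock k v)) d =
      fun v => Real.exp (tauBlock k v) * Real.exp (varUp Nt d / 2) from
        funext (tau_downUp d (by omega)), mean_zero_succ, show Nt.K - (d + 1) + 1 = Nt.K - d by omega]
    simp only [tauBlock, Real.exp_log (hpos _), sum_mul]
    rw [integral_finsetSum]
    · refine sum_congr rfl fun τ _ => ?_
      set s := Nt.amp (Nt.K - d)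
      have e : ∀ z : Fin k → ℝ, 1 / (2 : ℝ) ^ k * Real.exp (∑ i, spin τ i * move s y z i) *
          Real.exp (varUp Nt d / 2) = (1 / (2 : ℝ) ^ k * Real.exp (∑ i, spin τ i * y i) *
            Real.exp (varUp Nt d / 2)) * Real.exp (∑ i, (spin τ i * s i) * z i) := by
        intro z
        rw [show ∑ i, spin τ i * move s y z i =
            (∑ i, spin τ i * y i) + ∑ i, (spin τ i * s i) * z i by
          rw [← sum_add_distrib]
          exact sum_congr rfl fun i _ => by simp only [move]; ring, Real.exp_add]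
        ring
      simp only [e, integral_const_mul, integral_exp_dot]
      rw [show varUp Nt (d + 1) = varUp Nt d + ∑ i, s i ^ 2 from sum_range_succ _ _, add_div,
        Real.exp_add]
      simp only [mul_pow, spin_sq, one_mul]
      ring
    · intro τ _
      refine (Tame.comp_move (f := fun v : Fin k → ℝ => 1 / (2 : ℝ) ^ k *
        Real.exp (∑ i, spin τ i * v i) * Real.exp (varUp Nt d / 2)) ?_ _ y).integrable
      refine ((tame_const _).mul ?_).mul (tame_const _)
      refine tame_of_bound (by fun_prop) (C := 1) (k := 1) fun v => ?_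
      rw [one_mul, one_mul, Real.abs_exp]
      refine Real.exp_le_exp.2 ((sum_le_sum fun i _ => ?_).trans_eq rfl)
      exact (le_abs_self _).trans_eq (by rw [abs_mul, abs_spin, one_mul])

/-- The free energy of a block of new spins. -/
lemma tau_root_bounds (hN : Nt.Good) :
    0 ≤ Nt.root (tauBlock k) ∧
      Nt.root (tauBlock k) ≤ (∑ l ∈ range (Nt.K + 1), ∑ i, Nt.amp l i ^ 2) / 2 := by
  have hz : P157.Parisi.LinGrowth fun _ : Fin k → ℝ => (0 : ℝ) :=
    ⟨continuous_const, 0, 0, le_rfl, le_rfl, fun _ => by simp⟩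
  have ht := linGrowth_tau (k := k)
  have hr0 : Nt.root (fun _ => 0) = 0 := by
    simp [Nest.root, Nest.mean, Nest.u, uUp_zero]
  constructor
  · exact hr0.symm.le.trans (root_mono hN (Tilt.semi_of_lin hz) (Tilt.semi_of_lin ht)
      tauBlock_nonneg)
  · have h := (root_add_bounds hN hz (h := tauBlock k) (by simpa using Tilt.semi_of_lin ht) ht.1
      (by simpa using ht.exp_tame 1) ht.tame).2
    simp only [zero_add, hr0] at h
    refine h.trans ?_
    have e0 : Nt.down (fun _ => 0) 0 (fun v => Real.exp (tauBlock k v)) =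
        fun y => Real.exp (tauBlock k y) * Real.exp (varUp Nt Nt.K / 2) :=
      funext fun y => by rw [Nest.down, Nat.sub_zero]; exact tau_downUp Nt _ le_rfl y
    have hpos : ∀ v : Fin k → ℝ,
        0 < ∑ τ : Fin k → Bool, 1 / (2 : ℝ) ^ k * Real.exp (∑ i, spin τ i * v i) :=
      fun v => sum_pos (fun τ _ => by positivity) univ_nonempty
    have e1 : Nt.mean (fun _ => 0) 0 (fun y => Real.exp (tauBlock k y) * Real.exp (varUp Nt Nt.K / 2))
        = Real.exp ((∑ i, Nt.amp 0 i ^ 2) / 2) * Real.exp (varUp Nt Nt.K / 2) := by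
      simp only [Nest.mean, tauBlock, Real.exp_log (hpos _), integral_mul_const]
      congr 1
      have hint : ∀ τ : Fin k → Bool, Integrable (fun z : Fin k → ℝ =>
          1 / (2 : ℝ) ^ k * Real.exp (∑ i, spin τ i * (Nt.amp 0 i * z i))) (gauss (Fin k)) := by
        intro τ
        refine Integrable.const_mul ?_ _
        refine integrable_of_exp_bound (by fun_prop) (C := 1) (k := l1 (Nt.amp 0)) fun z => ?_
        rw [one_mul, Real.abs_exp]
        refine Real.exp_le_exp.2 (le_trans ?_ (l1_scale_le (Nt.amp 0) z))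
        exact sum_le_sum fun i _ => (le_abs_self _).trans_eq (by rw [abs_mul, abs_spin, one_mul])
      rw [integral_finsetSum _ fun τ _ => hint τ]
      simp only [← mul_assoc (spin _ _), integral_const_mul, integral_exp_dot, mul_pow, spin_sq,
        one_mul, Finset.sum_const, card_univ, Fintype.card_pi, Fintype.card_bool, prod_const,
        Fintype.card_fin, nsmul_eq_mul, Nat.cast_pow, Nat.cast_ofNat]
      field_simp
    rw [e0, e1, ← Real.exp_add, Real.log_exp, ← add_div]
    refine div_le_div_of_nonneg_right (le_of_eq ?_) zero_le_two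
    rw [sum_range_succ', add_comm, varUp, ← sum_range_reflect (fun j => ∑ i, Nt.amp (Nt.K - j) i ^ 2)]
    congr 1
    exact sum_congr rfl fun j hj => by
      rw [mem_range] at hj
      rw [show Nt.K - (Nt.K - 1 - j) = j + 1 by omega]

end tau

/-! ### The free energy with extra spins -/

section ext

variable {N m : ℕ}

/-- The normalised weights with extra spins. -/
noncomputable def extW (lam : Fin N → ℝ) (Φ : (Fin m → Bool) → (Fin N → ℝ) → ℝ) (U : ON N)
    (ω : InsCfg N m) : ℝ :=
  extWeight lam Φ U ω / extPart lam Φ U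

lemma extPart_pos (lam : Fin N → ℝ) (Φ : (Fin m → Bool) → (Fin N → ℝ) → ℝ) (U : ON N) :
    0 < extPart lam Φ U :=
  sum_pos (fun ω _ => by unfold extWeight; positivity) univ_nonempty

lemma extW_nonneg (lam : Fin N → ℝ) (Φ : (Fin m → Bool) → (Fin N → ℝ) → ℝ) (U : ON N)
    (ω : InsCfg N m) : 0 ≤ extW lam Φ U ω := by
  have := extPart_pos lam Φ U
  unfold extW extWeight; positivity

lemma sum_extW (lam : Fin N → ℝ) (Φ : (Fin m → Bool) → (Fin N → ℝ) → ℝ) (U : ON N) :
    ∑ ω, extW lam Φ U ω = 1 := by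
  simp only [extW, ← sum_div]
  exact div_self (extPart_pos lam Φ U).ne'

lemma extLeaf_eq (U : ON N) : extLeaf m U = linL (extCoef U) := rfl

lemma extLaw_eq (lam : Fin N → ℝ) (Φ : (Fin m → Bool) → (Fin N → ℝ) → ℝ) (U : ON N) :
    extLaw lam Φ U = finLaw (extW lam Φ U) := rfl

/-- The log-partition function with extra spins, not normalised. -/
noncomputable def extLog (lam : Fin N → ℝ) (Φ : (Fin m → Bool) → (Fin N → ℝ) → ℝ) (U : ON N)
    (w : FIdx N ⊕ Fin m → ℝ) : ℝ :=
  Real.log (∑ ω, extWeight lam Φ U ω * Real.exp (extCoef U ω ⬝ᵥ w))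

lemma linGrowth_ext (lam : Fin N → ℝ) (Φ : (Fin m → Bool) → (Fin N → ℝ) → ℝ) (U : ON N) :
    P157.Parisi.LinGrowth ((extLeaf m U).logZ (extLaw lam Φ U)) := by
  rw [extLeaf_eq, extLaw_eq]
  have := Sym.prob_finLaw (extW_nonneg lam Φ U) (sum_extW lam Φ U)
  exact linGrowth_logZ (Sym.linL_good (extCoef U) (abs_extCoef U))

lemma extLog_eq (lam : Fin N → ℝ) (Φ : (Fin m → Bool) → (Fin N → ℝ) → ℝ) (U : ON N) :
    extLog lam Φ U = fun w =>
      (extLeaf m U).logZ (extLaw lam Φ U) w + Real.log (extPart lam Φ U) := by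
  funext w
  have hp := extPart_pos lam Φ U
  have hs : 0 < ∑ ω, extW lam Φ U ω * Real.exp (extCoef U ω ⬝ᵥ w) :=
    sum_pos (fun ω _ => mul_pos (div_pos (by unfold extWeight; positivity) hp) (Real.exp_pos _))
      univ_nonempty
  rw [extLeaf_eq, extLaw_eq, Sym.logZ_linL (extW_nonneg lam Φ U), Sym.linW, extLog,
    ← Real.log_mul hs.ne' hp.ne', sum_mul]
  refine congrArg _ (sum_congr rfl fun ω _ => ?_)
  unfold extW
  field_simp

lemma linGrowth_extLog (lam : Fin N → ℝ) (Φ : (Fin m → Bool) → (Fin N → ℝ) → ℝ) (U : ON N) :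
    P157.Parisi.LinGrowth (extLog lam Φ U) := by
  rw [extLog_eq]
  obtain ⟨hc, C, k, hC, hk, hb⟩ := linGrowth_ext lam Φ U
  exact ⟨hc.add continuous_const, C + |Real.log (extPart lam Φ U)|, k, by positivity, hk,
    fun y => (abs_add_le _ _).trans (by linarith [hb y])⟩

lemma extNest_grid (K : ℕ) (S V : ℕ → Fin N → ℝ) (e : ℕ → Fin m → ℝ) : (extNest K S V e).Good :=
  grid_good K _

lemma extFree_root (K : ℕ) (lam : Fin N → ℝ) (S V : ℕ → Fin N → ℝ) (e : ℕ → Fin m → ℝ)
    (Φ : (Fin m → Bool) → (Fin N → ℝ) → ℝ) (U : ON N) :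
    extFree K lam S V e Φ U = (extNest K S V e).root (extLog lam Φ U) := by
  rw [extLog_eq, root_add_const (extNest_grid K S V e) (Tilt.semi_of_lin (linGrowth_ext lam Φ U)),
    extFree, free_eq_root, add_comm]

lemma extFree_close (K : ℕ) (lam : Fin N → ℝ) (S V : ℕ → Fin N → ℝ) (e : ℕ → Fin m → ℝ)
    {Φ Φ' : (Fin m → Bool) → (Fin N → ℝ) → ℝ} (U : ON N) {c : ℝ}
    (h : ∀ τ z, |Φ' τ z - Φ τ z| ≤ c) :
    |extFree K lam S V e Φ' U - extFree K lam S V e Φ U| ≤ c := by
  rw [extFree_root, extFree_root]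
  refine root_close (extNest_grid K S V e) (linGrowth_extLog lam Φ U) (linGrowth_extLog lam Φ' U)
    fun w => ?_
  have p : ∀ Ψ : (Fin m → Bool) → (Fin N → ℝ) → ℝ,
      0 < ∑ ω, extWeight lam Ψ U ω * Real.exp (extCoef U ω ⬝ᵥ w) := fun Ψ =>
    sum_pos (fun ω _ => by unfold extWeight; positivity) univ_nonempty
  have key : ∀ Ψ Ψ' : (Fin m → Bool) → (Fin N → ℝ) → ℝ, (∀ τ z, Ψ' τ z ≤ Ψ τ z + c) →
      extLog lam Ψ' U w ≤ extLog lam Ψ U w + c := by
    intro Ψ Ψ' hle
    have h1 : ∑ ω, extWeight lam Ψ' U ω * Real.exp (extCoef U ω ⬝ᵥ w) ≤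
        (∑ ω, extWeight lam Ψ U ω * Real.exp (extCoef U ω ⬝ᵥ w)) * Real.exp c := by
      rw [sum_mul]
      refine sum_le_sum fun ω _ => ?_
      rw [mul_right_comm]
      refine mul_le_mul_of_nonneg_right ?_ (Real.exp_pos _).le
      unfold extWeight
      rw [mul_assoc (1 / (2 : ℝ) ^ N * (1 / (2 : ℝ) ^ m)), ← Real.exp_add]
      refine mul_le_mul_of_nonneg_left (Real.exp_le_exp.2 ?_) (by positivity)
      linarith [hle ω.2 (rotSpin U ω.1)]
    have h2 := Real.log_le_log (p Ψ') h1
    rwa [Real.log_mul (p Ψ).ne' (Real.exp_ne_zero _), Real.log_exp] at h2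
  rw [abs_le]
  constructor
  · linarith [key Φ' Φ fun τ z => by linarith [(abs_le.1 (h τ z)).1]]
  · linarith [key Φ Φ' fun τ z => by linarith [(abs_le.1 (h τ z)).2]]

lemma extFree_none_bounds (K : ℕ) (lam : Fin N → ℝ) (S V : ℕ → Fin N → ℝ) (e : ℕ → Fin m → ℝ)
    (U : ON N) :
    0 ≤ extFree K lam S V e (fun _ _ => 0) U - glassFree K lam S V U ∧
      extFree K lam S V e (fun _ _ => 0) U - glassFree K lam S V U ≤
        (∑ l ∈ range (K + 2), ∑ i, e l i ^ 2) / 2 := by
  let e₁ : FIdx N ↪ FIdx N ⊕ Fin m := ⟨Sum.inl, Sum.inl_injective⟩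
  let e₂ : Fin m ↪ FIdx N ⊕ Fin m := ⟨Sum.inr, Sum.inr_injective⟩
  have hd : ∀ i j, e₁ i ≠ e₂ j := fun i j => Sum.inl_ne_inr
  have hg := linGrowth_glass lam U
  have hq := Sym.quadPart_pos' lam U
  have hlog : extLog lam (fun (_ : Fin m → Bool) _ => (0 : ℝ)) U = fun w =>
      join e₁ e₂ ((glassLeaf U).logZ (quadLaw lam U)) (tauBlock m) w +
        Real.log (quadPart lam U) := by
    funext w
    have p1 : 0 < ∑ σ, Sym.wgt lam U σ * Real.exp (Sym.coef U σ ⬝ᵥ fun i => w (e₁ i)) :=
      sum_pos (fun σ _ => mul_pos (by unfold Sym.wgt; positivity) (Real.exp_pos _)) univ_nonempty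
    have p2 : 0 < ∑ τ : Fin m → Bool, 1 / (2 : ℝ) ^ m * Real.exp (∑ i, spin τ i * w (e₂ i)) :=
      sum_pos (fun τ _ => by positivity) univ_nonempty
    rw [join, tauBlock, Sym.glassLeaf_eq, Sym.quadLaw_eq, Sym.logZ_linL (Sym.wgt_nonneg lam U),
      Sym.linW, ← Real.log_mul p1.ne' p2.ne', ← Real.log_mul (mul_pos p1 p2).ne' hq.ne', extLog,
      Fintype.sum_prod_type, sum_mul_sum, sum_mul]
    refine congrArg _ (sum_congr rfl fun σ _ => ?_)
    rw [sum_mul]
    refine sum_congr rfl fun τ _ => ?_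
    have e : extCoef U (σ, τ) ⬝ᵥ w = (Sym.coef U σ ⬝ᵥ fun i => w (e₁ i)) +
        ∑ i, spin τ i * w (e₂ i) := by
      simp [dotProduct, extCoef, Sym.coef, e₁, e₂, Fintype.sum_sum_type]
    rw [e, Real.exp_add]
    unfold Sym.wgt extWeight
    simp only [add_zero]
    field_simp
  have h := tau_root_bounds (sub (extNest K S V e) e₂) (grid_good K _)
  rw [extFree_root, hlog, root_add_const (extNest_grid K S V e)
    (Tilt.semi_of_lin (linGrowth_join e₁ e₂ hd hg linGrowth_tau)),
    root_join e₁ e₂ hd hg linGrowth_tau, glassFree, free_eq_root]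
  have : sub (extNest K S V e) e₁ = glassNest K S V := rfl
  rw [this]
  exact ⟨by linarith [h.1], le_trans (le_of_eq (by ring)) h.2⟩

end ext

/-! ### The ends of the interpolation -/

section ends

variable {M : ℕ} [NeZero M] {N k : ℕ} {J : Type} [Fintype J] [DecidableEq J]
variable (K : ℕ) (lam : Fin N → ℝ) (π : ℕ → ℝ) (S V : ℕ → Fin N → ℝ) (e : ℕ → Fin k → ℝ)
variable (b : Fin N → Fin M) (t : J → Fin k) {ψ ψ1 ψ2 : J → ℝ → ℝ} {κ B : ℝ}
variable (hψ : ∀ j, PsiOk κ B (ψ j) (ψ1 j) (ψ2 j)) (U : ON N)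

/-- The coordinates of the new spins alone. -/
def eJT : J ⊕ Fin k ↪ InsIdx N k J :=
  ⟨Sum.elim (fun j => Sum.inr (Sum.inl j)) (fun i => Sum.inl (Sum.inr i)), by
    rintro (i | i) (j | j) h <;> simp_all⟩

@[simp] lemma eJT_inl (j : J) : (eJT (Sum.inl j) : InsIdx N k J) = Sum.inr (Sum.inl j) := rfl

@[simp] lemma eJT_inr (i : Fin k) : (eJT (Sum.inr i) : InsIdx N k J) = Sum.inl (Sum.inr i) := rfl

/-- The leaf of the new spins alone. -/
noncomputable def tauLeaf (t : J → Fin k) (ψ ψ1 ψ2 : J → ℝ → ℝ) :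
    Leaf (Fin k → Bool) (Unit ⊕ J) (J ⊕ Fin k) where
  a τ c := Sum.elim (fun _ => Sum.elim (fun _ => 0) (spin τ))
    (fun j => Sum.elim (fun j' => if j' = j then spin τ (t j) else 0) fun _ => 0) c
  φ c := Sum.elim (fun _ z => z) ψ c
  φ1 c := Sum.elim (fun _ _ => 1) ψ1 c
  φ2 c := Sum.elim (fun _ _ => 0) ψ2 c

lemma ham_tauLeaf (τ : Fin k → Bool) (y : J ⊕ Fin k → ℝ) :
    (tauLeaf t ψ ψ1 ψ2).ham τ y =
      (∑ j, ψ j (spin τ (t j) * y (Sum.inl j))) + ∑ i, spin τ i * y (Sum.inr i) := by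
  simp [Leaf.ham, Leaf.loc, tauLeaf, Fintype.sum_sum_type, add_comm]

include hψ

lemma tauLeaf_good : (tauLeaf t ψ ψ1 ψ2).Good (1 + |B| + |κ|) := by
  refine ⟨by positivity, fun _ _ => measurable_of_finite _, ?_, ?_, ?_, ?_, ?_, ?_⟩
  · rintro τ (_ | j) (i | i) <;>
      simp only [tauLeaf, Sum.elim_inl, Sum.elim_inr, abs_zero, abs_spin]
    · positivity
    · linarith [abs_nonneg B, abs_nonneg κ]
    · split_ifs <;> simp only [abs_spin, abs_zero] <;> linarith [abs_nonneg B, abs_nonneg κ]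
    · positivity
  · rintro (_ | j) z
    · exact hasDerivAt_id z
    · exact (hψ j).deriv1 z
  · rintro (_ | j) z
    · exact hasDerivAt_const z (1 : ℝ)
    · exact (hψ j).deriv2 z
  · rintro (_ | j)
    · exact continuous_const
    · exact (hψ j).cont2
  · rintro (_ | j) z
    · simp only [tauLeaf, Sum.elim_inl, abs_one]
      linarith [abs_nonneg B, abs_nonneg κ]
    · exact ((hψ j).bound1 z).trans (by linarith [le_abs_self B, abs_nonneg κ])
  · rintro (_ | j) z
    · simp only [tauLeaf, Sum.elim_inl, abs_zero]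
      positivity
    · exact ((hψ j).bound2 z).trans (by linarith [le_abs_self κ, abs_nonneg B])

lemma tauFree_eq :
    tauFree K π e t ψ = (tauNest (J := J) K π e).free (tauLeaf t ψ ψ1 ψ2)
      (finLaw fun _ : Fin k → Bool => 1 / (2 : ℝ) ^ k) := by
  rw [free_eq_root, tauFree]
  refine congrArg _ (funext fun y => ?_)
  rw [Leaf.logZ, Sym.integral_finLaw (fun _ => by positivity), tauLog, mul_sum]
  simp only [ham_tauLeaf]

/-- The end without projections. -/
lemma free_at_zero :
    Real.log (quadPart lam U) +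
        (insNest K b π S V e 0).free (insLeaf b t ψ ψ1 ψ2 U) (insLaw lam U) =
      glassFree K lam S V U + tauFree K π e t ψ := by
  have hL := insLeaf_good b t hψ U
  have := Sym.prob_quad lam U
  rw [← Sym.quadLaw_eq] at this
  have h2 := tauLeaf_good t hψ
  have hp := Sym.prob_finLaw (Ω := Fin k → Bool) (w := fun _ => 1 / (2 : ℝ) ^ k)
    (fun _ => by positivity) (by simp)
  let e₂ : J ⊕ Fin k ↪ InsIdx N k J := eJT
  have h := free_add (N := insNest K b π S V e 0) (μ := insLaw lam U)
    (L := insLeaf b t ψ ψ1 ψ2 U) (insNest_good 0) hL (N₁ := glassNest K S V)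
    (N₂ := tauNest (J := J) K π e) (μ₁ := quadLaw lam U)
    (μ₂ := finLaw fun _ : Fin k → Bool => 1 / (2 : ℝ) ^ k)
    (L₁ := glassLeaf U) (L₂ := tauLeaf t ψ ψ1 ψ2) (Sym.leaf_good U) h2 eF e₂
    (fun i j => by rcases j with j | j <;> simp [e₂]) rfl rfl rfl rfl (fun l i => rfl)
    (fun l i => by
      rcases i with j | i
      · show Real.sqrt ((1 - 0) * inc π l + 0 * 0) = Real.sqrt _
        rw [inc]; ring_nf
      · rfl)
    (fun y hy => ?_)
  · rw [h, ← tauFree_eq K π e t hψ, glassFree, add_assoc]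
  · have hg : ∀ q, y (Sum.inr (Sum.inr q)) = 0 := fun q => hy _ fun l _ => by
      simp [insNest, insAmp]
    rw [Sym.glassLeaf_eq, Sym.quadLaw_eq, Sym.logZ_linL (Sym.wgt_nonneg lam U), Leaf.logZ,
      Leaf.logZ, insLaw, Sym.integral_finLaw (insW_nonneg lam U),
      Sym.integral_finLaw (fun _ => by positivity), Sym.linW, ← Real.log_mul]
    · rw [Fintype.sum_prod_type, sum_mul_sum]
      refine congrArg _ (sum_congr rfl fun σ _ => sum_congr rfl fun τ _ => ?_)
      rw [ham_insLeaf, baseLeaf, Sym.ham_linL, dot_baseCoef, ham_tauLeaf]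
      simp only [cplSum, cplArg, hg, mul_zero, sum_const_zero, add_zero, insW, Real.exp_add, e₂,
        eJT_inl, eJT_inr]
      ring
    · have := Sym.quadPart_pos' lam U
      exact (sum_pos (fun σ _ => mul_pos (by unfold Sym.wgt; positivity) (Real.exp_pos _))
        univ_nonempty).ne'
    · exact (sum_pos (fun τ _ => by positivity) univ_nonempty).ne'

/-- The end without fields on the couplings: the gain of the coupling to the projections. -/
lemma free_at_one {n : ℕ} (hn : (fiber b (topA M)).card = n) :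
    Integrable (fun z => extFree K lam S V e
        (gaussPhi b t ψ fun q => z (Sum.inr q)) U) (gauss (J ⊕ J × Fin N)) ∧
      Real.log (quadPart lam U) +
          (insNest K b π S V e 1).free (insLeaf b t ψ ψ1 ψ2 U) (insLaw lam U) =
        ∫ z, extFree K lam S V e (gaussPhi b t ψ fun q => z (Sum.inr q)) U
          ∂gauss (J ⊕ J × Fin N) := by
  have hL := insLeaf_good b t hψ U
  have hlin := linGrowth_logZ (μ := insLaw lam U) hL
  have h0 : ∀ l, 1 ≤ l → l ≤ (insNest (J := J) K b π S V e 1).K → ∀ i,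
      (insNest (J := J) K b π S V e 1).amp l (Sum.inr i) = 0 := by
    intro l hl _ i
    rcases i with j | q
    · simp [insNest, insAmp]
    · simp [insNest, insAmp, Nat.one_le_iff_ne_zero.1 hl]
  obtain ⟨hi, he⟩ := integrable_frozen h0 hlin
  have hroot : ∀ c : J ⊕ J × Fin N → ℝ,
      (sub (insNest (J := J) K b π S V e 1) Sum.inl).root (fun w =>
        (insLeaf b t ψ ψ1 ψ2 U).logZ (insLaw lam U)
          (Sum.elim w fun j => (insNest (J := J) K b π S V e 1).amp 0 (Sum.inr j) * c j)) =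
      extFree K lam S V e (gaussPhi b t ψ fun q => c (Sum.inr q)) U -
        Real.log (quadPart lam U) := by
    intro c
    have hsub : sub (insNest (J := J) K b π S V e 1) Sum.inl = extNest K S V e := rfl
    set Φ := gaussPhi b t ψ fun q => c (Sum.inr q) with hΦ
    rw [hsub, extFree_root, sub_eq_add_neg,
      ← root_add_const (extNest_grid K S V e) (Tilt.semi_of_lin (linGrowth_extLog lam Φ U))]
    refine congrArg _ (funext fun w => ?_)
    have hq := Sym.quadPart_pos' lam U
    rw [Leaf.logZ, insLaw, Sym.integral_finLaw (insW_nonneg lam U), extLog, ← sub_eq_add_neg,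
      ← Real.log_div (sum_pos (fun ω _ => by unfold extWeight; positivity) univ_nonempty).ne'
        hq.ne', sum_div]
    refine congrArg _ (sum_congr rfl fun ω _ => ?_)
    rw [ham_insLeaf, baseLeaf, Sym.ham_linL]
    have hdot : baseCoef U ω ⬝ᵥ Sum.elim w (fun j =>
        (insNest (J := J) K b π S V e 1).amp 0 (Sum.inr j) * c j) = extCoef U ω ⬝ᵥ w := by
      simp [dotProduct, baseCoef, Fintype.sum_sum_type]
    have hcpl : cplSum b t ψ U ω (Sum.elim w fun j =>
        (insNest (J := J) K b π S V e 1).amp 0 (Sum.inr j) * c j) =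
          Φ ω.2 (rotSpin U ω.1) := by
      simp only [cplSum, cplArg, hΦ, gaussPhi, insNest, insAmp, Sum.elim_inr, Sum.elim_inl,
        sub_self, zero_mul, mul_zero, zero_add, Real.sqrt_zero, one_mul, true_and, hn]
      refine sum_congr rfl fun j _ => ?_
      congr 2
      rw [sum_div]
      refine sum_congr rfl fun p hp => ?_
      rw [if_pos (mem_filter.1 hp).2, one_div, Real.sqrt_inv]
      ring
    rw [hdot, hcpl]
    unfold extWeight insW Sym.wgt
    simp only [Real.exp_add]
    field_simp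
  simp only [hroot] at hi he
  have hi' : Integrable (fun c => extFree K lam S V e (gaussPhi b t ψ fun q => c (Sum.inr q)) U)
      (gauss (J ⊕ J × Fin N)) := by
    refine (hi.add (integrable_const (Real.log (quadPart lam U)))).congr (.of_forall fun c => ?_)
    simp only [Pi.add_apply, sub_add_cancel]
  refine ⟨hi', ?_⟩
  rw [free_eq_root, he, integral_sub hi' (integrable_const _)]
  simp

end ends

/-! ### Continuity -/

section continuity

variable {N m : ℕ} {T : Type} [TopologicalSpace T] [FirstCountableTopology T]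

lemma continuous_rot {Uf : T → ON N} (hU : Continuous Uf) (σ : Fin N → Bool) :
    Continuous fun x => rotSpin (Uf x) σ :=
  continuous_pi fun p => (Sym.continuous_rotSpin σ p).comp hU

lemma continuous_eng_param {lamf : T → Fin N → ℝ} (hl : Continuous lamf) {Uf : T → ON N}
    (hU : Continuous Uf) (σ : Fin N → Bool) :
    Continuous fun x => eng (lamf x) (Uf x : Matrix (Fin N) (Fin N) ℝ) σ := by
  have h := continuous_rot hU σ
  simp only [rotSpin] at h
  unfold eng
  fun_prop

/-- Joint continuity of the free energy with extra spins. -/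
lemma continuous_extFree_param (K : ℕ) {lamf : T → Fin N → ℝ} (hl : Continuous lamf)
    {S : ℕ → Fin N → ℝ} {Vf : T → ℕ → Fin N → ℝ} (hV : ∀ l p, Continuous fun x => Vf x l p)
    (e : ℕ → Fin m → ℝ) {Φf : T → (Fin m → Bool) → (Fin N → ℝ) → ℝ}
    (hΦ : ∀ τ, Continuous fun p : T × (Fin N → ℝ) => Φf p.1 τ p.2)
    {Uf : T → ON N} (hU : Continuous Uf) :
    Continuous fun x => extFree K (lamf x) S (Vf x) e (Φf x) (Uf x) := by
  have hw : ∀ ω : InsCfg N m, Continuous fun x => extWeight (lamf x) (Φf x) (Uf x) ω := fun ω =>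
    continuous_const.mul (Real.continuous_exp.comp ((continuous_const.mul
      (continuous_eng_param hl hU ω.1)).add ((hΦ ω.2).comp (continuous_id.prodMk
        (continuous_rot hU ω.1)))))
  have hP : Continuous fun x => extPart (lamf x) (Φf x) (Uf x) :=
    continuous_finsetSum _ fun ω _ => hw ω
  have hW : ∀ ω : InsCfg N m, Continuous fun x => extW (lamf x) (Φf x) (Uf x) ω := fun ω =>
    (hw ω).div hP fun x => (extPart_pos _ _ _).ne'
  have hc : ∀ (ω : InsCfg N m) i, Continuous fun x => extCoef (Uf x) ω i := by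
    rintro ω ((i | i) | i)
    · exact continuous_const
    · exact (continuous_apply i).comp (continuous_rot hU ω.1)
    · exact continuous_const
  have hA : ∀ l i, Continuous fun x => (extNest K S (Vf x) e).amp l i := by
    rintro l ((i | i) | i)
    · exact continuous_const
    · exact hV l i
    · exact continuous_const
  have hp := Sym.plin_logZ hc hW (fun x => abs_extCoef (Uf x)) (fun x => extW_nonneg _ _ _)
    (fun x => sum_extW _ _ _)
  have h := continuous_root_gen (Nn := extNest K S (fun _ _ => 0) e)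
    (A := fun x => (extNest K S (Vf x) e).amp) hp hA
  exact (hP.log fun x => (extPart_pos _ _ _).ne').add h

/-- Joint continuity of the free energy. -/
lemma continuous_glassFree_param (K : ℕ) {lamf : T → Fin N → ℝ} (hl : Continuous lamf)
    {S : ℕ → Fin N → ℝ} {Vf : T → ℕ → Fin N → ℝ} (hV : ∀ l p, Continuous fun x => Vf x l p)
    {Uf : T → ON N} (hU : Continuous Uf) :
    Continuous fun x => glassFree K (lamf x) S (Vf x) (Uf x) := by
  have hq : ∀ σ, Continuous fun x =>
      Real.exp (1 / 2 * eng (lamf x) (Uf x : Matrix (Fin N) (Fin N) ℝ) σ) := fun σ =>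
    Real.continuous_exp.comp (continuous_const.mul (continuous_eng_param hl hU σ))
  have hP : Continuous fun x => quadPart (lamf x) (Uf x) :=
    continuous_const.mul (continuous_finsetSum _ fun σ _ => hq σ)
  have hW : ∀ σ, Continuous fun x => Sym.wgt (lamf x) (Uf x) σ := fun σ =>
    (continuous_const.mul (hq σ)).div hP fun x => (Sym.quadPart_pos' _ _).ne'
  have hc : ∀ (σ : Fin N → Bool) i, Continuous fun x => Sym.coef (Uf x) σ i := fun σ i =>
    (Sym.continuous_coef σ i).comp hU
  have hA : ∀ l i, Continuous fun x => (glassNest K S (Vf x)).amp l i := by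
    rintro l (i | i)
    · exact continuous_const
    · exact hV l i
  have hp := Sym.plin_logZ hc hW (fun x => Sym.abs_coef_le (Uf x)) (fun x => Sym.wgt_nonneg _ _)
    (fun x => Sym.sum_wgt _ _)
  have h := continuous_root_gen (Nn := glassNest K S (fun _ _ => 0))
    (A := fun x => (glassNest K S (Vf x)).amp) hp hA
  exact (hP.log fun x => (Sym.quadPart_pos' _ _).ne').add h

end continuity

end Vale.Agent.P166.Parisi.Ins
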