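import Vale.Agent.P166.Parisi.InsertTools
import Vale.Agent.P166.Parisi.SymmBase
import Vale.Agent.P166.Parisi.Tilt

/-!
Module I, part 2: the system interpolating between the coupling of new spins to Gaussian projections
of the top atom and the new spins alone.
-/

set_option linter.unusedSectionVars false

namespace Vale.Agent.P166.Parisi.Ins

open MeasureTheory ProbabilityTheory Finset Matrix
open Vale.Agent.P157 Vale.Agent.P157.Parisi
open Vale.Agent.P166 (spin)
open Vale.Agent.P166.Parisi.Sym (finLaw linL)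

variable {M : ℕ} [NeZero M] {N k : ℕ} {J : Type} [Fintype J]

/-- The configurations. -/
abbrev InsCfg (N k : ℕ) := (Fin N → Bool) × (Fin k → Bool)

/-- Coordinates: the fields of the base system and of the new spins; the one-dimensional fields of
the couplings and the Gaussian projections. -/
abbrev InsIdx (N k : ℕ) (J : Type) := (FIdx N ⊕ Fin k) ⊕ (J ⊕ J × Fin N)

/-- The other coordinates than the fields of the base system. -/
abbrev RestIdx (N k : ℕ) (J : Type) := Fin k ⊕ (J ⊕ J × Fin N)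

/-- The fields of the base system. -/
def eF : FIdx N ↪ InsIdx N k J :=
  ⟨fun i => Sum.inl (Sum.inl i), fun _ _ h => Sum.inl_injective (Sum.inl_injective h)⟩

/-- The other coordinates. -/
def eR : RestIdx N k J ↪ InsIdx N k J :=
  ⟨Sum.elim (fun i => Sum.inl (Sum.inr i)) Sum.inr, by
    rintro (i | i) (k | k) h <;> simp_all⟩

/-- The fields of the new spins among the other coordinates. -/
def eT : Fin k ↪ RestIdx N k J := ⟨Sum.inl, Sum.inl_injective⟩

/-- The coordinates of the couplings among the other coordinates. -/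
def eC : J ⊕ J × Fin N ↪ RestIdx N k J := ⟨Sum.inr, Sum.inr_injective⟩

@[simp] lemma eF_apply (i : FIdx N) : (eF i : InsIdx N k J) = Sum.inl (Sum.inl i) := rfl

@[simp] lemma eR_apply_inl (i : Fin k) : (eR (Sum.inl i) : InsIdx N k J) = Sum.inl (Sum.inr i) :=
  rfl

@[simp] lemma eR_apply_inr (i : J ⊕ J × Fin N) : (eR (Sum.inr i) : InsIdx N k J) = Sum.inr i :=
  rfl

lemma eF_ne_eR (i : FIdx N) (j : RestIdx N k J) :
    (eF i : InsIdx N k J) ≠ eR j := by
  rcases j with j | j <;> simp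

lemma eT_ne_eC (i : Fin k) (j : J ⊕ J × Fin N) : (eT i : RestIdx N k J) ≠ eC j := by
  simp [eT, eC]

/-- The coefficients of the linear fields. -/
noncomputable def extCoef (U : ON N) (ω : InsCfg N k) : FIdx N ⊕ Fin k → ℝ :=
  Sum.elim (Sum.elim (spin ω.1) (rotSpin U ω.1)) (spin ω.2)

/-- Extended by zero to all the coordinates. -/
noncomputable def baseCoef (U : ON N) (ω : InsCfg N k) : InsIdx N k J → ℝ :=
  Sum.elim (extCoef U ω) fun _ => 0

/-- The weights. -/
noncomputable def insW (lam : Fin N → ℝ) (U : ON N) (ω : InsCfg N k) : ℝ :=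
  Sym.wgt lam U ω.1 * (1 / (2 : ℝ) ^ k)

/-- The law. -/
noncomputable def insLaw (lam : Fin N → ℝ) (U : ON N) : Measure (InsCfg N k) := finLaw (insW lam U)

lemma insW_nonneg (lam : Fin N → ℝ) (U : ON N) (ω : InsCfg N k) : 0 ≤ insW lam U ω :=
  mul_nonneg (Sym.wgt_nonneg lam U ω.1) (by positivity)

lemma sum_insW (lam : Fin N → ℝ) (U : ON N) : ∑ ω : InsCfg N k, insW lam U ω = 1 := by
  rw [Fintype.sum_prod_type]
  simp only [insW, ← mul_sum, Finset.sum_const, card_univ, Fintype.card_pi, Fintype.card_bool,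
    prod_const, Fintype.card_fin, nsmul_eq_mul, Nat.cast_pow, Nat.cast_ofNat]
  rw [← sum_mul, Sym.sum_wgt, one_mul]
  field_simp

instance (lam : Fin N → ℝ) (U : ON N) : IsProbabilityMeasure (insLaw (k := k) lam U) :=
  Sym.prob_finLaw (insW_nonneg lam U) (sum_insW lam U)

lemma abs_spin {n : ℕ} (σ : Fin n → Bool) (i : Fin n) : |spin σ i| = 1 := by
  unfold spin; split_ifs <;> simp

lemma spin_sq {n : ℕ} (σ : Fin n → Bool) (i : Fin n) : spin σ i ^ 2 = 1 := by
  unfold spin; split_ifs <;> simp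

lemma abs_extCoef (U : ON N) (ω : InsCfg N k) (i : FIdx N ⊕ Fin k) :
    |extCoef U ω i| ≤ (N : ℝ) + 1 := by
  rcases i with i | i
  · exact Sym.abs_coef_le U ω.1 i
  · simp only [extCoef, Sum.elim_inr, abs_spin]
    linarith [Nat.cast_nonneg (α := ℝ) N]

/-- The leaf without couplings. -/
noncomputable def baseLeaf (U : ON N) : Leaf (InsCfg N k) Unit (InsIdx N k J) :=
  linL (baseCoef U)

lemma baseLeaf_good (U : ON N) :
    (baseLeaf (J := J) (k := k) U).Good (|(N : ℝ) + 1| + 1) := by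
  refine Sym.linL_good _ fun ω i => ?_
  rcases i with i | i
  · exact abs_extCoef U ω i
  · simp only [baseCoef, Sum.elim_inr, abs_zero]
    linarith [Nat.cast_nonneg (α := ℝ) N]

variable [DecidableEq J]

/-- The coefficients of the argument of coupling `j`. -/
noncomputable def cplCoef (b : Fin N → Fin M) (t : J → Fin k) (U : ON N) (ω : InsCfg N k) (j : J) :
    InsIdx N k J → ℝ :=
  Sum.elim (fun _ => 0) (Sum.elim (fun j' => if j' = j then spin ω.2 (t j) else 0)
    fun q => if q.1 = j ∧ b q.2 = topA M then spin ω.2 (t j) * rotSpin U ω.1 q.2 else 0)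

/-- The leaf with the couplings. -/
noncomputable def insLeaf (b : Fin N → Fin M) (t : J → Fin k) (ψ ψ1 ψ2 : J → ℝ → ℝ) (U : ON N) :
    Leaf (InsCfg N k) (Unit ⊕ J) (InsIdx N k J) where
  a ω c := Sum.elim (fun _ => baseCoef U ω) (cplCoef b t U ω) c
  φ c := Sum.elim (fun _ z => z) ψ c
  φ1 c := Sum.elim (fun _ _ => 1) ψ1 c
  φ2 c := Sum.elim (fun _ _ => 0) ψ2 c

/-- The argument of coupling `j`. -/
noncomputable def cplArg (b : Fin N → Fin M) (t : J → Fin k) (U : ON N) (j : J) (ω : InsCfg N k)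
    (y : InsIdx N k J → ℝ) : ℝ :=
  spin ω.2 (t j) * (y (Sum.inr (Sum.inl j)) +
    ∑ p ∈ fiber b (topA M), rotSpin U ω.1 p * y (Sum.inr (Sum.inr (j, p))))

/-- The sum of the couplings. -/
noncomputable def cplSum (b : Fin N → Fin M) (t : J → Fin k) (ψ : J → ℝ → ℝ) (U : ON N)
    (ω : InsCfg N k) (y : InsIdx N k J → ℝ) : ℝ :=
  ∑ j, ψ j (cplArg b t U j ω y)

section leaf

variable (b : Fin N → Fin M) (t : J → Fin k) (ψ ψ1 ψ2 : J → ℝ → ℝ) (U : ON N)
variable (ω : InsCfg N k) (y : InsIdx N k J → ℝ)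

lemma loc_cpl (j : J) :
    (insLeaf b t ψ ψ1 ψ2 U).loc ω y (Sum.inr j) = cplArg b t U j ω y := by
  simp only [Leaf.loc, insLeaf, Sum.elim_inr, cplCoef, Fintype.sum_sum_type, Sum.elim_inl,
    zero_mul, sum_const_zero, zero_add, Fintype.sum_prod_type, ite_mul]
  rw [sum_ite_eq' univ j, if_pos (mem_univ j), cplArg, mul_add, mul_sum]
  congr 1
  rw [sum_eq_single j (fun j' _ h => sum_eq_zero fun p _ => by simp [h])
    (fun h => absurd (mem_univ j) h)]
  simp only [true_and, fiber, sum_filter]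
  exact sum_congr rfl fun p _ => by split_ifs <;> ring

lemma ham_insLeaf :
    (insLeaf b t ψ ψ1 ψ2 U).ham ω y = (baseLeaf U).ham ω y + cplSum b t ψ U ω y := by
  simp only [Leaf.ham, Fintype.sum_sum_type, cplSum]
  congr 1
  refine sum_congr rfl fun j _ => ?_
  rw [loc_cpl]
  rfl

lemma vec_zField (p : Fin N) :
    (insLeaf b t ψ ψ1 ψ2 U).vec (eF (Sum.inr p)) ω y = rotSpin U ω.1 p := by
  simp [Leaf.vec, Fintype.sum_sum_type, insLeaf, cplCoef, baseCoef, extCoef]

lemma vec_cField (j : J) :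
    (insLeaf b t ψ ψ1 ψ2 U).vec (Sum.inr (Sum.inl j)) ω y =
      ψ1 j (cplArg b t U j ω y) * spin ω.2 (t j) := by
  rw [Leaf.vec, Fintype.sum_sum_type, sum_eq_single (s := (univ : Finset J)) j]
  · simp [insLeaf, cplCoef, baseCoef, ← loc_cpl b t ψ ψ1 ψ2 U ω y j]
  · intro j' _ h
    simp [insLeaf, cplCoef, h.symm]
  · simp

lemma vec_gField (j : J) {p : Fin N} (hp : b p = topA M) :
    (insLeaf b t ψ ψ1 ψ2 U).vec (Sum.inr (Sum.inr (j, p))) ω y =
      rotSpin U ω.1 p * (ψ1 j (cplArg b t U j ω y) * spin ω.2 (t j)) := by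
  rw [Leaf.vec, Fintype.sum_sum_type, sum_eq_single (s := (univ : Finset J)) j]
  · simp [insLeaf, cplCoef, baseCoef, hp, ← loc_cpl b t ψ ψ1 ψ2 U ω y j]
    ring
  · intro j' _ h
    simp [insLeaf, cplCoef, h.symm]
  · simp

end leaf

/-! ### Regularity -/

lemma insLeaf_good {κ B : ℝ} (b : Fin N → Fin M) (t : J → Fin k) {ψ ψ1 ψ2 : J → ℝ → ℝ}
    (hψ : ∀ j, PsiOk κ B (ψ j) (ψ1 j) (ψ2 j)) (U : ON N) :
    (insLeaf b t ψ ψ1 ψ2 U).Good ((N : ℝ) + 1 + |B| + |κ|) := by
  have hN : (0 : ℝ) ≤ N := Nat.cast_nonneg N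
  refine ⟨by positivity, fun _ _ => measurable_of_finite _, ?_, ?_, ?_, ?_, ?_, ?_⟩
  · rintro ω (_ | j) i
    · simp only [insLeaf, Sum.elim_inl]
      have h : |baseCoef (J := J) U ω i| ≤ (N : ℝ) + 1 := by
        rcases i with i | i
        · exact abs_extCoef U ω i
        · simp only [baseCoef, Sum.elim_inr, abs_zero]
          linarith
      linarith [abs_nonneg B, abs_nonneg κ]
    · simp only [insLeaf, Sum.elim_inr]
      have h : |cplCoef b t U ω j i| ≤ (N : ℝ) + 1 := by
        rcases i with i | j' | q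
        · simp only [cplCoef, Sum.elim_inl, abs_zero]
          linarith
        · simp only [cplCoef, Sum.elim_inr, Sum.elim_inl]
          split_ifs
          · rw [abs_spin]; linarith
          · rw [abs_zero]; linarith
        · simp only [cplCoef, Sum.elim_inr]
          split_ifs
          · rw [abs_mul, abs_spin, one_mul]
            exact Sym.abs_coef_le U ω.1 (Sum.inr q.2)
          · rw [abs_zero]; linarith
      linarith [abs_nonneg B, abs_nonneg κ]
  · rintro (_ | j) z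
    · exact hasDerivAt_id z
    · exact (hψ j).deriv1 z
  · rintro (_ | j) z
    · exact hasDerivAt_const z (1 : ℝ)
    · exact (hψ j).deriv2 z
  · rintro (_ | j)
    · exact continuous_const
    · exact (hψ j).cont2
  · rintro (_ | j) z
    · simp only [insLeaf, Sum.elim_inl, abs_one]
      linarith [abs_nonneg B, abs_nonneg κ]
    · exact ((hψ j).bound1 z).trans (by linarith [le_abs_self B, abs_nonneg κ])
  · rintro (_ | j) z
    · simp only [insLeaf, Sum.elim_inl, abs_zero]
      positivity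
    · exact ((hψ j).bound2 z).trans (by linarith [le_abs_self κ, abs_nonneg B])

lemma continuous_cplArg (b : Fin N → Fin M) (t : J → Fin k) (U : ON N) (j : J) (ω : InsCfg N k) :
    Continuous (cplArg b t U j ω) := by
  unfold cplArg; fun_prop

lemma obs_cplSum {B : ℝ} (b : Fin N → Fin M) (t : J → Fin k) {ψ : J → ℝ → ℝ}
    (hc : ∀ j, Continuous (ψ j)) (hB : ∀ j x, |ψ j x| ≤ B) (U : ON N) :
    Obs (cplSum b t ψ U) ∧ ∀ ω y, |cplSum b t ψ U ω y| ≤ Fintype.card J * B := by
  have hb : ∀ ω y, |cplSum b t ψ U ω y| ≤ Fintype.card J * B := fun ω y =>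
    (abs_sum_le_sum_abs _ _).trans ((sum_le_card_nsmul _ _ B fun j _ => hB j _).trans_eq (by simp))
  exact ⟨⟨fun _ => measurable_of_finite _,
    fun ω => continuous_finsetSum _ fun j _ => (hc j).comp (continuous_cplArg b t U j ω), _, hb⟩, hb⟩

/-! ### The system without couplings -/

/-- The log-partition function of the new spins in linear fields. -/
noncomputable def tauLin (w : RestIdx N k J → ℝ) : ℝ :=
  Real.log (∑ τ : Fin k → Bool, 1 / (2 : ℝ) ^ k * Real.exp (∑ i, spin τ i * w (Sum.inl i)))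

lemma linGrowth_tauBlock : P157.Parisi.LinGrowth fun w : Fin k → ℝ =>
    Real.log (∑ τ : Fin k → Bool, 1 / (2 : ℝ) ^ k * Real.exp (∑ i, spin τ i * w i)) := by
  have hw : ∀ τ : Fin k → Bool, (0 : ℝ) ≤ 1 / (2 : ℝ) ^ k := fun _ => by positivity
  have := Sym.prob_finLaw (Ω := Fin k → Bool) hw (by simp)
  have h := linGrowth_logZ (μ := finLaw fun _ : Fin k → Bool => 1 / (2 : ℝ) ^ k)
    (Sym.linL_good (fun τ : Fin k → Bool => spin τ) (B := 1) fun τ i => (abs_spin τ i).le)
  rw [Sym.logZ_linL hw] at h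
  exact h

lemma tauLin_eq_join : (tauLin : (RestIdx N k J → ℝ) → ℝ) =
    join eT eC (fun w : Fin k → ℝ =>
      Real.log (∑ τ : Fin k → Bool, 1 / (2 : ℝ) ^ k * Real.exp (∑ i, spin τ i * w i)))
      (fun _ => 0) := by
  funext w
  simp [tauLin, join, eT]

lemma linGrowth_tauLin : P157.Parisi.LinGrowth (tauLin : (RestIdx N k J → ℝ) → ℝ) := by
  rw [tauLin_eq_join]
  exact linGrowth_join eT eC eT_ne_eC linGrowth_tauBlock
    ⟨continuous_const, 0, 0, le_rfl, le_rfl, fun _ => by simp⟩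

variable (lam : Fin N → ℝ) (U : ON N)

lemma linGrowth_glass : P157.Parisi.LinGrowth ((glassLeaf U).logZ (quadLaw lam U)) := by
  rw [Sym.glassLeaf_eq, Sym.quadLaw_eq]
  have := Sym.prob_quad lam U
  exact linGrowth_logZ (Sym.leaf_good U)

lemma tame_glass_gibbs (f : (Fin N → Bool) → ℝ) :
    Tame ((glassLeaf U).gibbs (quadLaw lam U) fun σ _ => f σ) := by
  rw [Sym.glassLeaf_eq, Sym.quadLaw_eq]
  have := Sym.prob_quad lam U
  exact tame_gibbs (Sym.leaf_good U) (Sym.obs_fin f)

lemma dot_baseCoef (ω : InsCfg N k) (y : InsIdx N k J → ℝ) :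
    baseCoef U ω ⬝ᵥ y = (Sym.coef U ω.1 ⬝ᵥ fun i => y (eF i)) +
      ∑ i, spin ω.2 i * y (Sum.inl (Sum.inr i)) := by
  simp [dotProduct, baseCoef, extCoef, Sym.coef, Fintype.sum_sum_type]

lemma sum_base (y : InsIdx N k J → ℝ) (f : (Fin N → Bool) → ℝ) :
    ∑ ω, insW lam U ω * (Real.exp (baseCoef U ω ⬝ᵥ y) * f ω.1) =
      (∑ σ, Sym.wgt lam U σ * (Real.exp (Sym.coef U σ ⬝ᵥ fun i => y (eF i)) * f σ)) *
        ∑ τ : Fin k → Bool, 1 / (2 : ℝ) ^ k * Real.exp (∑ i, spin τ i * y (Sum.inl (Sum.inr i))) := by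
  rw [Fintype.sum_prod_type, sum_mul_sum]
  refine sum_congr rfl fun σ _ => sum_congr rfl fun τ _ => ?_
  simp only [insW, dot_baseCoef, Real.exp_add]
  ring

lemma base_logZ : (baseLeaf U).logZ (insLaw lam U) =
    join eF (eR : RestIdx N k J ↪ InsIdx N k J) ((glassLeaf U).logZ (quadLaw lam U)) tauLin := by
  funext y
  rw [baseLeaf, insLaw, Sym.logZ_linL (insW_nonneg lam U), Sym.glassLeaf_eq, Sym.quadLaw_eq,
    Sym.logZ_linL (Sym.wgt_nonneg lam U), join, Sym.linW, Sym.linW, tauLin]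
  have h := sum_base (k := k) lam U y fun _ => 1
  simp only [mul_one] at h
  rw [h, Real.log_mul]
  · rfl
  · obtain ⟨σ, -⟩ : ∃ σ : Fin N → Bool, σ = fun _ => true := ⟨_, rfl⟩
    refine (sum_pos (fun σ _ => mul_pos ?_ (Real.exp_pos _)) ⟨σ, mem_univ σ⟩).ne'
    have := Sym.quadPart_pos' lam U
    unfold Sym.wgt; positivity
  · exact (sum_pos (fun τ _ => by positivity) univ_nonempty).ne'

lemma base_gibbs (f : (Fin N → Bool) → ℝ) (y : InsIdx N k J → ℝ) :
    (baseLeaf U).gibbs (insLaw lam U) (fun ω _ => f ω.1) y =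
      (glassLeaf U).gibbs (quadLaw lam U) (fun σ _ => f σ) fun i => y (eF i) := by
  rw [baseLeaf, insLaw, Sym.gibbs_linL (insW_nonneg lam U), Sym.glassLeaf_eq, Sym.quadLaw_eq,
    Sym.gibbs_linL (Sym.wgt_nonneg lam U), Sym.linG, Sym.linG]
  have h := sum_base (k := k) lam U y fun _ => 1
  simp only [mul_one] at h
  rw [sum_base lam U y f, h, mul_div_mul_right]
  exact (sum_pos (fun τ _ => by positivity) univ_nonempty).ne'

/-! ### The amplitudes -/

/-- The increments of a path. -/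
def inc (π : ℕ → ℝ) (l : ℕ) : ℝ := if l = 0 then π 0 else π l - π (l - 1)

lemma inc_nonneg {π : ℕ → ℝ} (hπ : IsPath π) (l : ℕ) : 0 ≤ inc π l := by
  unfold inc
  split_ifs with h
  · exact hπ.2
  · exact sub_nonneg.2 (hπ.1 (Nat.sub_le l 1))

lemma sum_inc (π : ℕ → ℝ) : ∀ l, ∑ i ∈ range (l + 1), inc π i = π l
  | 0 => by simp [inc]
  | l + 1 => by
    rw [sum_range_succ, sum_inc π l]
    simp [inc]

/-- The amplitudes at the time `u`. -/
noncomputable def insAmp (b : Fin N → Fin M) (π : ℕ → ℝ) (S V : ℕ → Fin N → ℝ)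
    (e : ℕ → Fin k → ℝ) (u : ℝ) (l : ℕ) : InsIdx N k J → ℝ :=
  Sum.elim (Sum.elim (glassAmp S V l) (e l))
    (Sum.elim (fun _ => Real.sqrt ((1 - u) * inc π l + u * 0))
      fun q => if l = 0 ∧ b q.2 = topA M then
        Real.sqrt ((1 - u) * 0 + u * (1 / ((fiber b (topA M)).card : ℝ))) else 0)

/-- The hierarchy at the time `u`. -/
noncomputable def insNest (K : ℕ) (b : Fin N → Fin M) (π : ℕ → ℝ) (S V : ℕ → Fin N → ℝ)
    (e : ℕ → Fin k → ℝ) (u : ℝ) : Nest (InsIdx N k J) where
  K := K + 1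
  x := gridX K
  amp := insAmp b π S V e u

omit [Fintype J] in
lemma grid_good {ι : Type} (K : ℕ) (A : ℕ → ι → ℝ) :
    ({ K := K + 1, x := gridX K, amp := A } : Nest ι).Good where
  x_zero := by simp [gridX, lvl]
  x_last := ModelFacts.gridX_top K (Nat.le_succ _)
  x_pos l hl _ := lt_min one_pos (div_pos (by exact_mod_cast hl) (by positivity))
  x_mono l _ := min_le_min le_rfl (by unfold lvl; gcongr; simp)

variable {K : ℕ} {π : ℕ → ℝ} {S V : ℕ → Fin N → ℝ} {e : ℕ → Fin k → ℝ} {b : Fin N → Fin M}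

lemma insNest_good (u : ℝ) : (insNest (J := J) K b π S V e u).Good := grid_good K _

lemma sub_insNest (u : ℝ) :
    sub (insNest (J := J) K b π S V e u) (eF : FIdx N ↪ InsIdx N k J) = glassNest K S V := rfl

/-! ### Averages without couplings -/

/-- The node averages of functions of the base spins. -/
lemma base_node (u : ℝ) (l : ℕ) (f : (Fin N → Bool) → ℝ) (y : InsIdx N k J → ℝ) :
    (insNest K b π S V e u).node (baseLeaf U) (insLaw lam U) l (fun ω _ => f ω.1) y =
      (glassNest K S V).node (glassLeaf U) (quadLaw lam U) l (fun σ _ => f σ) fun i => y (eF i) := by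
  simp only [Nest.node, Nest.down, base_logZ]
  rw [show (baseLeaf U).gibbs (insLaw lam U) (fun ω _ => f ω.1) = fun v : InsIdx N k J → ℝ =>
      (glassLeaf U).gibbs (quadLaw lam U) (fun σ _ => f σ) fun i => v (eF i) from
    funext (base_gibbs lam U f)]
  exact downUp_join_left (Nn := insNest K b π S V e u) eF eR eF_ne_eR (linGrowth_glass lam U)
    linGrowth_tauLin (tame_glass_gibbs lam U f) _ y

/-- The averages of functions of the base fields. -/
lemma base_mean (u : ℝ) (l : ℕ) {h : (FIdx N → ℝ) → ℝ} (hh : Tame h) :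
    (insNest K b π S V e u).mean ((baseLeaf U).logZ (insLaw lam U)) l
        (fun y : InsIdx N k J → ℝ => h fun i => y (eF i)) =
      (glassNest K S V).mean ((glassLeaf U).logZ (quadLaw lam U)) l h := by
  rw [base_logZ]
  exact mean_join_left eF eR eF_ne_eR (linGrowth_glass lam U) linGrowth_tauLin hh l

/-- The covariance of the coordinates of the couplings. -/
lemma base_mean_quad (u : ℝ) (l : ℕ) {h : (FIdx N → ℝ) → ℝ} (hh : Tame h) (i i' : J ⊕ J × Fin N) :
    (insNest K b π S V e u).mean ((baseLeaf U).logZ (insLaw lam U)) l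
        (fun y : InsIdx N k J → ℝ => h (fun a => y (eF a)) * (y (Sum.inr i) * y (Sum.inr i'))) =
      (glassNest K S V).mean ((glassLeaf U).logZ (quadLaw lam U)) l h *
        if i = i' then ∑ m ∈ range (l + 1), insAmp b π S V e u m (Sum.inr i) ^ 2 else 0 := by
  set Nn := insNest (J := J) K b π S V e u
  have hz : P157.Parisi.LinGrowth fun _ : J ⊕ J × Fin N → ℝ => (0 : ℝ) :=
    ⟨continuous_const, 0, 0, le_rfl, le_rfl, fun _ => by simp⟩
  have tq : Tame fun w : J ⊕ J × Fin N → ℝ => w i * w i' := (tame_coord i).mul (tame_coord i')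
  rw [base_logZ]
  have h1 := mean_join (Nn := Nn) eF (eR : RestIdx N k J ↪ InsIdx N k J) eF_ne_eR
    (linGrowth_glass lam U) linGrowth_tauLin l hh
    (g := fun w => (fun v : J ⊕ J × Fin N → ℝ => v i * v i') fun a => w (eC a))
    (tame_precomp eC tq)
  refine h1.trans ?_
  rw [tauLin_eq_join]
  have h2 := mean_join (Nn := sub Nn (eR : RestIdx N k J ↪ InsIdx N k J)) eT eC eT_ne_eC
    linGrowth_tauBlock hz l (tame_const (1 : ℝ)) tq
  simp only [one_mul] at h2
  rw [h2, mean_const_gen linGrowth_tauBlock, one_mul, mean_zero_quad]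
  rfl

end Vale.Agent.P166.Parisi.Ins
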