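import Vale.Agent.P166.Parisi.Model
import Vale.Agent.P157.Parisi.CalcAmpCont
import Vale.Agent.P157.Parisi.CalcStep
import Vale.Agent.P166.Parisi.Spec.Defs
import Vale.Agent.P166.Parisi.StepMat

/-!
Atomic systems on a box of parameters, systems with finitely many extra spins and a coupling term,
and their order parameters.
-/

namespace Vale.Agent.P166.Parisi

open MeasureTheory ProbabilityTheory Finset Matrix
open Vale.Agent.P157 Vale.Agent.P157.Parisi

/-! ### Blocks and atoms -/

/-- The largest index. -/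
def topA (M : ℕ) [NeZero M] : Fin M := ⟨M - 1, Nat.sub_lt (Nat.pos_of_ne_zero (NeZero.ne M)) one_pos⟩

/-- The block of `i` among `M` blocks of equal size. -/
def blkOf {M : ℕ} [NeZero M] {N : ℕ} (i : Fin N) : Fin M := Fin.ofNat M ((i : ℕ) * M / N)

variable {M N : ℕ}

/-- The indices of atom `r`. -/
def fiber (b : Fin N → Fin M) (r : Fin M) : Finset (Fin N) := univ.filter fun p => b p = r

/-- The rotated-spin coordinates of atom `r`. -/
def atomSet (b : Fin N → Fin M) (r : Fin M) : Finset (FIdx N) := rotSet (fiber b r)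

/-- The proportion of atom `r`. -/
noncomputable def frac (b : Fin N → Fin M) (r : Fin M) : ℝ := (fiber b r).card / (N : ℝ)

/-- The atoms have equal sizes up to `C`. -/
def Bal (C : ℝ) (b : Fin N → Fin M) : Prop := ∀ r, |((fiber b r).card : ℝ) - N / M| ≤ C

/-- The equally weighted atoms at increasing positions. -/
noncomputable def evenAtoms [NeZero M] (a : Fin M → ℝ) (ha : Monotone a) : Atoms (Fin M) where
  p _ := 1 / (M : ℝ)
  lam := a
  top := topA M
  pos _ := by
    have : 0 < M := Nat.pos_of_ne_zero (NeZero.ne M)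
    positivity
  sum_p := by simp [NeZero.ne M]
  le_top r := ha (Fin.le_iff_val_le_val.2 (Nat.le_sub_one_of_lt r.isLt))

/-! ### The uniform grid -/

/-- The uniform grid. -/
noncomputable def gridOf (K : ℕ) : Grid where
  K := K
  x := lvl K
  x_zero := by simp [lvl]
  x_last := by
    unfold lvl
    push_cast
    field_simp
  x_pos l hl _ := by
    unfold lvl
    positivity
  x_mono l _ := by
    unfold lvl
    gcongr
    simp

/-- The eigenvalues of the overlap matrix of the path `q`. -/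
noncomputable def eigPath (K : ℕ) (q : ℕ → ℝ) (l : ℕ) : ℝ := SMat.eig (gridOf K) ⟨1, q⟩ l

/-- The exact solution of the loop equations of atom `r` with total overlap `q`. -/
noncomputable def exactMat {γ : Type} [Fintype γ] (A : Atoms γ) (K : ℕ) (q : ℕ → ℝ) (r : γ) :
    SMat :=
  SMat.ofEig (gridOf K) (A.dPart r (eigPath K q 0) * q 0) fun l => A.part r (eigPath K q l)

/-- The normalised variance path of the top atom in the exact solution, with its total at the level
`K + 1`. -/
noncomputable def topPath [NeZero M] (a : Fin M → ℝ) (ha : Monotone a) (K : ℕ) (q : ℕ → ℝ)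
    (l : ℕ) : ℝ :=
  (M : ℝ) * if l ≤ K then (exactMat (evenAtoms a ha) K q (topA M)).q l
    else (exactMat (evenAtoms a ha) K q (topA M)).d

/-! ### Systems with extra spins -/

/-- The leaf with `m` extra spins carrying their own fields. -/
noncomputable def extLeaf (m : ℕ) (U : ON N) :
    Leaf ((Fin N → Bool) × (Fin m → Bool)) Unit (FIdx N ⊕ Fin m) where
  a ω _ := Sum.elim (Sum.elim (spin ω.1) (rotSpin U ω.1)) (spin ω.2)
  φ _ z := z
  φ1 _ _ := 1
  φ2 _ _ := 0

/-- The weight of a configuration with coupling `Φ`. -/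
noncomputable def extWeight {m : ℕ} (lam : Fin N → ℝ) (Φ : (Fin m → Bool) → (Fin N → ℝ) → ℝ)
    (U : ON N) (ω : (Fin N → Bool) × (Fin m → Bool)) : ℝ :=
  1 / (2 : ℝ) ^ N * (1 / (2 : ℝ) ^ m) *
    Real.exp (1 / 2 * eng lam (U : Matrix (Fin N) (Fin N) ℝ) ω.1 + Φ ω.2 (rotSpin U ω.1))

/-- Their sum. -/
noncomputable def extPart {m : ℕ} (lam : Fin N → ℝ) (Φ : (Fin m → Bool) → (Fin N → ℝ) → ℝ)
    (U : ON N) : ℝ :=
  ∑ ω, extWeight lam Φ U ω

/-- The tilted law of all the spins. -/
noncomputable def extLaw {m : ℕ} (lam : Fin N → ℝ) (Φ : (Fin m → Bool) → (Fin N → ℝ) → ℝ)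
    (U : ON N) : Measure ((Fin N → Bool) × (Fin m → Bool)) :=
  ∑ ω, ENNReal.ofReal (extWeight lam Φ U ω / extPart lam Φ U) • Measure.dirac ω

/-- The hierarchy with `m` extra spins of amplitudes `e`. -/
noncomputable def extNest {m : ℕ} (K : ℕ) (S V : ℕ → Fin N → ℝ) (e : ℕ → Fin m → ℝ) :
    Nest (FIdx N ⊕ Fin m) where
  K := K + 1
  x := gridX K
  amp l := Sum.elim (glassAmp S V l) (e l)

/-- The log-partition function with extra spins, for fixed `U`. -/
noncomputable def extFree {m : ℕ} (K : ℕ) (lam : Fin N → ℝ) (S V : ℕ → Fin N → ℝ)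
    (e : ℕ → Fin m → ℝ) (Φ : (Fin m → Bool) → (Fin N → ℝ) → ℝ) (U : ON N) : ℝ :=
  Real.log (extPart lam Φ U) + (extNest K S V e).free (extLeaf m U) (extLaw lam Φ U)

/-- Its average over `U`. -/
noncomputable def meanExt {m : ℕ} (K : ℕ) (lam : Fin N → ℝ) (S V : ℕ → Fin N → ℝ)
    (e : ℕ → Fin m → ℝ) (Φ : (Fin m → Bool) → (Fin N → ℝ) → ℝ) : ℝ :=
  ∫ U, extFree K lam S V e Φ U ∂haarON N

/-! ### Parameters and boxes -/

/-- Coordinates of the box: a shift of each atom, a field for each atom and level. -/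
abbrev GBox (M K : ℕ) := Fin M ⊕ (Fin (K + 2) × Fin M)

/-- Points of the enlarged box. -/
def InBox {β : Type} (v : β → ℝ) : Prop := ∀ k, v k ∈ Set.Icc (-(1 / 2 : ℝ)) (3 / 2)

/-- Number of levels, number of levels without fields, size of the shifts and of the fields. -/
structure Par where
  K : ℕ
  L0 : ℕ
  du : ℝ
  eta : ℝ

/-- Regular parameters. -/
structure Par.Ok (P : Par) : Prop where
  L0_le : P.L0 < P.K
  du_pos : 0 < P.du
  du_le : P.du ≤ 1
  eta_pos : 0 < P.eta
  eta_le : P.eta ≤ 1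

/-- Amplitudes on the spins: bounded, and absent at the levels `1..L0`. -/
def Par.SpinOk (P : Par) (smax : ℝ) (s : ℕ → ℝ) : Prop :=
  (∀ l, |s l| ≤ smax) ∧ ∀ l, 1 ≤ l → l ≤ P.L0 → s l = 0

section

variable (P : Par)

/-- The eigenvalue of atom `r` at a point of the box. -/
def Par.lamV (a : Fin M → ℝ) (v : GBox M P.K → ℝ) (r : Fin M) : ℝ := a r + P.du * v (Sum.inl r)

/-- The field amplitude of atom `r` at level `l` at a point of the box. -/
def Par.etaV (v : GBox M P.K → ℝ) (l : ℕ) (r : Fin M) : ℝ :=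
  if h : l ≤ P.K + 1 then
    if 1 ≤ l ∧ l ≤ P.L0 then 0 else P.eta * (1 + v (Sum.inr (⟨l, Nat.lt_succ_of_le h⟩, r)))
  else 0

/-- The eigenvalues. -/
def Par.lamN (a : Fin M → ℝ) (b : Fin N → Fin M) (v : GBox M P.K → ℝ) : Fin N → ℝ :=
  fun p => P.lamV a v (b p)

/-- The amplitudes on the rotated spins. -/
def Par.ampN (b : Fin N → Fin M) (v : GBox M P.K → ℝ) : ℕ → Fin N → ℝ :=
  fun l p => P.etaV v l (b p)

/-- The hierarchy of the system. -/
noncomputable def Par.nest (s : ℕ → ℝ) (b : Fin N → Fin M) (v : GBox M P.K → ℝ) : Nest (FIdx N) :=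
  glassNest P.K (fun l _ => s l) (P.ampN b v)

/-- The mean free energy with arbitrary amplitudes on the spins. -/
noncomputable def Par.freeS (a : Fin M → ℝ) (S : ℕ → Fin N → ℝ) (b : Fin N → Fin M)
    (v : GBox M P.K → ℝ) : ℝ :=
  meanFree P.K (P.lamN a b v) S (P.ampN b v)

/-- The mean free energy. -/
noncomputable def Par.free (a : Fin M → ℝ) (s : ℕ → ℝ) (b : Fin N → Fin M)
    (v : GBox M P.K → ℝ) : ℝ :=
  P.freeS a (fun l _ => s l) b v

variable (a : Fin M → ℝ) (s : ℕ → ℝ) (b : Fin N → Fin M) (v : GBox M P.K → ℝ)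

/-- The overlap of atom `r` at level `l`. -/
noncomputable def Par.ovl (r : Fin M) (l : ℕ) : ℝ :=
  ∫ U, (P.nest s b v).ovl (glassLeaf U) (quadLaw (P.lamN a b v) U) (atomSet b r) N l ∂haarON N

/-- The mean squared norm of atom `r`. -/
noncomputable def Par.diag (r : Fin M) : ℝ :=
  ∫ U, (∑ i ∈ atomSet b r, (P.nest s b v).heatTop (glassLeaf U) (quadLaw (P.lamN a b v) U) i) / N
    ∂haarON N

/-- The total overlap. -/
noncomputable def Par.qhat (l : ℕ) : ℝ := ∑ r, P.ovl a s b v r (min l P.K)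

/-- The overlap matrix of atom `r`. -/
noncomputable def Par.atomMat (r : Fin M) : SMat := ⟨P.diag a s b v r, P.ovl a s b v r⟩

/-- The squared norm of the rotated spins in atom `r`, per spin. -/
noncomputable def atomSq (U : ON N) (r : Fin M) (σ : Fin N → Bool) (_ : FIdx N → ℝ) : ℝ :=
  (∑ p ∈ fiber b r, rotSpin U σ p ^ 2) / N

/-- Deviation of the squared gradient and node covariance at level `l`. -/
noncomputable def Par.levelErr (l : ℕ) : ℝ :=
  ∫ U, ∑ r, ((P.nest s b v).mean ((glassLeaf U).logZ (quadLaw (P.lamN a b v) U)) l (fun y =>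
        |(P.nest s b v).sqSum (glassLeaf U) (quadLaw (P.lamN a b v) U) (atomSet b r) l y / N -
          P.ovl a s b v r l|) +
      (P.nest s b v).mean ((glassLeaf U).logZ (quadLaw (P.lamN a b v) U)) l (fun y =>
        (P.nest s b v).covNorm (glassLeaf U) (quadLaw (P.lamN a b v) U) (atomSet b r) l y / N))
    ∂haarON N

/-- Deviation of the squared norms given the level `K`. -/
noncomputable def Par.diagErr : ℝ :=
  ∫ U, ∑ r, (P.nest s b v).mean ((glassLeaf U).logZ (quadLaw (P.lamN a b v) U)) P.K (fun y =>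
    |(P.nest s b v).node (glassLeaf U) (quadLaw (P.lamN a b v) U) P.K (atomSq b U r) y -
      P.diag a s b v r|) ∂haarON N

/-- Their variance given the level `K`. -/
noncomputable def Par.leafVar : ℝ :=
  ∫ U, ∑ r, (P.nest s b v).mean ((glassLeaf U).logZ (quadLaw (P.lamN a b v) U)) P.K (fun y =>
    (P.nest s b v).node (glassLeaf U) (quadLaw (P.lamN a b v) U) P.K
        (fun σ y => atomSq b U r σ y ^ 2) y -
      (P.nest s b v).node (glassLeaf U) (quadLaw (P.lamN a b v) U) P.K (atomSq b U r) y ^ 2)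
    ∂haarON N

/-- The pinning error above the levels without fields. -/
noncomputable def Par.pinErr : ℝ :=
  (∑ l ∈ Ioc P.L0 P.K, P.levelErr a s b v l) / ((P.K : ℝ) + 1) + P.diagErr a s b v +
    P.leafVar a s b v

/-- The defect of the loop equations of atom `r` against atom `r₀`. -/
noncomputable def Par.loopMat (r r₀ : Fin M) : SMat :=
  SMat.add
    (SMat.add (SMat.smul (frac b r₀) (P.atomMat a s b v r))
      (SMat.smul (-frac b r) (P.atomMat a s b v r₀)))
    (SMat.smul (P.lamV a v r₀ - P.lamV a v r)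
      (SMat.mul (gridOf P.K) (P.atomMat a s b v r) (P.atomMat a s b v r₀)))

/-- The distance of the overlaps to the exact solution with the same total. -/
noncomputable def Par.atomDist [NeZero M] (ha : Monotone a) : ℝ :=
  ∑ r, SMat.nrm (gridOf P.K) (SMat.add (P.atomMat a s b v r)
    (SMat.smul (-1) (exactMat (evenAtoms a ha) P.K (P.qhat a s b v) r)))

/-- The distance of the top atom, normalised by its size, to a path. -/
noncomputable def Par.pathDist [NeZero M] (π : ℕ → ℝ) : ℝ :=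
  (∑ l ∈ range (P.K + 1), |P.ovl a s b v (topA M) l / frac b (topA M) - π l|) / ((P.K : ℝ) + 1) +
    |P.diag a s b v (topA M) / frac b (topA M) - π (P.K + 1)|

end

/-! ### The recursion from a general leaf function -/

/-- The value at the root of the recursion from the leaf function `U`. -/
noncomputable def _root_.Vale.Agent.P157.Parisi.Nest.root {ι : Type} [Fintype ι] (Nn : Nest ι)
    (U : (ι → ℝ) → ℝ) : ℝ :=
  Nn.mean U 0 (Nn.u U 0)

/-- Continuous, at most linear from above and quadratic from below. -/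
def Semi {ι : Type} [Fintype ι] (U : (ι → ℝ) → ℝ) : Prop :=
  Continuous U ∧ ∃ C : ℝ, ∀ y, U y ≤ C * (1 + ∑ i, |y i|) ∧ -(C * (1 + ∑ i, y i ^ 2)) ≤ U y

/-- The derivative of the free energy in the squared amplitude of coordinate `i` at level `l`,
doubled. -/
noncomputable def ampTail {ι Ω : Type} [Fintype ι] [MeasurableSpace Ω] (Nn : Nest ι)
    (L : Leaf Ω Unit ι) (μ : Measure Ω) (l : ℕ) (i : ι) : ℝ :=
  Nn.heatTop L μ i - ∑ j ∈ Icc l Nn.K, Nn.w j * Nn.sqGrad L μ j i

/-! ### One spin -/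

/-- A spin in a field. -/
def spinLeaf : Leaf Bool Unit Unit where
  a b _ _ := if b then 1 else -1
  φ _ z := z
  φ1 _ _ := 1
  φ2 _ _ := 0

/-- The uniform law of a spin. -/
noncomputable def spinLaw : Measure Bool :=
  ∑ b : Bool, ENNReal.ofReal (1 / 2) • Measure.dirac b

/-- The hierarchy of one spin. -/
noncomputable def spinNest (K : ℕ) (e : ℕ → ℝ) : Nest Unit where
  K := K + 1
  x := gridX K
  amp l _ := e l

/-- The free energy of one spin with amplitudes `e`. -/
noncomputable def oneSpin (K : ℕ) (e : ℕ → ℝ) : ℝ := (spinNest K e).free spinLeaf spinLaw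

/-- Its overlaps. -/
noncomputable def spinPath (K : ℕ) (e : ℕ → ℝ) (l : ℕ) : ℝ :=
  (spinNest K e).sqGrad spinLeaf spinLaw (min l K) ()

/-- The cumulative variances. -/
noncomputable def cumVar (K : ℕ) (e : ℕ → ℝ) (l : ℕ) : ℝ := ∑ i ∈ range (min l K + 1), e i ^ 2

/-! ### Couplings of the extra spins to Gaussian projections of the top atom -/

section

variable {J : Type} [Fintype J] {m : ℕ}

/-- A smooth bounded potential dominated by a quadratic, uniformly in the bound. -/
structure PsiOk (κ B : ℝ) (ψ ψ1 ψ2 : ℝ → ℝ) : Prop where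
  deriv1 : ∀ x, HasDerivAt ψ (ψ1 x) x
  deriv2 : ∀ x, HasDerivAt ψ1 (ψ2 x) x
  cont2 : Continuous ψ2
  bound0 : ∀ x, |ψ x| ≤ B
  bound1 : ∀ x, |ψ1 x| ≤ B
  bound2 : ∀ x, |ψ2 x| ≤ κ
  upper : ∀ x, ψ x ≤ κ
  lower : ∀ x, -(κ * (1 + x ^ 2)) ≤ ψ x
  sq_le : ∀ x, ψ1 x ^ 2 ≤ κ * (1 + |ψ x|)

/-- The coupling through Gaussian projections of the top atom. -/
noncomputable def gaussPhi [NeZero M] (b : Fin N → Fin M) (t : J → Fin m) (ψ : J → ℝ → ℝ)
    (G : J × Fin N → ℝ) (τ : Fin m → Bool) (z : Fin N → ℝ) : ℝ :=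
  ∑ j, ψ j (spin τ (t j) *
    ((∑ p ∈ fiber b (topA M), G (j, p) * z p) / Real.sqrt (fiber b (topA M)).card))

/-- The gain of the coupling. -/
noncomputable def Par.insTerm [NeZero M] (P : Par) (a : Fin M → ℝ) (s : ℕ → ℝ) (b : Fin N → Fin M)
    (v : GBox M P.K → ℝ) (e : ℕ → Fin m → ℝ) (t : J → Fin m) (ψ : J → ℝ → ℝ) : ℝ :=
  (∫ G, meanExt P.K (P.lamN a b v) (fun l _ => s l) (P.ampN b v) e (gaussPhi b t ψ G)
    ∂gauss (J × Fin N)) - P.free a s b v

/-- The leaf function of the coupled extra spins alone. -/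
noncomputable def tauLog (t : J → Fin m) (ψ : J → ℝ → ℝ) (y : J ⊕ Fin m → ℝ) : ℝ :=
  Real.log (1 / (2 : ℝ) ^ m * ∑ τ : Fin m → Bool,
    Real.exp ((∑ j, ψ j (spin τ (t j) * y (Sum.inl j))) + ∑ i, spin τ i * y (Sum.inr i)))

/-- Their hierarchy: variance path `π` with its total at `K + 1`, amplitudes `e`. -/
noncomputable def tauNest (K : ℕ) (π : ℕ → ℝ) (e : ℕ → Fin m → ℝ) : Nest (J ⊕ Fin m) where
  K := K + 1
  x := gridX K
  amp l := Sum.elim (fun _ => Real.sqrt (if l = 0 then π 0 else π l - π (l - 1))) (e l)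

/-- Their free energy. -/
noncomputable def tauFree (K : ℕ) (π : ℕ → ℝ) (e : ℕ → Fin m → ℝ) (t : J → Fin m)
    (ψ : J → ℝ → ℝ) : ℝ :=
  (tauNest (J := J) K π e).root (tauLog t ψ)

end

/-! ### The quadratic coupling of one new spin -/

/-- `b x - e x² / 2`. -/
noncomputable def quadPsi (e b x : ℝ) : ℝ := b * x - e * x ^ 2 / 2

/-- Its bounded cut-off. -/
noncomputable def quadCut (R e b x : ℝ) : ℝ := quadPsi e b (R * Real.tanh (x / R))

/-- Diagonalisation of the energy of one new spin and its orthogonal complement in the atoms. -/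
structure Compress [NeZero M] (a : Fin M → ℝ) where
  H : Fin M → Fin (M - 1) → ℝ
  e : Fin (M - 1) → ℝ
  b : Fin (M - 1) → ℝ
  c0 : ℝ
  orth : ∀ i j, ∑ r, H r i * H r j = if i = j then 1 else 0
  perp : ∀ j, ∑ r, H r j = 0
  pos : ∀ j, 0 < e j
  ident : ∀ (τ : ℝ), τ ^ 2 = 1 → ∀ w : Fin (M - 1) → ℝ,
    (∑ r, (a r - a (topA M)) * (τ / Real.sqrt M + ∑ j, H r j * w j) ^ 2) / 2 + a (topA M) / 2 =
      c0 + ∑ j, quadPsi (e j) (b j) (τ * w j)

/-- The couplings of `M` new spins: atom index of the coordinate. -/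
abbrev NewIdx (M : ℕ) := Fin M × Fin (M - 1)

/-- The coordinates moved from the top atom to the others. -/
abbrev MoveIdx (M : ℕ) [NeZero M] := {r : Fin M // r ≠ topA M} × Fin (M - 1)

/-- Spin amplitudes with `m` new spins appended. -/
def addAmp {N m : ℕ} (s : ℕ → ℝ) (e : ℕ → Fin m → ℝ) (l : ℕ) : Fin (N + m) → ℝ :=
  Fin.append (fun _ => s l) (e l)

end Vale.Agent.P166.Parisi
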