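import Vale.Agent.P157.Parisi.BoxAvg
import Vale.Agent.P157.Parisi.Insert
import Vale.Agent.P166.Parisi.Sys
import Vale.Agent.P166.Parisi.Density

/-!
Module I, part 1: general facts on recursions used for the insertion of new spins.
-/

set_option linter.unusedSectionVars false

namespace Vale.Agent.P166.Parisi.Ins

open MeasureTheory ProbabilityTheory Finset
open Vale.Agent.P157 Vale.Agent.P157.Parisi

variable {ι : Type} [Fintype ι] {Nn : Nest ι}

/-! ### Averages for a general leaf function -/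

lemma mean_const_gen {U : (ι → ℝ) → ℝ} (hU : P157.Parisi.LinGrowth U) (c : ℝ) :
    ∀ l, Nn.mean U l (fun _ => c) = c
  | 0 => by simp [Nest.mean]
  | l + 1 => by
    show Nn.mean U l (Nn.avg U l fun _ => c) = c
    rw [show Nn.avg U l (fun _ => c) = fun _ => c from
      funext (stepAvg_const (linGrowth_u_gen hU Nn _) _ _ c)]
    exact mean_const_gen hU c l

lemma integrable_root {f : (ι → ℝ) → ℝ} (hf : Tame f) :
    Integrable (fun z => f fun i => Nn.amp 0 i * z i) (gauss ι) :=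
  integrable_tame_scale hf _

lemma mean_add_gen {U : (ι → ℝ) → ℝ} (hU : P157.Parisi.LinGrowth U) :
    ∀ (l : ℕ) {f g : (ι → ℝ) → ℝ}, Tame f → Tame g →
      Nn.mean U l (fun y => f y + g y) = Nn.mean U l f + Nn.mean U l g
  | 0, _, _, hf, hg => by
    simp only [Nest.mean]
    exact integral_add (integrable_root hf) (integrable_root hg)
  | l + 1, f, g, hf, hg => by
    show Nn.mean U l (Nn.avg U l fun y => f y + g y) = _
    rw [show Nn.avg U l (fun y => f y + g y) = fun y => Nn.avg U l f y + Nn.avg U l g y from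
      funext (stepAvg_add (linGrowth_u_gen hU Nn _) _ _ hf hg)]
    exact mean_add_gen hU l (tame_avg_gen hU l hf) (tame_avg_gen hU l hg)

lemma mean_sum_gen {U : (ι → ℝ) → ℝ} (hU : P157.Parisi.LinGrowth U) (l : ℕ) {α : Type}
    (S : Finset α) {f : α → (ι → ℝ) → ℝ} (hf : ∀ a ∈ S, Tame (f a)) :
    Nn.mean U l (fun y => ∑ a ∈ S, f a y) = ∑ a ∈ S, Nn.mean U l (f a) := by
  classical
  induction S using Finset.induction with
  | empty => simpa using mean_const_gen hU 0 l
  | insert a S ha ih =>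
    simp only [sum_insert ha]
    rw [mean_add_gen hU l (hf a (mem_insert_self a S))
      (tame_sum S fun b hb => hf b (mem_insert_of_mem hb)), ih fun b hb => hf b (mem_insert_of_mem hb)]

/-- Averaging down does not change the total average. -/
lemma mean_down (U f : (ι → ℝ) → ℝ) {l : ℕ} (hl : l ≤ Nn.K) :
    Nn.mean U l (Nn.down U l f) = Nn.mean U Nn.K f := by
  refine levels_induction (P := fun l => Nn.mean U l (Nn.down U l f) = Nn.mean U Nn.K f) ?_
    (fun m hm ih => ?_) hl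
  · rw [down_top (N := Nn) le_rfl]
  · rw [down_succ (N := Nn) hm]
    exact ih

lemma down_mono_gen {U : (ι → ℝ) → ℝ} (hU : P157.Parisi.LinGrowth U) {f g : (ι → ℝ) → ℝ}
    (hf : Tame f) (hg : Tame g) (h : ∀ y, f y ≤ g y) :
    ∀ d y, Nn.downUp U f d y ≤ Nn.downUp U g d y
  | 0, y => h y
  | d + 1, y => stepAvg_mono (linGrowth_u_gen hU Nn _) _ _ (tame_down_gen hU hf d)
      (tame_down_gen hU hg d) (down_mono_gen hU hf hg h d) y

lemma down_const_mul_gen (U : (ι → ℝ) → ℝ) (c : ℝ) (f : (ι → ℝ) → ℝ) :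
    ∀ d y, Nn.downUp U (fun v => c * f v) d y = c * Nn.downUp U f d y
  | 0, _ => rfl
  | d + 1, y => by
    simp only [Nest.downUp]
    rw [show Nn.downUp U (fun v => c * f v) d = fun v => c * Nn.downUp U f d v from
      funext (down_const_mul_gen U c f d)]
    exact stepAvg_const_mul _ _ _ c _ y

lemma tame_precomp {ι₁ : Type} [Fintype ι₁] (e : ι₁ ↪ ι) {f : (ι₁ → ℝ) → ℝ} (hf : Tame f) :
    Tame fun y : ι → ℝ => f fun i => y (e i) := by
  obtain ⟨C, k, hC, hk, h⟩ := hf.bound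
  refine tame_of_bound (hf.1.comp (continuous_pi fun i => continuous_apply (e i)))
    (C := C) (k := k) fun y => (h _).trans ?_
  refine mul_le_mul_of_nonneg_left (Real.exp_le_exp.2 (mul_le_mul_of_nonneg_left ?_ hk)) hC
  simp only [l1]
  calc ∑ i, |y (e i)| = ∑ j ∈ univ.map e, |y j| := (sum_map univ e fun j => |y j|).symm
    _ ≤ ∑ j, |y j| := sum_le_sum_of_subset_of_nonneg (subset_univ _) fun _ _ _ => abs_nonneg _

/-! ### Sums of functions of disjoint blocks of coordinates -/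

/-- The hierarchy seen by a block of coordinates. -/
def sub {ι₁ : Type} (Nn : Nest ι) (e : ι₁ → ι) : Nest ι₁ where
  K := Nn.K
  x := Nn.x
  amp l i := Nn.amp l (e i)

section split

variable {ι₁ ι₂ : Type} [Fintype ι₁] [Fintype ι₂] (e₁ : ι₁ ↪ ι) (e₂ : ι₂ ↪ ι)
variable (hd : ∀ i j, e₁ i ≠ e₂ j)
variable {U₁ : (ι₁ → ℝ) → ℝ} {U₂ : (ι₂ → ℝ) → ℝ}

/-- The sum of the two leaf functions. -/
def join (U₁ : (ι₁ → ℝ) → ℝ) (U₂ : (ι₂ → ℝ) → ℝ) (y : ι → ℝ) : ℝ :=
  U₁ (fun i => y (e₁ i)) + U₂ (fun j => y (e₂ j))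

variable (h₁ : P157.Parisi.LinGrowth U₁) (h₂ : P157.Parisi.LinGrowth U₂)

include hd h₁ h₂

lemma linGrowth_join : P157.Parisi.LinGrowth (join e₁ e₂ U₁ U₂) := by
  obtain ⟨hc₁, C₁, k₁, hC₁, hk₁, b₁⟩ := h₁
  obtain ⟨hc₂, C₂, k₂, hC₂, hk₂, b₂⟩ := h₂
  refine ⟨(hc₁.comp (continuous_pi fun i => continuous_apply (e₁ i))).add
    (hc₂.comp (continuous_pi fun i => continuous_apply (e₂ i))), C₁ + C₂, k₁ + k₂, by positivity,
    by positivity, fun y => ?_⟩
  have s₁ : l1 (fun i => y (e₁ i)) ≤ l1 y := by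
    simp only [l1]
    calc ∑ i, |y (e₁ i)| = ∑ j ∈ univ.map e₁, |y j| := (sum_map univ e₁ fun j => |y j|).symm
      _ ≤ ∑ j, |y j| := sum_le_sum_of_subset_of_nonneg (subset_univ _) fun _ _ _ => abs_nonneg _
  have s₂ : l1 (fun i => y (e₂ i)) ≤ l1 y := by
    simp only [l1]
    calc ∑ i, |y (e₂ i)| = ∑ j ∈ univ.map e₂, |y j| := (sum_map univ e₂ fun j => |y j|).symm
      _ ≤ ∑ j, |y j| := sum_le_sum_of_subset_of_nonneg (subset_univ _) fun _ _ _ => abs_nonneg _
  have a₁ := (b₁ fun i => y (e₁ i)).trans (add_le_add le_rfl (mul_le_mul_of_nonneg_left s₁ hk₁))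
  have a₂ := (b₂ fun i => y (e₂ i)).trans (add_le_add le_rfl (mul_le_mul_of_nonneg_left s₂ hk₂))
  exact (abs_add_le _ _).trans (by linarith)

lemma integral_pair (f₁ : (ι₁ → ℝ) → ℝ) (f₂ : (ι₂ → ℝ) → ℝ) (hf₁ : Continuous f₁)
    (hf₂ : Continuous f₂) :
    ∫ z, f₁ (fun i => z (e₁ i)) * f₂ (fun j => z (e₂ j)) ∂gauss ι =
      (∫ w, f₁ w ∂gauss ι₁) * ∫ w, f₂ w ∂gauss ι₂ := by
  rw [← integral_prod_mul, ← (gauss_comp_pair e₁ e₂ hd).map_eq,
    integral_map (gauss_comp_pair e₁ e₂ hd).measurable.aemeasurable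
      (f := fun p : (ι₁ → ℝ) × (ι₂ → ℝ) => f₁ p.1 * f₂ p.2)
      ((hf₁.comp continuous_fst).mul (hf₂.comp continuous_snd)).aestronglyMeasurable]

lemma uUp_join : ∀ d (y : ι → ℝ), Nn.uUp (join e₁ e₂ U₁ U₂) d y =
    join e₁ e₂ ((sub Nn e₁).uUp U₁ d) ((sub Nn e₂).uUp U₂ d) y
  | 0, _ => rfl
  | d + 1, y => by
    set x := Nn.x (Nn.K - d) with hx
    set s := Nn.amp (Nn.K - d) with hs
    have g₁ := linGrowth_u_gen h₁ (sub Nn e₁) d
    have g₂ := linGrowth_u_gen h₂ (sub Nn e₂) d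
    show x⁻¹ * Real.log (∫ z, Real.exp (x * Nn.uUp (join e₁ e₂ U₁ U₂) d (move s y z)) ∂gauss ι) =
      x⁻¹ * Real.log (∫ z, Real.exp (x * (sub Nn e₁).uUp U₁ d
          (move (fun i => s (e₁ i)) (fun i => y (e₁ i)) z)) ∂gauss ι₁) +
      x⁻¹ * Real.log (∫ z, Real.exp (x * (sub Nn e₂).uUp U₂ d
          (move (fun i => s (e₂ i)) (fun i => y (e₂ i)) z)) ∂gauss ι₂)
    rw [← mul_add, ← Real.log_mul (stepDen_pos g₁ _ _ _).ne' (stepDen_pos g₂ _ _ _).ne',
      ← integral_pair e₁ e₂ hd h₁ h₂ _ _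
        ((g₁.exp_tame x).comp_move _ _).1 ((g₂.exp_tame x).comp_move _ _).1]
    refine congrArg _ (congrArg _ (integral_congr_ae (.of_forall fun z => ?_)))
    show Real.exp (x * Nn.uUp (join e₁ e₂ U₁ U₂) d (move s y z)) = _
    rw [uUp_join d, join, mul_add, Real.exp_add]
    rfl

lemma avg_join {f : (ι₁ → ℝ) → ℝ} {g : (ι₂ → ℝ) → ℝ} (hf : Tame f) (hg : Tame g) (l : ℕ)
    (y : ι → ℝ) :
    Nn.avg (join e₁ e₂ U₁ U₂) l (fun v => f (fun i => v (e₁ i)) * g fun j => v (e₂ j)) y =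
      (sub Nn e₁).avg U₁ l f (fun i => y (e₁ i)) * (sub Nn e₂).avg U₂ l g fun j => y (e₂ j) := by
  set x := Nn.x (l + 1)
  set s := Nn.amp (l + 1)
  set d := Nn.K - (l + 1)
  have g₁ := linGrowth_u_gen h₁ (sub Nn e₁) d
  have g₂ := linGrowth_u_gen h₂ (sub Nn e₂) d
  show (∫ z, Real.exp (x * Nn.uUp (join e₁ e₂ U₁ U₂) d (move s y z)) *
        (f (fun i => move s y z (e₁ i)) * g fun j => move s y z (e₂ j)) ∂gauss ι) /
      (∫ z, Real.exp (x * Nn.uUp (join e₁ e₂ U₁ U₂) d (move s y z)) ∂gauss ι) =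
    ((∫ z, Real.exp (x * (sub Nn e₁).uUp U₁ d (move (fun i => s (e₁ i)) (fun i => y (e₁ i)) z)) *
        f (move (fun i => s (e₁ i)) (fun i => y (e₁ i)) z) ∂gauss ι₁) /
      ∫ z, Real.exp (x * (sub Nn e₁).uUp U₁ d (move (fun i => s (e₁ i)) (fun i => y (e₁ i)) z))
        ∂gauss ι₁) *
    ((∫ z, Real.exp (x * (sub Nn e₂).uUp U₂ d (move (fun i => s (e₂ i)) (fun i => y (e₂ i)) z)) *
        g (move (fun i => s (e₂ i)) (fun i => y (e₂ i)) z) ∂gauss ι₂) /
      ∫ z, Real.exp (x * (sub Nn e₂).uUp U₂ d (move (fun i => s (e₂ i)) (fun i => y (e₂ i)) z))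
        ∂gauss ι₂)
  rw [div_mul_div_comm,
    ← integral_pair e₁ e₂ hd h₁ h₂ _ _ (((g₁.exp_tame x).mul hf).comp_move _ _).1
      (((g₂.exp_tame x).mul hg).comp_move _ _).1,
    ← integral_pair e₁ e₂ hd h₁ h₂ _ _ ((g₁.exp_tame x).comp_move _ _).1
      ((g₂.exp_tame x).comp_move _ _).1]
  congr 1
  · refine integral_congr_ae (.of_forall fun z => ?_)
    show Real.exp (x * Nn.uUp (join e₁ e₂ U₁ U₂) d (move s y z)) * _ = _
    rw [uUp_join e₁ e₂ hd h₁ h₂ d, join, mul_add, Real.exp_add, mul_mul_mul_comm]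
    rfl
  · refine integral_congr_ae (.of_forall fun z => ?_)
    show Real.exp (x * Nn.uUp (join e₁ e₂ U₁ U₂) d (move s y z)) = _
    rw [uUp_join e₁ e₂ hd h₁ h₂ d, join, mul_add, Real.exp_add]
    rfl

lemma mean_join : ∀ (l : ℕ) {f : (ι₁ → ℝ) → ℝ} {g : (ι₂ → ℝ) → ℝ}, Tame f → Tame g →
    Nn.mean (join e₁ e₂ U₁ U₂) l (fun v => f (fun i => v (e₁ i)) * g fun j => v (e₂ j)) =
      (sub Nn e₁).mean U₁ l f * (sub Nn e₂).mean U₂ l g
  | 0, f, g, hf, hg =>
    integral_pair e₁ e₂ hd h₁ h₂ (fun w => f fun i => Nn.amp 0 (e₁ i) * w i)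
      (fun w => g fun j => Nn.amp 0 (e₂ j) * w j)
      (hf.1.comp (by fun_prop)) (hg.1.comp (by fun_prop))
  | l + 1, f, g, hf, hg => by
    simp only [Nest.mean]
    rw [← mean_join l (tame_avg_gen h₁ l hf) (tame_avg_gen h₂ l hg)]
    exact congrArg _ (funext (avg_join e₁ e₂ hd h₁ h₂ hf hg l))

/-- The average of a function of the first block. -/
lemma mean_join_left {f : (ι₁ → ℝ) → ℝ} (hf : Tame f) (l : ℕ) :
    Nn.mean (join e₁ e₂ U₁ U₂) l (fun v => f fun i => v (e₁ i)) = (sub Nn e₁).mean U₁ l f := by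
  have h := mean_join (Nn := Nn) e₁ e₂ hd h₁ h₂ l hf (tame_const (1 : ℝ))
  simp only [mul_one] at h
  rw [h, mean_const_gen h₂, mul_one]

/-- The average given a level of a function of the first block. -/
lemma downUp_join_left {f : (ι₁ → ℝ) → ℝ} (hf : Tame f) : ∀ d (y : ι → ℝ),
    Nn.downUp (join e₁ e₂ U₁ U₂) (fun v => f fun i => v (e₁ i)) d y =
      (sub Nn e₁).downUp U₁ f d fun i => y (e₁ i)
  | 0, _ => rfl
  | d + 1, y => by
    simp only [Nest.downUp]
    rw [show Nn.downUp (join e₁ e₂ U₁ U₂) (fun v => f fun i => v (e₁ i)) d =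
      fun v => (sub Nn e₁).downUp U₁ f d (fun i => v (e₁ i)) * (fun _ : ι₂ → ℝ => (1 : ℝ))
        (fun j => v (e₂ j)) from funext fun v => by rw [mul_one]; exact downUp_join_left hf d v,
      avg_join e₁ e₂ hd h₁ h₂ (tame_down_gen h₁ hf d) (tame_const 1)]
    show (sub Nn e₁).avg U₁ _ _ _ * stepAvg _ _ _ (fun _ => (1 : ℝ)) _ = _
    erw [stepAvg_const (linGrowth_u_gen h₂ _ _), mul_one]
    rfl

end split

/-! ### Coordinates without amplitude after the level 0 -/

section frozen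

variable {ι₁ ι₂ : Type} [Fintype ι₁] [Fintype ι₂] {Nn : Nest (ι₁ ⊕ ι₂)}
variable (h0 : ∀ l, 1 ≤ l → l ≤ Nn.K → ∀ j, Nn.amp l (Sum.inr j) = 0)

include h0

/-- The recursion acts on the first block only. -/
lemma uUp_frozen {U : (ι₁ ⊕ ι₂ → ℝ) → ℝ} (hU : P157.Parisi.LinGrowth U) :
    ∀ d, d ≤ Nn.K → ∀ (w : ι₁ → ℝ) (c : ι₂ → ℝ),
      Nn.uUp U d (Sum.elim w c) =
        (sub Nn Sum.inl).uUp (fun w => U (Sum.elim w c)) d w
  | 0, _, _, _ => rfl
  | d + 1, hd, w, c => by
    have hmv : ∀ z, move (Nn.amp (Nn.K - d)) (Sum.elim w c) z =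
        Sum.elim (move (fun i => Nn.amp (Nn.K - d) (Sum.inl i)) w fun i => z (Sum.inl i)) c := by
      intro z
      funext i
      cases i with
      | inl i => rfl
      | inr j => simp [move, h0 (Nn.K - d) (by omega) (Nat.sub_le _ _) j]
    have hUc : P157.Parisi.LinGrowth fun w => U (Sum.elim w c) := by
      obtain ⟨hc, C, k, hC, hk, hb⟩ := hU
      refine ⟨hc.comp (continuous_pi fun i => ?_), C + k * l1 c, k,
        add_nonneg hC (mul_nonneg hk (l1_nonneg _)), hk, fun w => (hb _).trans_eq ?_⟩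
      · cases i with
        | inl i => exact continuous_apply i
        | inr j => exact continuous_const
      · simp only [l1, Fintype.sum_sum_type, Sum.elim_inl, Sum.elim_inr]
        ring
    simp only [Nest.uUp, stepLog, sub, hmv, uUp_frozen hU d (by omega)]
    refine congrArg _ (congrArg _ ?_)
    exact integral_comp_embedding (⟨Sum.inl, Sum.inl_injective⟩ : ι₁ ↪ ι₁ ⊕ ι₂)
      ((linGrowth_u_gen hUc (sub Nn Sum.inl) d).exp_tame _ |>.comp_move _ _).1

lemma integrable_frozen {U : (ι₁ ⊕ ι₂ → ℝ) → ℝ} (hU : P157.Parisi.LinGrowth U) :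
    Integrable (fun c => (sub Nn Sum.inl).root
      (fun w => U (Sum.elim w fun j => Nn.amp 0 (Sum.inr j) * c j))) (gauss ι₂) ∧
    Nn.root U = ∫ c, (sub Nn Sum.inl).root
      (fun w => U (Sum.elim w fun j => Nn.amp 0 (Sum.inr j) * c j)) ∂gauss ι₂ := by
  set s₁ : ι₁ → ℝ := fun i => Nn.amp 0 (Sum.inl i)
  set s₂ : ι₂ → ℝ := fun j => Nn.amp 0 (Sum.inr j)
  set Φ : (ι₁ → ℝ) × (ι₂ → ℝ) → ℝ := fun p =>
    (sub Nn Sum.inl).u (fun w => U (Sum.elim w fun j => s₂ j * p.2 j)) 0 (fun i => s₁ i * p.1 i)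
    with hΦ
  have heq : ∀ z : ι₁ ⊕ ι₂ → ℝ, Nn.u U 0 (fun i => Nn.amp 0 i * z i) =
      Φ (fun i => z (Sum.inl i), fun j => z (Sum.inr j)) := fun z => by
    have e : (fun i => Nn.amp 0 i * z i) =
        Sum.elim (fun i => s₁ i * z (Sum.inl i)) (fun j => s₂ j * z (Sum.inr j)) := by
      funext i
      cases i <;> rfl
    simp only [hΦ, Nest.u, e, uUp_frozen h0 hU (Nn.K - 0) (Nat.sub_le _ _)]
    rfl
  let e₁ : ι₁ ↪ ι₁ ⊕ ι₂ := ⟨Sum.inl, Sum.inl_injective⟩
  let e₂ : ι₂ ↪ ι₁ ⊕ ι₂ := ⟨Sum.inr, Sum.inr_injective⟩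
  have hp := gauss_comp_pair e₁ e₂ fun i j => Sum.inl_ne_inr
  have hcont : Continuous Φ := by
    have e : Φ = fun p => Nn.u U 0 (fun i => Nn.amp 0 i * Sum.elim p.1 p.2 i) := funext fun p => by
      rw [heq]
      simp only [Sum.elim_inl, Sum.elim_inr]
    rw [e]
    refine (linGrowth_u_gen hU Nn _).1.comp (continuous_pi fun i => continuous_const.mul ?_)
    cases i with
    | inl i => exact (continuous_apply i).comp continuous_fst
    | inr j => exact (continuous_apply j).comp continuous_snd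
  have hint : Integrable Φ ((gauss ι₁).prod (gauss ι₂)) := by
    refine (hp.integrable_comp hcont.aestronglyMeasurable).1 ?_
    refine (integrable_root (Nn := Nn) (linGrowth_u_gen hU Nn (Nn.K - 0)).tame).congr
      (.of_forall fun z => ?_)
    exact heq z
  refine ⟨hint.swap.integral_prod_left, ?_⟩
  calc Nn.root U = ∫ z, Φ (fun i => z (Sum.inl i), fun j => z (Sum.inr j)) ∂gauss (ι₁ ⊕ ι₂) :=
        integral_congr_ae (.of_forall heq)
    _ = ∫ p, Φ p ∂(gauss ι₁).prod (gauss ι₂) := by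
        rw [← hp.map_eq, integral_map hp.measurable.aemeasurable hcont.aestronglyMeasurable]
        rfl
    _ = ∫ c, ∫ w, Φ (w, c) ∂gauss ι₁ ∂gauss ι₂ := integral_prod_symm Φ hint
    _ = _ := rfl

end frozen

/-! ### The leaf function zero -/

lemma uUp_zero : ∀ d, Nn.uUp (fun _ => (0 : ℝ)) d = fun _ => 0
  | 0 => rfl
  | d + 1 => by
    funext y
    simp [Nest.uUp, stepLog, uUp_zero d]

lemma mean_zero_succ (l : ℕ) (f : (ι → ℝ) → ℝ) :
    Nn.avg (fun _ => 0) l f = fun y => ∫ z, f (move (Nn.amp (l + 1)) y z) ∂gauss ι := by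
  funext y
  simp [Nest.avg, tilt, Nest.u, uUp_zero]

/-- The covariance of the free coordinates. -/
lemma mean_zero_quad [DecidableEq ι] (a b : ι) : ∀ l,
    Nn.mean (fun _ => 0) l (fun y => y a * y b) =
      if a = b then ∑ i ∈ range (l + 1), Nn.amp i a ^ 2 else 0 := by
  have hzz : ∀ i k : ι, ∫ z, z i * z k ∂gauss ι = if i = k then (1 : ℝ) else 0 := by
    intro i k
    rcases eq_or_ne i k with rfl | hik
    · rw [if_pos rfl]
      exact Box.integral_coord_sq i
    · rw [if_neg hik]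
      let u : Unit ↪ ι := ⟨fun _ => i, fun _ _ _ => rfl⟩
      let v : Unit ↪ ι := ⟨fun _ => k, fun _ _ _ => rfl⟩
      have h := (gauss_comp_pair u v fun _ _ => hik)
      have e : ∫ z, z i * z k ∂gauss ι = ∫ p, p.1 () * p.2 () ∂(gauss Unit).prod (gauss Unit) := by
        rw [← h.map_eq, integral_map h.measurable.aemeasurable
          (f := fun p : (Unit → ℝ) × (Unit → ℝ) => p.1 () * p.2 ())
          (Continuous.aestronglyMeasurable (by fun_prop))]
        rfl
      rw [e, integral_prod_mul (fun p : Unit → ℝ => p ()) (fun p : Unit → ℝ => p ()),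
        ModelFacts.integral_gauss_unit (fun x => x), integral_id_gaussianReal, zero_mul]
  have hz1 : ∀ i : ι, ∫ z, z i ∂gauss ι = (0 : ℝ) := by
    intro i
    let u : Unit ↪ ι := ⟨fun _ => i, fun _ _ _ => rfl⟩
    rw [show ∫ z, z i ∂gauss ι = ∫ w, w () ∂gauss Unit from
      integral_comp_embedding u (f := fun w => w ()) (continuous_apply _),
      ModelFacts.integral_gauss_unit (fun x => x), integral_id_gaussianReal]
  intro l
  induction l with
  | zero =>
    simp only [Nest.mean, zero_add, range_one, sum_singleton]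
    rw [show (fun z : ι → ℝ => Nn.amp 0 a * z a * (Nn.amp 0 b * z b)) =
      fun z => Nn.amp 0 a * Nn.amp 0 b * (z a * z b) from funext fun z => by ring,
      integral_const_mul, hzz]
    split_ifs with h
    · subst h; ring
    · ring
  | succ l ih =>
    show Nn.mean _ l (Nn.avg _ l _) = _
    rw [mean_zero_succ]
    set s := Nn.amp (l + 1)
    have e : (fun y : ι → ℝ => ∫ z, move s y z a * move s y z b ∂gauss ι) =
        fun y => y a * y b + if a = b then s a ^ 2 else 0 := by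
      funext y
      have ia : Integrable (fun z : ι → ℝ => z a) (gauss ι) := (tame_coord a).integrable
      have ib : Integrable (fun z : ι → ℝ => z b) (gauss ι) := (tame_coord b).integrable
      have iab : Integrable (fun z : ι → ℝ => z a * z b) (gauss ι) :=
        ((tame_coord a).mul (tame_coord b)).integrable
      rw [show (fun z : ι → ℝ => move s y z a * move s y z b) = fun z =>
          (y a * y b + s a * y b * z a) + (y a * s b * z b + s a * s b * (z a * z b)) from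
        funext fun z => by simp only [move]; ring,
        integral_add ((integrable_const _).fun_add (ia.const_mul _))
          ((ib.const_mul _).fun_add (iab.const_mul _)),
        integral_add (integrable_const _) (ia.const_mul _),
        integral_add (ib.const_mul _) (iab.const_mul _)]
      simp only [integral_const_mul, integral_const, probReal_univ, smul_eq_mul, one_mul, hz1, hzz,
        mul_zero, add_zero, zero_add]
      congr 1
      split_ifs with h
      · subst h; ring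
      · ring
    rw [e, mean_add_gen (U := fun _ => (0 : ℝ))
      ⟨continuous_const, 0, 0, le_rfl, le_rfl, fun _ => by simp⟩ l
      ((tame_coord a).mul (tame_coord b)) (tame_const _), ih,
      mean_const_gen ⟨continuous_const, 0, 0, le_rfl, le_rfl, fun _ => by simp⟩]
    split_ifs with h
    · rw [sum_range_succ _ (l + 1)]
    · ring

/-! ### Continuity in parameters of the leaf function and of the amplitudes -/

section param

variable {T : Type} [TopologicalSpace T] [FirstCountableTopology T]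
variable {U : T → (ι → ℝ) → ℝ} {A : T → ℕ → ι → ℝ}
variable (hU : PLin U) (hA : ∀ l i, Continuous fun t => A t l i)

include hU hA

lemma plin_uUp : ∀ d, PLin fun t => (Nn.setAmp (A t)).uUp (U t) d
  | 0 => hU
  | d + 1 => by
    show PLin fun t => stepLog (Nn.x (Nn.K - d)) (A t (Nn.K - d)) ((Nn.setAmp (A t)).uUp (U t) d)
    exact plin_stepLog (plin_uUp d) (hA _) _

lemma continuous_mean_gen : ∀ (l : ℕ) {f : T → (ι → ℝ) → ℝ}, PTame f →
    Continuous fun t => (Nn.setAmp (A t)).mean (U t) l (f t)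
  | 0, _, hf => hf.continuous_integral (hA 0)
  | l + 1, _, hf =>
    continuous_mean_gen l (ptame_tilt (plin_uUp hU hA (Nn.K - (l + 1))) (hA (l + 1)) _ hf)

lemma continuous_root_gen : Continuous fun t => (Nn.setAmp (A t)).root (U t) :=
  continuous_mean_gen hU hA 0 (plin_uUp hU hA (Nn.K - 0)).ptame

end param

lemma ptame_sqrt {T : Type} [TopologicalSpace T] {F : T → (ι → ℝ) → ℝ} (hF : PTame F) :
    PTame fun t y => Real.sqrt (F t y) := by
  refine ⟨hF.1.sqrt, fun t₀ => ?_⟩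
  obtain ⟨C, k, hC, hk, h⟩ := hF.2 t₀
  refine ⟨C + 1, k, by linarith, hk, h.mono fun t ht y => ?_⟩
  have h1 : Real.sqrt (F t y) ≤ |F t y| + 1 := by
    rw [Real.sqrt_le_iff]
    exact ⟨by positivity, by nlinarith [le_abs_self (F t y), abs_nonneg (F t y)]⟩
  rw [abs_of_nonneg (Real.sqrt_nonneg _), add_mul, one_mul]
  linarith [ht y, Real.one_le_exp (mul_nonneg hk (l1_nonneg y))]

/-! ### Two leaves whose Hamiltonians differ by a bounded term -/

section close

variable {Ω κ κ' : Type} [Fintype κ] [Fintype κ'] [MeasurableSpace Ω]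
variable {L : Leaf Ω κ ι} {L' : Leaf Ω κ' ι} {μ : Measure Ω} [IsProbabilityMeasure μ] {B B' c : ℝ}
variable (hL : L.Good B) (hL' : L'.Good B')
variable {Ψ : Ω → (ι → ℝ) → ℝ} (hΨ : Obs Ψ) (hΨc : ∀ ω y, |Ψ ω y| ≤ c)
variable (hham : ∀ ω y, L'.ham ω y = L.ham ω y + Ψ ω y)

include hL hL' hΨ hΨc hham

lemma zint_bounds (y : ι → ℝ) :
    Real.exp (-c) * ∫ ω, Real.exp (L.ham ω y) ∂μ ≤ ∫ ω, Real.exp (L'.ham ω y) ∂μ ∧
      ∫ ω, Real.exp (L'.ham ω y) ∂μ ≤ Real.exp c * ∫ ω, Real.exp (L.ham ω y) ∂μ := by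
  have i : Integrable (fun ω => Real.exp (L.ham ω y)) μ := by
    simpa using integrable_zint (μ := μ) hL (obs_const 1) y
  have i' : Integrable (fun ω => Real.exp (L'.ham ω y)) μ := by
    simpa using integrable_zint (μ := μ) hL' (obs_const 1) y
  rw [← integral_const_mul, ← integral_const_mul]
  constructor
  · refine integral_mono (i.const_mul _) i' fun ω => ?_
    rw [← Real.exp_add, hham]
    exact Real.exp_le_exp.2 (by linarith [(abs_le.1 (hΨc ω y)).1])
  · refine integral_mono i' (i.const_mul _) fun ω => ?_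
    rw [← Real.exp_add, hham]
    exact Real.exp_le_exp.2 (by linarith [(abs_le.1 (hΨc ω y)).2])

lemma logZ_close (y : ι → ℝ) : |L'.logZ μ y - L.logZ μ y| ≤ c := by
  obtain ⟨h1, h2⟩ := zint_bounds (μ := μ) hL hL' hΨ hΨc hham y
  have p : 0 < ∫ ω, Real.exp (L.ham ω y) ∂μ := integral_exp_pos (by
    simpa using integrable_zint (μ := μ) hL (obs_const 1) y)
  have p' : 0 < ∫ ω, Real.exp (L'.ham ω y) ∂μ := lt_of_lt_of_le (by positivity) h1
  have e1 := Real.log_le_log (by positivity) h1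
  have e2 := Real.log_le_log p' h2
  rw [Real.log_mul (Real.exp_ne_zero _) p.ne', Real.log_exp] at e1 e2
  rw [Leaf.logZ, Leaf.logZ, abs_le]
  constructor <;> linarith

lemma gibbs_le_close {f : Ω → (ι → ℝ) → ℝ} (hf : Obs f) (h0 : ∀ ω y, 0 ≤ f ω y) (y : ι → ℝ) :
    L'.gibbs μ f y ≤ Real.exp (2 * c) * L.gibbs μ f y := by
  obtain ⟨h1, -⟩ := zint_bounds (μ := μ) hL hL' hΨ hΨc hham y
  have p : 0 < ∫ ω, Real.exp (L.ham ω y) ∂μ := integral_exp_pos (by
    simpa using integrable_zint (μ := μ) hL (obs_const 1) y)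
  have hn : ∫ ω, Real.exp (L'.ham ω y) * f ω y ∂μ ≤
      Real.exp c * ∫ ω, Real.exp (L.ham ω y) * f ω y ∂μ := by
    rw [← integral_const_mul]
    refine integral_mono (integrable_zint hL' hf y) ((integrable_zint hL hf y).const_mul _)
      fun ω => ?_
    rw [← mul_assoc, ← Real.exp_add, hham]
    exact mul_le_mul_of_nonneg_right
      (Real.exp_le_exp.2 (by linarith [(abs_le.1 (hΨc ω y)).2])) (h0 ω y)
  have n0 : 0 ≤ ∫ ω, Real.exp (L.ham ω y) * f ω y ∂μ :=
    integral_nonneg fun ω => mul_nonneg (Real.exp_pos _).le (h0 ω y)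
  calc L'.gibbs μ f y ≤ (Real.exp c * ∫ ω, Real.exp (L.ham ω y) * f ω y ∂μ) /
        (Real.exp (-c) * ∫ ω, Real.exp (L.ham ω y) ∂μ) :=
      div_le_div₀ (by positivity) hn (by positivity) h1
    _ = _ := by
      rw [Leaf.gibbs, mul_div_mul_comm, ← Real.exp_sub]
      ring_nf

/-- The node averages of nonnegative observables. -/
lemma node_le_close (hN : Nn.Good) {l : ℕ} (hl : l ≤ Nn.K) {f : Ω → (ι → ℝ) → ℝ} (hf : Obs f)
    (h0 : ∀ ω y, 0 ≤ f ω y) (y : ι → ℝ) :
    Nn.node L' μ l f y ≤ Real.exp (5 * c) * Nn.node L μ l f y := by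
  have t := tame_gibbs (μ := μ) hL hf
  have t' := tame_gibbs (μ := μ) hL' hf
  have g0 : ∀ v, 0 ≤ L'.gibbs μ f v := fun v =>
    div_nonneg (integral_nonneg fun ω => mul_nonneg (Real.exp_pos _).le (h0 ω v))
      (integral_nonneg fun ω => (Real.exp_pos _).le)
  have h1 := down_le_of_close hN (linGrowth_logZ (μ := μ) hL) (linGrowth_logZ (μ := μ) hL')
    (logZ_close hL hL' hΨ hΨc hham) t' g0 hl y
  have h2 := down_mono_gen (Nn := Nn) (linGrowth_logZ (μ := μ) hL) t' (t.const_mul (Real.exp (2 * c)))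
    (gibbs_le_close hL hL' hΨ hΨc hham hf h0) (Nn.K - l) y
  rw [down_const_mul_gen] at h2
  refine (h1.trans (mul_le_mul_of_nonneg_left h2 (Real.exp_pos _).le)).trans_eq ?_
  rw [← mul_assoc, ← Real.exp_add, show 3 * c + 2 * c = 5 * c by ring]
  rfl

/-- The difference of the log-partition functions lies between the two Gibbs averages. -/
lemma gibbs_le_logZ_sub (y : ι → ℝ) :
    L.gibbs μ Ψ y ≤ L'.logZ μ y - L.logZ μ y ∧ L'.logZ μ y - L.logZ μ y ≤ L'.gibbs μ Ψ y := by
  have key : ∀ {α β : Type} [Fintype α] [Fintype β] {A : Leaf Ω α ι} {A' : Leaf Ω β ι} {a a' : ℝ},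
      A.Good a → A'.Good a' → ∀ {f : Ω → (ι → ℝ) → ℝ}, Obs f →
        (∀ ω, A'.ham ω y = A.ham ω y + f ω y) → A.gibbs μ f y ≤ A'.logZ μ y - A.logZ μ y := by
    intro α β _ _ A A' a a' hA hA' f hf h
    have i : Integrable (fun ω => Real.exp (A.ham ω y)) μ := by
      simpa using integrable_zint (μ := μ) hA (obs_const 1) y
    have i' : Integrable (fun ω => Real.exp (A'.ham ω y)) μ := by
      simpa using integrable_zint (μ := μ) hA' (obs_const 1) y
    have i2 := integrable_zint (μ := μ) hA hf y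
    set Z := ∫ ω, Real.exp (A.ham ω y) ∂μ
    have hZ : 0 < Z := integral_exp_pos i
    set g := A.gibbs μ f y with hg
    have hgZ : ∫ ω, Real.exp (A.ham ω y) * f ω y ∂μ = g * Z := by
      rw [hg, Leaf.gibbs, div_mul_cancel₀ _ hZ.ne']
    have h1 : Real.exp g * Z ≤ ∫ ω, Real.exp (A'.ham ω y) ∂μ := by
      calc Real.exp g * Z = ∫ ω, Real.exp g *
            (Real.exp (A.ham ω y) * f ω y + (1 - g) * Real.exp (A.ham ω y)) ∂μ := by
              rw [integral_const_mul, integral_add i2 (i.const_mul _), integral_const_mul, hgZ]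
              ring
        _ ≤ _ := by
              refine integral_mono ((i2.add (i.const_mul _)).const_mul _) i' fun ω => ?_
              have := mul_le_mul_of_nonneg_left (Real.add_one_le_exp (f ω y - g))
                (mul_pos (Real.exp_pos g) (Real.exp_pos (A.ham ω y))).le
              rw [← Real.exp_add, ← Real.exp_add, show g + A.ham ω y + (f ω y - g) =
                A.ham ω y + f ω y by ring, ← h, Real.exp_add] at this
              linarith
    have e := Real.log_le_log (by positivity) h1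
    rw [Real.log_mul (Real.exp_ne_zero _) hZ.ne', Real.log_exp] at e
    rw [Leaf.logZ, Leaf.logZ]
    linarith
  refine ⟨key hL hL' hΨ fun ω => hham ω y, ?_⟩
  have h := key hL' hL ((obs_const (-1 : ℝ)).mul hΨ) fun ω => by rw [hham]; ring
  rw [gibbs_const_mul] at h
  linarith

end close

/-! ### The products with the gradient -/

/-- Sums of squares of products that are close to products of sums of squares. -/
lemma sum_sq_sub_bound {α : Type} (S : Finset α) (a m : α → ℝ) {e E R Cv s : ℝ} (hs : 0 < s)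
    (hR0 : 0 ≤ R) (hCv : 0 ≤ Cv) (heE : e ^ 2 ≤ E)
    (h : ∀ u : α → ℝ, (∑ p ∈ S, u p * (a p - m p * e)) ^ 2 ≤ R * ((∑ p ∈ S, u p ^ 2) * Cv) * E) :
    |(∑ p ∈ S, a p ^ 2) - (∑ p ∈ S, m p ^ 2) * e ^ 2| ≤
      E * ((1 + s) * R * Cv + (∑ p ∈ S, m p ^ 2) / s) := by
  have hE0 : 0 ≤ E := (sq_nonneg e).trans heE
  have hM : 0 ≤ ∑ p ∈ S, m p ^ 2 := sum_nonneg fun p _ => sq_nonneg _
  have hT0 : 0 ≤ ∑ p ∈ S, (a p - m p * e) ^ 2 := sum_nonneg fun p _ => sq_nonneg _
  have key : ∑ p ∈ S, (a p - m p * e) ^ 2 ≤ E * (R * Cv) := by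
    have h1 := h fun p => a p - m p * e
    simp only [← sq] at h1
    rcases eq_or_lt_of_le hT0 with h0 | h0
    · rw [← h0]; positivity
    · refine le_of_mul_le_mul_left ?_ h0
      calc (∑ p ∈ S, (a p - m p * e) ^ 2) * ∑ p ∈ S, (a p - m p * e) ^ 2
          = (∑ p ∈ S, (a p - m p * e) ^ 2) ^ 2 := (sq _).symm
        _ ≤ _ := h1
        _ = _ := by ring
  have hterm : ∀ p, |a p ^ 2 - m p ^ 2 * e ^ 2| ≤
      (1 + s) * (a p - m p * e) ^ 2 + m p ^ 2 * e ^ 2 / s := by
    intro p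
    set D := a p - m p * e
    set c := m p * e
    have e0 : a p ^ 2 - m p ^ 2 * e ^ 2 = D ^ 2 + 2 * (D * c) := by simp only [D, c]; ring
    have e1 : (1 + s) * D ^ 2 + m p ^ 2 * e ^ 2 / s =
        D ^ 2 + (s ^ 2 * D ^ 2 + c ^ 2) / s := by
      simp only [c]; field_simp; ring
    rw [e0, e1]
    refine (abs_add_le _ _).trans (add_le_add (le_of_eq (abs_of_nonneg (sq_nonneg _))) ?_)
    rw [le_div_iff₀ hs, abs_mul, abs_two, abs_mul]
    nlinarith [sq_nonneg (s * |D| - |c|), sq_abs D, sq_abs c]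
  rw [sum_mul, ← sum_sub_distrib]
  refine (abs_sum_le_sum_abs _ _).trans ((sum_le_sum fun p _ => hterm p).trans ?_)
  rw [sum_add_distrib, ← mul_sum, ← sum_div, ← sum_mul, mul_add]
  refine add_le_add ((mul_le_mul_of_nonneg_left key (by linarith)).trans_eq (by ring)) ?_
  rw [mul_comm _ (e ^ 2), mul_div_assoc]
  exact mul_le_mul_of_nonneg_right heE (div_nonneg hM hs.le)

section prod

variable {Ω κ κ' : Type} [Fintype κ] [Fintype κ'] [MeasurableSpace Ω]
variable {L : Leaf Ω κ ι} {L' : Leaf Ω κ' ι} {μ : Measure Ω} [IsProbabilityMeasure μ] {B B' : ℝ}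

lemma Obs.sq {f : Ω → (ι → ℝ) → ℝ} (hf : Obs f) : Obs fun ω v => f ω v ^ 2 := by
  simpa [pow_two] using hf.mul hf

/-- The Cauchy-Schwarz inequality of a node average. -/
lemma node_cs (hN : Nn.Good) (hL : L.Good B) {l : ℕ} (hl : l ≤ Nn.K)
    {F b : Ω → (ι → ℝ) → ℝ} (hF : Obs F) (hb : Obs b) (y : ι → ℝ) :
    Nn.node L μ l (fun ω v => F ω v * b ω v) y ^ 2 ≤
      Nn.node L μ l (fun ω v => F ω v ^ 2) y * Nn.node L μ l (fun ω v => b ω v ^ 2) y := by
  set T := Nn.node L μ l (fun ω v => F ω v * b ω v) y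
  set E := Nn.node L μ l (fun ω v => b ω v ^ 2) y
  set G := Nn.node L μ l (fun ω v => F ω v ^ 2) y
  have h := discrim_le_zero (a := E) (b := 2 * T) (c := G) fun t => by
    have o1 : Obs fun ω v => t * t * b ω v ^ 2 := (obs_const (t * t)).mul (Obs.sq hb)
    have o2 : Obs fun ω v => 2 * t * (F ω v * b ω v) := (obs_const (2 * t)).mul (hF.mul hb)
    have h0 := node_mono (μ := μ) hN hL hl (obs_const (0 : ℝ)) (o1.add (o2.add (Obs.sq hF)))
      (fun ω v => by nlinarith [sq_nonneg (t * b ω v + F ω v)]) y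
    rw [node_const hN hL hl, node_add hN hL hl o1 (o2.add (Obs.sq hF)),
      node_add hN hL hl o2 (Obs.sq hF), node_const_mul hN hL, node_const_mul hN hL] at h0
    linarith
  simp only [discrim] at h
  linarith

/-- The node average of the square of a centred combination is the covariance form. -/
lemma node_centred_sq (hN : Nn.Good) (hL : L.Good B) {l : ℕ} (hl : l ≤ Nn.K) {α : Type}
    (S : Finset α) {z : α → Ω → (ι → ℝ) → ℝ} (hz : ∀ p, Obs (z p)) (u : α → ℝ) (y : ι → ℝ) :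
    Nn.node L μ l (fun ω v => (∑ p ∈ S, u p * (z p ω v + -Nn.node L μ l (z p) y)) ^ 2) y ≤
      (∑ p ∈ S, u p ^ 2) * Real.sqrt (∑ p ∈ S, ∑ q ∈ S,
        (Nn.node L μ l (fun ω v => z p ω v * z q ω v) y -
          Nn.node L μ l (z p) y * Nn.node L μ l (z q) y) ^ 2) := by
  set m : α → ℝ := fun p => Nn.node L μ l (z p) y with hm
  set C : α → α → ℝ := fun p q =>
    Nn.node L μ l (fun ω v => z p ω v * z q ω v) y - m p * m q with hC
  have oc : ∀ p, Obs fun ω v => z p ω v + -m p := fun p => (hz p).add (obs_const (-m p))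
  have opq : ∀ p q, Obs fun ω v => u p * u q * ((z p ω v + -m p) * (z q ω v + -m q)) := fun p q =>
    (obs_const (u p * u q)).mul ((oc p).mul (oc q))
  have ec : ∀ p q, Nn.node L μ l (fun ω v => (z p ω v + -m p) * (z q ω v + -m q)) y = C p q := by
    intro p q
    have a1 : Obs fun ω v => z p ω v * z q ω v := (hz p).mul (hz q)
    have a2 : Obs fun ω v => -m q * z p ω v := (obs_const (-m q)).mul (hz p)
    have a3 : Obs fun ω v => -m p * z q ω v := (obs_const (-m p)).mul (hz q)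
    have a4 : Obs fun (_ : Ω) (_ : ι → ℝ) => m p * m q := obs_const _
    rw [show (fun ω v => (z p ω v + -m p) * (z q ω v + -m q)) = fun ω v =>
        (z p ω v * z q ω v + -m q * z p ω v) + (-m p * z q ω v + m p * m q) from by
      funext ω v; ring, node_add hN hL hl (a1.add a2) (a3.add a4), node_add hN hL hl a1 a2,
      node_add hN hL hl a3 a4, node_const_mul hN hL, node_const_mul hN hL, node_const hN hL hl]
    simp only [hC, hm]
    ring
  rw [show (fun ω v => (∑ p ∈ S, u p * (z p ω v + -m p)) ^ 2) = fun ω v =>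
      ∑ p ∈ S, ∑ q ∈ S, u p * u q * ((z p ω v + -m p) * (z q ω v + -m q)) from by
    funext ω v
    rw [sq, sum_mul_sum]
    exact sum_congr rfl fun p _ => sum_congr rfl fun q _ => by ring,
    node_sum hN hL hl S fun p => obs_sum S fun q => opq p q]
  have e : ∀ p, Nn.node L μ l
      (fun ω v => ∑ q ∈ S, u p * u q * ((z p ω v + -m p) * (z q ω v + -m q))) y =
      ∑ q ∈ S, u p * u q * C p q := fun p => by
    rw [node_sum hN hL hl S fun q => opq p q]
    exact sum_congr rfl fun q _ => by rw [node_const_mul hN hL, ec]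
  simp only [e]
  rw [← sum_product' S S (fun p q => u p * u q * C p q)]
  refine (Real.sum_mul_le_sqrt_mul_sqrt (S ×ˢ S) (fun x => u x.1 * u x.2)
    (fun x => C x.1 x.2)).trans_eq ?_
  rw [sum_product, sum_product]
  congr 1
  rw [show ∑ p ∈ S, ∑ q ∈ S, (u p * u q) ^ 2 = (∑ p ∈ S, u p ^ 2) * ∑ p ∈ S, u p ^ 2 by
    rw [sum_mul_sum]
    exact sum_congr rfl fun p _ => sum_congr rfl fun q _ => by ring]
  exact Real.sqrt_mul_self (sum_nonneg fun p _ => sq_nonneg _)

/-- The combination of the centred products. -/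
lemma node_centred_mul (hN : Nn.Good) (hL' : L'.Good B') {l : ℕ} (hl : l ≤ Nn.K) {α : Type}
    (S : Finset α) {z : α → Ω → (ι → ℝ) → ℝ} (hz : ∀ p, Obs (z p))
    {b : Ω → (ι → ℝ) → ℝ} (hb : Obs b) (u m : α → ℝ) (y : ι → ℝ) :
    Nn.node L' μ l (fun ω v => (∑ p ∈ S, u p * (z p ω v + -m p)) * b ω v) y =
      ∑ p ∈ S, u p *
        (Nn.node L' μ l (fun ω v => z p ω v * b ω v) y - m p * Nn.node L' μ l b y) := by
  have op : ∀ p, Obs fun ω v => z p ω v * b ω v + -m p * b ω v := fun p =>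
    ((hz p).mul hb).add ((obs_const (-m p)).mul hb)
  rw [show (fun ω v => (∑ p ∈ S, u p * (z p ω v + -m p)) * b ω v) = fun ω v =>
      ∑ p ∈ S, u p * (z p ω v * b ω v + -m p * b ω v) from by
    funext ω v
    rw [sum_mul]
    exact sum_congr rfl fun p _ => by ring,
    node_sum hN hL' hl S fun p => (obs_const (u p)).mul (op p)]
  refine sum_congr rfl fun p _ => ?_
  rw [node_const_mul hN hL', node_add hN hL' hl ((hz p).mul hb) ((obs_const (-m p)).mul hb),
    node_const_mul hN hL']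
  ring

/-- The bound of the combination by the covariance of the reference leaf. -/
lemma centred_mul_sq_le (hN : Nn.Good) (hL : L.Good B) (hL' : L'.Good B') {l : ℕ} (hl : l ≤ Nn.K)
    {R : ℝ} (hR : ∀ f : Ω → (ι → ℝ) → ℝ, Obs f → (∀ ω v, 0 ≤ f ω v) → ∀ v,
      Nn.node L' μ l f v ≤ R * Nn.node L μ l f v) (hR0 : 0 ≤ R)
    {α : Type} (S : Finset α) {z : α → Ω → (ι → ℝ) → ℝ} (hz : ∀ p, Obs (z p))
    {b : Ω → (ι → ℝ) → ℝ} (hb : Obs b) (u : α → ℝ) (y : ι → ℝ) :
    (∑ p ∈ S, u p * (Nn.node L' μ l (fun ω v => z p ω v * b ω v) y -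
        Nn.node L μ l (z p) y * Nn.node L' μ l b y)) ^ 2 ≤
      R * ((∑ p ∈ S, u p ^ 2) * Real.sqrt (∑ p ∈ S, ∑ q ∈ S,
        (Nn.node L μ l (fun ω v => z p ω v * z q ω v) y -
          Nn.node L μ l (z p) y * Nn.node L μ l (z q) y) ^ 2)) *
        Nn.node L' μ l (fun ω v => b ω v ^ 2) y := by
  have oF : Obs fun ω v => ∑ p ∈ S, u p * (z p ω v + -Nn.node L μ l (z p) y) :=
    obs_sum S fun p => (obs_const (u p)).mul ((hz p).add (obs_const _))
  rw [← node_centred_mul (μ := μ) hN hL' hl S hz hb u (fun p => Nn.node L μ l (z p) y) y]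
  refine (node_cs (μ := μ) hN hL' hl oF hb y).trans (mul_le_mul_of_nonneg_right ?_ ?_)
  · exact (hR _ (Obs.sq oF) (fun _ _ => sq_nonneg _) y).trans
      (mul_le_mul_of_nonneg_left (node_centred_sq (μ := μ) hN hL hl S hz u y) hR0)
  · exact (sq_nonneg _).trans (node_sq_ge hN hL' hl hb y)

/-- Node averages of products are replaced by products of the averages of the reference leaf. -/
lemma prod_close (hN : Nn.Good) (hL : L.Good B) (hL' : L'.Good B') {l : ℕ} (hl : l ≤ Nn.K)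
    {R : ℝ} (hR : ∀ f : Ω → (ι → ℝ) → ℝ, Obs f → (∀ ω v, 0 ≤ f ω v) → ∀ v,
      Nn.node L' μ l f v ≤ R * Nn.node L μ l f v) (hR0 : 0 ≤ R)
    {α : Type} (S : Finset α) {z : α → Ω → (ι → ℝ) → ℝ} (hz : ∀ p, Obs (z p))
    {b : Ω → (ι → ℝ) → ℝ} (hb : Obs b) {s : ℝ} (hs : 0 < s) (y : ι → ℝ) :
    |(∑ p ∈ S, Nn.node L' μ l (fun ω v => z p ω v * b ω v) y ^ 2) -
        (∑ p ∈ S, Nn.node L μ l (z p) y ^ 2) * Nn.node L' μ l b y ^ 2| ≤
      Nn.node L' μ l (fun ω v => b ω v ^ 2) y *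
        ((1 + s) * R * Real.sqrt (∑ p ∈ S, ∑ q ∈ S,
          (Nn.node L μ l (fun ω v => z p ω v * z q ω v) y -
            Nn.node L μ l (z p) y * Nn.node L μ l (z q) y) ^ 2) +
          (∑ p ∈ S, Nn.node L μ l (z p) y ^ 2) / s) := by
  exact sum_sq_sub_bound S (fun p => Nn.node L' μ l (fun ω v => z p ω v * b ω v) y)
    (fun p => Nn.node L μ l (z p) y) hs hR0 (Real.sqrt_nonneg _) (node_sq_ge hN hL' hl hb y)
    fun u => centred_mul_sq_le (μ := μ) hN hL hL' hl hR hR0 S hz hb u y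

end prod

end Vale.Agent.P166.Parisi.Ins
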