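import Vale.Agent.P166.Parisi.LoopPath
import Vale.Agent.P157.Parisi.Pin

/-!
Bounds for the terms of the loop equations at a fixed disorder: the products of overlaps up to the
deviations of the squared gradients and the node covariances, and the terms with the fields.
-/

set_option linter.unusedSectionVars false

namespace Vale.Agent.P166.Parisi.Loop

open MeasureTheory ProbabilityTheory Finset
open Vale.Agent.P157 Vale.Agent.P157.Parisi

lemma half_sq (x : ℝ) {t : ℝ} (ht : 0 < t) : |x| ≤ x ^ 2 / (2 * t) + t / 2 := by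
  rw [div_add_div _ _ (by positivity) two_ne_zero, le_div_iff₀ (by positivity)]
  nlinarith [sq_nonneg (|x| - t), sq_abs x]

lemma abs_dot_sq_le {α : Type*} (s : Finset α) (f g : α → ℝ) {a b : ℝ} (hf : ∑ i ∈ s, f i ^ 2 ≤ a)
    (hg : ∑ i ∈ s, g i ^ 2 ≤ b) : (∑ i ∈ s, f i * g i) ^ 2 ≤ a * b :=
  (sum_mul_sq_le_sq_mul_sq s f g).trans (mul_le_mul hf hg (sum_nonneg fun _ _ => sq_nonneg _)
    ((sum_nonneg fun _ _ => sq_nonneg _).trans hf))

lemma abs_prod_sub {a b c d : ℝ} (ha : |a| ≤ 1) (hd : |d| ≤ 1) :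
    |a * b - c * d| ≤ |a - c| + |b - d| := by
  rw [show a * b - c * d = a * (b - d) + (a - c) * d by ring]
  refine (abs_add_le _ _).trans ?_
  rw [abs_mul, abs_mul]
  have h1 := mul_le_mul_of_nonneg_right ha (abs_nonneg (b - d))
  have h2 := mul_le_mul_of_nonneg_left hd (abs_nonneg (a - c))
  linarith

variable {ι : Type} [Fintype ι] {Ω κ : Type} [Fintype κ] [MeasurableSpace Ω]
variable {N : Nest ι} {L : Leaf Ω κ ι} {μ : Measure Ω} [IsProbabilityMeasure μ] {B : ℝ}

/-- The squared gradient of a set of coordinates, per unit. -/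
noncomputable def asq (N : Nest ι) (L : Leaf Ω κ ι) (μ : Measure Ω) (n : ℝ) (S : Finset ι) (l : ℕ)
    (y : ι → ℝ) : ℝ :=
  N.sqSum L μ S l y / n

/-- The second moment of two coordinates at a node. -/
noncomputable def two (N : Nest ι) (L : Leaf Ω κ ι) (μ : Measure Ω) (l : ℕ) (i k : ι)
    (y : ι → ℝ) : ℝ :=
  N.node L μ l (fun ω v => L.vec i ω v * L.vec k ω v) y

/-- The squared gradient of the Hamiltonian of a set of coordinates, per unit. -/
noncomputable def lsq (L : Leaf Ω κ ι) (n : ℝ) (S : Finset ι) (ω : Ω) (v : ι → ℝ) : ℝ :=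
  (∑ i ∈ S, L.vec i ω v ^ 2) / n

/-- The deviation of the squared gradient and the node covariance. -/
noncomputable def eta (N : Nest ι) (L : Leaf Ω κ ι) (μ : Measure Ω) (n : ℝ) (S : Finset ι)
    (a : ℝ) (l : ℕ) : ℝ :=
  N.mean (L.logZ μ) l (fun y => |asq N L μ n S l y - a|) +
    N.mean (L.logZ μ) l (fun y => N.covNorm L μ S l y / n)

/-- The deviation of the squared norm given level `m`. -/
noncomputable def ddev (N : Nest ι) (L : Leaf Ω κ ι) (μ : Measure Ω) (n : ℝ) (S : Finset ι)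
    (d : ℝ) (m : ℕ) : ℝ :=
  N.mean (L.logZ μ) m (fun y => |N.node L μ m (lsq L n S) y - d|)

/-- The variance of the squared norm given level `m`. -/
noncomputable def dvar (N : Nest ι) (L : Leaf Ω κ ι) (μ : Measure Ω) (n : ℝ) (S : Finset ι)
    (m : ℕ) : ℝ :=
  N.mean (L.logZ μ) m (fun y =>
    N.node L μ m (fun ω v => lsq L n S ω v ^ 2) y - N.node L μ m (lsq L n S) y ^ 2)

/-- The length of the field on a set of coordinates, per root unit. -/
noncomputable def fieldLen (n : ℝ) (R : Finset ι) (y : ι → ℝ) : ℝ :=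
  Real.sqrt (∑ i ∈ R, y i ^ 2) / Real.sqrt n

variable (hN : N.Good) (hL : L.Good B) {n : ℝ} (hn : 0 < n)
variable {S T : Finset ι} (hS : ∀ ω y, ∑ i ∈ S, L.vec i ω y ^ 2 ≤ n)
variable (hT : ∀ ω y, ∑ i ∈ T, L.vec i ω y ^ 2 ≤ n)

include hN hL in
lemma reg : Reg N (L.logZ μ) := ⟨hN, linGrowth_logZ hL⟩

include hN hL in
lemma two_comm {l : ℕ} (i k : ι) (y : ι → ℝ) : two N L μ l i k y = two N L μ l k i y := by
  simp only [two, mul_comm (L.vec i _ _)]

include hN hL in
lemma two_tame {l : ℕ} (hl : l ≤ N.K) (i k : ι) : Tame (two N L μ l i k) :=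
  node_tame hN hL hl ((obs_vec hL i).mul (obs_vec hL k))

include hN hL in
lemma cov_eq {l : ℕ} (i k : ι) (y : ι → ℝ) :
    two N L μ l i k y = N.grad L μ l i y * N.grad L μ l k y + N.cov L μ l i k y := by
  simp only [Nest.cov, two]; ring

include hN hL in
lemma node_lin {l : ℕ} (hl : l ≤ N.K) (S : Finset ι) (u : ι → ℝ) (y : ι → ℝ) :
    N.node L μ l (fun ω v => ∑ i ∈ S, u i * L.vec i ω v) y = ∑ i ∈ S, u i * N.grad L μ l i y := by
  rw [node_sum hN hL hl S fun i => (obs_const (u i)).mul (obs_vec hL i)]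
  exact sum_congr rfl fun i _ => node_const_mul hN hL l _ _ y

include hN hL in
lemma node_bilin {l : ℕ} (hl : l ≤ N.K) (S T : Finset ι) (M : ι → ι → ℝ) (y : ι → ℝ) :
    N.node L μ l (fun ω v => ∑ i ∈ S, ∑ k ∈ T, M i k * (L.vec i ω v * L.vec k ω v)) y =
      ∑ i ∈ S, ∑ k ∈ T, M i k * two N L μ l i k y := by
  have o : ∀ i k, Obs fun ω v => M i k * (L.vec i ω v * L.vec k ω v) := fun i k =>
    (obs_const (M i k)).mul ((obs_vec hL i).mul (obs_vec hL k))
  rw [node_sum hN hL hl S fun i => obs_sum T (o i)]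
  refine sum_congr rfl fun i _ => ?_
  rw [node_sum hN hL hl T (o i)]
  exact sum_congr rfl fun k _ => node_const_mul hN hL l _ _ y

include hN hL in
lemma qform_cov_le {l : ℕ} (S : Finset ι) (u : ι → ℝ) (y : ι → ℝ) :
    ∑ i ∈ S, ∑ k ∈ S, u i * u k * N.cov L μ l i k y ≤
      N.covNorm L μ S l y * ∑ i ∈ S, u i ^ 2 := by
  have h := qform_le_frob (fun i k : S => N.cov L μ l i k y) (fun i : S => u i)
  rw [Pin.qform_coe hN hL S (fun i k => N.cov L μ l i k y) u, ← Pin.covNorm_eq hN hL S l y,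
    sum_coe_sort S fun i => u i ^ 2] at h
  exact (le_abs_self _).trans h

include hN hL in
lemma cov_cs {l : ℕ} (hl : l ≤ N.K) (S T : Finset ι) (u v : ι → ℝ) (y : ι → ℝ) :
    2 * |∑ i ∈ S, ∑ k ∈ T, u i * v k * N.cov L μ l i k y| ≤
      N.covNorm L μ S l y * (∑ i ∈ S, u i ^ 2) + N.covNorm L μ T l y * ∑ k ∈ T, v k ^ 2 := by
  classical
  set f : Ω → (ι → ℝ) → ℝ := fun ω w => ∑ i ∈ S, u i * L.vec i ω w
  set g : Ω → (ι → ℝ) → ℝ := fun ω w => ∑ k ∈ T, v k * L.vec k ω w
  have of : Obs f := obs_sum S fun i => (obs_const (u i)).mul (obs_vec hL i)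
  have og : Obs g := obs_sum T fun i => (obs_const (v i)).mul (obs_vec hL i)
  have e1 := cov_form (μ := μ) hN hL hl S u y
  have e2 := cov_form (μ := μ) hN hL hl T v y
  have e3 : ∑ i ∈ S, ∑ k ∈ T, u i * v k * N.cov L μ l i k y =
      N.node L μ l (fun ω w => f ω w * g ω w) y - N.node L μ l f y * N.node L μ l g y := by
    have e : (fun ω w => f ω w * g ω w) = fun ω w =>
        ∑ i ∈ S, ∑ k ∈ T, (u i * v k) * (L.vec i ω w * L.vec k ω w) := by
      funext ω w
      simp only [f, g, sum_mul_sum]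
      exact sum_congr rfl fun i _ => sum_congr rfl fun k _ => by ring
    rw [e, node_bilin hN hL hl S T fun i k => u i * v k, node_lin hN hL hl, node_lin hN hL hl,
      sum_mul_sum, ← sum_sub_distrib]
    refine sum_congr rfl fun i _ => ?_
    rw [← sum_sub_distrib]
    exact sum_congr rfl fun k _ => by rw [cov_eq hN hL i k y]; ring
  have q1 := qform_cov_le (μ := μ) hN hL S u y (l := l)
  have q2 := qform_cov_le (μ := μ) hN hL T v y (l := l)
  rw [e1] at q1; rw [e2] at q2; rw [e3]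
  have hsg : ∀ c : ℝ, c ^ 2 = 1 → 0 ≤
      (N.node L μ l (fun ω w => f ω w ^ 2) y - N.node L μ l f y ^ 2) +
        (N.node L μ l (fun ω w => g ω w ^ 2) y - N.node L μ l g y ^ 2) +
        2 * c * (N.node L μ l (fun ω w => f ω w * g ω w) y - N.node L μ l f y * N.node L μ l g y) := by
    intro c hc
    have h := node_sq_ge (μ := μ) hN hL hl (of.add ((obs_const c).mul og)) y
    have e : (fun ω w => (f ω w + c * g ω w) ^ 2) = fun ω w =>
        f ω w * f ω w + g ω w * g ω w + 2 * c * (f ω w * g ω w) := by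
      funext ω w
      linear_combination (g ω w ^ 2) * hc
    rw [e, node_add hN hL hl ((of.mul of).add (og.mul og)) ((obs_const _).mul (of.mul og)),
      node_add hN hL hl (of.mul of) (og.mul og), node_add hN hL hl of ((obs_const c).mul og),
      node_const_mul hN hL, node_const_mul hN hL] at h
    simp only [sq] at h ⊢
    have : c * c = 1 := by rw [← sq]; exact hc
    linear_combination h - (N.node L μ l g y * N.node L μ l g y) * this
  have hp := hsg 1 (by norm_num)
  have hm := hsg (-1) (by norm_num)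
  rcases abs_cases (N.node L μ l (fun ω w => f ω w * g ω w) y -
    N.node L μ l f y * N.node L μ l g y) with h | h <;> rw [h.1] <;>
    linarith [q1, q2]

include hN hL hn hS in
lemma sqSum_le_n {l : ℕ} (hl : l ≤ N.K) (y : ι → ℝ) :
    ∑ i ∈ S, N.grad L μ l i y ^ 2 ≤ n ∧ 0 ≤ asq N L μ n S l y ∧ |asq N L μ n S l y| ≤ 1 := by
  have h := Pin.sqSum_le hN hL (μ := μ) hl hS y
  have h1 : N.sqSum L μ S l y ≤ n := h.1.trans h.2
  have h0 : 0 ≤ N.sqSum L μ S l y := sum_nonneg fun _ _ => sq_nonneg _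
  refine ⟨h1, div_nonneg h0 hn.le, ?_⟩
  rw [asq, abs_of_nonneg (div_nonneg h0 hn.le), div_le_one hn]
  exact h1

include hN hL hn hS hT in
lemma bilin_cov {l : ℕ} (hl : l ≤ N.K) {u v : ι → ℝ} (hu : ∑ i ∈ S, u i ^ 2 ≤ n)
    (hv : ∑ i ∈ T, v i ^ 2 ≤ n) (y : ι → ℝ) :
    |∑ i ∈ S, ∑ k ∈ T, u i * v k * N.cov L μ l i k y| / n ^ 2 ≤
      (N.covNorm L μ S l y / n + N.covNorm L μ T l y / n) / 2 := by
  have h := cov_cs (μ := μ) hN hL hl S T u v y
  have h1 := mul_le_mul_of_nonneg_left hu (Real.sqrt_nonneg (∑ i ∈ S, ∑ k ∈ S, N.cov L μ l i k y ^ 2))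
  have h2 := mul_le_mul_of_nonneg_left hv (Real.sqrt_nonneg (∑ i ∈ T, ∑ k ∈ T, N.cov L μ l i k y ^ 2))
  rw [div_le_iff₀ (by positivity)]
  have e : (N.covNorm L μ S l y / n + N.covNorm L μ T l y / n) / 2 * n ^ 2 =
      (N.covNorm L μ S l y * n + N.covNorm L μ T l y * n) / 2 := by field_simp
  rw [e]
  simp only [Nest.covNorm] at h ⊢
  linarith

include hN hL hn hS hT in
lemma bilin_two {l : ℕ} (hl : l ≤ N.K) {u v : ι → ℝ} (hu : ∑ i ∈ S, u i ^ 2 ≤ n)
    (hv : ∑ i ∈ T, v i ^ 2 ≤ n) (y : ι → ℝ) :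
    |(∑ i ∈ S, ∑ k ∈ T, u i * v k * two N L μ l i k y) / n ^ 2 -
        (∑ i ∈ S, u i * N.grad L μ l i y) / n * ((∑ k ∈ T, v k * N.grad L μ l k y) / n)| ≤
      (N.covNorm L μ S l y / n + N.covNorm L μ T l y / n) / 2 ∧
    |(∑ i ∈ S, ∑ k ∈ T, u i * v k * two N L μ l i k y) / n ^ 2| ≤ 1 := by
  constructor
  · refine le_trans (le_of_eq ?_) (bilin_cov hN hL hn hS hT hl hu hv y)
    rw [div_mul_div_comm, sum_mul_sum, ← sq, ← sub_div, abs_div, abs_of_pos (by positivity : 0 < n ^ 2),
      ← sum_sub_distrib]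
    congr 2
    refine sum_congr rfl fun i _ => ?_
    rw [← sum_sub_distrib]
    exact sum_congr rfl fun k _ => by rw [cov_eq hN hL i k y]; ring
  · rw [abs_div, abs_of_pos (by positivity : 0 < n ^ 2), div_le_one (by positivity)]
    rw [← node_bilin hN hL hl S T (fun i k => u i * v k) y]
    refine node_bound hN hL hl (obs_sum S fun i => obs_sum T fun k =>
      (obs_const (u i * v k)).mul ((obs_vec hL i).mul (obs_vec hL k))) (fun ω w => ?_) y
    have e : ∑ i ∈ S, ∑ k ∈ T, u i * v k * (L.vec i ω w * L.vec k ω w) =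
        (∑ i ∈ S, u i * L.vec i ω w) * ∑ k ∈ T, v k * L.vec k ω w := by
      rw [sum_mul_sum]
      exact sum_congr rfl fun i _ => sum_congr rfl fun k _ => by ring
    rw [e, abs_mul, sq]
    refine mul_le_mul ?_ ?_ (abs_nonneg _) hn.le
    · exact abs_le_of_sq_le_sq ((abs_dot_sq_le S _ _ hu (hS ω w)).trans_eq (sq n).symm) hn.le
    · exact abs_le_of_sq_le_sq ((abs_dot_sq_le T _ _ hv (hT ω w)).trans_eq (sq n).symm) hn.le

/-! ### Means of the deviations -/

include hN hL in
lemma tame_asq {l : ℕ} (hl : l ≤ N.K) (S : Finset ι) : Tame (asq N L μ n S l) := by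
  show Tame fun y => N.sqSum L μ S l y / n
  simpa only [div_eq_inv_mul] using (Pin.tame_sqSum (μ := μ) hN hL hl S).const_mul n⁻¹

include hN hL in
lemma tame_cn {l : ℕ} (hl : l ≤ N.K) (S : Finset ι) :
    Tame fun y => N.covNorm L μ S l y / n := by
  simpa only [div_eq_inv_mul] using (Pin.tame_covNorm hN hL hl S).const_mul n⁻¹

include hN hL in
lemma tame_dev {l : ℕ} (hl : l ≤ N.K) (S : Finset ι) (a : ℝ) :
    Tame fun y => |asq N L μ n S l y - a| + N.covNorm L μ S l y / n :=
  ((tame_asq hN hL hl S).sub (tame_const a)).abs.add (tame_cn hN hL hl S)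

include hN hL in
lemma eta_eq {l : ℕ} (hl : l ≤ N.K) (S : Finset ι) (a : ℝ) :
    eta N L μ n S a l =
      N.mean (L.logZ μ) l fun y => |asq N L μ n S l y - a| + N.covNorm L μ S l y / n :=
  (mean_add'' (reg (μ := μ) hN hL) hl ((tame_asq hN hL hl S).sub (tame_const a)).abs
    (tame_cn hN hL hl S)).symm

include hN hL hn in
lemma dev_nonneg (S : Finset ι) (a : ℝ) (l : ℕ) (y : ι → ℝ) :
    0 ≤ |asq N L μ n S l y - a| ∧ 0 ≤ N.covNorm L μ S l y / n :=
  ⟨abs_nonneg _, div_nonneg (Real.sqrt_nonneg _) hn.le⟩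

include hN hL hn in
lemma eta_nonneg {l : ℕ} (hl : l ≤ N.K) (S : Finset ι) (a : ℝ) :
    0 ≤ eta N L μ n S a l := by
  have hR := reg (μ := μ) hN hL
  rw [eta_eq hN hL hl]
  have := mean_mono'' hR l (tame_const 0) (tame_dev (μ := μ) (n := n) hN hL hl S a)
    fun y => add_nonneg (dev_nonneg hN hL hn S a l y).1 (dev_nonneg hN hL hn S a l y).2
  rwa [mean_const'' hR] at this

include hN hL hn in
/-- A bound by the deviations at one level passes to the mean. -/
lemma abs_mean_sub_le {l : ℕ} (hl : l ≤ N.K) {f : (ι → ℝ) → ℝ} (hf : Tame f) (c aS aT : ℝ)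
    (h : ∀ y, |f y - c| ≤ (|asq N L μ n S l y - aS| + N.covNorm L μ S l y / n) +
      (|asq N L μ n T l y - aT| + N.covNorm L μ T l y / n)) :
    |N.mean (L.logZ μ) l f - c| ≤ eta N L μ n S aS l + eta N L μ n T aT l := by
  have hR := reg (μ := μ) hN hL
  rw [eta_eq hN hL hl, eta_eq hN hL hl, ← mean_add'' hR hl (tame_dev hN hL hl S aS)
    (tame_dev hN hL hl T aT)]
  calc |N.mean (L.logZ μ) l f - c| = |N.mean (L.logZ μ) l fun y => f y - c| := by
        rw [mean_sub'' hR hl hf (tame_const c), mean_const'' hR]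
    _ ≤ _ := abs_mean_le hR hl (hf.sub (tame_const c))
        ((tame_dev hN hL hl S aS).add (tame_dev hN hL hl T aT)) h

include hN hL hn hS in
lemma abs_mean_asq_le {l : ℕ} (hl : l ≤ N.K) (a : ℝ) :
    |N.mean (L.logZ μ) l (asq N L μ n S l) - a| ≤ eta N L μ n S a l := by
  have hR := reg (μ := μ) hN hL
  rw [eta_eq hN hL hl]
  calc |N.mean (L.logZ μ) l (asq N L μ n S l) - a|
      = |N.mean (L.logZ μ) l fun y => asq N L μ n S l y - a| := by
        rw [mean_sub'' hR hl (tame_asq hN hL hl S) (tame_const a), mean_const'' hR]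
    _ ≤ _ := abs_mean_le hR hl ((tame_asq hN hL hl S).sub (tame_const a))
        (tame_dev hN hL hl S a) fun y => le_add_of_nonneg_right (dev_nonneg hN hL hn S a l y).2

/-! ### The terms at one level -/

include hN hL hn hS hT in
/-- `G_i G_k P_ik` at level `l`. -/
theorem same_level {l : ℕ} (hl : l ≤ N.K) (aS aT : ℝ) (ha : |aT| ≤ 1) :
    |N.mean (L.logZ μ) l (fun y => (∑ i ∈ S, ∑ k ∈ T,
        N.grad L μ l i y * N.grad L μ l k y * two N L μ l i k y) / n ^ 2) - aS * aT| ≤
      eta N L μ n S aS l + eta N L μ n T aT l := by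
  refine abs_mean_sub_le hN hL hn hl ?_ _ _ _ fun y => ?_
  · simpa only [div_eq_inv_mul] using (tame_sum S fun i _ => tame_sum T fun k _ =>
      ((grad_tame hN hL hl i).mul (grad_tame hN hL hl k)).mul
        (two_tame hN hL hl i k)).const_mul (n ^ 2)⁻¹
  · obtain ⟨hu, -, hA⟩ := sqSum_le_n (μ := μ) hN hL hn hS hl y
    obtain ⟨hv, -, -⟩ := sqSum_le_n (μ := μ) hN hL hn hT hl y
    have h := (bilin_two (μ := μ) hN hL hn hS hT hl hu hv y).1
    simp only [← sq] at h
    change |_ - asq N L μ n S l y * asq N L μ n T l y| ≤ _ at h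
    have h2 := abs_prod_sub (b := asq N L μ n T l y) (c := aS) hA ha
    have := (dev_nonneg (μ := μ) hN hL hn S aS l y).2
    have := (dev_nonneg (μ := μ) hN hL hn T aT l y).2
    exact (abs_sub_le _ _ _).trans (by linarith)

include hN hL hn hS hT in
/-- `P_ik ^ 2` at level `j`. -/
theorem two_sq {j : ℕ} (hj : j ≤ N.K) (aS aT : ℝ) (ha : |aT| ≤ 1) :
    |N.mean (L.logZ μ) j (fun y => (∑ i ∈ S, ∑ k ∈ T, two N L μ j i k y ^ 2) / n ^ 2) - aS * aT| ≤
      2 * (eta N L μ n S aS j + eta N L μ n T aT j) := by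
  classical
  have hR := reg (μ := μ) hN hL
  rw [eta_eq hN hL hj, eta_eq hN hL hj, ← mean_add'' hR hj (tame_dev hN hL hj S aS)
    (tame_dev hN hL hj T aT), ← mean_mul'']
  have hf : Tame fun y => (∑ i ∈ S, ∑ k ∈ T, two N L μ j i k y ^ 2) / n ^ 2 := by
    simpa only [div_eq_inv_mul] using (tame_sum S fun i _ => tame_sum T fun k _ =>
      (two_tame (μ := μ) hN hL hj i k).sq).const_mul (n ^ 2)⁻¹
  calc |_ - aS * aT| = |N.mean (L.logZ μ) j fun y =>
        (∑ i ∈ S, ∑ k ∈ T, two N L μ j i k y ^ 2) / n ^ 2 - aS * aT| := by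
        rw [mean_sub'' hR hj hf (tame_const _), mean_const'' hR]
    _ ≤ _ := by
      refine abs_mean_le hR hj (hf.sub (tame_const _))
        (((tame_dev hN hL hj S aS).add (tame_dev hN hL hj T aT)).const_mul 2) fun y => ?_
      obtain ⟨hu, -, hA⟩ := sqSum_le_n (μ := μ) hN hL hn hS hj y
      obtain ⟨hv, -, -⟩ := sqSum_le_n (μ := μ) hN hL hn hT hj y
      set G := fun i => N.grad L μ j i y
      set cS := N.covNorm L μ S j y with hcS
      have hcS0 : 0 ≤ cS := Real.sqrt_nonneg _
      have hcol : ∀ k, ∑ i ∈ S, N.cov L μ j i k y ^ 2 ≤ cS * N.cov L μ j k k y := by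
        intro k
        have hh := fun s : ℝ => cov_cs (μ := μ) hN hL hj S {k} (fun i => s * N.cov L μ j i k y)
          (fun _ => 1) y
        simp only [sum_singleton, mul_one, one_pow] at hh
        set Q := ∑ i ∈ S, N.cov L μ j i k y ^ 2 with hQ
        have hQ0 : 0 ≤ Q := sum_nonneg fun _ _ => sq_nonneg _
        have hsingle : N.covNorm L μ {k} j y = N.cov L μ j k k y := by
          rw [Nest.covNorm]
          simp only [sum_singleton]
          refine Real.sqrt_sq ?_
          simpa using cov_nonneg (μ := μ) hN hL hj {k} (fun _ => 1) y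
        have key : ∀ s : ℝ, 2 * s * Q ≤ s ^ 2 * (cS * Q) + N.cov L μ j k k y := by
          intro s
          have := hh s
          rw [hsingle] at this
          simp only [mul_assoc, ← sq, ← mul_sum, mul_pow, ← hQ, ← hcS] at this
          calc 2 * s * Q ≤ 2 * |s * Q| := by rw [mul_assoc]; gcongr; exact le_abs_self _
            _ ≤ _ := this.trans_eq (by ring)
        rcases eq_or_lt_of_le hcS0 with h0 | h0
        · rw [← h0, zero_mul]
          by_contra hQp
          push Not at hQp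
          have := key ((N.cov L μ j k k y + 1) / (2 * Q))
          rw [← h0] at this
          field_simp at this
          linarith
        · have := key cS⁻¹
          field_simp at this
          nlinarith
      have hdiag : ∑ k ∈ T, N.cov L μ j k k y ≤ n := by
        calc ∑ k ∈ T, N.cov L μ j k k y
            ≤ ∑ k ∈ T, N.node L μ j (fun ω v => L.vec k ω v ^ 2) y := by
              refine sum_le_sum fun k _ => ?_
              simp only [Nest.cov, sq]
              nlinarith [mul_self_nonneg (N.grad L μ j k y)]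
          _ ≤ n := (Pin.sqSum_le hN hL (μ := μ) hj hT y).2
      have hC2 : ∑ i ∈ S, ∑ k ∈ T, N.cov L μ j i k y ^ 2 ≤ cS * n := by
        rw [sum_comm]
        refine (sum_le_sum fun k _ => hcol k).trans ?_
        rw [← mul_sum]
        exact mul_le_mul_of_nonneg_left hdiag hcS0
      have hb := bilin_cov (μ := μ) hN hL hn hS hT hj hu hv y
      have e : (∑ i ∈ S, ∑ k ∈ T, two N L μ j i k y ^ 2) / n ^ 2 =
          asq N L μ n S j y * asq N L μ n T j y +
            2 * ((∑ i ∈ S, ∑ k ∈ T, G i * G k * N.cov L μ j i k y) / n ^ 2) +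
            (∑ i ∈ S, ∑ k ∈ T, N.cov L μ j i k y ^ 2) / n ^ 2 := by
        have eA : asq N L μ n S j y * asq N L μ n T j y =
            (∑ i ∈ S, ∑ k ∈ T, G i ^ 2 * G k ^ 2) / n ^ 2 := by
          simp only [asq, Nest.sqSum, G, div_mul_div_comm, sum_mul_sum, ← sq]
        rw [eA, ← mul_div_assoc, ← add_div, ← add_div]
        congr 1
        rw [mul_sum, ← sum_add_distrib, ← sum_add_distrib]
        refine sum_congr rfl fun i _ => ?_
        rw [mul_sum, ← sum_add_distrib, ← sum_add_distrib]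
        exact sum_congr rfl fun k _ => by rw [cov_eq hN hL i k y]; simp only [G]; ring
      have h4 : (∑ i ∈ S, ∑ k ∈ T, N.cov L μ j i k y ^ 2) / n ^ 2 ≤ cS / n := by
        rw [div_le_div_iff₀ (by positivity) hn]
        nlinarith
      have h5 : (0 : ℝ) ≤ (∑ i ∈ S, ∑ k ∈ T, N.cov L μ j i k y ^ 2) / n ^ 2 :=
        div_nonneg (sum_nonneg fun _ _ => sum_nonneg fun _ _ => sq_nonneg _) (sq_nonneg _)
      rw [← abs_of_pos (by positivity : 0 < n ^ 2), ← abs_div] at hb
      have h2 := abs_prod_sub (b := asq N L μ n T j y) (c := aS) hA ha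
      have := abs_le.1 hb
      have := abs_le.1 h2
      have := (dev_nonneg (μ := μ) hN hL hn S aS j y)
      have := (dev_nonneg (μ := μ) hN hL hn T aT j y)
      rw [e, abs_le]
      simp only [G] at *
      constructor <;> linarith

/-! ### The terms at two levels -/

include hN hL in
lemma ker_grad_prod {l j : ℕ} (hl : l ≤ N.K) (hj : j ≤ N.K) (S : Finset ι) :
    Ker fun y v => (∑ i ∈ S, N.grad L μ l i y * N.grad L μ j i v) / n := by
  simpa only [div_eq_inv_mul] using (ker_sum S fun i _ =>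
    (ker_fst (grad_tame (μ := μ) hN hL hl i)).mul (ker_snd (grad_tame (μ := μ) hN hL hj i))).const_mul n⁻¹

include hN hL hn hS in
lemma grad_prod_le {l j : ℕ} (hl : l ≤ N.K) (hj : j ≤ N.K) (y v : ι → ℝ) :
    |(∑ i ∈ S, N.grad L μ l i y * N.grad L μ j i v) / n| ≤ 1 := by
  obtain ⟨hu, -, -⟩ := sqSum_le_n (μ := μ) hN hL hn hS hl y
  obtain ⟨hv, -, -⟩ := sqSum_le_n (μ := μ) hN hL hn hS hj v
  rw [abs_div, abs_of_pos hn, div_le_one hn]
  exact abs_le_of_sq_le_sq ((abs_dot_sq_le S _ _ hu hv).trans_eq (sq n).symm) hn.le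

include hN hL hn in
/-- The mean product of the gradients at two levels is the squared gradient at the lower one. -/
lemma pair_grad {l j : ℕ} (h : l ≤ j) (hj : j ≤ N.K) (S : Finset ι) :
    pair N (L.logZ μ) l j (fun y v => (∑ i ∈ S, N.grad L μ l i y * N.grad L μ j i v) / n) =
      N.mean (L.logZ μ) l (asq N L μ n S l) := by
  have hR := reg (μ := μ) hN hL
  have hl : l ≤ N.K := h.trans hj
  have hg : ∀ i, chain N (L.logZ μ) l j (N.grad L μ j i) = N.grad L μ l i := fun i =>
    chain_down h hj _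
  simp only [pair, div_eq_inv_mul, chain_mul h]
  refine congrArg _ (funext fun y => ?_)
  rw [chain_sum hR h S fun i _ => (grad_tame (μ := μ) hN hL hj i).const_mul _]
  simp only [chain_mul h, hg, asq, Nest.sqSum, ← sq, div_eq_inv_mul]

include hN hL hn hS hT in
/-- `G_k` at level `l` against `G_i P_ik` at the higher level `j`. -/
theorem higher_level {l j : ℕ} (h : l ≤ j) (hj : j ≤ N.K) (aS aT bT : ℝ) (haS : |aS| ≤ 1) :
    |pair N (L.logZ μ) l j (fun y v => (∑ i ∈ S, ∑ k ∈ T,
        N.grad L μ j i v * N.grad L μ l k y * two N L μ j i k v) / n ^ 2) - aS * bT| ≤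
      eta N L μ n S aS j + eta N L μ n T aT j + eta N L μ n T bT l := by
  have hR := reg (μ := μ) hN hL
  have hl : l ≤ N.K := h.trans hj
  have hk : Ker fun y v => (∑ i ∈ S, ∑ k ∈ T,
      N.grad L μ j i v * N.grad L μ l k y * two N L μ j i k v) / n ^ 2 := by
    simpa only [div_eq_inv_mul] using (ker_sum S fun i _ => ker_sum T fun k _ =>
      ((ker_snd (grad_tame (μ := μ) hN hL hj i)).mul (ker_fst (grad_tame (μ := μ) hN hL hl k))).mul
        (ker_snd (two_tame (μ := μ) hN hL hj i k))).const_mul (n ^ 2)⁻¹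
  have hX := (ker_grad_prod (μ := μ) (n := n) hN hL hl hj T).const_mul aS
  set D := fun v => (|asq N L μ n S j v - aS| + N.covNorm L μ S j v / n) +
    (|asq N L μ n T j v - aT| + N.covNorm L μ T j v / n) with hD
  have tD : Tame D := (tame_dev hN hL hj S aS).add (tame_dev hN hL hj T aT)
  have h1 := abs_pair_sub_le hR h hl 0 (hk.sub hX) (ker_snd tD) fun y v => by
    obtain ⟨hu, -, hA⟩ := sqSum_le_n (μ := μ) hN hL hn hS hj v
    obtain ⟨hv, -, -⟩ := sqSum_le_n (μ := μ) hN hL hn hT hl y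
    have hb := (bilin_two (μ := μ) hN hL hn hS hT hj hu hv v).1
    simp only [← sq] at hb
    change |_ - asq N L μ n S j v * _| ≤ _ at hb
    have hG := grad_prod_le (μ := μ) hN hL hn hT hl hj y v
    have := (dev_nonneg (μ := μ) hN hL hn S aS j v).2
    have := dev_nonneg (μ := μ) hN hL hn T aT j v
    have hm : |asq N L μ n S j v * ((∑ k ∈ T, N.grad L μ l k y * N.grad L μ j k v) / n) -
        aS * ((∑ k ∈ T, N.grad L μ l k y * N.grad L μ j k v) / n)| ≤
        |asq N L μ n S j v - aS| := by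
      rw [← sub_mul, abs_mul]; exact mul_le_of_le_one_right (abs_nonneg _) hG
    rw [sub_zero, hD]
    exact (abs_sub_le _ _ _).trans (by linarith)
  rw [sub_zero] at h1
  rw [show pair N (L.logZ μ) l j (fun y v => (∑ i ∈ S, ∑ k ∈ T,
      N.grad L μ j i v * N.grad L μ l k y * two N L μ j i k v) / n ^ 2 -
        aS * ((∑ k ∈ T, N.grad L μ l k y * N.grad L μ j k v) / n)) =
      pair N (L.logZ μ) l j (fun y v => (∑ i ∈ S, ∑ k ∈ T,
        N.grad L μ j i v * N.grad L μ l k y * two N L μ j i k v) / n ^ 2) -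
        aS * N.mean (L.logZ μ) l (asq N L μ n T l) by
      simp only [sub_eq_add_neg, ← neg_mul]
      rw [pair_add hR h hl hk ((ker_grad_prod hN hL hl hj T).const_mul _), pair_mul h,
        pair_grad hN hL hn h hj], pair_snd h, hD, mean_add'' hR hj (tame_dev hN hL hj S aS)
      (tame_dev hN hL hj T aT), ← eta_eq hN hL hj, ← eta_eq hN hL hj] at h1
  have h2 : |aS * N.mean (L.logZ μ) l (asq N L μ n T l) - aS * bT| ≤ eta N L μ n T bT l := by
    rw [← mul_sub, abs_mul]
    exact (mul_le_of_le_one_left (abs_nonneg _) haS).trans (abs_mean_asq_le hN hL hn hT hl bT)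
  exact (abs_sub_le _ _ _).trans (by linarith)

include hN hL hn hS in
/-- The product of the gradients at two levels is close to the squared gradient at the lower one. -/
lemma pair_grad_dev {l j : ℕ} (h : l ≤ j) (hj : j ≤ N.K) {t : ℝ} (ht : 0 < t) :
    pair N (L.logZ μ) l j (fun y v =>
        |(∑ i ∈ S, N.grad L μ l i y * N.grad L μ j i v) / n - asq N L μ n S l y|) ≤
      N.mean (L.logZ μ) l (fun y => N.covNorm L μ S l y / n) / (2 * t) + t / 2 := by
  have hR := reg (μ := μ) hN hL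
  have hl : l ≤ N.K := h.trans hj
  have hD : Ker fun y v => (∑ i ∈ S, N.grad L μ l i y * N.grad L μ j i v) / n - asq N L μ n S l y :=
    (ker_grad_prod (μ := μ) (n := n) hN hL hl hj S).sub (ker_fst (tame_asq hN hL hl S))
  have h1 := pair_mono hR h hD.abs (((hD.mul hD).const_mul (2 * t)⁻¹).add (ker_fst (tame_const (t / 2))))
    fun y v => (half_sq _ ht).trans_eq (by ring)
  rw [pair_add hR h hl ((hD.mul hD).const_mul _) (ker_fst (tame_const _)), pair_mul h,
    pair_fst hR h, mean_const'' hR] at h1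
  refine h1.trans (add_le_add ?_ le_rfl)
  rw [← div_eq_inv_mul]
  refine div_le_div_of_nonneg_right ?_ (by positivity)
  refine mean_mono'' hR l (pair_tame hR h (hD.mul hD)) (tame_cn hN hL hl S) fun y => ?_
  set φ : Ω → (ι → ℝ) → ℝ := fun ω v => ∑ i ∈ S, N.grad L μ l i y * L.vec i ω v with hφ
  set X : (ι → ℝ) → ℝ := fun v => ∑ i ∈ S, N.grad L μ l i y * N.grad L μ j i v with hX
  set A := ∑ i ∈ S, N.grad L μ l i y * N.grad L μ l i y with hA
  have oφ : Obs φ := obs_sum S fun i => (obs_const _).mul (obs_vec hL i)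
  have hXφ : X = N.node L μ j φ := funext fun v => (node_lin hN hL hj S _ v).symm
  have tX : Tame X := by rw [hXφ]; exact node_tame hN hL hj oφ
  have hcX : chain N (L.logZ μ) l j X y = A := by
    rw [hXφ]
    have : chain N (L.logZ μ) l j (N.node L μ j φ) = N.node L μ l φ := chain_down h hj _
    rw [this, node_lin hN hL hl]
  have hsq : chain N (L.logZ μ) l j (fun v => X v * X v) y ≤
      N.node L μ l (fun ω v => φ ω v * φ ω v) y := by
    have h2 := chain_mono hR h (tX.mul tX) (node_tame (μ := μ) hN hL hj (oφ.mul oφ)) (fun v => by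
      rw [hXφ]
      have := node_sq_ge (μ := μ) hN hL hj oφ v
      simp only [sq] at this
      exact this) y
    refine h2.trans_eq ?_
    have : chain N (L.logZ μ) l j (N.node L μ j fun ω v => φ ω v * φ ω v) =
        N.node L μ l fun ω v => φ ω v * φ ω v := chain_down h hj _
    rw [this]
  have hq := qform_cov_le (μ := μ) hN hL S (fun i => N.grad L μ l i y) y (l := l)
  rw [cov_form hN hL hl, node_lin hN hL hl] at hq
  simp only [sq] at hq
  rw [← hA] at hq
  have hu := (sqSum_le_n (μ := μ) hN hL hn hS hl y).1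
  simp only [sq] at hu
  rw [← hA] at hu
  have hc : N.covNorm L μ S l y * A ≤ N.covNorm L μ S l y * n :=
    mul_le_mul_of_nonneg_left hu (Real.sqrt_nonneg _)
  have e : (fun v => ((∑ i ∈ S, N.grad L μ l i y * N.grad L μ j i v) / n - asq N L μ n S l y) *
      ((∑ i ∈ S, N.grad L μ l i y * N.grad L μ j i v) / n - asq N L μ n S l y)) = fun v =>
      (n ^ 2)⁻¹ * (X v * X v + ((-2 * A) * X v + A * A)) := by
    funext v
    simp only [asq, Nest.sqSum, sq, hX, hA]
    field_simp
    ring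
  beta_reduce
  simp only [hφ] at hsq
  rw [e, chain_mul h, chain_add hR h (tX.mul tX) ((tX.const_mul _).add (tame_const _)),
    chain_add hR h (tX.const_mul _) (tame_const _), chain_mul h, chain_const hR h, hcX,
    inv_mul_le_iff₀ (by positivity)]
  have e2 : n ^ 2 * (N.covNorm L μ S l y / n) = N.covNorm L μ S l y * n := by field_simp
  rw [e2]
  linarith

include hN hL hn hS hT in
/-- `P_ik` at level `j` against `G_i G_k` at the higher level `l`. -/
theorem lower_level {j l : ℕ} (h : j ≤ l) (hl : l ≤ N.K) (aS aT : ℝ) (ha : |aT| ≤ 1) {t : ℝ}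
    (ht : 0 < t) :
    |pair N (L.logZ μ) j l (fun y v => (∑ i ∈ S, ∑ k ∈ T,
        N.grad L μ l i v * N.grad L μ l k v * two N L μ j i k y) / n ^ 2) - aS * aT| ≤
      (1 + 1 / (2 * t)) * (eta N L μ n S aS j + eta N L μ n T aT j) + t := by
  have hR := reg (μ := μ) hN hL
  have hj : j ≤ N.K := h.trans hl
  have hk : Ker fun y v => (∑ i ∈ S, ∑ k ∈ T,
      N.grad L μ l i v * N.grad L μ l k v * two N L μ j i k y) / n ^ 2 := by
    simpa only [div_eq_inv_mul] using (ker_sum S fun i _ => ker_sum T fun k _ =>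
      ((ker_snd (grad_tame (μ := μ) hN hL hl i)).mul (ker_snd (grad_tame (μ := μ) hN hL hl k))).mul
        (ker_fst (two_tame (μ := μ) hN hL hj i k))).const_mul (n ^ 2)⁻¹
  have kS := ((ker_grad_prod (μ := μ) (n := n) hN hL hj hl S).sub
    (ker_fst (tame_asq (μ := μ) (n := n) hN hL hj S))).abs
  have kT := ((ker_grad_prod (μ := μ) (n := n) hN hL hj hl T).sub
    (ker_fst (tame_asq (μ := μ) (n := n) hN hL hj T))).abs
  set D := fun y => (|asq N L μ n S j y - aS| + N.covNorm L μ S j y / n) +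
    (|asq N L μ n T j y - aT| + N.covNorm L μ T j y / n) with hD
  have tD : Tame D := (tame_dev hN hL hj S aS).add (tame_dev hN hL hj T aT)
  have h1 := abs_pair_sub_le hR h hj (aS * aT) hk ((kS.add kT).add (ker_fst tD)) fun y v => by
    obtain ⟨hu, -, -⟩ := sqSum_le_n (μ := μ) hN hL hn hS hl v
    obtain ⟨hv, -, -⟩ := sqSum_le_n (μ := μ) hN hL hn hT hl v
    have hb := (bilin_two (μ := μ) hN hL hn hS hT hj hu hv y).1
    have hG := grad_prod_le (μ := μ) hN hL hn hS hj hl y v
    simp only [mul_comm (N.grad L μ l _ v) (N.grad L μ j _ y)] at hb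
    have h2 := abs_prod_sub (b := (∑ k ∈ T, N.grad L μ j k y * N.grad L μ l k v) / n) (c := aS)
      hG ha
    have t1 := abs_sub_le ((∑ i ∈ S, N.grad L μ j i y * N.grad L μ l i v) / n)
      (asq N L μ n S j y) aS
    have t2 := abs_sub_le ((∑ k ∈ T, N.grad L μ j k y * N.grad L μ l k v) / n)
      (asq N L μ n T j y) aT
    have := (dev_nonneg (μ := μ) hN hL hn S aS j y).2
    have := (dev_nonneg (μ := μ) hN hL hn T aT j y).2
    rw [hD]
    exact (abs_sub_le _ _ _).trans (by linarith)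
  rw [pair_add hR h hj (kS.add kT) (ker_fst tD), pair_add hR h hj kS kT, pair_fst hR h, hD,
    mean_add'' hR hj (tame_dev hN hL hj S aS) (tame_dev hN hL hj T aT), ← eta_eq hN hL hj,
    ← eta_eq hN hL hj] at h1
  have dS := pair_grad_dev (μ := μ) hN hL hn hS h hl ht
  have dT := pair_grad_dev (μ := μ) hN hL hn hT h hl ht
  have cS : N.mean (L.logZ μ) j (fun y => N.covNorm L μ S j y / n) ≤ eta N L μ n S aS j := by
    refine le_add_of_nonneg_left ?_
    have := mean_mono'' hR j (tame_const 0) ((tame_asq (μ := μ) (n := n) hN hL hj S).sub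
      (tame_const aS)).abs fun y => abs_nonneg _
    rwa [mean_const'' hR] at this
  have cT : N.mean (L.logZ μ) j (fun y => N.covNorm L μ T j y / n) ≤ eta N L μ n T aT j := by
    refine le_add_of_nonneg_left ?_
    have := mean_mono'' hR j (tame_const 0) ((tame_asq (μ := μ) (n := n) hN hL hj T).sub
      (tame_const aT)).abs fun y => abs_nonneg _
    rwa [mean_const'' hR] at this
  have eS := div_le_div_of_nonneg_right cS (by positivity : 0 ≤ 2 * t)
  have eT := div_le_div_of_nonneg_right cT (by positivity : 0 ≤ 2 * t)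
  refine h1.trans ?_
  rw [add_mul, one_mul, div_mul_eq_mul_div, one_mul, add_div]
  linarith

include hN hL hn hS hT in
/-- Crude bound at one level. -/
theorem two_sq_le {j : ℕ} (hj : j ≤ N.K) (y : ι → ℝ) :
    ∑ i ∈ S, ∑ k ∈ T, two N L μ j i k y ^ 2 ≤ n ^ 2 := by
  have o : ∀ i k, Obs fun ω v => (L.vec i ω v * L.vec k ω v) ^ 2 := fun i k => by
    simpa only [sq] using ((obs_vec hL i).mul (obs_vec hL k)).mul ((obs_vec hL i).mul (obs_vec hL k))
  calc ∑ i ∈ S, ∑ k ∈ T, two N L μ j i k y ^ 2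
      ≤ ∑ i ∈ S, ∑ k ∈ T, N.node L μ j (fun ω v => (L.vec i ω v * L.vec k ω v) ^ 2) y :=
        sum_le_sum fun i _ => sum_le_sum fun k _ =>
          node_sq_ge hN hL hj ((obs_vec hL i).mul (obs_vec hL k)) y
    _ = N.node L μ j (fun ω v => ∑ i ∈ S, ∑ k ∈ T, (L.vec i ω v * L.vec k ω v) ^ 2) y := by
        rw [node_sum hN hL hj S fun i => obs_sum T (o i)]
        exact sum_congr rfl fun i _ => (node_sum hN hL hj T (o i) y).symm
    _ ≤ n ^ 2 := (node_mono hN hL hj (obs_sum S fun i => obs_sum T (o i)) (obs_const _)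
        (fun ω v => by
          simp only [mul_pow, ← sum_mul_sum]
          rw [sq n]
          exact mul_le_mul (hS ω v) (hT ω v) (sum_nonneg fun _ _ => sq_nonneg _) hn.le) y).trans_eq
        (node_const hN hL hj _ y)

end Vale.Agent.P166.Parisi.Loop
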