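import Vale.Agent.P166.Parisi.LoopRot

/-!
Continuity in the orthogonal matrix of the node averages of the glass.
-/

set_option linter.unusedSectionVars false

namespace Vale.Agent.P166.Parisi.Loop

open MeasureTheory ProbabilityTheory Finset Filter Topology
open Vale.Agent.P157 Vale.Agent.P157.Parisi
open Lin (wVal wAvg wSum gA gB gC)

section recursion

variable {ι : Type} [Fintype ι] {T : Type} [TopologicalSpace T] [FirstCountableTopology T]
variable {Nn : Nest ι} {U : T → (ι → ℝ) → ℝ} {f : T → (ι → ℝ) → ℝ}

lemma plin_lvl (hU : PLin U) {l : ℕ} (hl : l ≤ Nn.K) : PLin fun t => Nn.u (U t) l := by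
  induction hl using Nat.decreasingInduction with
  | self => simpa only [u_top le_rfl] using hU
  | of_succ l hl ih =>
    simp only [u_succ hl]
    exact plin_stepLog ih (s := fun _ => Nn.amp (l + 1)) (fun _ => continuous_const) _

lemma ptame_avg' (hU : PLin U) {l : ℕ} (hl : l < Nn.K) (hf : PTame f) :
    PTame fun t => Nn.avg (U t) l (f t) :=
  ptame_tilt (plin_lvl hU hl) (s := fun _ => Nn.amp (l + 1)) (fun _ => continuous_const) _ hf

lemma ptame_chain (hU : PLin U) {l j : ℕ} (h : l ≤ j) (hj : j ≤ Nn.K) (hf : PTame f) :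
    PTame fun t => chain Nn (U t) l j (f t) := by
  refine down_ind (P := fun l => PTame fun t => chain Nn (U t) l j (f t)) ?_ (fun m hm ih => ?_) h
  · simpa only [chain_self] using hf
  · simp only [chain_succ hm]
    exact ptame_avg' hU (lt_of_lt_of_le hm hj) ih

lemma ptame_down'' (hU : PLin U) {l : ℕ} (hl : l ≤ Nn.K) (hf : PTame f) :
    PTame fun t => Nn.down (U t) l (f t) := by
  simp only [down_eq_chain hl]
  exact ptame_chain hU hl le_rfl hf

lemma continuous_mean' (hU : PLin U) {l : ℕ} (hl : l ≤ Nn.K) (hf : PTame f) :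
    Continuous fun t => Nn.mean (U t) l (f t) := by
  induction l generalizing f with
  | zero => exact hf.continuous_integral (s := fun _ => Nn.amp 0) (fun _ => continuous_const)
  | succ l ih => exact ih (Nat.le_of_succ_le hl) (ptame_avg' hU hl hf)

lemma ptame_sqrt (hf : PTame f) : PTame fun t y => Real.sqrt (f t y) := by
  refine ⟨hf.1.sqrt, fun t₀ => ?_⟩
  obtain ⟨C, k, hC, hk, h⟩ := hf.2 t₀
  refine ⟨C + 1, k, by positivity, hk, h.mono fun t ht y => ?_⟩
  have h1 : Real.sqrt (f t y) ≤ |f t y| + 1 := by
    rw [Real.sqrt_le_iff]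
    exact ⟨by positivity, by nlinarith [le_abs_self (f t y), abs_nonneg (f t y)]⟩
  rw [abs_of_nonneg (Real.sqrt_nonneg _), add_mul, one_mul]
  have := Real.one_le_exp (mul_nonneg hk (l1_nonneg y))
  linarith [ht y]

end recursion

/-! ### The glass -/

section glass

variable {N : ℕ} (K : ℕ) (lam : Fin N → ℝ) (S V : ℕ → Fin N → ℝ)

lemma plin_glass : PLin fun U : ON N => (glassLeaf U).logZ (quadLaw lam U) := by
  have hc : Continuous fun U : ON N => gC lam U := Lin.continuous_gC continuous_const continuous_id
  obtain ⟨h1, h2⟩ := Lin.plin_wVal Lin.gB_pos (c := fun U : ON N => gC lam U)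
    (A := fun U : ON N => gA U) hc (Lin.continuous_gA continuous_id)
  set g := fun U : ON N => Real.log (wSum (gB N) (gC lam U))
  have hg : Continuous g := Continuous.log (continuous_finsetSum _ fun σ _ => continuous_const.mul
    (Real.continuous_exp.comp ((continuous_apply σ).comp hc))) fun U => (Lin.sum_pos' Lin.gB_pos _).ne'
  have e : ∀ U y, (glassLeaf U).logZ (quadLaw lam U) y = wVal (gB N) (gC lam U) (gA U) y - g U := by
    intro U y
    rw [Lin.glassLeaf_eq, Lin.quadLaw_eq, ← Lin.logZ_wLaw Lin.gB_pos]
    simp only [g, add_sub_cancel_right]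
  refine ⟨(h1.sub (hg.comp continuous_fst)).congr fun w => (e w.1 w.2).symm, fun U₀ => ?_⟩
  obtain ⟨C, k, hC, hk, h⟩ := h2 U₀
  refine ⟨C + (|g U₀| + 1), k, by positivity, hk, ?_⟩
  filter_upwards [h, hg.abs.continuousAt.eventually_lt_const (lt_add_one |g U₀|)] with U hU hgU y
  rw [e]
  exact (abs_sub _ _).trans (by linarith [hU y])

lemma ptame_gibbs {f : ON N → (Fin N → Bool) → ℝ} (hf : Continuous f) :
    PTame fun U : ON N => (glassLeaf U).gibbs (quadLaw lam U) fun σ _ => f U σ := by
  have e : (fun U : ON N => (glassLeaf U).gibbs (quadLaw lam U) fun σ _ => f U σ) =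
      fun U => wAvg (gB N) (gC lam U) (gA U) (f U) :=
    funext fun U => funext fun y => gibbs_eq lam U (f U) y
  rw [e]
  refine ⟨Lin.continuous_wAvg Lin.gB_pos (Lin.continuous_gC continuous_const continuous_id)
    (Lin.continuous_gA continuous_id) hf, fun U₀ => ?_⟩
  have c1 : Continuous fun U => ∑ σ, |f U σ| :=
    continuous_finsetSum _ fun σ _ => ((continuous_apply σ).comp hf).abs
  refine ⟨(∑ σ, |f U₀ σ|) + 1, 0, by positivity, le_rfl, ?_⟩
  filter_upwards [c1.continuousAt.eventually_lt_const (lt_add_one (∑ σ, |f U₀ σ|))] with U h y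
  simpa using (Lin.abs_wAvg_le Lin.gB_pos (gA U) (gC lam U) (f U) y).trans h.le

lemma continuous_coef (i : FIdx N) : Continuous fun (U : ON N) (σ : Fin N → Bool) => gA U σ i :=
  continuous_pi fun σ => (continuous_apply i).comp ((continuous_apply σ).comp
    (Lin.continuous_gA continuous_id))

lemma continuous_coef_mul {f g : ON N → (Fin N → Bool) → ℝ} (hf : Continuous f) (hg : Continuous g) :
    Continuous fun U σ => f U σ * g U σ :=
  continuous_pi fun σ => ((continuous_apply σ).comp hf).mul ((continuous_apply σ).comp hg)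

lemma ptame_node' {l : ℕ} (hl : l ≤ K + 1) {f : ON N → (Fin N → Bool) → ℝ} (hf : Continuous f) :
    PTame fun U : ON N =>
      (glassNest K S V).node (glassLeaf U) (quadLaw lam U) l fun σ _ => f U σ :=
  ptame_down'' (plin_glass lam) (show l ≤ (glassNest K S V).K from hl) (ptame_gibbs lam hf)

lemma ptame_grad' {l : ℕ} (hl : l ≤ K + 1) (i : FIdx N) :
    PTame fun U : ON N => (glassNest K S V).grad (glassLeaf U) (quadLaw lam U) l i := by
  simp only [Nest.grad, vec_eq]
  exact ptame_node' K lam S V hl (continuous_coef i)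

lemma ptame_two' {l : ℕ} (hl : l ≤ K + 1) (i k : FIdx N) :
    PTame fun U : ON N => two (glassNest K S V) (glassLeaf U) (quadLaw lam U) l i k := by
  unfold two
  simp only [vec_eq]
  exact ptame_node' K lam S V hl (continuous_coef_mul (continuous_coef i) (continuous_coef k))

lemma ptame_cov' {l : ℕ} (hl : l ≤ K + 1) (i k : FIdx N) :
    PTame fun U : ON N => (glassNest K S V).cov (glassLeaf U) (quadLaw lam U) l i k := by
  have h := (ptame_two' K lam S V hl i k).sub
    ((ptame_grad' K lam S V hl i).mul (ptame_grad' K lam S V hl k))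
  exact h

lemma ptame_covNorm' {l : ℕ} (hl : l ≤ K + 1) (R : Finset (FIdx N)) :
    PTame fun U : ON N => (glassNest K S V).covNorm (glassLeaf U) (quadLaw lam U) R l := by
  have h := ptame_sqrt (ptame_sum R fun i _ => ptame_sum R fun k _ =>
    (ptame_cov' K lam S V hl i k).mul (ptame_cov' K lam S V hl i k))
  simp only [← sq] at h
  exact h

lemma ptame_sqSum' {l : ℕ} (hl : l ≤ K + 1) (R : Finset (FIdx N)) :
    PTame fun U : ON N => (glassNest K S V).sqSum (glassLeaf U) (quadLaw lam U) R l := by
  have h := ptame_sum R fun i _ =>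
    (ptame_grad' K lam S V hl i).mul (ptame_grad' K lam S V hl i)
  simp only [← sq] at h
  exact h

lemma ptame_coord (i : FIdx N) : PTame fun (_ : ON N) (y : FIdx N → ℝ) => y i :=
  ptame_const (tame_coord i)

lemma ptame_fPart (i k : FIdx N) :
    PTame fun U : ON N => fPart (glassLeaf U) (quadLaw lam U) i k := by
  unfold fPart
  simp only [vec_eq]
  exact ((ptame_coord i).mul (ptame_gibbs lam (continuous_coef k))).sub
    ((ptame_coord k).mul (ptame_gibbs lam (continuous_coef i)))

lemma ptame_lprod (i k : FIdx N) :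
    PTame fun U : ON N => lprod (glassLeaf U) (quadLaw lam U) i k := by
  unfold lprod
  simp only [vec_eq]
  exact ptame_gibbs lam (continuous_coef_mul (continuous_coef i) (continuous_coef k))

lemma ptame_hDer (c : ℝ) (i k : FIdx N) :
    PTame fun U : ON N => hDer (glassLeaf U) (quadLaw lam U) c i k :=
  ((ptame_lprod lam i k).const_mul c).add (ptame_fPart lam i k)

lemma ptame_oDer (c : ℝ) (i k : FIdx N) :
    PTame fun U : ON N => oDer (glassLeaf U) (quadLaw lam U) c i k := by
  unfold oDer lprod
  simp only [vec_eq, sq]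
  exact ((ptame_gibbs lam (continuous_coef k)).add ((ptame_gibbs lam (continuous_coef_mul
      (continuous_coef_mul (continuous_coef i) (continuous_coef i)) (continuous_coef k))).const_mul c)).add
    (((ptame_coord i).mul
        (ptame_gibbs lam (continuous_coef_mul (continuous_coef i) (continuous_coef k)))).sub
      ((ptame_coord k).mul
        (ptame_gibbs lam (continuous_coef_mul (continuous_coef i) (continuous_coef i)))))

lemma ptame_pDer (c : ℝ) (i k : FIdx N) :
    PTame fun U : ON N => pDer (glassLeaf U) (quadLaw lam U) c i k := by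
  unfold pDer lprod
  simp only [vec_eq, sq]
  have h : ∀ j : FIdx N, Continuous fun (U : ON N) σ => gA U σ j * gA U σ j :=
    fun j => continuous_coef_mul (continuous_coef j) (continuous_coef j)
  exact (((ptame_gibbs lam (h k)).sub (ptame_gibbs lam (h i))).add
      ((ptame_gibbs lam (continuous_coef_mul (h i) (h k))).const_mul c)).add
    (((ptame_coord i).mul (ptame_gibbs lam (continuous_coef_mul (continuous_coef i) (h k)))).sub
      ((ptame_coord k).mul (ptame_gibbs lam (continuous_coef_mul (h i) (continuous_coef k)))))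

lemma ptame_dObs {l : ℕ} (hl : l ≤ K + 1) (c : ℝ) (i k : FIdx N) :
    PTame fun U : ON N => dObs (glassNest K S V) (glassLeaf U) (quadLaw lam U) c l i k := by
  have hl' : l ≤ (glassNest K S V).K := hl
  have hD : ∀ j, j ≤ (glassNest K S V).K → PTame fun U : ON N =>
      (glassNest K S V).down ((glassLeaf U).logZ (quadLaw lam U)) j
        (hDer (glassLeaf U) (quadLaw lam U) c i k) :=
    fun j hj => ptame_down'' (plin_glass lam) hj (ptame_hDer lam c i k)
  exact ((ptame_down'' (plin_glass lam) hl' (ptame_oDer lam c i k)).sub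
    (((ptame_grad' K lam S V hl i).mul (hD l hl')).const_mul _)).sub
    (ptame_sum _ fun j hj => (ptame_chain (plin_glass lam) (mem_Ioc.1 hj).1.le (mem_Ioc.1 hj).2
      ((ptame_grad' K lam S V (show j ≤ K + 1 from (mem_Ioc.1 hj).2) i).mul
        (hD j (mem_Ioc.1 hj).2))).const_mul _)

lemma continuous_lvlObs {l : ℕ} (hl : l ≤ K + 1) (p q : Fin N) :
    Continuous (lvlObs K lam S V l p q) :=
  continuous_mean' (plin_glass lam) (show l ≤ (glassNest K S V).K from hl)
    ((ptame_grad' K lam S V hl _).mul (ptame_grad' K lam S V hl _))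

lemma continuous_topObs (p q : Fin N) : Continuous (topObs K lam S V p q) :=
  continuous_mean' (plin_glass lam) (show K + 1 ≤ (glassNest K S V).K from le_rfl)
    (ptame_lprod lam _ _)

lemma continuous_lvlDer {l : ℕ} (hl : l ≤ K + 1) (c : ℝ) (i k : FIdx N) :
    Continuous fun U : ON N => lvlDer (glassNest K S V) (glassLeaf U) (quadLaw lam U) c l i k := by
  have hl' : l ≤ (glassNest K S V).K := hl
  have hU := plin_glass (N := N) lam
  have g := fun r => ptame_grad' K lam S V hl r
  refine (((continuous_mean' hU hl' ((g k).mul (ptame_dObs K lam S V hl c i k))).sub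
    (continuous_mean' hU hl' ((g i).mul (ptame_dObs K lam S V hl (-c) k i)))).add
    (continuous_const.mul (continuous_mean' hU hl' (((g i).mul (g k)).mul
      (ptame_down'' hU hl' (ptame_hDer lam c i k)))))).sub
    (continuous_finsetSum _ fun j hj => continuous_const.mul (continuous_mean' hU
      ((mem_range.1 hj).le.trans hl') ((ptame_down'' hU ((mem_range.1 hj).le.trans hl')
        (ptame_hDer lam c i k)).mul (ptame_chain hU (mem_range.1 hj).le hl' ((g i).mul (g k))))))

lemma continuous_topDer (c : ℝ) (i k : FIdx N) :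
    Continuous fun U : ON N => topDer (glassNest K S V) (glassLeaf U) (quadLaw lam U) c i k := by
  have hU := plin_glass (N := N) lam
  refine (continuous_mean' hU le_rfl (ptame_pDer lam c i k)).sub
    (continuous_finsetSum _ fun j hj => continuous_const.mul ?_)
  have hj' : j ≤ (glassNest K S V).K := Nat.lt_succ_iff.1 (mem_range.1 hj)
  exact continuous_mean' hU hj'
    ((ptame_two' K lam S V hj' i k).mul (ptame_down'' hU hj' (ptame_hDer lam c i k)))

/-- The mean product of the node averages vanishes after rotation. -/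
theorem integral_lvlDer {p q : Fin N} (hpq : p ≠ q) {l : ℕ} (hl : l ≤ K + 1) :
    ∫ U, lvlDer (glassNest K S V) (glassLeaf U) (quadLaw lam U) (lam p - lam q) l
      (Sum.inr p) (Sum.inr q) ∂haarON N = 0 :=
  integral_rot_eq_zero hpq (continuous_lvlObs K lam S V hl p q) (continuous_lvlDer K lam S V hl _ _ _)
    fun U => hasDerivAt_lvlObs K lam S V hpq U hl

/-- The same at the leaf. -/
theorem integral_topDer {p q : Fin N} (hpq : p ≠ q) :
    ∫ U, topDer (glassNest K S V) (glassLeaf U) (quadLaw lam U) (lam p - lam q)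
      (Sum.inr p) (Sum.inr q) ∂haarON N = 0 :=
  integral_rot_eq_zero hpq (continuous_topObs K lam S V p q) (continuous_topDer K lam S V _ _ _)
    fun U => hasDerivAt_topObs K lam S V hpq U

end glass

end Vale.Agent.P166.Parisi.Loop
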