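import Vale.Agent.P166.Parisi.Param
import Vale.Agent.P157.Parisi.CalcAmpCont
import Vale.Agent.P157.Parisi.Quant

/-!
Averages along the hierarchy of functions of the states at two levels, for a general leaf, and the
derivative of a node average in a parameter of the leaf.
-/

set_option linter.unusedSectionVars false

namespace Vale.Agent.P166.Parisi.Loop

open MeasureTheory ProbabilityTheory Finset Filter Topology
open Vale.Agent.P157 Vale.Agent.P157.Parisi

variable {ι : Type} [Fintype ι]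

/-- A regular hierarchy over a leaf of linear growth. -/
structure Reg (N : Nest ι) (U : (ι → ℝ) → ℝ) : Prop where
  good : N.Good
  lin : LinGrowth U

variable {N : Nest ι} {U : (ι → ℝ) → ℝ}

lemma Reg.linU (hR : Reg N U) (l : ℕ) : LinGrowth (N.u U l) := by
  suffices h : ∀ d l, N.K - l = d → LinGrowth (N.u U l) from h _ l rfl
  intro d
  induction d with
  | zero => intro l hl; rw [u_top (by omega)]; exact hR.lin
  | succ d ih =>
    intro l hl
    rw [u_succ (by omega)]
    exact linGrowth_stepLog (ih (l + 1) (by omega)) _ _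

lemma mean_succ (l : ℕ) (f : (ι → ℝ) → ℝ) : N.mean U (l + 1) f = N.mean U l (N.avg U l f) := rfl

lemma avg_tame' (hR : Reg N U) (l : ℕ) {f : (ι → ℝ) → ℝ} (hf : Tame f) :
    Tame (N.avg U l f) :=
  tame_stepAvg (hR.linU (l + 1)) _ _ hf

lemma avg_add' (hR : Reg N U) (l : ℕ) {f g : (ι → ℝ) → ℝ} (hf : Tame f) (hg : Tame g)
    (y : ι → ℝ) : N.avg U l (fun v => f v + g v) y = N.avg U l f y + N.avg U l g y :=
  stepAvg_add (hR.linU (l + 1)) _ _ hf hg y

lemma avg_const' (hR : Reg N U) (l : ℕ) (c : ℝ) (y : ι → ℝ) : N.avg U l (fun _ => c) y = c :=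
  stepAvg_const (hR.linU (l + 1)) _ _ c y

lemma avg_mul' (l : ℕ) (c : ℝ) (f : (ι → ℝ) → ℝ) (y : ι → ℝ) :
    N.avg U l (fun v => c * f v) y = c * N.avg U l f y :=
  stepAvg_const_mul _ _ _ c f y

lemma avg_mono' (hR : Reg N U) (l : ℕ) {f g : (ι → ℝ) → ℝ} (hf : Tame f) (hg : Tame g)
    (h : ∀ v, f v ≤ g v) (y : ι → ℝ) : N.avg U l f y ≤ N.avg U l g y :=
  stepAvg_mono (hR.linU (l + 1)) _ _ hf hg h y

/-! ### Averages at one level -/

lemma mean_add'' (hR : Reg N U) {l : ℕ} (hl : l ≤ N.K) {f g : (ι → ℝ) → ℝ} (hf : Tame f)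
    (hg : Tame g) : N.mean U l (fun v => f v + g v) = N.mean U l f + N.mean U l g :=
  Param.mean_add' (fun m _ => hR.linU m) hl hf hg

lemma mean_mul'' (l : ℕ) (c : ℝ) (f : (ι → ℝ) → ℝ) :
    N.mean U l (fun v => c * f v) = c * N.mean U l f :=
  Param.mean_const_mul' l c f

lemma mean_const'' (hR : Reg N U) (l : ℕ) (c : ℝ) : N.mean U l (fun _ => c) = c := by
  induction l with
  | zero => simp [Nest.mean]
  | succ l ih =>
    rw [mean_succ, show N.avg U l (fun _ => c) = fun _ => c from funext (avg_const' hR l c)]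
    exact ih

lemma integrable_zero_amp {f : (ι → ℝ) → ℝ} (hf : Tame f) :
    Integrable (fun z => f fun i => N.amp 0 i * z i) (gauss ι) := by
  convert (hf.comp_move (N.amp 0) 0).integrable using 3 with z
  funext i
  simp [move]

lemma mean_mono'' (hR : Reg N U) (l : ℕ) {f g : (ι → ℝ) → ℝ} (hf : Tame f)
    (hg : Tame g) (h : ∀ v, f v ≤ g v) : N.mean U l f ≤ N.mean U l g := by
  induction l generalizing f g with
  | zero => exact integral_mono (integrable_zero_amp hf) (integrable_zero_amp hg) fun z => h _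
  | succ l ih => exact ih (avg_tame' hR l hf) (avg_tame' hR l hg) (avg_mono' hR l hf hg h)

lemma mean_sub'' (hR : Reg N U) {l : ℕ} (hl : l ≤ N.K) {f g : (ι → ℝ) → ℝ} (hf : Tame f)
    (hg : Tame g) : N.mean U l (fun v => f v - g v) = N.mean U l f - N.mean U l g := by
  have := mean_add'' hR hl hf (hg.const_mul (-1))
  rw [mean_mul''] at this
  simpa [sub_eq_add_neg] using this

lemma mean_sum'' (hR : Reg N U) {l : ℕ} (hl : l ≤ N.K) {β : Type*} (S : Finset β)
    {f : β → (ι → ℝ) → ℝ} (hf : ∀ b ∈ S, Tame (f b)) :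
    N.mean U l (fun v => ∑ b ∈ S, f b v) = ∑ b ∈ S, N.mean U l (f b) := by
  classical
  induction S using Finset.induction with
  | empty => simpa using mean_const'' hR l 0
  | insert a S ha ih =>
    simp only [sum_insert ha]
    rw [mean_add'' hR hl (hf a (mem_insert_self a S))
      (tame_sum S fun b hb => hf b (mem_insert_of_mem hb)), ih fun b hb => hf b (mem_insert_of_mem hb)]

lemma abs_mean_le (hR : Reg N U) {l : ℕ} (hl : l ≤ N.K) {f g : (ι → ℝ) → ℝ} (hf : Tame f)
    (hg : Tame g) (h : ∀ v, |f v| ≤ g v) : |N.mean U l f| ≤ N.mean U l g := by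
  rw [abs_le]
  refine ⟨?_, mean_mono'' hR l hf hg fun v => (le_abs_self _).trans (h v)⟩
  have := mean_mono'' hR l (hg.const_mul (-1)) hf fun v => by
    linarith [neg_abs_le (f v), h v]
  rw [mean_mul''] at this
  linarith

/-! ### From a level down to an earlier one -/

/-- The average of a function of the state at level `j` given the state at level `l`. -/
noncomputable def chain (N : Nest ι) (U : (ι → ℝ) → ℝ) (l j : ℕ) (f : (ι → ℝ) → ℝ) :
    (ι → ℝ) → ℝ :=
  Nest.chainUp N U j f (j - l)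

lemma chain_self (l : ℕ) (f : (ι → ℝ) → ℝ) : chain N U l l f = f := by
  simp [chain, Nest.chainUp]

lemma chain_succ {l j : ℕ} (h : l < j) (f : (ι → ℝ) → ℝ) :
    chain N U l j f = N.avg U l (chain N U (l + 1) j f) := by
  have e : j - l = j - (l + 1) + 1 := by omega
  have e2 : j - (j - (l + 1) + 1) = l := by omega
  rw [chain, chain, e, Nest.chainUp, e2]

/-- Induction from level `j` downwards. -/
lemma down_ind {j : ℕ} {P : ℕ → Prop} (top : P j) (step : ∀ m, m < j → P (m + 1) → P m) {l : ℕ}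
    (hl : l ≤ j) : P l :=
  levels_induction top step hl

lemma chain_tame (hR : Reg N U) {l j : ℕ} (h : l ≤ j) {f : (ι → ℝ) → ℝ} (hf : Tame f) :
    Tame (chain N U l j f) := by
  refine down_ind (P := fun l => Tame (chain N U l j f)) ?_ (fun m hm ih => ?_) h
  · rwa [chain_self]
  · rw [chain_succ hm]; exact avg_tame' hR m ih

lemma chain_add (hR : Reg N U) {l j : ℕ} (h : l ≤ j) {f g : (ι → ℝ) → ℝ} (hf : Tame f)
    (hg : Tame g) (y : ι → ℝ) :
    chain N U l j (fun v => f v + g v) y = chain N U l j f y + chain N U l j g y := by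
  revert y
  refine down_ind (P := fun l => ∀ y,
    chain N U l j (fun v => f v + g v) y = chain N U l j f y + chain N U l j g y) ?_
    (fun m hm ih => ?_) h
  · intro y; simp [chain_self]
  · intro y
    rw [chain_succ hm, chain_succ hm, chain_succ hm,
      show chain N U (m + 1) j (fun v => f v + g v) =
        fun y => chain N U (m + 1) j f y + chain N U (m + 1) j g y from funext ih]
    exact avg_add' hR m (chain_tame hR hm hf) (chain_tame hR hm hg) y

lemma chain_mul {l j : ℕ} (h : l ≤ j) (c : ℝ) (f : (ι → ℝ) → ℝ) (y : ι → ℝ) :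
    chain N U l j (fun v => c * f v) y = c * chain N U l j f y := by
  revert y
  refine down_ind (P := fun l => ∀ y,
    chain N U l j (fun v => c * f v) y = c * chain N U l j f y) ?_ (fun m hm ih => ?_) h
  · intro y; simp [chain_self]
  · intro y
    rw [chain_succ hm, chain_succ hm,
      show chain N U (m + 1) j (fun v => c * f v) =
        fun y => c * chain N U (m + 1) j f y from funext ih]
    exact avg_mul' m c _ y

lemma chain_const (hR : Reg N U) {l j : ℕ} (h : l ≤ j) (c : ℝ) (y : ι → ℝ) :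
    chain N U l j (fun _ => c) y = c := by
  revert y
  refine down_ind (P := fun l => ∀ y, chain N U l j (fun _ => c) y = c) ?_ (fun m hm ih => ?_) h
  · intro y; simp [chain_self]
  · intro y
    rw [chain_succ hm, show chain N U (m + 1) j (fun _ => c) = fun _ => c from funext ih]
    exact avg_const' hR m c y

lemma chain_mono (hR : Reg N U) {l j : ℕ} (h : l ≤ j) {f g : (ι → ℝ) → ℝ} (hf : Tame f)
    (hg : Tame g) (hfg : ∀ v, f v ≤ g v) (y : ι → ℝ) :
    chain N U l j f y ≤ chain N U l j g y := by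
  revert y
  refine down_ind (P := fun l => ∀ y, chain N U l j f y ≤ chain N U l j g y) ?_
    (fun m hm ih => ?_) h
  · intro y; simpa [chain_self] using hfg y
  · intro y
    rw [chain_succ hm, chain_succ hm]
    exact avg_mono' hR m (chain_tame hR hm hf) (chain_tame hR hm hg) ih y

lemma mean_chain {l j : ℕ} (h : l ≤ j) (f : (ι → ℝ) → ℝ) :
    N.mean U l (chain N U l j f) = N.mean U j f := by
  refine down_ind (P := fun l => N.mean U l (chain N U l j f) = N.mean U j f) ?_
    (fun m hm ih => ?_) h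
  · rw [chain_self]
  · rw [chain_succ hm, ← mean_succ, ih]

lemma chain_down {l j : ℕ} (h : l ≤ j) (hj : j ≤ N.K) (f : (ι → ℝ) → ℝ) :
    chain N U l j (N.down U j f) = N.down U l f := by
  refine down_ind (P := fun l => chain N U l j (N.down U j f) = N.down U l f) ?_
    (fun m hm ih => ?_) h
  · rw [chain_self]
  · rw [chain_succ hm, ih, down_succ (show m < N.K by omega)]

lemma down_eq_chain {l : ℕ} (hl : l ≤ N.K) (f : (ι → ℝ) → ℝ) :
    N.down U l f = chain N U l N.K f := by
  rw [← chain_down hl le_rfl f, down_top le_rfl]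

lemma down_tame' (hR : Reg N U) {l : ℕ} (hl : l ≤ N.K) {f : (ι → ℝ) → ℝ} (hf : Tame f) :
    Tame (N.down U l f) := by
  rw [down_eq_chain hl]; exact chain_tame hR hl hf

lemma mean_down {l : ℕ} (hl : l ≤ N.K) (f : (ι → ℝ) → ℝ) :
    N.mean U l (N.down U l f) = N.mean U N.K f := by
  rw [down_eq_chain hl, mean_chain hl]

/-! ### Functions of two states -/

/-- Continuous in both states, with exponential growth. -/
def Ker (Φ : (ι → ℝ) → (ι → ℝ) → ℝ) : Prop :=
  Continuous (fun p : (ι → ℝ) × (ι → ℝ) => Φ p.1 p.2) ∧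
    ∃ C k : ℝ, 0 ≤ C ∧ 0 ≤ k ∧ ∀ y v, |Φ y v| ≤ C * Real.exp (k * l1 y) * Real.exp (k * l1 v)

lemma Ker.tame {Φ : (ι → ℝ) → (ι → ℝ) → ℝ} (h : Ker Φ) (y : ι → ℝ) : Tame (Φ y) := by
  obtain ⟨hc, C, k, -, -, hb⟩ := h
  exact tame_of_bound (hc.comp (by fun_prop : Continuous fun v : ι → ℝ => (y, v))) (hb y)

lemma Ker.diag {Φ : (ι → ℝ) → (ι → ℝ) → ℝ} (h : Ker Φ) : Tame fun y => Φ y y := by
  obtain ⟨hc, C, k, -, -, hb⟩ := h
  refine tame_of_bound (hc.comp (by fun_prop : Continuous fun y : ι → ℝ => (y, y))) (C := C)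
    (k := k + k) fun y => ?_
  rw [add_mul, Real.exp_add, ← mul_assoc]
  exact hb y y

lemma ker_fst {f : (ι → ℝ) → ℝ} (hf : Tame f) : Ker fun y (_ : ι → ℝ) => f y := by
  obtain ⟨C, k, hC, hk, hb⟩ := hf.bound
  refine ⟨hf.1.comp continuous_fst, C, k, hC, hk, fun y v => (hb y).trans ?_⟩
  exact le_mul_of_one_le_right (by positivity) (Real.one_le_exp (mul_nonneg hk (l1_nonneg v)))

lemma ker_snd {f : (ι → ℝ) → ℝ} (hf : Tame f) : Ker fun (_ : ι → ℝ) v => f v := by
  obtain ⟨C, k, hC, hk, hb⟩ := hf.bound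
  refine ⟨hf.1.comp continuous_snd, C, k, hC, hk, fun y v => (hb v).trans ?_⟩
  exact mul_le_mul_of_nonneg_right
    (le_mul_of_one_le_right hC (Real.one_le_exp (mul_nonneg hk (l1_nonneg y)))) (Real.exp_pos _).le

lemma Ker.mul {Φ Ψ : (ι → ℝ) → (ι → ℝ) → ℝ} (h : Ker Φ) (h' : Ker Ψ) :
    Ker fun y v => Φ y v * Ψ y v := by
  obtain ⟨hc, C, k, hC, hk, hb⟩ := h
  obtain ⟨hc', C', k', hC', hk', hb'⟩ := h'
  refine ⟨hc.mul hc', C * C', k + k', by positivity, by positivity, fun y v => ?_⟩
  rw [abs_mul]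
  refine (mul_le_mul (hb y v) (hb' y v) (abs_nonneg _) (by positivity)).trans_eq ?_
  simp only [add_mul, Real.exp_add]
  ring

lemma Ker.add {Φ Ψ : (ι → ℝ) → (ι → ℝ) → ℝ} (h : Ker Φ) (h' : Ker Ψ) :
    Ker fun y v => Φ y v + Ψ y v := by
  obtain ⟨hc, C, k, hC, hk, hb⟩ := h
  obtain ⟨hc', C', k', hC', hk', hb'⟩ := h'
  refine ⟨hc.add hc', C + C', k + k', by positivity, by positivity, fun y v => ?_⟩
  refine (abs_add_le _ _).trans ?_
  have e : ∀ w : ι → ℝ, Real.exp (k * l1 w) ≤ Real.exp ((k + k') * l1 w) ∧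
      Real.exp (k' * l1 w) ≤ Real.exp ((k + k') * l1 w) := fun w =>
    ⟨Real.exp_le_exp.2 (mul_le_mul_of_nonneg_right (by linarith) (l1_nonneg w)),
      Real.exp_le_exp.2 (mul_le_mul_of_nonneg_right (by linarith) (l1_nonneg w))⟩
  rw [add_mul C C', add_mul]
  refine add_le_add ((hb y v).trans ?_) ((hb' y v).trans ?_)
  · exact mul_le_mul (mul_le_mul_of_nonneg_left (e y).1 hC) (e v).1 (Real.exp_pos _).le (by positivity)
  · exact mul_le_mul (mul_le_mul_of_nonneg_left (e y).2 hC') (e v).2 (Real.exp_pos _).le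
      (by positivity)

lemma Ker.const_mul {Φ : (ι → ℝ) → (ι → ℝ) → ℝ} (h : Ker Φ) (c : ℝ) :
    Ker fun y v => c * Φ y v :=
  (ker_fst (tame_const c)).mul h

lemma Ker.sub {Φ Ψ : (ι → ℝ) → (ι → ℝ) → ℝ} (h : Ker Φ) (h' : Ker Ψ) :
    Ker fun y v => Φ y v - Ψ y v := by
  simpa only [neg_one_mul, ← sub_eq_add_neg] using h.add (h'.const_mul (-1))

lemma Ker.abs {Φ : (ι → ℝ) → (ι → ℝ) → ℝ} (h : Ker Φ) : Ker fun y v => |Φ y v| := by
  obtain ⟨hc, C, k, hC, hk, hb⟩ := h
  exact ⟨hc.abs, C, k, hC, hk, fun y v => by rw [abs_abs]; exact hb y v⟩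

lemma ker_sum {β : Type*} (S : Finset β) {Φ : β → (ι → ℝ) → (ι → ℝ) → ℝ}
    (h : ∀ b ∈ S, Ker (Φ b)) : Ker fun y v => ∑ b ∈ S, Φ b y v := by
  classical
  induction S using Finset.induction with
  | empty => simpa using ker_fst (ι := ι) (tame_const 0)
  | insert a S ha ih =>
    simp only [sum_insert ha]
    exact (h a (mem_insert_self a S)).add (ih fun b hb => h b (mem_insert_of_mem hb))

lemma ker_avg (hR : Reg N U) (l : ℕ) {Φ : (ι → ℝ) → (ι → ℝ) → ℝ} (h : Ker Φ) :
    Ker fun y v => N.avg U l (Φ y) v := by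
  obtain ⟨hu, Cu, ku, hCu, hku, hub⟩ := hR.linU (l + 1)
  obtain ⟨hc, C, k, hC, hk, hb⟩ := id h
  refine ⟨?_, ?_⟩
  · have hP : PTame (T := ι → ℝ) fun y v => Φ y v := by
      refine ⟨hc, fun t₀ => ⟨C * Real.exp (k * (l1 t₀ + 1)), k, by positivity, hk, ?_⟩⟩
      filter_upwards [continuous_l1.continuousAt.eventually
        (eventually_lt_nhds (lt_add_one (l1 t₀)))] with t ht v
      refine (hb t v).trans ?_
      gcongr
    have hu' : PLin (T := ι → ℝ) fun _ => N.u U (l + 1) :=
      ⟨hu.comp continuous_snd, fun _ => ⟨Cu, ku, hCu, hku, .of_forall fun _ => hub⟩⟩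
    exact (ptame_tilt (s := fun _ => N.amp (l + 1)) hu' (fun _ => continuous_const)
      (N.x (l + 1)) hP).1
  · obtain ⟨D', j', hD', hj', hav⟩ :=
      Param.stepAvg_bound (N.x (l + 1)) (N.amp (l + 1)) Cu ku 1 k hku zero_le_one hk
    refine ⟨C * D', k + j', by positivity, by positivity, fun y v => ?_⟩
    set c := C * Real.exp (k * l1 y) with hcdef
    have hc0 : 0 ≤ c := by positivity
    rcases eq_or_lt_of_le hc0 with h0 | h0
    · have hz : Φ y = fun _ => 0 := funext fun w => by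
        have := hb y w
        rw [← hcdef, ← h0, zero_mul] at this
        exact abs_nonpos_iff.1 this
      show |N.avg U l (Φ y) v| ≤ _
      rw [hz, avg_const' hR, abs_zero]
      positivity
    · have h1 := hav (N.u U (l + 1)) (fun w => c⁻¹ * Φ y w) hu
        (continuous_const.mul (h.tame y).1) hub (fun w => by
          rw [abs_mul, abs_of_pos (inv_pos.2 h0), one_mul, inv_mul_le_iff₀ h0]
          exact hb y w) v
      rw [← avg_eq_stepAvg, avg_mul', abs_mul, abs_of_pos (inv_pos.2 h0), inv_mul_le_iff₀ h0] at h1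
      refine h1.trans ?_
      rw [hcdef]
      calc C * Real.exp (k * l1 y) * (D' * Real.exp (j' * l1 v))
          = C * D' * Real.exp (k * l1 y) * Real.exp (j' * l1 v) := by ring
        _ ≤ _ := by
            have := l1_nonneg y
            have := l1_nonneg v
            gcongr <;> linarith

lemma ker_chain (hR : Reg N U) {l j : ℕ} (h : l ≤ j) {Φ : (ι → ℝ) → (ι → ℝ) → ℝ} (hΦ : Ker Φ) :
    Ker fun y v => chain N U l j (Φ y) v := by
  refine down_ind (P := fun l => Ker fun y v => chain N U l j (Φ y) v) ?_ (fun m hm ih => ?_) h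
  · simpa only [chain_self] using hΦ
  · simpa only [chain_succ hm] using ker_avg hR m ih

/-- The joint average over the states at two levels. -/
noncomputable def pair (N : Nest ι) (U : (ι → ℝ) → ℝ) (l j : ℕ)
    (Φ : (ι → ℝ) → (ι → ℝ) → ℝ) : ℝ :=
  N.mean U l fun y => chain N U l j (Φ y) y

lemma pair_tame (hR : Reg N U) {l j : ℕ} (h : l ≤ j) {Φ : (ι → ℝ) → (ι → ℝ) → ℝ} (hΦ : Ker Φ) :
    Tame fun y => chain N U l j (Φ y) y :=
  (ker_chain hR h hΦ).diag

lemma pair_fst (hR : Reg N U) {l j : ℕ} (h : l ≤ j) (f : (ι → ℝ) → ℝ) :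
    pair N U l j (fun y _ => f y) = N.mean U l f := by
  simp only [pair, chain_const hR h]

lemma pair_snd {l j : ℕ} (h : l ≤ j) (f : (ι → ℝ) → ℝ) :
    pair N U l j (fun _ v => f v) = N.mean U j f :=
  mean_chain h f

lemma pair_prod {l j : ℕ} (h : l ≤ j) (f g : (ι → ℝ) → ℝ) :
    pair N U l j (fun y v => f y * g v) = N.mean U l fun y => f y * chain N U l j g y := by
  simp only [pair, chain_mul h]

lemma pair_add (hR : Reg N U) {l j : ℕ} (h : l ≤ j) (hl : l ≤ N.K)
    {Φ Ψ : (ι → ℝ) → (ι → ℝ) → ℝ} (hΦ : Ker Φ) (hΨ : Ker Ψ) :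
    pair N U l j (fun y v => Φ y v + Ψ y v) = pair N U l j Φ + pair N U l j Ψ := by
  simp only [pair, chain_add hR h (hΦ.tame _) (hΨ.tame _)]
  exact mean_add'' hR hl (pair_tame hR h hΦ) (pair_tame hR h hΨ)

lemma pair_mul {l j : ℕ} (h : l ≤ j) (c : ℝ) (Φ : (ι → ℝ) → (ι → ℝ) → ℝ) :
    pair N U l j (fun y v => c * Φ y v) = c * pair N U l j Φ := by
  simp only [pair, chain_mul h]
  exact mean_mul'' l c _

lemma pair_mono (hR : Reg N U) {l j : ℕ} (h : l ≤ j) {Φ Ψ : (ι → ℝ) → (ι → ℝ) → ℝ} (hΦ : Ker Φ)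
    (hΨ : Ker Ψ) (hle : ∀ y v, Φ y v ≤ Ψ y v) : pair N U l j Φ ≤ pair N U l j Ψ :=
  mean_mono'' hR l (pair_tame hR h hΦ) (pair_tame hR h hΨ) fun y =>
    chain_mono hR h (hΦ.tame y) (hΨ.tame y) (hle y) y

lemma pair_sum (hR : Reg N U) {l j : ℕ} (h : l ≤ j) (hl : l ≤ N.K) {β : Type*} (S : Finset β)
    {Φ : β → (ι → ℝ) → (ι → ℝ) → ℝ} (hΦ : ∀ b ∈ S, Ker (Φ b)) :
    pair N U l j (fun y v => ∑ b ∈ S, Φ b y v) = ∑ b ∈ S, pair N U l j (Φ b) := by
  classical
  induction S using Finset.induction with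
  | empty => simpa [mean_const'' hR] using pair_fst hR h (fun _ => (0 : ℝ))
  | insert a S ha ih =>
    simp only [sum_insert ha]
    rw [pair_add hR h hl (hΦ a (mem_insert_self a S))
      (ker_sum S fun b hb => hΦ b (mem_insert_of_mem hb)), ih fun b hb => hΦ b (mem_insert_of_mem hb)]

/-- A pointwise bound passes to the joint average. -/
lemma abs_pair_sub_le (hR : Reg N U) {l j : ℕ} (h : l ≤ j) (hl : l ≤ N.K) (c : ℝ)
    {Φ Ψ : (ι → ℝ) → (ι → ℝ) → ℝ} (hΦ : Ker Φ) (hΨ : Ker Ψ)
    (hle : ∀ y v, |Φ y v - c| ≤ Ψ y v) : |pair N U l j Φ - c| ≤ pair N U l j Ψ := by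
  have hc : Ker fun (_ _ : ι → ℝ) => c := ker_fst (tame_const c)
  have ec : pair N U l j (fun _ _ => c) = c := by rw [pair_fst hR h, mean_const'' hR]
  have h1 := pair_mono hR h hΦ (hc.add hΨ) fun y v => by linarith [le_abs_self (Φ y v - c), hle y v]
  have h2 := pair_mono hR h hc (hΦ.add hΨ) fun y v => by linarith [neg_abs_le (Φ y v - c), hle y v]
  rw [pair_add hR h hl hc hΨ, ec] at h1
  rw [pair_add hR h hl hΦ hΨ, ec] at h2
  rw [abs_le]
  constructor <;> linarith

/-! ### The derivative of a node average -/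

open Param in
/-- The derivative of a node average when the derivative of its leaf is `k - h U'`. -/
lemma fam_down (hN : N.Good) (htop : N.x (N.K + 1) = 1) {V V' h h' k : ℝ → (ι → ℝ) → ℝ}
    {t₀ r : ℝ} (hV : LFam V V' t₀ r) (hh : Fam h h' t₀ r)
    (hk : ∀ t y, h' t y = k t y - h t y * V' t y) {l : ℕ} (hl : l ≤ N.K) :
    ∃ D, Fam (fun t => N.down (V t) l (h t)) D t₀ r ∧
      ∀ t, |t - t₀| < r → ∀ y, D t y = N.down (V t) l (k t) y -
        N.x (l + 1) * (N.down (V t) l (h t) y * N.down (V t) l (V' t) y) -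
        ∑ j ∈ Ioc l N.K, N.w j * chain N (V t) l j
          (fun v => N.down (V t) j (h t) v * N.down (V t) j (V' t) v) y := by
  refine down_ind (P := fun l => ∃ D, Fam (fun t => N.down (V t) l (h t)) D t₀ r ∧
      ∀ t, |t - t₀| < r → ∀ y, D t y = N.down (V t) l (k t) y -
        N.x (l + 1) * (N.down (V t) l (h t) y * N.down (V t) l (V' t) y) -
        ∑ j ∈ Ioc l N.K, N.w j * chain N (V t) l j
          (fun v => N.down (V t) j (h t) v * N.down (V t) j (V' t) v) y) ?_ (fun m hm ih => ?_) hl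
  · refine ⟨h', by simpa only [down_top le_rfl] using hh, fun t _ y => ?_⟩
    simp only [down_top le_rfl, htop, one_mul, Ioc_self, sum_empty, sub_zero]
    exact hk t y
  · obtain ⟨D, hD, hDe⟩ := ih
    have hfam := fam_avg hN hV hD hm
    refine ⟨_, by simpa only [down_succ hm] using hfam, fun t ht y => ?_⟩
    have hR : Reg N (V t) := ⟨hN, hV.linGrowth ht⟩
    have th := (hh.tame ht).1
    have tV := (hV.1.tame ht).2
    have tk : Tame (k t) := by
      have e : k t = fun v => h' t v + h t v * V' t v := funext fun v => by rw [hk t v]; ring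
      rw [e]; exact (hh.tame ht).2.add (th.mul tV)
    have t1 := down_tame' hR (show m + 1 ≤ N.K from hm) tk
    have t2 : Tame fun v => N.down (V t) (m + 1) (h t) v * N.down (V t) (m + 1) (V' t) v :=
      (down_tame' hR hm th).mul (down_tame' hR hm tV)
    have t3 : ∀ j ∈ Ioc (m + 1) N.K, Tame fun v => N.w j * chain N (V t) (m + 1) j
        (fun v => N.down (V t) j (h t) v * N.down (V t) j (V' t) v) v := fun j hj =>
      (chain_tame hR (mem_Ioc.1 hj).1.le
        ((down_tame' hR (mem_Ioc.1 hj).2 th).mul (down_tame' hR (mem_Ioc.1 hj).2 tV))).const_mul _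
    have t23 := ((t2.const_mul (N.x (m + 1 + 1))).add (tame_sum _ t3)).const_mul (-1)
    have e : D t = fun v => N.down (V t) (m + 1) (k t) v + (-1) *
        (N.x (m + 1 + 1) * (N.down (V t) (m + 1) (h t) v * N.down (V t) (m + 1) (V' t) v) +
          ∑ j ∈ Ioc (m + 1) N.K, N.w j * chain N (V t) (m + 1) j
            (fun v => N.down (V t) j (h t) v * N.down (V t) j (V' t) v) v) :=
      funext fun v => by rw [hDe t ht v]; ring
    have esum : ∀ v, N.avg (V t) m (fun w => ∑ j ∈ Ioc (m + 1) N.K, N.w j *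
        chain N (V t) (m + 1) j (fun v => N.down (V t) j (h t) v * N.down (V t) j (V' t) v) w) v =
        ∑ j ∈ Ioc (m + 1) N.K, N.w j * chain N (V t) m j
          (fun v => N.down (V t) j (h t) v * N.down (V t) j (V' t) v) v := by
      intro v
      have hlin : ∀ {S : Finset ℕ} {f : ℕ → (ι → ℝ) → ℝ}, (∀ b ∈ S, Tame (f b)) →
          N.avg (V t) m (fun w => ∑ b ∈ S, f b w) v = ∑ b ∈ S, N.avg (V t) m (f b) v := by
        intro S f hf
        classical
        induction S using Finset.induction with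
        | empty => simpa using avg_const' hR m 0 v
        | insert a S ha ih =>
          simp only [sum_insert ha]
          rw [avg_add' hR m (hf a (mem_insert_self a S))
            (tame_sum S fun b hb => hf b (mem_insert_of_mem hb)),
            ih fun b hb => hf b (mem_insert_of_mem hb)]
      rw [hlin t3]
      refine sum_congr rfl fun j hj => ?_
      rw [avg_mul', chain_succ (show m < j by have := (mem_Ioc.1 hj).1; omega)]
    have hins : Ioc m N.K = insert (m + 1) (Ioc (m + 1) N.K) :=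
      (insert_Ioc_add_one_left_eq_Ioc hm).symm
    rw [e, avg_add' hR m t1 t23, avg_mul',
      avg_add' hR m (t2.const_mul _) (tame_sum _ t3), avg_mul', esum, hins,
      sum_insert (by simp), chain_succ (show m < m + 1 by omega), chain_self,
      down_succ hm (f := k t), down_succ hm (f := h t), down_succ hm (f := V' t), Nest.w]
    ring

end Vale.Agent.P166.Parisi.Loop

namespace Vale.Agent.P166.Parisi.Loop

open MeasureTheory Finset
open Vale.Agent.P157 Vale.Agent.P157.Parisi

variable {ι : Type} [Fintype ι] {N : Nest ι} {U : (ι → ℝ) → ℝ}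

lemma chain_sum (hR : Reg N U) {l j : ℕ} (h : l ≤ j) {β : Type*} (S : Finset β)
    {f : β → (ι → ℝ) → ℝ} (hf : ∀ b ∈ S, Tame (f b)) (y : ι → ℝ) :
    chain N U l j (fun v => ∑ b ∈ S, f b v) y = ∑ b ∈ S, chain N U l j (f b) y := by
  classical
  induction S using Finset.induction with
  | empty => simpa using chain_const hR h 0 y
  | insert a S ha ih =>
    simp only [sum_insert ha]
    rw [chain_add hR h (hf a (mem_insert_self a S))
      (tame_sum S fun b hb => hf b (mem_insert_of_mem hb)),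
      ih fun b hb => hf b (mem_insert_of_mem hb)]

lemma abs_chain_le (hR : Reg N U) {l j : ℕ} (h : l ≤ j) {f g : (ι → ℝ) → ℝ} (hf : Tame f)
    (hg : Tame g) (hfg : ∀ v, |f v| ≤ g v) (y : ι → ℝ) :
    |chain N U l j f y| ≤ chain N U l j g y := by
  rw [abs_le]
  refine ⟨?_, chain_mono hR h hf hg (fun v => (le_abs_self _).trans (hfg v)) y⟩
  have := chain_mono hR h (hg.const_mul (-1)) hf
    (fun v => by linarith [neg_abs_le (f v), hfg v]) y
  rw [chain_mul h] at this
  linarith

end Vale.Agent.P166.Parisi.Loop
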