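import Vale.Agent.P166.Parisi.LoopTerms
import Vale.Agent.P166.Parisi.Basics.Glass
import Vale.Agent.P166.Parisi.Haar

/-!
The derivative of the products of the node averages of two rotated spins along the rotation of
their two coordinates.
-/

set_option linter.unusedSectionVars false

namespace Vale.Agent.P166.Parisi.Loop

open MeasureTheory ProbabilityTheory Finset
open Vale.Agent.P157 Vale.Agent.P157.Parisi
open Lin (wVal wAvg wSum wLaw linLeaf gA gB gC)

/-! ### Curves of finite systems -/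

section curve

variable {Ω ι : Type} [Fintype Ω] [Fintype ι] [Nonempty Ω]

/-- The derivative of the Hamiltonian. -/
def ham' (c' : Ω → ℝ) (A' : Ω → ι → ℝ) (ω : Ω) (y : ι → ℝ) : ℝ := c' ω + ∑ i, A' ω i * y i

/-- A differentiable curve of exponents and coefficients with a common bound. -/
structure Curve (c c' : ℝ → Ω → ℝ) (A A' : ℝ → Ω → ι → ℝ) (B : ℝ) : Prop where
  hc : ∀ ω t, HasDerivAt (fun t => c t ω) (c' t ω) t
  hA : ∀ ω i t, HasDerivAt (fun t => A t ω i) (A' t ω i) t
  bc : ∀ ω t, |c t ω| ≤ B ∧ |c' t ω| ≤ B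
  bA : ∀ ω i t, |A t ω i| ≤ B ∧ |A' t ω i| ≤ B

variable {b : Ω → ℝ} {c c' : ℝ → Ω → ℝ} {A A' : ℝ → Ω → ι → ℝ} {B : ℝ}

/-- The mean derivative of the Hamiltonian at the leaf. -/
noncomputable def curveDer (b : Ω → ℝ) (c c' : ℝ → Ω → ℝ) (A A' : ℝ → Ω → ι → ℝ) (t : ℝ)
    (y : ι → ℝ) : ℝ :=
  wAvg b (c t) (A t) (fun ω => ham' (c' t) (A' t) ω y) y

variable (hb : ∀ ω, 0 < b ω) (h : Curve c c' A A' B)

include h in
lemma abs_ham'_le (t : ℝ) (ω : Ω) (y : ι → ℝ) : |ham' (c' t) (A' t) ω y| ≤ B + B * l1 y := by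
  refine (abs_add_le _ _).trans (add_le_add (h.bc ω t).2 ((abs_sum_le_sum_abs _ _).trans ?_))
  rw [l1, mul_sum]
  exact sum_le_sum fun i _ => by
    rw [abs_mul]; exact mul_le_mul_of_nonneg_right (h.bA ω i t).2 (abs_nonneg _)

include h in
lemma bound_nonneg : 0 ≤ B :=
  (abs_nonneg _).trans (h.bc (Classical.arbitrary Ω) 0).1

include hb in
lemma continuous_wAvg_state (c : Ω → ℝ) (A : Ω → ι → ℝ) {g : (ι → ℝ) → Ω → ℝ} (hg : Continuous g) :
    Continuous fun y => wAvg b c A (g y) y := by
  have h1 := Lin.continuous_wAvg (ι := ι) hb (c := fun _ : ι → ℝ => c) (A := fun _ => A) (f := g)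
    continuous_const continuous_const hg
  have h2 : Continuous fun y : ι → ℝ => (y, y) := by fun_prop
  exact Continuous.comp (f := fun y : ι → ℝ => (y, y)) h1 h2

lemma continuous_ham' (c' : Ω → ℝ) (A' : Ω → ι → ℝ) (f g : Ω → ℝ) :
    Continuous fun (y : ι → ℝ) (ω : Ω) => f ω + g ω * ham' c' A' ω y := by
  refine continuous_pi fun ω => continuous_const.add (continuous_const.mul ?_)
  exact continuous_const.add (continuous_finsetSum _ fun i _ =>
    continuous_const.mul (continuous_apply i))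

include hb h in
lemma hasDerivAt_expo (y : ι → ℝ) (ω : Ω) (t : ℝ) :
    HasDerivAt (fun t => b ω * Real.exp (c t ω + ∑ i, A t ω i * y i))
      (b ω * Real.exp (c t ω + ∑ i, A t ω i * y i) * ham' (c' t) (A' t) ω y) t := by
  refine (((h.hc ω t).fun_add (HasDerivAt.fun_sum (u := (univ : Finset ι)) fun i _ =>
    (h.hA ω i t).mul_const (y i))).exp.const_mul (b ω)).congr_deriv ?_
  rw [ham', ← mul_assoc]

include hb h in
lemma lfam_curve : Param.LFam (fun t => wVal b (c t) (A t)) (curveDer b c c' A A') 0 1 := by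
  have hB := bound_nonneg h
  set C := |Real.log (∑ ω, b ω)| + Fintype.card Ω * B
  set k := (Fintype.card Ω : ℝ) * (Fintype.card ι * B)
  have hlin : ∀ t y, |wVal b (c t) (A t) y| ≤ C + k * l1 y := fun t y => by
    refine (Lin.abs_wVal_le hb (A t) (c t) y).trans (add_le_add (add_le_add le_rfl ?_)
      (mul_le_mul_of_nonneg_right ?_ (l1_nonneg y)))
    · refine (sum_le_sum fun ω _ => (h.bc ω t).1).trans_eq ?_
      simp
    · refine (sum_le_sum fun ω _ => sum_le_sum fun i _ => (h.bA ω i t).1).trans_eq ?_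
      simp [k]
  have hC : 0 ≤ C := by positivity
  have hk : 0 ≤ k := by positivity
  refine ⟨⟨C + k + Fintype.card Ω * (B + B), 1, by positivity, zero_le_one, fun t _ =>
    ⟨(Lin.linGrowth_wVal hb _ _).1, continuous_wAvg_state hb _ _ ?_, fun y => ⟨?_, ?_, ?_⟩⟩⟩,
    C, k, hC, hk, fun t _ => hlin t⟩
  · simpa using continuous_ham' (c' t) (A' t) 0 1
  · refine ((HasDerivAt.fun_sum (u := (univ : Finset Ω)) fun ω _ => hasDerivAt_expo hb h y ω t).log
      (Lin.sum_pos' hb _).ne').congr_deriv ?_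
    rfl
  · refine (hlin t y).trans ((add_mul_le_exp hC hk (l1_nonneg y)).trans ?_)
    exact mul_le_mul_of_nonneg_right (le_add_of_nonneg_right (by positivity)) (Real.exp_pos _).le
  · refine (Lin.abs_wAvg_le hb _ _ _ y).trans ((sum_le_sum fun ω _ => (abs_ham'_le h t ω y).trans
      (add_mul_le_exp hB hB (l1_nonneg y))).trans ?_)
    rw [sum_const, card_univ, nsmul_eq_mul, ← mul_assoc]
    exact mul_le_mul_of_nonneg_right (le_add_of_nonneg_left (by positivity)) (Real.exp_pos _).le

include hb h in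
lemma fam_wAvg {f f' : ℝ → Ω → ℝ} {Bf : ℝ} (hf : ∀ ω t, HasDerivAt (fun t => f t ω) (f' t ω) t)
    (hBf : ∀ ω t, |f t ω| ≤ Bf ∧ |f' t ω| ≤ Bf) :
    Param.Fam (fun t => wAvg b (c t) (A t) (f t))
      (fun t y => wAvg b (c t) (A t) (fun ω => f' t ω + f t ω * ham' (c' t) (A' t) ω y) y -
        wAvg b (c t) (A t) (f t) y * curveDer b c c' A A' t y) 0 1 := by
  have hB := bound_nonneg h
  have hBf0 : 0 ≤ Bf := (abs_nonneg _).trans (hBf (Classical.arbitrary Ω) 0).1
  set n := (Fintype.card Ω : ℝ)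
  have hn : 0 ≤ n := Nat.cast_nonneg _
  have b0 : ∀ t y, |wAvg b (c t) (A t) (f t) y| ≤ n * Bf := fun t y =>
    (Lin.abs_wAvg_le hb _ _ _ y).trans ((sum_le_sum fun ω _ => (hBf ω t).1).trans_eq (by simp [n]))
  have b1 : ∀ t y, |curveDer b c c' A A' t y| ≤ n * (B + B * l1 y) := fun t y =>
    (Lin.abs_wAvg_le hb _ _ _ y).trans
      ((sum_le_sum fun ω _ => abs_ham'_le h t ω y).trans_eq (by simp [n]; ring))
  refine ⟨n * Bf + (n * Bf * (1 + B + B) + n * Bf * n * (B + B)), 1, by positivity, zero_le_one,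
    fun t _ => ⟨(Lin.tame_wAvg hb _ _ _).1, ?_, fun y => ⟨?_, ?_, ?_⟩⟩⟩
  · exact (continuous_wAvg_state hb _ _ (continuous_ham' (c' t) (A' t) (f' t) (f t))).sub
      ((Lin.tame_wAvg hb _ _ _).1.mul (continuous_wAvg_state hb _ _
        (by simpa using continuous_ham' (c' t) (A' t) 0 1)))
  · have hd := HasDerivAt.fun_sum (u := (univ : Finset Ω)) fun ω _ => hasDerivAt_expo hb h y ω t
    have hnum := HasDerivAt.fun_sum (u := (univ : Finset Ω)) fun ω _ =>
      (hasDerivAt_expo hb h y ω t).fun_mul (hf ω t)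
    have hp := (Lin.sum_pos' hb fun ω => c t ω + ∑ i, A t ω i * y i).ne'
    refine (hnum.fun_div hd hp).congr_deriv ?_
    simp only [curveDer, wAvg, mul_add, ← mul_assoc, sum_add_distrib,
      mul_right_comm _ (ham' (c' t) (A' t) _ y) (f t _)]
    field_simp
    ring
  · refine (b0 t y).trans ((le_mul_of_one_le_right (by positivity)
      (Real.one_le_exp (mul_nonneg zero_le_one (l1_nonneg y)))).trans ?_)
    exact mul_le_mul_of_nonneg_right (le_add_of_nonneg_right (by positivity)) (Real.exp_pos _).le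
  · set e := Real.exp (1 * l1 y)
    have he : 1 + l1 y ≤ e := by
      have := Real.add_one_le_exp (l1 y); simp only [e, one_mul]; linarith
    have := l1_nonneg y
    have t1 : |wAvg b (c t) (A t) (fun ω => f' t ω + f t ω * ham' (c' t) (A' t) ω y) y| ≤
        n * Bf * (1 + B + B) * e := by
      refine (Lin.abs_wAvg_le hb _ _ _ y).trans ((sum_le_sum fun ω _ =>
        (?_ : _ ≤ Bf * (1 + B + B) * e)).trans_eq (by simp [n]; ring))
      refine (abs_add_le _ _).trans ?_
      rw [abs_mul]
      have h1 := mul_le_mul (hBf ω t).1 (abs_ham'_le h t ω y) (abs_nonneg _) hBf0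
      have h2 := (hBf ω t).2
      calc _ ≤ Bf * (1 + B + B * l1 y) := by linarith
        _ ≤ Bf * (1 + B + B) * e := by
          rw [mul_assoc]
          refine mul_le_mul_of_nonneg_left ?_ hBf0
          nlinarith [mul_nonneg hB (sub_nonneg.2 he)]
    have t2 : |wAvg b (c t) (A t) (f t) y * curveDer b c c' A A' t y| ≤
        n * Bf * n * (B + B) * e := by
      rw [abs_mul]
      refine (mul_le_mul (b0 t y) (b1 t y) (abs_nonneg _) (by positivity)).trans ?_
      rw [mul_assoc (n * Bf) n, mul_assoc (n * Bf) (n * (B + B)), mul_assoc n (B + B)]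
      refine mul_le_mul_of_nonneg_left (mul_le_mul_of_nonneg_left ?_ hn) (by positivity)
      nlinarith [mul_nonneg hB (sub_nonneg.2 he)]
    refine (abs_sub _ _).trans ?_
    have : 0 ≤ n * Bf * e := by positivity
    linarith

lemma fam_mul {ι : Type} [Fintype ι] {f f' g g' : ℝ → (ι → ℝ) → ℝ} {t₀ r : ℝ}
    (hf : Param.Fam f f' t₀ r) (hg : Param.Fam g g' t₀ r) :
    Param.Fam (fun t y => f t y * g t y) (fun t y => f' t y * g t y + f t y * g' t y) t₀ r := by
  obtain ⟨C, k, hC, hk, h1⟩ := hf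
  obtain ⟨D, j, hD, hj, h2⟩ := hg
  refine ⟨2 * (C * D), k + j, by positivity, by positivity, fun t ht => ⟨(h1 t ht).1.mul (h2 t ht).1,
    ((h1 t ht).2.1.mul (h2 t ht).1).add ((h1 t ht).1.mul (h2 t ht).2.1), fun y => ?_⟩⟩
  obtain ⟨a1, a2, a3⟩ := (h1 t ht).2.2 y
  obtain ⟨c1, c2, c3⟩ := (h2 t ht).2.2 y
  have hm : ∀ {u w : ℝ}, |u| ≤ C * Real.exp (k * l1 y) → |w| ≤ D * Real.exp (j * l1 y) →
      |u * w| ≤ C * D * Real.exp ((k + j) * l1 y) := fun {u w} hu hw => by
    rw [abs_mul, add_mul, Real.exp_add, mul_mul_mul_comm]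
    exact mul_le_mul hu hw (abs_nonneg _) (by positivity)
  have h0 : 0 ≤ C * D * Real.exp ((k + j) * l1 y) := by positivity
  exact ⟨a1.mul c1, (hm a2 c2).trans (by linarith),
    (abs_add_le _ _).trans (by linarith [hm a3 c2, hm a2 c3])⟩

end curve

/-! ### The derivatives -/

section der

variable {ι Ω κ : Type} [Fintype ι] [Fintype κ] [MeasurableSpace Ω]

/-- The derivative of the node average of coordinate `i` along the rotation of `i` towards `k`. -/
noncomputable def dObs (N : Nest ι) (L : Leaf Ω κ ι) (μ : Measure Ω) (c : ℝ) (l : ℕ) (i k : ι)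
    (y : ι → ℝ) : ℝ :=
  N.down (L.logZ μ) l (oDer L μ c i k) y -
    N.x (l + 1) * (N.grad L μ l i y * N.down (L.logZ μ) l (hDer L μ c i k) y) -
    ∑ j ∈ Ioc l N.K, N.w j * chain N (L.logZ μ) l j
      (fun v => N.grad L μ j i v * N.down (L.logZ μ) j (hDer L μ c i k) v) y

/-- The derivative of the product of the node averages at level `l`. -/
noncomputable def lvlDer (N : Nest ι) (L : Leaf Ω κ ι) (μ : Measure Ω) (c : ℝ) (l : ℕ)
    (i k : ι) : ℝ :=
  N.mean (L.logZ μ) l (fun y => N.grad L μ l k y * dObs N L μ c l i k y) -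
    N.mean (L.logZ μ) l (fun y => N.grad L μ l i y * dObs N L μ (-c) l k i y) +
    N.x l * N.mean (L.logZ μ) l
      (fun y => N.grad L μ l i y * N.grad L μ l k y * N.down (L.logZ μ) l (hDer L μ c i k) y) -
    ∑ j ∈ range l, N.w j * N.mean (L.logZ μ) j (fun y => N.down (L.logZ μ) j (hDer L μ c i k) y *
      chain N (L.logZ μ) j l (fun v => N.grad L μ l i v * N.grad L μ l k v) y)

/-- The derivative of the mean product at the leaf. -/
noncomputable def topDer (N : Nest ι) (L : Leaf Ω κ ι) (μ : Measure Ω) (c : ℝ) (i k : ι) : ℝ :=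
  N.mean (L.logZ μ) N.K (pDer L μ c i k) -
    ∑ j ∈ range (N.K + 1), N.w j * N.mean (L.logZ μ) j
      (fun y => two N L μ j i k y * N.down (L.logZ μ) j (hDer L μ c i k) y)

end der

/-! ### The glass -/

section glass

variable {N : ℕ} (K : ℕ) (lam : Fin N → ℝ) (S V : ℕ → Fin N → ℝ)

/-- The coefficients of the derivative of the rotated spins. -/
noncomputable def rotA' (p q : Fin N) (U : ON N) (σ : Fin N → Bool) : FIdx N → ℝ :=
  Sum.elim (fun _ => 0)
    (fun r => if r = p then rotSpin U σ q else if r = q then -rotSpin U σ p else 0)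

/-- The derivative of the exponent. -/
noncomputable def rotC' (p q : Fin N) (U : ON N) (σ : Fin N → Bool) : ℝ :=
  (lam p - lam q) * (rotSpin U σ p * rotSpin U σ q)

variable {p q : Fin N} (hpq : p ≠ q) (U : ON N)

lemma hasDerivAt_rotSpin (σ : Fin N → Bool) (r : Fin N) (t : ℝ) :
    HasDerivAt (fun t => rotSpin (rotON hpq t * U) σ r)
      (rotA' p q (rotON hpq t * U) σ (Sum.inr r)) t := by
  set z := rotSpin U σ
  have e : ∀ t r, rotSpin (rotON hpq t * U) σ r = if r = p then Real.cos t * z p + Real.sin t * z q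
      else if r = q then -(Real.sin t * z p) + Real.cos t * z q else z r := by
    intro t r
    simp only [z, rotSpin, coe_rotON_mul, Matrix.mulVec, dotProduct, rotM, Matrix.of_apply]
    split_ifs <;>
      simp only [add_mul, neg_mul, mul_assoc, sum_add_distrib, ← mul_sum, sum_neg_distrib]
  rw [show (fun t => rotSpin (rotON hpq t * U) σ r) = _ from funext fun t => e t r]
  simp only [rotA', Sum.elim_inr, e, if_true, hpq.symm, if_false]
  by_cases h1 : r = p
  · simp only [h1, if_true]
    exact ((Real.hasDerivAt_cos t).mul_const _).fun_add ((Real.hasDerivAt_sin t).mul_const _)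
      |>.congr_deriv (by ring)
  · by_cases h2 : r = q
    · simp only [h2, hpq.symm, if_true, if_false]
      exact ((Real.hasDerivAt_sin t).mul_const _).fun_neg.fun_add
        ((Real.hasDerivAt_cos t).mul_const _) |>.congr_deriv (by ring)
    · simp only [h1, h2, if_false]
      exact hasDerivAt_const t _

/-- The bound of the curve of rotated systems. -/
noncomputable def rotB : ℝ := (1 + 2 * ∑ r, |lam r|) * ((N : ℝ) + 1) ^ 2

lemma curve_rot : Curve (fun t => gC lam (rotON hpq t * U)) (fun t => rotC' lam p q (rotON hpq t * U))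
    (fun t => gA (rotON hpq t * U)) (fun t => rotA' p q (rotON hpq t * U)) (rotB lam) := by
  have hs := hasDerivAt_rotSpin hpq U
  set s := ∑ r, |lam r|
  have hs0 : 0 ≤ s := sum_nonneg fun _ _ => abs_nonneg _
  set m := (N : ℝ) + 1
  have hm : 1 ≤ m := by simp [m]
  have hmB : m ≤ rotB lam := by
    rw [rotB]; nlinarith [sq_nonneg m, mul_nonneg hs0 (sq_nonneg m)]
  have hB : 2 * (s * m ^ 2) ≤ rotB lam := by rw [rotB]; nlinarith [sq_nonneg m]
  have hl : ∀ r, |lam r| ≤ s := fun r =>
    single_le_sum (f := fun r => |lam r|) (fun _ _ => abs_nonneg _) (mem_univ r)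
  refine ⟨fun σ t => ?_, fun σ i t => ?_, fun σ t => ⟨?_, ?_⟩, fun σ i t => ?_⟩
  · have h := (HasDerivAt.fun_sum (u := (univ : Finset (Fin N))) fun r _ =>
      ((hs σ r t).fun_pow 2).const_mul (lam r)).const_mul (1 / 2 : ℝ)
    refine h.congr_deriv ?_
    simp only [rotA', Sum.elim_inr, rotC']
    rw [Fintype.sum_eq_add p q hpq fun r hr => by simp [hr.1, hr.2]]
    simp only [if_true, hpq.symm, if_false]
    ring
  · rcases i with i | r
    · exact hasDerivAt_const t _
    · exact hs σ r t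
  · set z := rotSpin (rotON hpq t * U) σ
    show |1 / 2 * ∑ r, lam r * z r ^ 2| ≤ _
    rw [abs_mul, abs_of_pos (by norm_num : (0 : ℝ) < 1 / 2)]
    have h1 : |∑ r, lam r * z r ^ 2| ≤ s * m ^ 2 := by
      refine (abs_sum_le_sum_abs _ _).trans ?_
      rw [sum_mul]
      exact sum_le_sum fun r _ => by
        rw [abs_mul, abs_pow]
        exact mul_le_mul_of_nonneg_left
          (pow_le_pow_left₀ (abs_nonneg _) (Lin.abs_rotSpin_le _ σ r) 2) (abs_nonneg _)
    linarith [mul_nonneg hs0 (sq_nonneg m)]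
  · refine le_trans ?_ hB
    rw [rotC', abs_mul, abs_mul, ← mul_assoc 2 s, sq m]
    exact mul_le_mul ((abs_sub _ _).trans (by linarith [hl p, hl q]))
      (mul_le_mul (Lin.abs_rotSpin_le _ σ p) (Lin.abs_rotSpin_le _ σ q) (abs_nonneg _)
        (by positivity)) (by positivity) (by positivity)
  · rcases i with i | r
    · simp only [gA, rotA', Sum.elim_inl, Lin.abs_spin_le, abs_zero]
      exact ⟨hm.trans hmB, le_trans (zero_le_one.trans hm) hmB⟩
    · refine ⟨(Lin.abs_rotSpin_le _ σ r).trans hmB, ?_⟩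
      simp only [rotA', Sum.elim_inr]
      split_ifs
      · exact (Lin.abs_rotSpin_le _ σ q).trans hmB
      · rw [abs_neg]; exact (Lin.abs_rotSpin_le _ σ p).trans hmB
      · simpa using le_trans (zero_le_one.trans hm) hmB

lemma ham_rot (p q : Fin N) (h : p ≠ q) (W : ON N) (σ : Fin N → Bool) (y : FIdx N → ℝ) :
    ham' (rotC' lam p q W) (rotA' p q W) σ y = (lam p - lam q) * (rotSpin W σ p * rotSpin W σ q) +
      (y (Sum.inr p) * rotSpin W σ q - y (Sum.inr q) * rotSpin W σ p) := by
  simp only [ham', rotC', rotA', Fintype.sum_sum_type, Sum.elim_inl, zero_mul, sum_const_zero,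
    zero_add, Sum.elim_inr]
  rw [Fintype.sum_eq_add p q h fun r hr => by simp [hr.1, hr.2]]
  simp only [if_true, h.symm, if_false]
  ring

lemma gibbs_eq (f : (Fin N → Bool) → ℝ) (y : FIdx N → ℝ) :
    (glassLeaf U).gibbs (quadLaw lam U) (fun σ _ => f σ) y =
      wAvg (gB N) (gC lam U) (gA U) f y := by
  rw [Lin.glassLeaf_eq, Lin.quadLaw_eq]
  exact Lin.gibbs_wLaw Lin.gB_pos _ _ (fun σ _ => f σ) y

lemma vec_eq (i : FIdx N) : (glassLeaf U).vec i = fun σ _ => gA U σ i :=
  funext fun σ => funext fun y => by rw [Lin.glassLeaf_eq, Lin.vec_linLeaf]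

lemma wAvg_lin {Ω ι : Type} [Fintype Ω] [Fintype ι] [Nonempty Ω] {b c : Ω → ℝ}
    (A : Ω → ι → ℝ) (f g : Ω → ℝ) (r : ℝ) (y : ι → ℝ) :
    wAvg b c A (fun ω => f ω + g ω) y = wAvg b c A f y + wAvg b c A g y ∧
      wAvg b c A (fun ω => r * f ω) y = r * wAvg b c A f y := by
  simp only [wAvg, mul_add, sum_add_distrib, add_div, mul_left_comm _ r, ← mul_sum, mul_div_assoc]
  exact ⟨trivial, trivial⟩

/-- The three mean derivatives at the leaf. -/
lemma kernels (h : p ≠ q) (W : ON N) (y : FIdx N → ℝ) :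
    wAvg (gB N) (gC lam W) (gA W) (fun σ => ham' (rotC' lam p q W) (rotA' p q W) σ y) y =
        hDer (glassLeaf W) (quadLaw lam W) (lam p - lam q) (Sum.inr p) (Sum.inr q) y ∧
      wAvg (gB N) (gC lam W) (gA W) (fun σ => rotA' p q W σ (Sum.inr p) +
          gA W σ (Sum.inr p) * ham' (rotC' lam p q W) (rotA' p q W) σ y) y =
        oDer (glassLeaf W) (quadLaw lam W) (lam p - lam q) (Sum.inr p) (Sum.inr q) y ∧
      wAvg (gB N) (gC lam W) (gA W) (fun σ => rotA' p q W σ (Sum.inr q) +
          gA W σ (Sum.inr q) * ham' (rotC' lam p q W) (rotA' p q W) σ y) y =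
        -oDer (glassLeaf W) (quadLaw lam W) (-(lam p - lam q)) (Sum.inr q) (Sum.inr p) y ∧
      wAvg (gB N) (gC lam W) (gA W) (fun σ => rotA' p q W σ (Sum.inr p) * gA W σ (Sum.inr q) +
          gA W σ (Sum.inr p) * rotA' p q W σ (Sum.inr q) +
          gA W σ (Sum.inr p) * gA W σ (Sum.inr q) * ham' (rotC' lam p q W) (rotA' p q W) σ y) y =
        pDer (glassLeaf W) (quadLaw lam W) (lam p - lam q) (Sum.inr p) (Sum.inr q) y := by
  have ep : ∀ σ, rotA' p q W σ (Sum.inr p) = rotSpin W σ q := fun σ => by simp [rotA']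
  have eq : ∀ σ, rotA' p q W σ (Sum.inr q) = -rotSpin W σ p := fun σ => by simp [rotA', h.symm]
  have ev : ∀ σ r, gA W σ (Sum.inr r) = rotSpin W σ r := fun σ r => rfl
  simp only [hDer, oDer, pDer, lprod, fPart, vec_eq, gibbs_eq, ham_rot lam p q h, ep, eq, ev]
  simp only [wAvg, sub_eq_add_neg, neg_add_rev, neg_neg, mul_div_assoc', ← neg_div, ← add_div,
    mul_sum, ← sum_neg_distrib, ← sum_add_distrib]
  refine ⟨?_, ?_, ?_, ?_⟩ <;> congr 1 <;> exact sum_congr rfl fun σ _ => by ring

lemma chain_logZ (l j : ℕ) (h : l ≤ j) (hj : j ≤ K + 1) (f : (FIdx N → ℝ) → ℝ) :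
    chain (glassNest K S V) (wVal (gB N) (gC lam U) (gA U)) l j f =
      chain (glassNest K S V) ((glassLeaf U).logZ (quadLaw lam U)) l j f := by
  rw [Lin.glassLeaf_eq, Lin.quadLaw_eq]
  refine down_ind (P := fun l => chain (glassNest K S V) (wVal (gB N) (gC lam U) (gA U)) l j f =
    chain (glassNest K S V) ((linLeaf (gA U)).logZ (wLaw (gB N) (gC lam U))) l j f) ?_
    (fun m hm ih => ?_) h
  · rw [chain_self, chain_self]
  · rw [chain_succ hm, chain_succ hm, ih]
    exact Lin.avg_logZ Lin.gB_pos (glassNest_good K S V) _ _ (show m < K + 1 by omega) _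

lemma mean_logZ' {l : ℕ} (hl : l ≤ K + 1) (f : (FIdx N → ℝ) → ℝ) :
    (glassNest K S V).mean (wVal (gB N) (gC lam U) (gA U)) l f =
      (glassNest K S V).mean ((glassLeaf U).logZ (quadLaw lam U)) l f := by
  rw [Lin.glassLeaf_eq, Lin.quadLaw_eq]
  exact Lin.mean_logZ Lin.gB_pos (glassNest_good K S V) _ _
    (show l ≤ (glassNest K S V).K from hl) f

lemma down_logZ' {l : ℕ} (hl : l ≤ K + 1) (f : (FIdx N → ℝ) → ℝ) :
    (glassNest K S V).down (wVal (gB N) (gC lam U) (gA U)) l f =
      (glassNest K S V).down ((glassLeaf U).logZ (quadLaw lam U)) l f := by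
  rw [Lin.glassLeaf_eq, Lin.quadLaw_eq]
  exact Lin.down_logZ Lin.gB_pos (glassNest_good K S V) _ _
    (show l ≤ (glassNest K S V).K from hl) f

lemma grad_eq' {l : ℕ} (hl : l ≤ K + 1) (i : FIdx N) :
    (glassNest K S V).down (wVal (gB N) (gC lam U) (gA U)) l
        (wAvg (gB N) (gC lam U) (gA U) fun σ => gA U σ i) =
      (glassNest K S V).grad (glassLeaf U) (quadLaw lam U) l i := by
  rw [Lin.glassLeaf_eq, Lin.quadLaw_eq]
  exact (Lin.grad_wLaw Lin.gB_pos (glassNest_good K S V) _ _
    (show l ≤ (glassNest K S V).K from hl) i).symm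

lemma grad_eq'' {l : ℕ} (hl : l ≤ K + 1) (i : FIdx N) :
    (glassNest K S V).down ((glassLeaf U).logZ (quadLaw lam U)) l
        (wAvg (gB N) (gC lam U) (gA U) fun σ => gA U σ i) =
      (glassNest K S V).grad (glassLeaf U) (quadLaw lam U) l i := by
  rw [← down_logZ' K lam S V U hl, grad_eq' K lam S V U hl]

/-- The product of the node averages of two rotated spins at level `l`. -/
noncomputable def lvlObs (l : ℕ) (p q : Fin N) (U : ON N) : ℝ :=
  (glassNest K S V).mean ((glassLeaf U).logZ (quadLaw lam U)) l fun y =>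
    (glassNest K S V).grad (glassLeaf U) (quadLaw lam U) l (Sum.inr p) y *
      (glassNest K S V).grad (glassLeaf U) (quadLaw lam U) l (Sum.inr q) y

/-- The mean product of two rotated spins. -/
noncomputable def topObs (p q : Fin N) (U : ON N) : ℝ :=
  (glassNest K S V).mean ((glassLeaf U).logZ (quadLaw lam U)) (K + 1)
    (lprod (glassLeaf U) (quadLaw lam U) (Sum.inr p) (Sum.inr q))

theorem hasDerivAt_lvlObs (hpq : p ≠ q) (U : ON N) {l : ℕ} (hl : l ≤ K + 1) :
    HasDerivAt (fun t => lvlObs K lam S V l p q (rotON hpq t * U))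
      (lvlDer (glassNest K S V) (glassLeaf U) (quadLaw lam U) (lam p - lam q) l
        (Sum.inr p) (Sum.inr q)) 0 := by
  have hN : (glassNest K S V).Good := glassNest_good K S V
  have hl' : l ≤ (glassNest K S V).K := hl
  have hC := curve_rot lam hpq U
  have htop : (glassNest K S V).x ((glassNest K S V).K + 1) = 1 := hN.x_last
  have hW0 : rotON hpq 0 * U = U := by simp [rotON_zero]
  have hV := lfam_curve (b := gB N) Lin.gB_pos hC
  have hcoef : ∀ r, ∀ σ t, |gA (rotON hpq t * U) σ (Sum.inr r)| ≤ rotB lam ∧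
      |rotA' p q (rotON hpq t * U) σ (Sum.inr r)| ≤ rotB lam := fun r σ t => hC.bA σ (Sum.inr r) t
  have hp' := fam_wAvg (b := gB N) Lin.gB_pos hC (f := fun t σ => gA (rotON hpq t * U) σ (Sum.inr p))
    (f' := fun t σ => rotA' p q (rotON hpq t * U) σ (Sum.inr p)) (fun σ t => hC.hA σ (Sum.inr p) t)
    (fun σ t => hcoef p σ t)
  have hq' := fam_wAvg (b := gB N) Lin.gB_pos hC (f := fun t σ => gA (rotON hpq t * U) σ (Sum.inr q))
    (f' := fun t σ => rotA' p q (rotON hpq t * U) σ (Sum.inr q)) (fun σ t => hC.hA σ (Sum.inr q) t)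
    (fun σ t => hcoef q σ t)
  obtain ⟨Dp, hDp, eDp⟩ := fam_down hN htop hV hp' (fun t y => rfl) hl'
  obtain ⟨Dq, hDq, eDq⟩ := fam_down hN htop hV hq' (fun t y => rfl) hl'
  have hm := Param.hasDerivAt_mean hN one_pos hV hl' (fam_mul hDp hDq)
  refine (hm.congr_deriv ?_).congr_of_eventuallyEq (.of_forall fun t => ?_)
  swap
  · simp only [lvlObs, ← grad_eq' K lam S V _ hl, ← mean_logZ' K lam S V _ hl]
  have h0 : |(0 : ℝ) - 0| < 1 := by simp
  have kp : (fun y => wAvg (gB N) (gC lam U) (gA U) (fun σ => rotA' p q U σ (Sum.inr p) +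
      gA U σ (Sum.inr p) * ham' (rotC' lam p q U) (rotA' p q U) σ y) y) =
      oDer (glassLeaf U) (quadLaw lam U) (lam p - lam q) (Sum.inr p) (Sum.inr q) :=
    funext fun y => (kernels lam hpq U y).2.1
  have kq : (fun y => wAvg (gB N) (gC lam U) (gA U) (fun σ => rotA' p q U σ (Sum.inr q) +
      gA U σ (Sum.inr q) * ham' (rotC' lam p q U) (rotA' p q U) σ y) y) =
      fun y => (-1) * oDer (glassLeaf U) (quadLaw lam U) (-(lam p - lam q)) (Sum.inr q) (Sum.inr p) y :=
    funext fun y => by rw [(kernels lam hpq U y).2.2.1, neg_one_mul]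
  have kh : curveDer (gB N) (fun t => gC lam (rotON hpq t * U)) (fun t => rotC' lam p q (rotON hpq t * U))
      (fun t => gA (rotON hpq t * U)) (fun t => rotA' p q (rotON hpq t * U)) 0 =
      hDer (glassLeaf U) (quadLaw lam U) (lam p - lam q) (Sum.inr p) (Sum.inr q) := by
    funext y; simp only [curveDer, hW0]; exact (kernels lam hpq U y).1
  have hq2 : hDer (glassLeaf U) (quadLaw lam U) (-(lam p - lam q)) (Sum.inr q) (Sum.inr p) =
      fun y => (-1) * hDer (glassLeaf U) (quadLaw lam U) (lam p - lam q) (Sum.inr p) (Sum.inr q) y := by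
    funext y
    simp only [hDer, fPart, lprod, mul_comm ((glassLeaf U).vec (Sum.inr q) _ _)]
    ring
  set c := lam p - lam q
  have hprob := quadLaw_prob lam U
  have hL := glassLeaf_good U
  have hR := reg (μ := quadLaw lam U) hN hL
  have eh : ∀ j, j ≤ K + 1 → (glassNest K S V).down ((glassLeaf U).logZ (quadLaw lam U)) j
      (hDer (glassLeaf U) (quadLaw lam U) (-c) (Sum.inr q) (Sum.inr p)) = fun y => (-1) *
        (glassNest K S V).down ((glassLeaf U).logZ (quadLaw lam U)) j
          (hDer (glassLeaf U) (quadLaw lam U) c (Sum.inr p) (Sum.inr q)) y := fun j hj => by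
    funext y
    rw [hq2, down_eq_chain (show j ≤ (glassNest K S V).K from hj), chain_mul (show j ≤ (glassNest K S V).K from hj),
      ← down_eq_chain (show j ≤ (glassNest K S V).K from hj)]
  have gp : Dp 0 = dObs (glassNest K S V) (glassLeaf U) (quadLaw lam U) c l (Sum.inr p) (Sum.inr q) := by
    funext y
    rw [eDp 0 h0 y]
    simp only [hW0, kp, kh, dObs, down_logZ' K lam S V U hl, ← grad_eq'' K lam S V U hl]
    refine congrArg₂ _ rfl (sum_congr rfl fun j hj => ?_)
    obtain ⟨hj1, hj2⟩ := mem_Ioc.1 hj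
    simp only [← grad_eq'' K lam S V U hj2, down_logZ' K lam S V U hj2,
      chain_logZ K lam S V U l j hj1.le hj2]
  have gq : Dq 0 = fun y =>
      (-1) * dObs (glassNest K S V) (glassLeaf U) (quadLaw lam U) (-c) l (Sum.inr q) (Sum.inr p) y := by
    funext y
    rw [eDq 0 h0 y]
    simp only [hW0, kq, kh, dObs, down_logZ' K lam S V U hl, ← grad_eq'' K lam S V U hl, eh l hl]
    rw [down_eq_chain hl' (fun v => (-1) * oDer _ _ _ _ _ v), chain_mul hl', ← down_eq_chain hl',
      mul_sub, mul_sub, mul_sum]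
    refine congrArg₂ _ (by ring) (sum_congr rfl fun j hj => ?_)
    obtain ⟨hj1, hj2⟩ := mem_Ioc.1 hj
    simp only [← grad_eq'' K lam S V U hj2, down_logZ' K lam S V U hj2, eh j hj2,
      chain_logZ K lam S V U l j hj1.le hj2]
    simp only [mul_left_comm _ (-1 : ℝ)]
    rw [chain_mul hj1.le]
    ring
  simp only [hW0, kh, gp, gq, mean_logZ' K lam S V U hl, down_logZ' K lam S V U hl,
    grad_eq'' K lam S V U hl, lvlDer]
  have tg : ∀ r, Tame ((glassNest K S V).grad (glassLeaf U) (quadLaw lam U) l (Sum.inr r)) := fun r =>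
    grad_tame hN hL hl' _
  have td : Tame (dObs (glassNest K S V) (glassLeaf U) (quadLaw lam U) c l (Sum.inr p) (Sum.inr q)) := by
    rw [← gp]; exact (hDp.tame h0).2
  have td' : Tame fun y => (-1) * dObs (glassNest K S V) (glassLeaf U) (quadLaw lam U) (-c) l (Sum.inr q) (Sum.inr p) y := by
    rw [← gq]; exact (hDq.tame h0).2
  rw [mean_add'' hR hl' (td.mul (tg q)) ((tg p).mul td')]
  have e1 : (fun v => dObs (glassNest K S V) (glassLeaf U) (quadLaw lam U) c l (Sum.inr p) (Sum.inr q) v *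
      (glassNest K S V).grad (glassLeaf U) (quadLaw lam U) l (Sum.inr q) v) = fun v =>
      (glassNest K S V).grad (glassLeaf U) (quadLaw lam U) l (Sum.inr q) v *
        dObs (glassNest K S V) (glassLeaf U) (quadLaw lam U) c l (Sum.inr p) (Sum.inr q) v :=
    funext fun v => mul_comm _ _
  rw [e1]
  simp only [mul_left_comm _ (-1 : ℝ), mean_mul'']
  refine congrArg₂ _ (by ring) (sum_congr rfl fun j hj => ?_)
  have hjl : j ≤ l := (mem_range.1 hj).le
  congr 1
  rw [mean_logZ' K lam S V U (hjl.trans hl), down_logZ' K lam S V U (hjl.trans hl),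
    ← chain_logZ K lam S V U j l hjl hl]
  rfl

theorem hasDerivAt_topObs (hpq : p ≠ q) (U : ON N) :
    HasDerivAt (fun t => topObs K lam S V p q (rotON hpq t * U))
      (topDer (glassNest K S V) (glassLeaf U) (quadLaw lam U) (lam p - lam q)
        (Sum.inr p) (Sum.inr q)) 0 := by
  have hN : (glassNest K S V).Good := glassNest_good K S V
  have hC := curve_rot lam hpq U
  have htop : (glassNest K S V).x ((glassNest K S V).K + 1) = 1 := hN.x_last
  have hW0 : rotON hpq 0 * U = U := by simp [rotON_zero]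
  have hV := lfam_curve (b := gB N) Lin.gB_pos hC
  have hB := bound_nonneg hC
  have hf := fam_wAvg (b := gB N) Lin.gB_pos hC
    (f := fun t σ => gA (rotON hpq t * U) σ (Sum.inr p) * gA (rotON hpq t * U) σ (Sum.inr q))
    (f' := fun t σ => rotA' p q (rotON hpq t * U) σ (Sum.inr p) * gA (rotON hpq t * U) σ (Sum.inr q) +
      gA (rotON hpq t * U) σ (Sum.inr p) * rotA' p q (rotON hpq t * U) σ (Sum.inr q)) (Bf := 2 * (rotB lam * rotB lam))
    (fun σ t => (hC.hA σ (Sum.inr p) t).fun_mul (hC.hA σ (Sum.inr q) t))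
    (fun σ t => by
      obtain ⟨a1, a2⟩ := hC.bA σ (Sum.inr p) t
      obtain ⟨c1, c2⟩ := hC.bA σ (Sum.inr q) t
      have m1 := mul_le_mul a1 c1 (abs_nonneg _) hB
      have m2 := mul_le_mul a2 c1 (abs_nonneg _) hB
      have m3 := mul_le_mul a1 c2 (abs_nonneg _) hB
      rw [← abs_mul] at m1 m2 m3
      exact ⟨m1.trans (by nlinarith), (abs_add_le _ _).trans (by linarith)⟩)
  obtain ⟨D, hD, eD⟩ := fam_down hN htop hV hf (fun t y => rfl) (Nat.zero_le (glassNest K S V).K)
  have hm := Param.hasDerivAt_mean hN one_pos hV (Nat.zero_le (glassNest K S V).K) hD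
  refine (hm.congr_deriv ?_).congr_of_eventuallyEq (.of_forall fun t => ?_)
  swap
  · show topObs K lam S V p q (rotON hpq t * U) = _
    rw [topObs, ← mean_logZ' K lam S V _ le_rfl]
    beta_reduce
    rw [
      mean_down (N := (glassNest K S V)) (Nat.zero_le _)]
    congr 1
    funext y
    rw [lprod, vec_eq, vec_eq, gibbs_eq]
  have h0 : |(0 : ℝ) - 0| < 1 := by simp
  have kk : (fun y => wAvg (gB N) (gC lam U) (gA U) (fun σ =>
      rotA' p q U σ (Sum.inr p) * gA U σ (Sum.inr q) +
        gA U σ (Sum.inr p) * rotA' p q U σ (Sum.inr q) +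
        gA U σ (Sum.inr p) * gA U σ (Sum.inr q) * ham' (rotC' lam p q U) (rotA' p q U) σ y) y) =
      pDer (glassLeaf U) (quadLaw lam U) (lam p - lam q) (Sum.inr p) (Sum.inr q) :=
    funext fun y => (kernels lam hpq U y).2.2.2
  have kh : curveDer (gB N) (fun t => gC lam (rotON hpq t * U)) (fun t => rotC' lam p q (rotON hpq t * U))
      (fun t => gA (rotON hpq t * U)) (fun t => rotA' p q (rotON hpq t * U)) 0 =
      hDer (glassLeaf U) (quadLaw lam U) (lam p - lam q) (Sum.inr p) (Sum.inr q) := by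
    funext y; simp only [curveDer, hW0]; exact (kernels lam hpq U y).1
  have e2 : wAvg (gB N) (gC lam U) (gA U)
      (fun σ => gA U σ (Sum.inr p) * gA U σ (Sum.inr q)) =
      lprod (glassLeaf U) (quadLaw lam U) (Sum.inr p) (Sum.inr q) := by
    funext y; rw [lprod, vec_eq, vec_eq, gibbs_eq]
  set c := lam p - lam q
  have hprob := quadLaw_prob lam U
  have hL := glassLeaf_good U
  have hR := reg (μ := quadLaw lam U) hN hL
  have e : D 0 = fun y => (glassNest K S V).down ((glassLeaf U).logZ (quadLaw lam U)) 0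
        (pDer (glassLeaf U) (quadLaw lam U) c (Sum.inr p) (Sum.inr q)) y + (-1) *
      ∑ j ∈ range ((glassNest K S V).K + 1), (glassNest K S V).w j * chain (glassNest K S V) ((glassLeaf U).logZ (quadLaw lam U)) 0 j
        (fun v => two (glassNest K S V) (glassLeaf U) (quadLaw lam U) j (Sum.inr p) (Sum.inr q) v *
          (glassNest K S V).down ((glassLeaf U).logZ (quadLaw lam U)) j
            (hDer (glassLeaf U) (quadLaw lam U) c (Sum.inr p) (Sum.inr q)) v) y := by
    funext y
    have hins : range ((glassNest K S V).K + 1) = insert 0 (Ioc 0 (glassNest K S V).K) := by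
      ext j; simp only [mem_range, mem_insert, mem_Ioc]; omega
    rw [eD 0 h0 y, hins, sum_insert (by simp), chain_self,
      show (glassNest K S V).w 0 = (glassNest K S V).x (0 + 1) by rw [Nest.w, hN.x_zero, sub_zero]]
    simp only [hW0, kk, kh, e2, down_logZ' K lam S V U (Nat.zero_le (K + 1))]
    have es : ∀ j ∈ Ioc 0 (glassNest K S V).K, (glassNest K S V).w j * chain (glassNest K S V) (wVal (gB N) (gC lam U) (gA U)) 0 j
        (fun v => (glassNest K S V).down (wVal (gB N) (gC lam U) (gA U)) j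
            (lprod (glassLeaf U) (quadLaw lam U) (Sum.inr p) (Sum.inr q)) v *
          (glassNest K S V).down (wVal (gB N) (gC lam U) (gA U)) j
            (hDer (glassLeaf U) (quadLaw lam U) c (Sum.inr p) (Sum.inr q)) v) y =
        (glassNest K S V).w j * chain (glassNest K S V) ((glassLeaf U).logZ (quadLaw lam U)) 0 j
          (fun v => two (glassNest K S V) (glassLeaf U) (quadLaw lam U) j (Sum.inr p) (Sum.inr q) v *
            (glassNest K S V).down ((glassLeaf U).logZ (quadLaw lam U)) j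
              (hDer (glassLeaf U) (quadLaw lam U) c (Sum.inr p) (Sum.inr q)) v) y := fun j hj => by
      simp only [down_logZ' K lam S V U (mem_Ioc.1 hj).2,
        chain_logZ K lam S V U 0 j (Nat.zero_le _) (mem_Ioc.1 hj).2]
      rfl
    rw [sum_congr rfl es]
    simp only [two, Nest.node]
    change _ = _ + (-1) * (_ * ((glassNest K S V).down _ 0 (lprod (glassLeaf U) (quadLaw lam U) _ _) y * _) + _)
    ring
  simp only [hN.x_zero, zero_mul, add_zero, range_zero, sum_empty, sub_zero, hW0,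
    mean_logZ' K lam S V U (Nat.zero_le (K + 1))]
  have ts : ∀ j ∈ range ((glassNest K S V).K + 1), Tame fun y => (glassNest K S V).w j *
      chain (glassNest K S V) ((glassLeaf U).logZ (quadLaw lam U)) 0 j (fun v =>
        two (glassNest K S V) (glassLeaf U) (quadLaw lam U) j (Sum.inr p) (Sum.inr q) v *
          (glassNest K S V).down ((glassLeaf U).logZ (quadLaw lam U)) j
            (hDer (glassLeaf U) (quadLaw lam U) c (Sum.inr p) (Sum.inr q)) v) y := fun j hj => by
    have hj' : j ≤ (glassNest K S V).K := Nat.lt_succ_iff.1 (mem_range.1 hj)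
    exact (chain_tame hR (Nat.zero_le _) ((two_tame hN hL hj' _ _).mul
      (down_tame' hR hj' (hDer_tame hN hL c _ _)))).const_mul _
  rw [e, mean_add'' hR (Nat.zero_le _) (down_tame' hR (Nat.zero_le _) (pDer_tame hN hL c _ _))
    ((tame_sum _ ts).const_mul _), mean_mul'', mean_sum'' hR (Nat.zero_le _) _ ts, topDer,
    mean_down (Nat.zero_le _), neg_one_mul, ← sub_eq_add_neg]
  refine congrArg₂ _ rfl (sum_congr rfl fun j hj => ?_)
  rw [mean_mul'', mean_chain (Nat.zero_le _)]

/-- The integral over the group of a derivative along a rotation vanishes. -/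
theorem integral_rot_eq_zero {F F' : ON N → ℝ} (hpq : p ≠ q) (hF : Continuous F)
    (hF' : Continuous F') (hd : ∀ U, HasDerivAt (fun t => F (rotON hpq t * U)) (F' U) 0) :
    ∫ U, F' U ∂haarON N = 0 := by
  obtain ⟨C₀, hC⟩ := isCompact_univ.exists_bound_of_continuousOn hF'.continuousOn
  have hc : ∀ t, Continuous fun U : ON N => rotON hpq t * U := fun t => continuous_const_mul _
  have hat : ∀ (U : ON N) t, HasDerivAt (fun t => F (rotON hpq t * U)) (F' (rotON hpq t * U)) t := by
    intro U t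
    have h1 := hd (rotON hpq t * U)
    simp only [← mul_assoc, ← rotON_add] at h1
    rw [← sub_self t] at h1
    simpa using h1.comp_sub_const t t
  have h := (hasDerivAt_integral_of_dominated_loc_of_deriv_le
    (F := fun t U => F (rotON hpq t * U)) (x₀ := (0 : ℝ))
    (F' := fun t U => F' (rotON hpq t * U)) (bound := fun _ => C₀) (μ := haarON N) Filter.univ_mem
    (Filter.Eventually.of_forall fun t => (hF.comp (hc t)).aestronglyMeasurable)
    (integrable_of_cont' (hF.comp (hc 0)))
    ((hF'.comp (hc 0)).aestronglyMeasurable)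
    (Filter.Eventually.of_forall fun U t _ => hC _ (Set.mem_univ _))
    (integrable_const C₀)
    (Filter.Eventually.of_forall fun U t _ => hat U t)).2
  simp only [integral_mul_left_eq_self, rotON_zero, one_mul] at h
  exact h.unique (hasDerivAt_const (0 : ℝ) _)

end glass

end Vale.Agent.P166.Parisi.Loop
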