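import Vale.Agent.P166.Parisi.Sys
import Vale.Agent.P166.Parisi.Spec.Exact
import Vale.Agent.P157.Parisi.BoxAvg
import Vale.Agent.P157.Parisi.CalcBasic

/-!
Module L2: the overlaps of the atoms are the exact solution of the loop equations for their total.
-/

namespace Vale.Agent.P166.Parisi

open MeasureTheory ProbabilityTheory Finset Filter Topology
open Vale.Agent.P157.Parisi

namespace LoopSolve

open SMat

/-! ### The exact solution -/

lemma gridOf_eq (K : ℕ) : gridOf K = uGrid K := rfl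

lemma exactMat_eqv {γ : Type} [Fintype γ] (A : Atoms γ) (K : ℕ) (q : ℕ → ℝ) (r : γ) :
    Eqv (gridOf K) (exactMat A K q r)
      (smul (A.p r) (A.exact (gridOf K) (pathMat q) r)) := by
  refine eqv_of_eig _ ?_ fun l hl => ?_
  · simp only [exactMat, smul, A.q_exact_zero, mul_div_cancel₀ _ (A.pos r).ne']
    simp [ofEig, eigPath, pathMat]
  · rw [exactMat, eig_ofEig _ _ _ hl, eig_smul, A.eig_exact _ _ _ hl,
      mul_div_cancel₀ _ (A.pos r).ne']
    rfl

lemma eig_nonneg_le (g : Grid) (X : SMat) (h0 : 0 ≤ X.q 0)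
    (hmono : ∀ l < g.K, X.q l ≤ X.q (l + 1)) (hd : X.q g.K ≤ X.d) :
    var g X = X.q g.K ∧ ∀ l ≤ g.K, 0 ≤ eig g X l ∧ eig g X l ≤ X.d := by
  have hq0 : ∀ l ≤ g.K, 0 ≤ X.q l := by
    intro l
    induction l with
    | zero => exact fun _ => h0
    | succ n ih => exact fun hn => (ih (by omega)).trans (hmono n hn)
  refine ⟨?_, fun l hl => ⟨?_, ?_⟩⟩
  · rw [var, abs_of_nonneg h0, Finset.sum_congr rfl fun l hl =>
      abs_of_nonneg (sub_nonneg.2 (hmono l (Finset.mem_range.1 hl))),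
      Finset.sum_range_sub X.q]
    ring
  · induction hi : g.K - l generalizing l with
    | zero =>
      obtain rfl : l = g.K := by omega
      rw [eig_top]; linarith
    | succ d ih =>
      rw [eig_step g X (show l < g.K by omega)]
      exact add_nonneg (ih (l + 1) (by omega) (by omega))
        (mul_nonneg (x_nonneg g (by omega)) (sub_nonneg.2 (hmono l (by omega))))
  · have : 0 ≤ above g X l := Finset.sum_nonneg fun m hm =>
      mul_nonneg (w_nonneg g (Finset.mem_Ioc.1 hm).2) (hq0 m (Finset.mem_Ioc.1 hm).2)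
    have := mul_nonneg (x_nonneg g (show l + 1 ≤ g.K + 1 by omega)) (hq0 l hl)
    rw [eig]; linarith

lemma nrm_le_two (g : Grid) (X : SMat) (h0 : 0 ≤ X.q 0)
    (hmono : ∀ l < g.K, X.q l ≤ X.q (l + 1)) (hd : X.q g.K ≤ X.d) (h1 : X.d ≤ 1) :
    nrm g X ≤ 2 ∧ |X.d| + var g X ≤ 2 := by
  obtain ⟨hv, he⟩ := eig_nonneg_le g X h0 hmono hd
  have hq : 0 ≤ X.q g.K := hv ▸ var_nonneg g X
  have hdabs : |X.d| ≤ 1 := by rw [abs_of_nonneg (hq.trans hd)]; exact h1
  refine ⟨?_, by rw [hv]; linarith⟩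
  have : ∑ l ∈ range (g.K + 1), g.w l * |X.q l| ≤ ∑ l ∈ range (g.K + 1), g.w l * 1 :=
    Finset.sum_le_sum fun l hl => by
      have hl' := Nat.lt_succ_iff.1 (Finset.mem_range.1 hl)
      refine mul_le_mul_of_nonneg_left ?_ (w_nonneg g hl')
      exact (abs_q_le_var g X hl').trans (by rw [hv]; linarith)
  simp only [mul_one, sum_w] at this
  rw [nrm]; linarith

lemma eqv_trans {g : Grid} {X Y Z : SMat} (h : Eqv g X Y) (h' : Eqv g Y Z) : Eqv g X Z :=
  ⟨h.1.trans h'.1, fun l hl => (h.2 l hl).trans (h'.2 l hl)⟩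

/-! ### Regularity and positivity of the errors -/

variable {N M : ℕ}

lemma glassNest_good (K : ℕ) (S V : ℕ → Fin N → ℝ) : (glassNest K S V).Good where
  x_zero := by simp [glassNest, gridX, lvl]
  x_last := by
    simp only [glassNest, gridX, lvl, min_eq_left_iff]
    rw [le_div_iff₀ (by positivity)]
    push_cast; linarith
  x_pos l h1 _ := lt_min one_pos (div_pos (by exact_mod_cast h1) (by positivity))
  x_mono l _ := min_le_min le_rfl (div_le_div_of_nonneg_right (by simp) (by positivity))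

lemma glassLeaf_good (U : ON N) :
    (glassLeaf U).Good
      (1 + ∑ σ : Fin N → Bool, ∑ i : FIdx N, |(glassLeaf U).a σ () i|) where
  nonneg := by positivity
  meas _ _ := measurable_of_finite _
  bound ω j i := by
    have h1 : |(glassLeaf U).a ω () i| ≤ ∑ i : FIdx N, |(glassLeaf U).a ω () i| :=
      Finset.single_le_sum (fun k _ => abs_nonneg ((glassLeaf U).a ω () k)) (Finset.mem_univ i)
    have h2 := Finset.single_le_sum
      (f := fun σ : Fin N → Bool => ∑ i : FIdx N, |(glassLeaf U).a σ () i|)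
      (fun _ _ => Finset.sum_nonneg fun k _ => abs_nonneg _) (Finset.mem_univ ω)
    linarith
  deriv1 _ z := hasDerivAt_id z
  deriv2 _ z := hasDerivAt_const z 1
  cont2 _ := continuous_const
  bound1 _ _ := by
    have h : (0:ℝ) ≤ ∑ σ : Fin N → Bool, ∑ i : FIdx N, |(glassLeaf U).a σ () i| := by positivity
    simpa [glassLeaf] using h
  bound2 _ _ := by
    have h : (0:ℝ) ≤ ∑ σ : Fin N → Bool, ∑ i : FIdx N, |(glassLeaf U).a σ () i| := by positivity
    simp only [glassLeaf, abs_zero] at h ⊢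
    linarith

lemma quadLaw_prob (lam : Fin N → ℝ) (U : ON N) : IsProbabilityMeasure (quadLaw lam U) := by
  have hpos : 0 < quadPart lam U :=
    mul_pos (by positivity) (Finset.sum_pos (fun σ _ => Real.exp_pos _) Finset.univ_nonempty)
  constructor
  rw [quadLaw, Measure.finsetSum_apply]
  simp only [Measure.smul_apply, smul_eq_mul, measure_univ, mul_one]
  rw [← ENNReal.ofReal_sum_of_nonneg fun σ _ =>
      div_nonneg (mul_nonneg (by positivity) (Real.exp_pos _).le) hpos.le,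
    ← Finset.sum_div, ← Finset.mul_sum]
  change ENNReal.ofReal (quadPart lam U / quadPart lam U) = 1
  rw [div_self hpos.ne', ENNReal.ofReal_one]

lemma mean_nonneg {ι : Type} [Fintype ι] (Nn : Nest ι) (V : (ι → ℝ) → ℝ) (l : ℕ)
    {f : (ι → ℝ) → ℝ} (hf : ∀ y, 0 ≤ f y) : 0 ≤ Nn.mean V l f := by
  induction l generalizing f with
  | zero => exact integral_nonneg fun z => hf _
  | succ l ih =>
    exact ih fun y => div_nonneg
      (integral_nonneg fun z => mul_nonneg (Real.exp_pos _).le (hf _))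
      (integral_nonneg fun z => (Real.exp_pos _).le)

lemma obs_atomSq (b : Fin N → Fin M) (U : ON N) (r : Fin M) : Obs (atomSq b U r) :=
  ⟨fun _ => measurable_of_finite _, fun _ => continuous_const,
    ∑ σ : Fin N → Bool, |atomSq b U r σ 0|, fun ω _ =>
      Finset.single_le_sum (f := fun σ : Fin N → Bool => |atomSq b U r σ 0|)
        (fun _ _ => abs_nonneg _) (Finset.mem_univ ω)⟩

lemma pinErr_nonneg (P : Par) (a : Fin M → ℝ) (s : ℕ → ℝ) (b : Fin N → Fin M)
    (v : GBox M P.K → ℝ) : 0 ≤ P.pinErr a s b v := by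
  refine add_nonneg (add_nonneg (div_nonneg (Finset.sum_nonneg fun l _ => ?_) (by positivity)) ?_) ?_
  · exact integral_nonneg fun U => Finset.sum_nonneg fun r _ => add_nonneg
      (mean_nonneg _ _ _ fun y => abs_nonneg _)
      (mean_nonneg _ _ _ fun y => div_nonneg (Real.sqrt_nonneg _) (Nat.cast_nonneg N))
  · exact integral_nonneg fun U => Finset.sum_nonneg fun r _ => mean_nonneg _ _ _ fun y => abs_nonneg _
  · refine integral_nonneg fun U => Finset.sum_nonneg fun r _ => mean_nonneg _ _ _ fun y => ?_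
    have := quadLaw_prob (P.lamN a b v) U
    exact sub_nonneg.2 (node_sq_ge (glassNest_good P.K _ _) (glassLeaf_good U)
      (show P.K ≤ P.K + 1 by omega) (obs_atomSq b U r) y)

/-! ### The distance to the exact solution -/

variable [NeZero M]

lemma dist_le {P : Par} (hP : P.Ok) {a : Fin M → ℝ} {ha : Monotone a} {s : ℕ → ℝ}
    {b : Fin N → Fin M} {v : GBox M P.K → ℝ} {Λ Cs C : ℝ}
    (hovl : (∀ r l, 0 ≤ P.ovl a s b v r l) ∧
      (∀ r l l', l ≤ l' → l' ≤ P.K + 1 → P.ovl a s b v r l ≤ P.ovl a s b v r l') ∧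
      (∀ r l, l ≤ P.K + 1 → P.ovl a s b v r l ≤ P.diag a s b v r) ∧
      ∑ r, P.diag a s b v r = 1)
    (hq : IsPath (P.qhat a s b v) ∧ P.qhat a s b v P.K ≤ 1)
    (hΛ : ∀ r, |a r| ≤ Λ) (hv : ∀ k, v k ∈ Set.Icc (0 : ℝ) 1) (hbal : Bal C b) (hN : 0 < N)
    {D : ℝ} (hD : ∀ r, nrm (gridOf P.K) (P.loopMat a s b v r (topA M)) ≤ D)
    (hstab : ∀ (c t : Fin M → ℝ) (r₀ : Fin M), (∀ r, 0 ≤ c r) → c r₀ = 1 / (M : ℝ) →
      ∑ r, c r ≤ 1 → t r₀ = 0 → (∀ r, 0 ≤ t r ∧ t r ≤ 2 * Λ) →
      ∀ (g : Grid) (X X' : Fin M → SMat), (∀ r, Nice g M (X r)) → (∀ r, Nice g M (X' r)) →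
      (∀ r, Eqv g (defect g (t r) (X' r) (X' r₀)) ⟨0, fun _ => 0⟩) →
      ∀ e : ℝ, (∀ r, nrm g (defect g (t r) (X r) (X r₀)) ≤ e) →
        nrm g (comb c fun r => add (X r) (smul (-1) (X' r))) ≤ e →
        ∀ r, nrm g (add (X r) (smul (-1) (X' r))) ≤ Cs * e) :
    P.atomDist a s b v ha ≤ Cs * ((M : ℝ) ^ 2 * (D + 4 * (C / N) + 24 * P.du)) := by
  set g := gridOf P.K with hg
  set A := evenAtoms a ha with hA
  set q := P.qhat a s b v with hqdef
  set X : Fin M → SMat := fun r => smul (M : ℝ) (P.atomMat a s b v r) with hX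
  set X' : Fin M → SMat := fun r => A.exact g (pathMat q) r with hX'
  have hMpos : (0 : ℝ) < M := Nat.cast_pos.2 (Nat.pos_of_ne_zero (NeZero.ne M))
  have hM1 : (1 : ℝ) ≤ M := by exact_mod_cast Nat.pos_of_ne_zero (NeZero.ne M)
  obtain ⟨h0, hmono, htop, hsum⟩ := hovl
  have hd1 : ∀ r, P.diag a s b v r ≤ 1 := fun r => hsum ▸ Finset.single_le_sum
    (fun s' _ => (h0 s' 0).trans (htop s' 0 (Nat.zero_le _))) (Finset.mem_univ r)
  have hshape : ∀ r, var g (P.atomMat a s b v r) = P.ovl a s b v r P.K ∧ ∀ l ≤ g.K,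
      0 ≤ eig g (P.atomMat a s b v r) l ∧ eig g (P.atomMat a s b v r) l ≤ P.diag a s b v r :=
    fun r => eig_nonneg_le g _ (h0 r 0)
      (fun l hl => hmono r l (l + 1) l.le_succ (by simp only [hg, gridOf] at hl; omega))
      (htop r P.K (by omega))
  have hsize : ∀ r, nrm g (P.atomMat a s b v r) ≤ 2 ∧
      |(P.atomMat a s b v r).d| + var g (P.atomMat a s b v r) ≤ 2 := fun r =>
    nrm_le_two g _ (h0 r 0)
      (fun l hl => hmono r l (l + 1) l.le_succ (by simp only [hg, gridOf] at hl; omega))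
      (htop r P.K (by omega)) (hd1 r)
  -- both families are nice
  have hXn : ∀ r, Nice g M (X r) := fun r => by
    refine ⟨?_, fun l hl => ?_⟩
    · rw [hX, var_smul, abs_of_pos hMpos, (hshape r).1]
      exact mul_le_of_le_one_right hMpos.le ((htop r P.K (by omega)).trans (hd1 r))
    · simp only [hX, eig_smul]
      exact ⟨mul_nonneg hMpos.le ((hshape r).2 l hl).1,
        mul_le_of_le_one_right hMpos.le (((hshape r).2 l hl).2.trans (hd1 r))⟩
  have hQ : Nice g 1 (pathMat q) := by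
    obtain ⟨hv1, he⟩ := eig_nonneg_le g (pathMat q) hq.1.2
      (fun l _ => hq.1.1 l.le_succ) hq.2
    exact ⟨hv1 ▸ hq.2, fun l hl => he l hl⟩
  have hX'n : ∀ r, Nice g M (X' r) := fun r => by
    have h := A.exact_nice g (pathMat q) hQ r
    rwa [show (1 : ℝ) / A.p A.top = M by simp [hA, evenAtoms]] at h
  -- the defect
  have hlam : ∀ r, |A.gapTop r - (P.lamV a v (topA M) - P.lamV a v r)| ≤ P.du := fun r => by
    have e : A.gapTop r - (P.lamV a v (topA M) - P.lamV a v r)
        = P.du * (v (Sum.inl r) - v (Sum.inl (topA M))) := by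
      simp only [hA, Atoms.gapTop, evenAtoms, Par.lamV]; ring
    rw [e, abs_mul, abs_of_pos hP.du_pos]
    refine mul_le_of_le_one_right hP.du_pos.le (abs_le.2 ⟨?_, ?_⟩) <;>
      linarith [(hv (Sum.inl r)).1, (hv (Sum.inl r)).2, (hv (Sum.inl (topA M))).1,
        (hv (Sum.inl (topA M))).2]
  have hfrac : ∀ r, |1 / (M : ℝ) - frac b r| ≤ C / N := fun r => by
    have hNpos : (0 : ℝ) < N := Nat.cast_pos.2 hN
    have e : 1 / (M : ℝ) - frac b r = -(((fiber b r).card : ℝ) - N / M) / N := by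
      rw [frac]; field_simp; ring
    rw [e, abs_div, abs_neg, abs_of_pos hNpos]
    exact div_le_div_of_nonneg_right (hbal r) hNpos.le
  set e := (M : ℝ) ^ 2 * (D + 4 * (C / N) + 24 * P.du) with he
  have hdef : ∀ r, nrm g (defect g (A.gapTop r) (X r) (X (topA M))) ≤ e := fun r => by
    set Y := P.atomMat a s b v r
    set Y₀ := P.atomMat a s b v (topA M)
    set E := add (add (smul (1 / (M : ℝ) - frac b (topA M)) Y)
        (smul (frac b r - 1 / (M : ℝ)) Y₀))
      (smul (A.gapTop r - (P.lamV a v (topA M) - P.lamV a v r)) (SMat.mul g Y Y₀))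
    have heq : Eqv g (defect g (A.gapTop r) (X r) (X (topA M)))
        (smul ((M : ℝ) ^ 2) (add (P.loopMat a s b v r (topA M)) E)) := by
      refine eqv_of_eig g ?_ fun l hl => ?_
      · rw [q_defect_zero]
        simp only [hX, E, Par.loopMat, eig_smul]
        simp only [smul, add, q_mul_zero, Y, Y₀, ← hg]
        field_simp
        ring
      · rw [eig_defect g _ _ _ hl]
        simp only [hX, E, Par.loopMat, eig_smul, eig_add, ← hg, eig_mul g _ _ hl, Y, Y₀]
        field_simp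
        ring
    have hmul : nrm g (SMat.mul g Y Y₀) ≤ 24 := by
      refine (nrm_mul_le g _ _).trans ?_
      nlinarith [(hsize r).1, (hsize (topA M)).2, nrm_nonneg g Y,
        var_nonneg g Y₀, abs_nonneg Y₀.d]
    have hC0 : 0 ≤ C / (N : ℝ) := (abs_nonneg _).trans (hfrac r)
    have t1 : |1 / (M : ℝ) - frac b (topA M)| * nrm g Y ≤ C / N * 2 :=
      mul_le_mul (hfrac _) (hsize r).1 (nrm_nonneg g _) hC0
    have t2 : |frac b r - 1 / (M : ℝ)| * nrm g Y₀ ≤ C / N * 2 :=
      mul_le_mul (by rw [abs_sub_comm]; exact hfrac r) (hsize _).1 (nrm_nonneg g _) hC0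
    have t3 : |A.gapTop r - (P.lamV a v (topA M) - P.lamV a v r)| * nrm g (SMat.mul g Y Y₀)
        ≤ P.du * 24 := mul_le_mul (hlam r) hmul (nrm_nonneg g _) hP.du_pos.le
    rw [nrm_congr g heq, nrm_smul, abs_of_pos (pow_pos hMpos 2), he]
    refine mul_le_mul_of_nonneg_left ((nrm_add_le g _ _).trans ?_) (sq_nonneg _)
    have hE : nrm g E ≤ 4 * (C / N) + 24 * P.du := by
      refine (nrm_add_le g _ _).trans ?_
      refine (add_le_add (nrm_add_le g _ _) le_rfl).trans ?_
      rw [nrm_smul, nrm_smul, nrm_smul]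
      linarith
    have := hD r
    linarith
  have he0 : 0 ≤ e := (nrm_nonneg g _).trans (hdef (topA M))
  -- the mixture vanishes
  have hmix : Eqv g (comb A.p fun r => add (X r) (smul (-1) (X' r))) ⟨0, fun _ => 0⟩ := by
    obtain ⟨hcd, hcq⟩ := A.exact_comb g (pathMat q) fun l hl => (hQ.2 l hl).1
    refine ⟨?_, fun l hl => ?_⟩
    · simp only [comb] at hcd
      simp only [comb, add, smul, hX, hX', Par.atomMat, mul_add, Finset.sum_add_distrib,
        neg_mul, one_mul, mul_neg, Finset.sum_neg_distrib]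
      rw [hcd, show (pathMat q).d = 1 from rfl, ← hsum, ← sub_eq_add_neg, sub_eq_zero]
      refine Finset.sum_congr rfl fun r' _ => ?_
      simp only [hA, evenAtoms]
      field_simp
    · have hcl := hcq l hl
      simp only [comb] at hcl
      simp only [comb, add, smul, hX, hX', Par.atomMat, mul_add, Finset.sum_add_distrib,
        neg_mul, one_mul, mul_neg, Finset.sum_neg_distrib]
      rw [hcl, show (pathMat q).q l = q l from rfl, hqdef, ← sub_eq_add_neg, sub_eq_zero]
      simp only [Par.qhat, min_eq_left (show l ≤ P.K from hl)]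
      refine Finset.sum_congr rfl fun r' _ => ?_
      simp only [hA, evenAtoms]
      field_simp
  have hclose : ∀ r, nrm g (add (X r) (smul (-1) (X' r))) ≤ Cs * e := by
    refine hstab A.p A.gapTop (topA M) (fun r => (A.pos r).le) rfl A.sum_p.le
      (Atoms.gapTop_top A) (fun r => ⟨A.gapTop_nonneg r, ?_⟩) g X X' hXn hX'n
      (fun r => A.exact_defect g (pathMat q) r) e hdef ?_
    · simp only [hA, Atoms.gapTop, evenAtoms]
      linarith [abs_le.1 (hΛ (topA M)), abs_le.1 (hΛ r)]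
    · rw [nrm_congr g hmix]
      simpa [nrm] using he0
  rw [Par.atomDist, ← hg, ← hA, ← hqdef]
  have hr : ∀ r, nrm g (add (P.atomMat a s b v r) (smul (-1) (exactMat A P.K q r)))
      ≤ 1 / (M : ℝ) * (Cs * e) := fun r => by
    have hx := exactMat_eqv A P.K q r
    rw [← hg] at hx
    have heq : Eqv g (add (P.atomMat a s b v r) (smul (-1) (exactMat A P.K q r)))
        (smul (1 / (M : ℝ)) (add (X r) (smul (-1) (X' r)))) := by
      refine ⟨?_, fun l hl => ?_⟩
      · simp only [add, smul, hX, hX', hx.1]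
        simp only [hA, evenAtoms]
        field_simp
      · simp only [add, smul, hX, hX', hx.2 l hl]
        simp only [hA, evenAtoms]
        field_simp
    rw [nrm_congr g heq, nrm_smul, abs_of_pos (div_pos one_pos hMpos)]
    exact mul_le_mul_of_nonneg_left (hclose r) (div_pos one_pos hMpos).le
  refine (Finset.sum_le_sum fun r _ => hr r).trans (le_of_eq ?_)
  rw [Finset.sum_const, Finset.card_univ, Fintype.card_fin, nsmul_eq_mul]
  field_simp

lemma continuous_atomDist {P : Par} {a : Fin M → ℝ} {ha : Monotone a} {s : ℕ → ℝ}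
    {b : Fin N → Fin M}
    (hq : ∀ v, IsPath (P.qhat a s b v) ∧ P.qhat a s b v P.K ≤ 1)
    (hco : ∀ r {l : ℕ}, l ≤ P.K + 1 → Continuous fun v => P.ovl a s b v r l)
    (hcd : ∀ r, Continuous fun v => P.diag a s b v r) :
    Continuous fun v => P.atomDist a s b v ha := by
  set A := evenAtoms a ha
  have hqc : ∀ l, Continuous fun v => P.qhat a s b v l := fun l =>
    continuous_finsetSum _ fun r _ => hco r (le_trans (min_le_right l P.K) P.K.le_succ)
  have hec : ∀ l, Continuous fun v => eigPath P.K (P.qhat a s b v) l := fun l => by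
    simp only [eigPath, eig, above]
    exact (continuous_const.sub (continuous_const.mul (hqc l))).sub
      (continuous_finsetSum _ fun m _ => continuous_const.mul (hqc m))
  have he0 : ∀ l ≤ P.K, ∀ v, eigPath P.K (P.qhat a s b v) l ∈ Set.Ici (0 : ℝ) := fun l hl v =>
    ((eig_nonneg_le (gridOf P.K) (pathMat (P.qhat a s b v)) (hq v).1.2
      (fun m _ => (hq v).1.1 m.le_succ) (hq v).2).2 l hl).1
  have hpc : ∀ r, ∀ l ≤ P.K, Continuous fun v => A.part r (eigPath P.K (P.qhat a s b v) l) :=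
    fun r l hl => ContinuousOn.comp_continuous
      (fun χ hχ => (hasDerivWithinAt_part A r hχ).continuousWithinAt) (hec l) (he0 l hl)
  have hdc : ∀ r, Continuous fun v => A.dPart r (eigPath P.K (P.qhat a s b v) 0) := fun r =>
    (continuousOn_dPart A r).comp_continuous (hec 0) (he0 0 (Nat.zero_le _))
  have hxq : ∀ r, ∀ l ≤ P.K, Continuous fun v => (exactMat A P.K (P.qhat a s b v) r).q l := by
    intro r l hl
    refine ((hdc r).mul (hqc 0)).add (continuous_finsetSum _ fun j hj => ?_)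
    have := Finset.mem_range.1 hj
    exact ((hpc r j (by omega)).sub (hpc r (j + 1) (by omega))).div_const _
  have hxd : ∀ r, Continuous fun v => (exactMat A P.K (P.qhat a s b v) r).d := fun r =>
    (hpc r P.K le_rfl).add (hxq r P.K le_rfl)
  refine continuous_finsetSum _ fun r _ => ?_
  simp only [nrm, add, smul, Par.atomMat]
  refine ((hcd r).add (continuous_const.mul (hxd r))).abs.add (continuous_finsetSum _ fun l hl =>
    continuous_const.mul ?_)
  have hlK : l ≤ P.K := Nat.lt_succ_iff.1 (Finset.mem_range.1 hl)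
  exact ((hco r (by omega)).add (continuous_const.mul (hxq r l hlK))).abs

end LoopSolve

/-- Module L2: the diagonal of the exact solution. -/
theorem exactMat_d {γ : Type} [Fintype γ] (A : Atoms γ) (K : ℕ) {q : ℕ → ℝ} (hq : IsPath q)
    (h1 : q K ≤ 1) (r : γ) :
    (exactMat A K q r).d = ∫ s in (0 : ℝ)..1, A.dPart r (chiPath K q s) := by
  rw [← A.exact_path_d hq h1 r, (LoopSolve.exactMat_eqv A K q r).1, LoopSolve.gridOf_eq]
  rfl

/-- Module L2: the overlaps are the exact solution for their total, given the loop equations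
(`hL`), the pinning estimate (`hpin`) and the elementary properties of the overlaps. -/
theorem atom_close_of {M : ℕ} [NeZero M]
    (hL : ∃ C : ℝ, ∀ P : Par, P.Ok → ∀ Λ : ℝ, ∀ a : Fin M → ℝ,
      (∀ r, |a r| ≤ Λ) → ∀ s : ℕ → ℝ, (∀ l, 1 ≤ l → l ≤ P.L0 → s l = 0) →
        ∀ N : ℕ, 0 < N → ∀ b : Fin N → Fin M, ∀ v : GBox M P.K → ℝ,
          (∀ k, v k ∈ Set.Icc (0 : ℝ) 1) → ∀ r r₀,
            SMat.nrm (gridOf P.K) (P.loopMat a s b v r r₀) ≤
              C * (1 + Λ) * (Real.sqrt (P.pinErr a s b v) + P.pinErr a s b v +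
                ((P.L0 : ℝ) + 1) / ((P.K : ℝ) + 1) + ((P.K : ℝ) + 2) ^ 3 * P.eta))
    (hpin : ∃ C₀ : ℝ, ∀ P : Par, P.Ok → ∀ Λ smax ε : ℝ, 0 < ε →
      ∀ᶠ N : ℕ in atTop, ∀ a : Fin M → ℝ, (∀ r, |a r| ≤ Λ) → ∀ s, P.SpinOk smax s →
        ∀ b : Fin N → Fin M,
          Integrable (fun v => P.pinErr a s b v) (cubeLaw (GBox M P.K)) ∧
            ∫ v, P.pinErr a s b v ∂cubeLaw (GBox M P.K) ≤ C₀ / ((P.K : ℝ) + 1) + ε)
    (hovl : ∀ {N : ℕ} (P : Par) (a : Fin M → ℝ) (s : ℕ → ℝ) (b : Fin N → Fin M)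
      (v : GBox M P.K → ℝ), 0 < N →
      (∀ r l, 0 ≤ P.ovl a s b v r l) ∧
        (∀ r l l', l ≤ l' → l' ≤ P.K + 1 → P.ovl a s b v r l ≤ P.ovl a s b v r l') ∧
        (∀ r l, l ≤ P.K + 1 → P.ovl a s b v r l ≤ P.diag a s b v r) ∧
        ∑ r, P.diag a s b v r = 1)
    (hqhat : ∀ {N : ℕ} (P : Par) (a : Fin M → ℝ) (s : ℕ → ℝ) (b : Fin N → Fin M)
      (v : GBox M P.K → ℝ), 0 < N → IsPath (P.qhat a s b v) ∧ P.qhat a s b v P.K ≤ 1)
    (hco : ∀ {N : ℕ} (P : Par) (a : Fin M → ℝ) (s : ℕ → ℝ) (b : Fin N → Fin M) (r : Fin M) {l : ℕ},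
      l ≤ P.K + 1 → Continuous fun v => P.ovl a s b v r l)
    (hcd : ∀ {N : ℕ} (P : Par) (a : Fin M → ℝ) (s : ℕ → ℝ) (b : Fin N → Fin M) (r : Fin M),
      Continuous fun v => P.diag a s b v r)
    (Λ : ℝ) {ε : ℝ} (hε : 0 < ε) :
    ∃ τ > 0, ∀ P : Par, P.Ok → ((P.L0 : ℝ) + 1) / ((P.K : ℝ) + 1) ≤ τ → P.du ≤ τ →
      ((P.K : ℝ) + 2) ^ 3 * P.eta ≤ τ → ∀ smax C : ℝ, ∀ᶠ N : ℕ in atTop,
        ∀ (a : Fin M → ℝ) (ha : Monotone a), (∀ r, |a r| ≤ Λ) → ∀ s, P.SpinOk smax s →
          ∀ b : Fin N → Fin M, Bal C b →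
            Integrable (fun v => P.atomDist a s b v ha) (cubeLaw (GBox M P.K)) ∧
              ∫ v, P.atomDist a s b v ha ∂cubeLaw (GBox M P.K) ≤ ε := by
  obtain ⟨CL, hCL⟩ := hL
  obtain ⟨C₀, hC₀⟩ := hpin
  set Λ₀ := max Λ 0
  have hMpos : (0 : ℝ) < M := Nat.cast_pos.2 (Nat.pos_of_ne_zero (NeZero.ne M))
  obtain ⟨Cs, hCs, hstab⟩ := loop_stable_unif (ι := Fin M) (c₀ := 1 / (M : ℝ)) (T := 2 * Λ₀)
    (B := (M : ℝ)) (div_pos one_pos hMpos)
    (by exact_mod_cast Nat.pos_of_ne_zero (NeZero.ne M))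
    (mul_nonneg zero_le_two (le_max_right _ _))
  set C1 := |CL| * (1 + Λ₀)
  have hC1 : 0 ≤ C1 := mul_nonneg (abs_nonneg _) (by have := le_max_right Λ 0; positivity)
  set K2 := Cs * (M : ℝ) ^ 2
  have hK2 : 0 ≤ K2 := by positivity
  set η := ε / (2 * (K2 * C1 + 1))
  have hη : 0 < η := by positivity
  set L := C1 * (1 / (2 * η) + 1)
  have hL0 : 0 ≤ L := by positivity
  set τ := ε / (4 * (K2 * (L * |C₀| + 2 * C1 + 24) + 1))
  refine ⟨τ, by positivity, ?_⟩
  intro P hP hτ1 hτ2 hτ3 smax C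
  set ε1 := ε / (4 * (K2 * L + 1))
  have hlarge : ∀ᶠ N : ℕ in atTop, 4 * K2 * (C / (N : ℝ)) ≤ ε / 4 := by
    have h := (tendsto_const_div_atTop_nhds_zero_nat C).const_mul (4 * K2)
    rw [mul_zero] at h
    exact h.eventually (ge_mem_nhds (by positivity))
  filter_upwards [hC₀ P hP Λ smax ε1 (by positivity), hlarge, eventually_gt_atTop 0]
    with N hpinN hlargeN hN
  intro a ha hΛ s hs b hbal
  obtain ⟨hint, hpb⟩ := hpinN a hΛ s hs b
  have hΛ₀ : ∀ r, |a r| ≤ Λ₀ := fun r => (hΛ r).trans (le_max_left _ _)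
  have hcont := LoopSolve.continuous_atomDist (ha := ha)
    (fun v => hqhat P a s b v hN) (fun r {l} hl => hco P a s b r hl) (fun r => hcd P a s b r)
  refine ⟨Box.integrable_cube hcont, ?_⟩
  set R := C1 * (η / 2 + 2 * τ) + 4 * (C / (N : ℝ)) + 24 * τ
  have hbd : ∀ᵐ v ∂cubeLaw (GBox M P.K),
      P.atomDist a s b v ha ≤ K2 * L * P.pinErr a s b v + K2 * R := by
    filter_upwards [Box.ae_mem_cube] with v hv
    have hp := LoopSolve.pinErr_nonneg P a s b v
    set p := P.pinErr a s b v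
    have hL1 : (0:ℝ) ≤ ((P.L0 : ℝ) + 1) / ((P.K : ℝ) + 1) := by positivity
    have hL2 : (0:ℝ) ≤ ((P.K : ℝ) + 2) ^ 3 * P.eta := by
      have := hP.eta_pos; positivity
    have hbr : 0 ≤ Real.sqrt p + p + ((P.L0 : ℝ) + 1) / ((P.K : ℝ) + 1) +
        ((P.K : ℝ) + 2) ^ 3 * P.eta := by
      have := Real.sqrt_nonneg p; linarith
    have hsq : Real.sqrt p ≤ p / (2 * η) + η / 2 := by
      rw [div_add_div _ _ (by positivity : (2 * η) ≠ 0) two_ne_zero, le_div_iff₀ (by positivity)]
      nlinarith [sq_nonneg (Real.sqrt p - η), Real.mul_self_sqrt hp]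
    have hb' : Real.sqrt p + p + ((P.L0 : ℝ) + 1) / ((P.K : ℝ) + 1) +
        ((P.K : ℝ) + 2) ^ 3 * P.eta ≤ (1 / (2 * η) + 1) * p + (η / 2 + 2 * τ) := by
      rw [add_mul, one_mul, one_div_mul_eq_div]; linarith
    have hD : ∀ r, SMat.nrm (gridOf P.K) (P.loopMat a s b v r (topA M))
        ≤ L * p + C1 * (η / 2 + 2 * τ) := fun r => by
      refine (hCL P hP Λ₀ a hΛ₀ s hs.2 N hN b v hv r (topA M)).trans ?_
      refine (mul_le_mul_of_nonneg_right (mul_le_mul_of_nonneg_right (le_abs_self CL)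
        (by have := le_max_right Λ 0; positivity)) hbr).trans ?_
      refine (mul_le_mul_of_nonneg_left hb' hC1).trans (le_of_eq ?_)
      ring
    refine (LoopSolve.dist_le hP (hovl P a s b v hN) (hqhat P a s b v hN) hΛ₀ hv hbal hN hD
      (fun c t r₀ h1 h2 h3 h4 h5 => hstab c t r₀ h1 h2 h3 h4 h5)).trans ?_
    have hdu := mul_le_mul_of_nonneg_left hτ2 hK2
    simp only [K2, R] at hdu ⊢
    linarith
  have hint' : Integrable (fun v => K2 * L * P.pinErr a s b v + K2 * R) (cubeLaw (GBox M P.K)) :=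
    (hint.const_mul (K2 * L)).add (integrable_const _)
  refine (integral_mono_ae (Box.integrable_cube hcont) hint' hbd).trans ?_
  rw [integral_add (hint.const_mul _) (integrable_const _), integral_const_mul, integral_const]
  simp only [probReal_univ, one_smul]
  have hK : C₀ / ((P.K : ℝ) + 1) ≤ |C₀| * τ := by
    rw [div_eq_mul_inv]
    refine mul_le_mul (le_abs_self _) (le_trans ?_ hτ1) (by positivity) (abs_nonneg _)
    rw [← one_div]
    exact div_le_div_of_nonneg_right (by linarith [Nat.cast_nonneg (α := ℝ) P.L0]) (by positivity)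
  have hmul := mul_le_mul_of_nonneg_left (hpb.trans (add_le_add hK le_rfl)) (mul_nonneg hK2 hL0)
  have b1 : K2 * C1 * (η / 2) ≤ ε / 4 := by
    have e : K2 * C1 * (η / 2) = ε / 4 * (K2 * C1 / (K2 * C1 + 1)) := by
      simp only [η]; field_simp; ring
    rw [e]
    exact mul_le_of_le_one_right (by positivity) ((div_le_one (by positivity)).2 (by linarith))
  have b2 : K2 * (L * |C₀| + 2 * C1 + 24) * τ ≤ ε / 4 := by
    have e : K2 * (L * |C₀| + 2 * C1 + 24) * τ = ε / 4 * (K2 * (L * |C₀| + 2 * C1 + 24)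
        / (K2 * (L * |C₀| + 2 * C1 + 24) + 1)) := by
      simp only [τ]; field_simp
    rw [e]
    exact mul_le_of_le_one_right (by positivity) ((div_le_one (by positivity)).2 (by linarith))
  have b3 : K2 * L * ε1 ≤ ε / 4 := by
    have e : K2 * L * ε1 = ε / 4 * (K2 * L / (K2 * L + 1)) := by
      simp only [ε1]; field_simp
    rw [e]
    exact mul_le_of_le_one_right (by positivity) ((div_le_one (by positivity)).2 (by linarith))
  simp only [R]
  linarith

end Vale.Agent.P166.Parisi
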