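import Vale.Agent.P166.Parisi.LoopBound

/-!
The terms of the loop equations with the derivative of the Hamiltonian, which is a multiple of the
product of two rotated spins plus a field.
-/

set_option linter.unusedSectionVars false

namespace Vale.Agent.P166.Parisi.Loop

open MeasureTheory ProbabilityTheory Finset
open Vale.Agent.P157 Vale.Agent.P157.Parisi

variable {ι : Type} [Fintype ι] {Ω κ : Type} [Fintype κ] [MeasurableSpace Ω]
variable {N : Nest ι} {L : Leaf Ω κ ι} {μ : Measure Ω} [IsProbabilityMeasure μ] {B : ℝ}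

/-- The mean of the product of two coordinates at the leaf. -/
noncomputable def lprod (L : Leaf Ω κ ι) (μ : Measure Ω) (i k : ι) (v : ι → ℝ) : ℝ :=
  L.gibbs μ (fun ω w => L.vec i ω w * L.vec k ω w) v

/-- The field part of the derivative of the Hamiltonian. -/
noncomputable def fPart (L : Leaf Ω κ ι) (μ : Measure Ω) (i k : ι) (v : ι → ℝ) : ℝ :=
  v i * L.gibbs μ (L.vec k) v - v k * L.gibbs μ (L.vec i) v

/-- The mean derivative of the Hamiltonian under the rotation of two coordinates. -/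
noncomputable def hDer (L : Leaf Ω κ ι) (μ : Measure Ω) (c : ℝ) (i k : ι) (v : ι → ℝ) : ℝ :=
  c * lprod L μ i k v + fPart L μ i k v

/-- The mean derivative of a coordinate plus its product with that of the Hamiltonian. -/
noncomputable def oDer (L : Leaf Ω κ ι) (μ : Measure Ω) (c : ℝ) (i k : ι) (v : ι → ℝ) : ℝ :=
  L.gibbs μ (L.vec k) v + c * L.gibbs μ (fun ω w => L.vec i ω w ^ 2 * L.vec k ω w) v +
    (v i * lprod L μ i k v - v k * lprod L μ i i v)

/-- The same for the product of two coordinates. -/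
noncomputable def pDer (L : Leaf Ω κ ι) (μ : Measure Ω) (c : ℝ) (i k : ι) (v : ι → ℝ) : ℝ :=
  lprod L μ k k v - lprod L μ i i v +
    c * L.gibbs μ (fun ω w => L.vec i ω w ^ 2 * L.vec k ω w ^ 2) v +
    (v i * L.gibbs μ (fun ω w => L.vec i ω w * L.vec k ω w ^ 2) v -
      v k * L.gibbs μ (fun ω w => L.vec i ω w ^ 2 * L.vec k ω w) v)

variable (hN : N.Good) (hL : L.Good B) {n : ℝ} (hn : 0 < n)
variable {S T R : Finset ι} (hS : ∀ ω y, ∑ i ∈ S, L.vec i ω y ^ 2 ≤ n)
variable (hT : ∀ ω y, ∑ i ∈ T, L.vec i ω y ^ 2 ≤ n) (hSR : S ⊆ R) (hTR : T ⊆ R)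

include hL in
lemma obs_sq (i : ι) : Obs fun ω w => L.vec i ω w ^ 2 := by
  simpa only [sq] using (obs_vec hL i).mul (obs_vec hL i)

lemma tame_fieldLen (R : Finset ι) : Tame (fieldLen n R) := by
  unfold fieldLen
  simpa only [div_eq_inv_mul] using (Pin.tame_sqrt
    (tame_sum R fun i _ => (tame_coord i).sq)).const_mul (Real.sqrt n)⁻¹

include hN hL in
lemma lprod_tame (i k : ι) : Tame (lprod L μ i k) :=
  tame_gibbs hL ((obs_vec hL i).mul (obs_vec hL k))

include hN hL in
lemma fPart_tame (i k : ι) : Tame (fPart L μ i k) :=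
  ((tame_coord i).mul (tame_gibbs hL (obs_vec hL k))).sub
    ((tame_coord k).mul (tame_gibbs hL (obs_vec hL i)))

include hN hL in
lemma hDer_tame (c : ℝ) (i k : ι) : Tame (hDer L μ c i k) :=
  ((lprod_tame hN hL i k).const_mul c).add (fPart_tame hN hL i k)

include hN hL in
lemma oDer_tame (c : ℝ) (i k : ι) : Tame (oDer L μ c i k) :=
  ((tame_gibbs hL (obs_vec hL k)).add ((tame_gibbs hL ((obs_sq hL i).mul (obs_vec hL k))).const_mul c)).add
    (((tame_coord i).mul (lprod_tame hN hL i k)).sub ((tame_coord k).mul (lprod_tame hN hL i i)))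

include hN hL in
lemma pDer_tame (c : ℝ) (i k : ι) : Tame (pDer L μ c i k) :=
  (((lprod_tame hN hL k k).sub (lprod_tame hN hL i i)).add
    ((tame_gibbs hL ((obs_sq hL i).mul (obs_sq hL k))).const_mul c)).add
    (((tame_coord i).mul (tame_gibbs hL ((obs_vec hL i).mul (obs_sq hL k)))).sub
      ((tame_coord k).mul (tame_gibbs hL ((obs_sq hL i).mul (obs_vec hL k)))))

include hN hL hn in
lemma sum_sq_field {P : Finset ι} (hP : P ⊆ R) (v : ι → ℝ) :
    ∑ i ∈ P, v i ^ 2 ≤ n * fieldLen n R v ^ 2 := by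
  rw [fieldLen, div_pow, Real.sq_sqrt (sum_nonneg fun _ _ => sq_nonneg _), Real.sq_sqrt hn.le,
    mul_div_cancel₀ _ hn.ne']
  exact sum_le_sum_of_subset_of_nonneg hP fun _ _ _ => sq_nonneg _

include hN hL hn hS hT hSR hTR in
/-- A matrix of bounded norm against the field part. -/
lemma field_matrix {l : ℕ} (hl : l ≤ N.K) (M : ι → ι → ℝ)
    (hM : ∑ i ∈ S, ∑ k ∈ T, M i k ^ 2 ≤ n ^ 2) (y : ι → ℝ) :
    |(∑ i ∈ S, ∑ k ∈ T, M i k * N.down (L.logZ μ) l (fPart L μ i k) y) / n ^ 2| ≤
      2 * N.down (L.logZ μ) l (fieldLen n R) y := by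
  classical
  have hR := reg (μ := μ) hN hL
  set Φ : (ι → ℝ) → ℝ := fun v =>
    (n ^ 2)⁻¹ * ∑ i ∈ S, ∑ k ∈ T, M i k * fPart L μ i k v with hΦ
  have ti : ∀ i ∈ S, ∀ k ∈ T, Tame fun v => M i k * fPart L μ i k v :=
    fun i _ k _ => (fPart_tame hN hL i k).const_mul _
  have tΦ : Tame Φ := (tame_sum S fun i hi => tame_sum T (ti i hi)).const_mul _
  have hb : ∀ v, |Φ v| ≤ 2 * fieldLen n R v := by
    intro v
    set W := fieldLen n R v
    have hW : 0 ≤ W := div_nonneg (Real.sqrt_nonneg _) (Real.sqrt_nonneg _)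
    have part : ∀ (a b : ι → ℝ), (∑ i ∈ S, a i ^ 2) * (∑ k ∈ T, b k ^ 2) ≤ (n * W) ^ 2 →
        |∑ i ∈ S, ∑ k ∈ T, M i k * (a i * b k)| ≤ n ^ 2 * W := by
      intro a b hab
      refine abs_le_of_sq_le_sq ?_ (by positivity)
      simp only [← sum_product']
      refine (abs_dot_sq_le (S ×ˢ T) (fun p => M p.1 p.2) (fun p => a p.1 * b p.2)
        (a := n ^ 2) (b := (n * W) ^ 2) (by rwa [sum_product]) ?_).trans_eq (by ring)
      simpa only [sum_product, mul_pow, ← sum_mul_sum] using hab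
    have hG : ∀ P : Finset ι, (∀ ω y, ∑ i ∈ P, L.vec i ω y ^ 2 ≤ n) →
        ∑ i ∈ P, L.gibbs μ (L.vec i) v ^ 2 ≤ n := fun P hP => by
      have := (sqSum_le_n (μ := μ) hN hL hn hP le_rfl v).1
      simpa only [grad_top hN hL] using this
    have p1 := part v (fun k => L.gibbs μ (L.vec k) v)
      ((mul_le_mul (sum_sq_field hN hL hn hSR v) (hG T hT) (sum_nonneg fun _ _ => sq_nonneg _)
        (by positivity)).trans_eq (by ring))
    have p2 := part (fun i => L.gibbs μ (L.vec i) v) v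
      ((mul_le_mul (hG S hS) (sum_sq_field hN hL hn hTR v) (sum_nonneg fun _ _ => sq_nonneg _)
        hn.le).trans_eq (by ring))
    have e : Φ v = (n ^ 2)⁻¹ * ((∑ i ∈ S, ∑ k ∈ T, M i k * (v i * L.gibbs μ (L.vec k) v)) -
        ∑ i ∈ S, ∑ k ∈ T, M i k * (L.gibbs μ (L.vec i) v * v k)) := by
      rw [hΦ, ← sum_sub_distrib]
      simp only [← sum_sub_distrib, fPart]
      congr 1
      exact sum_congr rfl fun i _ => sum_congr rfl fun k _ => by ring
    rw [e, abs_mul, abs_of_pos (by positivity : 0 < (n ^ 2)⁻¹), inv_mul_le_iff₀ (by positivity)]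
    exact (abs_sub _ _).trans (by linarith)
  have h1 := abs_chain_le hR hl tΦ ((tame_fieldLen R).const_mul 2) hb y
  rw [down_eq_chain hl (fieldLen n R), ← chain_mul hl 2]
  refine le_trans (le_of_eq ?_) h1
  congr 1
  rw [hΦ, chain_mul hl, div_eq_inv_mul,
    chain_sum hR hl S fun i hi => tame_sum T (ti i hi)]
  congr 1
  refine sum_congr rfl fun i hi => ?_
  rw [chain_sum hR hl T (ti i hi)]
  exact sum_congr rfl fun k _ => by rw [chain_mul hl, down_eq_chain hl]

include hN hL in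
lemma down_hDer {l : ℕ} (hl : l ≤ N.K) (c : ℝ) (i k : ι) (y : ι → ℝ) :
    N.down (L.logZ μ) l (hDer L μ c i k) y =
      c * two N L μ l i k y + N.down (L.logZ μ) l (fPart L μ i k) y := by
  have hR := reg (μ := μ) hN hL
  show N.down (L.logZ μ) l _ y = c * N.down (L.logZ μ) l (lprod L μ i k) y + _
  simp only [down_eq_chain hl]
  unfold hDer
  rw [chain_add hR hl ((lprod_tame hN hL i k).const_mul c) (fPart_tame hN hL i k), chain_mul hl]

include hN hL hn hS hT hSR hTR in
/-- A matrix against the mean derivative of the Hamiltonian. -/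
lemma split_matrix {l : ℕ} (hl : l ≤ N.K) (c : ℝ) (M : ι → ι → ℝ)
    (hM : ∑ i ∈ S, ∑ k ∈ T, M i k ^ 2 ≤ n ^ 2) (y : ι → ℝ) :
    |(∑ i ∈ S, ∑ k ∈ T, M i k * N.down (L.logZ μ) l (hDer L μ c i k) y) / n ^ 2 -
        c * ((∑ i ∈ S, ∑ k ∈ T, M i k * two N L μ l i k y) / n ^ 2)| ≤
      2 * N.down (L.logZ μ) l (fieldLen n R) y := by
  refine le_trans (le_of_eq ?_) (field_matrix hN hL hn hS hT hSR hTR hl M hM y)
  congr 1
  rw [← mul_div_assoc, ← sub_div, mul_sum, ← sum_sub_distrib]
  congr 1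
  refine sum_congr rfl fun i _ => ?_
  rw [mul_sum, ← sum_sub_distrib]
  exact sum_congr rfl fun k _ => by rw [down_hDer hN hL hl]; ring

include hN hL hn in
lemma outer_le {u v : ι → ℝ} (hu : ∑ i ∈ S, u i ^ 2 ≤ n) (hv : ∑ i ∈ T, v i ^ 2 ≤ n) :
    ∑ i ∈ S, ∑ k ∈ T, (u i * v k) ^ 2 ≤ n ^ 2 := by
  simp only [mul_pow, ← sum_mul_sum]
  rw [sq n]
  exact mul_le_mul hu hv (sum_nonneg fun _ _ => sq_nonneg _) hn.le

include hN hL in
lemma ker_matrix {M P : ι → ι → (ι → ℝ) → (ι → ℝ) → ℝ} (hM : ∀ i k, Ker (M i k))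
    (hP : ∀ i k, Ker (P i k)) :
    Ker fun y v => (∑ i ∈ S, ∑ k ∈ T, M i k y v * P i k y v) / n ^ 2 := by
  simpa only [div_eq_inv_mul] using
    (ker_sum S fun i _ => ker_sum T fun k _ => (hM i k).mul (hP i k)).const_mul (n ^ 2)⁻¹

include hN hL in
lemma down_field_tame {l : ℕ} (hl : l ≤ N.K) :
    Tame (N.down (L.logZ μ) l (fieldLen n R)) :=
  down_tame' (reg hN hL) hl (tame_fieldLen R)

include hN hL hn hS hT hSR hTR in
/-- The derivative term at one level. -/
theorem same_term {l : ℕ} (hl : l ≤ N.K) (c v E φ : ℝ)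
    (hφ : N.mean (L.logZ μ) N.K (fieldLen n R) ≤ φ)
    (hE : |N.mean (L.logZ μ) l (fun y => (∑ i ∈ S, ∑ k ∈ T,
        N.grad L μ l i y * N.grad L μ l k y * two N L μ l i k y) / n ^ 2) - v| ≤ E) :
    |N.mean (L.logZ μ) l (fun y => (∑ i ∈ S, ∑ k ∈ T, N.grad L μ l i y * N.grad L μ l k y *
        N.down (L.logZ μ) l (hDer L μ c i k) y) / n ^ 2) - c * v| ≤ |c| * E + 2 * φ := by
  have hR := reg (μ := μ) hN hL
  have tG : ∀ i k, Tame fun y => N.grad L μ l i y * N.grad L μ l k y :=
    fun i k => (grad_tame hN hL hl i).mul (grad_tame hN hL hl k)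
  have tt : ∀ P : ι → ι → (ι → ℝ) → ℝ, (∀ i k, Tame (P i k)) → Tame fun y =>
      (∑ i ∈ S, ∑ k ∈ T, N.grad L μ l i y * N.grad L μ l k y * P i k y) / n ^ 2 := fun P hP => by
    simpa only [div_eq_inv_mul] using
      (tame_sum S fun i _ => tame_sum T fun k _ => (tG i k).mul (hP i k)).const_mul (n ^ 2)⁻¹
  have t1 := tt _ fun i k => down_tame' (N := N) hR hl (hDer_tame (μ := μ) hN hL c i k)
  have t2 := tt _ fun i k => two_tame (μ := μ) hN hL hl i k
  have h1 := abs_mean_le hR hl (t1.sub (t2.const_mul c))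
    ((down_field_tame (μ := μ) (n := n) (R := R) hN hL hl).const_mul 2) fun y =>
      split_matrix hN hL hn hS hT hSR hTR hl c _ (outer_le hN hL hn
        (sqSum_le_n (μ := μ) hN hL hn hS hl y).1 (sqSum_le_n (μ := μ) hN hL hn hT hl y).1) y
  rw [mean_sub'' hR hl t1 (t2.const_mul c), mean_mul'', mean_mul'', mean_down hl] at h1
  refine (abs_sub_le _ _ _).trans (add_le_add h1 (le_of_eq (by rw [← mul_sub, abs_mul]))) |>.trans ?_
  have := mul_le_mul_of_nonneg_left hE (abs_nonneg c)
  linarith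

include hN hL hn hS hT hSR hTR in
/-- The derivative term with a higher level. -/
theorem higher_term {l j : ℕ} (h : l ≤ j) (hj : j ≤ N.K) (c v E φ : ℝ)
    (hφ : N.mean (L.logZ μ) N.K (fieldLen n R) ≤ φ)
    (hE : |pair N (L.logZ μ) l j (fun y w => (∑ i ∈ S, ∑ k ∈ T,
        N.grad L μ j i w * N.grad L μ l k y * two N L μ j i k w) / n ^ 2) - v| ≤ E) :
    |pair N (L.logZ μ) l j (fun y w => (∑ i ∈ S, ∑ k ∈ T, N.grad L μ j i w * N.grad L μ l k y *
        N.down (L.logZ μ) j (hDer L μ c i k) w) / n ^ 2) - c * v| ≤ |c| * E + 2 * φ := by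
  have hR := reg (μ := μ) hN hL
  have hl : l ≤ N.K := h.trans hj
  have kG : ∀ i k, Ker fun y w => N.grad L μ j i w * N.grad L μ l k y := fun i k =>
    (ker_snd (grad_tame hN hL hj i)).mul (ker_fst (grad_tame hN hL hl k))
  have k1 := ker_matrix (S := S) (T := T) (n := n) hN hL kG
    fun i k => ker_snd (down_tame' (N := N) hR hj (hDer_tame (μ := μ) hN hL c i k))
  have k2 := ker_matrix (S := S) (T := T) (n := n) hN hL kG
    fun i k => ker_snd (two_tame (μ := μ) hN hL hj i k)
  have h1 := abs_pair_sub_le hR h hl 0 (k1.sub (k2.const_mul c))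
    (ker_snd ((down_field_tame (μ := μ) (n := n) (R := R) hN hL hj).const_mul 2)) fun y w => by
      rw [sub_zero]
      exact split_matrix hN hL hn hS hT hSR hTR hj c _ (outer_le hN hL hn
        (sqSum_le_n (μ := μ) hN hL hn hS hj w).1 (sqSum_le_n (μ := μ) hN hL hn hT hl y).1) w
  rw [sub_zero] at h1
  simp only [sub_eq_add_neg, ← neg_mul] at h1
  rw [pair_add hR h hl k1 (k2.const_mul _), pair_mul h, pair_snd h, mean_mul'', mean_down hj] at h1
  refine (abs_sub_le _ (c * pair N (L.logZ μ) l j (fun y w => (∑ i ∈ S, ∑ k ∈ T,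
    N.grad L μ j i w * N.grad L μ l k y * two N L μ j i k w) / n ^ 2)) _).trans ?_
  rw [← mul_sub, abs_mul]
  simp only [neg_mul, ← sub_eq_add_neg] at h1
  have := mul_le_mul_of_nonneg_left hE (abs_nonneg c)
  linarith

include hN hL hn hS hT hSR hTR in
/-- The derivative term with a lower level. -/
theorem lower_term {j l : ℕ} (h : j ≤ l) (hl : l ≤ N.K) (c v E φ : ℝ)
    (hφ : N.mean (L.logZ μ) N.K (fieldLen n R) ≤ φ)
    (hE : |pair N (L.logZ μ) j l (fun y w => (∑ i ∈ S, ∑ k ∈ T,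
        N.grad L μ l i w * N.grad L μ l k w * two N L μ j i k y) / n ^ 2) - v| ≤ E) :
    |pair N (L.logZ μ) j l (fun y w => (∑ i ∈ S, ∑ k ∈ T, N.grad L μ l i w * N.grad L μ l k w *
        N.down (L.logZ μ) j (hDer L μ c i k) y) / n ^ 2) - c * v| ≤ |c| * E + 2 * φ := by
  have hR := reg (μ := μ) hN hL
  have hj : j ≤ N.K := h.trans hl
  have kG : ∀ i k, Ker fun (_ : ι → ℝ) w => N.grad L μ l i w * N.grad L μ l k w := fun i k =>
    (ker_snd (grad_tame hN hL hl i)).mul (ker_snd (grad_tame hN hL hl k))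
  have k1 := ker_matrix (S := S) (T := T) (n := n) hN hL kG
    fun i k => ker_fst (down_tame' (N := N) hR hj (hDer_tame (μ := μ) hN hL c i k))
  have k2 := ker_matrix (S := S) (T := T) (n := n) hN hL kG
    fun i k => ker_fst (two_tame (μ := μ) hN hL hj i k)
  have h1 := abs_pair_sub_le hR h hj 0 (k1.sub (k2.const_mul c))
    (ker_fst ((down_field_tame (μ := μ) (n := n) (R := R) hN hL hj).const_mul 2)) fun y w => by
      rw [sub_zero]
      exact split_matrix hN hL hn hS hT hSR hTR hj c _ (outer_le hN hL hn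
        (sqSum_le_n (μ := μ) hN hL hn hS hl w).1 (sqSum_le_n (μ := μ) hN hL hn hT hl w).1) y
  rw [sub_zero] at h1
  simp only [sub_eq_add_neg, ← neg_mul] at h1
  rw [pair_add hR h hj k1 (k2.const_mul _), pair_mul h, pair_fst hR h, mean_mul'',
    mean_down hj] at h1
  refine (abs_sub_le _ (c * pair N (L.logZ μ) j l (fun y w => (∑ i ∈ S, ∑ k ∈ T,
    N.grad L μ l i w * N.grad L μ l k w * two N L μ j i k y) / n ^ 2)) _).trans ?_
  rw [← mul_sub, abs_mul]
  simp only [neg_mul, ← sub_eq_add_neg] at h1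
  have := mul_le_mul_of_nonneg_left hE (abs_nonneg c)
  linarith

include hN hL hn hS hT hSR hTR in
/-- The derivative term of the diagonal equation. -/
theorem two_term {j : ℕ} (hj : j ≤ N.K) (c v E φ : ℝ)
    (hφ : N.mean (L.logZ μ) N.K (fieldLen n R) ≤ φ)
    (hE : |N.mean (L.logZ μ) j (fun y => (∑ i ∈ S, ∑ k ∈ T, two N L μ j i k y ^ 2) / n ^ 2) - v| ≤ E) :
    |N.mean (L.logZ μ) j (fun y => (∑ i ∈ S, ∑ k ∈ T, two N L μ j i k y *
        N.down (L.logZ μ) j (hDer L μ c i k) y) / n ^ 2) - c * v| ≤ |c| * E + 2 * φ := by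
  have hR := reg (μ := μ) hN hL
  have tt : ∀ P : ι → ι → (ι → ℝ) → ℝ, (∀ i k, Tame (P i k)) → Tame fun y =>
      (∑ i ∈ S, ∑ k ∈ T, two N L μ j i k y * P i k y) / n ^ 2 := fun P hP => by
    simpa only [div_eq_inv_mul] using (tame_sum S fun i _ => tame_sum T fun k _ =>
      (two_tame (μ := μ) hN hL hj i k).mul (hP i k)).const_mul (n ^ 2)⁻¹
  have t1 := tt _ fun i k => down_tame' (N := N) hR hj (hDer_tame (μ := μ) hN hL c i k)
  have t2 := tt _ fun i k => two_tame (μ := μ) hN hL hj i k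
  have h1 := abs_mean_le hR hj (t1.sub (t2.const_mul c))
    ((down_field_tame (μ := μ) (n := n) (R := R) hN hL hj).const_mul 2) fun y =>
      split_matrix hN hL hn hS hT hSR hTR hj c (fun i k => two N L μ j i k y)
        (two_sq_le hN hL hn hS hT hj y) y
  rw [mean_sub'' hR hj t1 (t2.const_mul c), mean_mul'', mean_mul'', mean_down hj] at h1
  simp only [← sq] at h1
  refine (abs_sub_le _ _ _).trans (add_le_add h1 (le_of_eq (by rw [← mul_sub, abs_mul]))) |>.trans ?_
  have := mul_le_mul_of_nonneg_left hE (abs_nonneg c)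
  linarith

/-! ### The terms of the derivative of the observable -/

include hN hL hn hS in
lemma obs_lsq : Obs (lsq L n S) := by
  have : lsq L n S = fun ω v => n⁻¹ * ∑ i ∈ S, L.vec i ω v ^ 2 := by
    funext ω v; rw [lsq, div_eq_inv_mul]
  rw [this]
  exact (obs_const _).mul (obs_sum S fun i => obs_sq hL i)

include hN hL hn hS in
lemma abs_lsq_le (ω : Ω) (v : ι → ℝ) : |lsq L n S ω v| ≤ 1 := by
  rw [lsq, abs_div, abs_of_pos hn, div_le_one hn,
    abs_of_nonneg (sum_nonneg fun _ _ => sq_nonneg _)]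
  exact hS ω v

include hN hL in
lemma obs_abs_sub {f : Ω → (ι → ℝ) → ℝ} (hf : Obs f) (a : ℝ) : Obs fun ω v => |f ω v - a| := by
  obtain ⟨hm, hc, C, hC⟩ := hf
  refine ⟨fun y => continuous_abs.measurable.comp ((hm y).sub_const a),
    fun ω => ((hc ω).sub continuous_const).abs, C + |a|, fun ω y => ?_⟩
  rw [abs_abs]
  exact (abs_sub _ _).trans (by linarith [hC ω y])

include hN hL in
lemma node_mul_const (l : ℕ) (c : ℝ) (f : Ω → (ι → ℝ) → ℝ) (y : ι → ℝ) :
    N.node L μ l (fun ω v => f ω v * c) y = N.node L μ l f y * c := by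
  simp only [mul_comm _ c]
  exact node_const_mul hN hL l c f y

include hN hL hn hS in
/-- The deviation of the squared norm at the leaf from that given level `m`. -/
lemma leaf_dev {m : ℕ} (hm : m ≤ N.K) (d : ℝ) {t : ℝ} (ht : 0 < t) :
    N.mean (L.logZ μ) N.K (L.gibbs μ fun ω v => |lsq L n S ω v - d|) ≤
      ddev N L μ n S d m + dvar N L μ n S m / (2 * t) + t / 2 := by
  have hR := reg (μ := μ) hN hL
  have ol := obs_lsq (S := S) hN hL hn hS
  have o2 : Obs fun ω v => lsq L n S ω v ^ 2 := by simpa only [sq] using ol.mul ol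
  rw [← mean_down hm]
  have tq := node_tame (μ := μ) hN hL hm ol
  have td : Tame fun y => |N.node L μ m (lsq L n S) y - d| := (tq.sub (tame_const d)).abs
  have tv : Tame fun y => (2 * t)⁻¹ *
      (N.node L μ m (fun ω v => lsq L n S ω v ^ 2) y - N.node L μ m (lsq L n S) y ^ 2) :=
    ((node_tame hN hL hm o2).sub tq.sq).const_mul _
  have h := mean_mono'' hR m (node_tame (μ := μ) hN hL hm (obs_abs_sub hN hL ol d))
    ((td.add tv).add (tame_const (t / 2))) fun y => by
      set q := N.node L μ m (lsq L n S) y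
      have oc : Obs fun ω v => lsq L n S ω v ^ 2 * (2 * t)⁻¹ +
          (lsq L n S ω v * (-2 * q * (2 * t)⁻¹) + (q ^ 2 * (2 * t)⁻¹ + t / 2 + |q - d|)) :=
        (o2.mul (obs_const _)).add ((ol.mul (obs_const _)).add (obs_const _))
      refine (node_mono hN hL hm (obs_abs_sub hN hL ol d) oc (fun ω v => ?_) y).trans_eq ?_
      · have h1 := abs_sub_le (lsq L n S ω v) q d
        have h2 := half_sq (lsq L n S ω v - q) ht
        have e : (lsq L n S ω v - q) ^ 2 / (2 * t) = lsq L n S ω v ^ 2 * (2 * t)⁻¹ +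
            (lsq L n S ω v * (-2 * q * (2 * t)⁻¹) + q ^ 2 * (2 * t)⁻¹) := by
          field_simp; ring
        linarith
      · rw [node_add hN hL hm (o2.mul (obs_const _)) ((ol.mul (obs_const _)).add (obs_const _)),
          node_add hN hL hm (ol.mul (obs_const _)) (obs_const _), node_const hN hL hm]
        rw [node_mul_const hN hL, node_mul_const hN hL]
        simp only [q]
        ring
  refine h.trans_eq ?_
  rw [mean_add'' hR hm (td.add tv) (tame_const _), mean_add'' hR hm td tv, mean_mul'',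
    mean_const'' hR, ← div_eq_inv_mul]
  rfl

include hN hL hn hS hT hSR hTR in
/-- The term with the derivative of a coordinate. -/
theorem obs_term {l : ℕ} (hl : l ≤ N.K) (c dS aT φ δ : ℝ) (hd : |dS| ≤ 1)
    (hp : (S.card : ℝ) ≤ n) (hφ : N.mean (L.logZ μ) N.K (fieldLen n R) ≤ φ)
    (hδ : N.mean (L.logZ μ) N.K (L.gibbs μ fun ω v => |lsq L n S ω v - dS|) ≤ δ) :
    |N.mean (L.logZ μ) l (fun y => (∑ i ∈ S, ∑ k ∈ T,
        N.grad L μ l k y * N.down (L.logZ μ) l (oDer L μ c i k) y) / n ^ 2) -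
        ((S.card : ℝ) / n * aT + c * (dS * aT))| ≤
      (1 + |c|) * eta N L μ n T aT l + |c| * δ + 2 * φ := by
  have hR := reg (μ := μ) hN hL
  have ol := obs_lsq (S := S) hN hL hn hS
  have oa := obs_abs_sub (a := dS) (N := N) hN hL ol
  set p := (S.card : ℝ) / n
  have hp0 : 0 ≤ p := div_nonneg (Nat.cast_nonneg _) hn.le
  have hp1 : p ≤ 1 := (div_le_one hn).2 hp
  have tA := tame_asq (μ := μ) (n := n) hN hL hl T
  set D := fun y => (1 + |c|) * (|asq N L μ n T l y - aT| + N.covNorm L μ T l y / n) +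
    (|c| * N.down (L.logZ μ) l (L.gibbs μ fun ω v => |lsq L n S ω v - dS|) y +
      2 * N.down (L.logZ μ) l (fieldLen n R) y) with hD
  have tn : Tame (N.down (L.logZ μ) l (L.gibbs μ fun ω v => |lsq L n S ω v - dS|)) :=
    node_tame (μ := μ) hN hL hl oa
  have tD : Tame D := ((tame_dev hN hL hl T aT).const_mul _).add
    ((tn.const_mul _).add ((down_field_tame (μ := μ) (n := n) (R := R) hN hL hl).const_mul 2))
  have tf : Tame fun y => (∑ i ∈ S, ∑ k ∈ T,
      N.grad L μ l k y * N.down (L.logZ μ) l (oDer L μ c i k) y) / n ^ 2 := by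
    simpa only [div_eq_inv_mul] using (tame_sum S fun i _ => tame_sum T fun k _ =>
      (grad_tame (μ := μ) hN hL hl k).mul
        (down_tame' (N := N) hR hl (oDer_tame (μ := μ) hN hL c i k))).const_mul (n ^ 2)⁻¹
  have h1 := abs_mean_le hR hl (tf.sub (tame_const (p * aT + c * (dS * aT)))) tD fun y => ?_
  · rw [mean_sub'' hR hl tf (tame_const _), mean_const'' hR, hD,
      mean_add'' hR hl ((tame_dev hN hL hl T aT).const_mul _)
        ((tn.const_mul _).add ((down_field_tame (μ := μ) hN hL hl).const_mul 2)),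
      mean_add'' hR hl (tn.const_mul _) ((down_field_tame (μ := μ) hN hL hl).const_mul 2),
      mean_mul'', mean_mul'', mean_mul'', ← eta_eq hN hL hl, mean_down hl, mean_down hl] at h1
    have := mul_le_mul_of_nonneg_left hδ (abs_nonneg c)
    linarith
  set b := fun k => N.grad L μ l k y with hbdef
  obtain ⟨hb, -, hAb⟩ := sqSum_le_n (μ := μ) hN hL hn hT hl y
  -- the leaf function after the contraction with the constants `b`
  set Ψ := fun v => L.gibbs μ (fun ω w => lsq L n S ω w * ((∑ k ∈ T, b k * L.vec k ω w) / n)) v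
  set Fv := fun v => (∑ i ∈ S, ∑ k ∈ T,
      b k * (v i * lprod L μ i k v - v k * lprod L μ i i v)) / n ^ 2
  have og : Obs fun ω w => (∑ k ∈ T, b k * L.vec k ω w) / n := by
    simpa only [div_eq_inv_mul] using
      (obs_const n⁻¹).mul (obs_sum T fun k => (obs_const (b k)).mul (obs_vec hL k))
  have tΨ : Tame Ψ := tame_gibbs hL (ol.mul og)
  have tFi : ∀ i k, Tame fun v => b k * (v i * lprod L μ i k v - v k * lprod L μ i i v) :=
    fun i k => ((((tame_coord i).mul (lprod_tame hN hL i k)).sub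
      ((tame_coord k).mul (lprod_tame hN hL i i)))).const_mul _
  have tFv : Tame Fv := by
    simpa only [Fv, div_eq_inv_mul] using
      (tame_sum S fun i _ => tame_sum T fun k _ => tFi i k).const_mul (n ^ 2)⁻¹
  have hgz : ∀ ω w, |(∑ k ∈ T, b k * L.vec k ω w) / n| ≤ 1 := fun ω w => by
    rw [abs_div, abs_of_pos hn, div_le_one hn]
    exact abs_le_of_sq_le_sq ((abs_dot_sq_le T _ _ hb (hT ω w)).trans_eq (sq n).symm) hn.le
  have hmain : |N.down (L.logZ μ) l Ψ y - dS * asq N L μ n T l y| ≤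
      N.down (L.logZ μ) l (L.gibbs μ fun ω v => |lsq L n S ω v - dS|) y := by
    have e : dS * asq N L μ n T l y =
        N.node L μ l (fun ω w => dS * ((∑ k ∈ T, b k * L.vec k ω w) / n)) y := by
      simp only [node_const_mul hN hL, div_eq_inv_mul, asq, Nest.sqSum]
      rw [node_lin hN hL hl]
      simp only [b, ← sq]
    have oo := ol.mul og
    have od := (obs_const dS).mul og
    have h2 := node_mono (μ := μ) hN hL hl oo (od.add oa) (fun ω w => by
      have h3 : |(lsq L n S ω w - dS) * ((∑ k ∈ T, b k * L.vec k ω w) / n)| ≤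
          |lsq L n S ω w - dS| := by
        rw [abs_mul]; exact mul_le_of_le_one_right (abs_nonneg _) (hgz ω w)
      have := (le_abs_self _).trans h3
      linarith) y
    have h4 := node_mono (μ := μ) hN hL hl od (oo.add oa) (fun ω w => by
      have h3 : |(lsq L n S ω w - dS) * ((∑ k ∈ T, b k * L.vec k ω w) / n)| ≤
          |lsq L n S ω w - dS| := by
        rw [abs_mul]; exact mul_le_of_le_one_right (abs_nonneg _) (hgz ω w)
      have := (neg_abs_le _).trans' (neg_le_neg h3)
      linarith) y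
    rw [node_add hN hL hl od oa, ← e] at h2
    rw [node_add hN hL hl oo oa, ← e] at h4
    change |N.node L μ l _ y - _| ≤ N.node L μ l _ y
    rw [abs_le]
    constructor <;> linarith
  have hfield : |N.down (L.logZ μ) l Fv y| ≤ 2 * N.down (L.logZ μ) l (fieldLen n R) y := by
    simp only [down_eq_chain hl]
    rw [← chain_mul hl]
    refine abs_chain_le hR hl tFv ((tame_fieldLen R).const_mul 2) (fun v => ?_) y
    set W := fieldLen n R v
    have hW : 0 ≤ W := div_nonneg (Real.sqrt_nonneg _) (Real.sqrt_nonneg _)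
    have e : Fv v = L.gibbs μ (fun ω w => (∑ i ∈ S, ∑ k ∈ T, (b k * v i) * (L.vec i ω w * L.vec k ω w)
        + ∑ i ∈ S, ∑ k ∈ T, (-(b k * v k)) * (L.vec i ω w * L.vec i ω w)) * (n ^ 2)⁻¹) v := by
      have o1 : ∀ i k, Obs fun ω w => (b k * v i) * (L.vec i ω w * L.vec k ω w) := fun i k =>
        (obs_const _).mul ((obs_vec hL i).mul (obs_vec hL k))
      have o2 : ∀ i k, Obs fun ω w => (-(b k * v k)) * (L.vec i ω w * L.vec i ω w) := fun i k =>
        (obs_const _).mul ((obs_vec hL i).mul (obs_vec hL i))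
      simp only [mul_comm _ (n ^ 2)⁻¹]
      rw [← node_top hN hL, node_const_mul hN hL, node_add hN hL le_rfl
        (obs_sum S fun i => obs_sum T (o1 i)) (obs_sum S fun i => obs_sum T (o2 i)),
        node_sum hN hL le_rfl S fun i => obs_sum T (o1 i),
        node_sum hN hL le_rfl S fun i => obs_sum T (o2 i), ← sum_add_distrib]
      simp only [Fv, div_eq_inv_mul]
      congr 1
      refine sum_congr rfl fun i _ => ?_
      rw [node_sum hN hL le_rfl T (o1 i), node_sum hN hL le_rfl T (o2 i), ← sum_add_distrib]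
      refine sum_congr rfl fun k _ => ?_
      rw [node_const_mul hN hL, node_const_mul hN hL, node_top hN hL, node_top hN hL, lprod, lprod]
      ring
    rw [e, ← node_top hN hL]
    have o12 : Obs fun ω w => (∑ i ∈ S, ∑ k ∈ T, (b k * v i) * (L.vec i ω w * L.vec k ω w)
        + ∑ i ∈ S, ∑ k ∈ T, (-(b k * v k)) * (L.vec i ω w * L.vec i ω w)) * (n ^ 2)⁻¹ :=
      ((obs_sum S fun i => obs_sum T fun k => (obs_const _).mul
        ((obs_vec hL i).mul (obs_vec hL k))).add (obs_sum S fun i => obs_sum T fun k =>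
          (obs_const _).mul ((obs_vec hL i).mul (obs_vec hL i)))).mul (obs_const _)
    refine node_bound hN hL le_rfl o12 (fun ω w => ?_) v
    have e1 : ∑ i ∈ S, ∑ k ∈ T, (b k * v i) * (L.vec i ω w * L.vec k ω w) =
        (∑ i ∈ S, v i * L.vec i ω w) * ∑ k ∈ T, b k * L.vec k ω w := by
      rw [sum_mul_sum]
      exact sum_congr rfl fun i _ => sum_congr rfl fun k _ => by ring
    have e2 : ∑ i ∈ S, ∑ k ∈ T, (-(b k * v k)) * (L.vec i ω w * L.vec i ω w) =
        -((∑ i ∈ S, L.vec i ω w ^ 2) * ∑ k ∈ T, b k * v k) := by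
      rw [sum_mul_sum, ← sum_neg_distrib]
      refine sum_congr rfl fun i _ => ?_
      rw [← sum_neg_distrib]
      exact sum_congr rfl fun k _ => by ring
    have q1 : |∑ i ∈ S, v i * L.vec i ω w| ≤ n * W :=
      abs_le_of_sq_le_sq ((abs_dot_sq_le S _ _ (sum_sq_field hN hL hn hSR v) (hS ω w)).trans_eq
        (by ring)) (by positivity)
    have q2 : |∑ k ∈ T, b k * v k| ≤ n * W :=
      abs_le_of_sq_le_sq ((abs_dot_sq_le T _ _ hb (sum_sq_field hN hL hn hTR v)).trans_eq
        (by ring)) (by positivity)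
    have q3 : |∑ k ∈ T, b k * L.vec k ω w| ≤ n :=
      abs_le_of_sq_le_sq ((abs_dot_sq_le T _ _ hb (hT ω w)).trans_eq (sq n).symm) hn.le
    rw [abs_mul, abs_of_pos (by positivity : 0 < (n ^ 2)⁻¹), ← div_eq_mul_inv,
      div_le_iff₀ (by positivity), e1, e2]
    refine (abs_add_le _ _).trans ?_
    rw [abs_neg, abs_mul, abs_mul, abs_of_nonneg (sum_nonneg fun i _ => sq_nonneg (L.vec i ω w))]
    have r1 := mul_le_mul q1 q3 (abs_nonneg _) (by positivity)
    have r2 := mul_le_mul (hS ω w) q2 (abs_nonneg _) hn.le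
    linarith
  have e : (∑ i ∈ S, ∑ k ∈ T, b k * N.down (L.logZ μ) l (oDer L μ c i k) y) / n ^ 2 =
      p * asq N L μ n T l y + c * N.down (L.logZ μ) l Ψ y + N.down (L.logZ μ) l Fv y := by
    have hpt : (fun v => (n ^ 2)⁻¹ * ∑ i ∈ S, ∑ k ∈ T, b k * oDer L μ c i k v) =
        fun v => (p / n * ∑ k ∈ T, b k * L.gibbs μ (L.vec k) v + c * Ψ v) + Fv v := by
      funext v
      have e1 : Ψ v = (n ^ 2)⁻¹ * ∑ i ∈ S, ∑ k ∈ T,
          b k * L.gibbs μ (fun ω w => L.vec i ω w ^ 2 * L.vec k ω w) v := by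
        have o : ∀ i k, Obs fun ω w => b k * (L.vec i ω w ^ 2 * L.vec k ω w) := fun i k =>
          (obs_const _).mul ((obs_sq hL i).mul (obs_vec hL k))
        have ef : (fun ω w => lsq L n S ω w * ((∑ k ∈ T, b k * L.vec k ω w) / n)) = fun ω w =>
            (n ^ 2)⁻¹ * ∑ i ∈ S, ∑ k ∈ T, b k * (L.vec i ω w ^ 2 * L.vec k ω w) := by
          funext ω w
          rw [lsq, div_mul_div_comm, sum_mul_sum, div_eq_inv_mul, ← sq]
          congr 1
          exact sum_congr rfl fun i _ => sum_congr rfl fun k _ => by ring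
        simp only [Ψ, ef]
        rw [← node_top hN hL, node_const_mul hN hL, node_sum hN hL le_rfl S fun i => obs_sum T (o i)]
        congr 1
        refine sum_congr rfl fun i _ => ?_
        rw [node_sum hN hL le_rfl T (o i)]
        exact sum_congr rfl fun k _ => by rw [node_const_mul hN hL, node_top hN hL]
      rw [e1]
      simp only [Fv, oDer, div_eq_inv_mul, p]
      rw [show n⁻¹ * (n⁻¹ * (S.card : ℝ)) * ∑ k ∈ T, b k * L.gibbs μ (L.vec k) v =
        (n ^ 2)⁻¹ * ∑ _i ∈ S, ∑ k ∈ T, b k * L.gibbs μ (L.vec k) v by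
          rw [sum_const, nsmul_eq_mul, ← inv_pow]; ring, ← mul_assoc c, mul_comm c (n ^ 2)⁻¹,
        mul_assoc, ← mul_add, ← mul_add, mul_sum (a := c), ← sum_add_distrib, ← sum_add_distrib]
      congr 1
      refine sum_congr rfl fun i _ => ?_
      rw [mul_sum, ← sum_add_distrib, ← sum_add_distrib]
      exact sum_congr rfl fun k _ => by ring
    have tO : ∀ i ∈ S, ∀ k ∈ T, Tame fun v => b k * oDer L μ c i k v :=
      fun i _ k _ => (oDer_tame hN hL c i k).const_mul _
    have tg : ∀ k ∈ T, Tame fun v => b k * L.gibbs μ (L.vec k) v :=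
      fun k _ => (tame_gibbs hL (obs_vec hL k)).const_mul _
    have lhs : (∑ i ∈ S, ∑ k ∈ T, b k * N.down (L.logZ μ) l (oDer L μ c i k) y) / n ^ 2 =
        chain N (L.logZ μ) l N.K
          (fun v => (n ^ 2)⁻¹ * ∑ i ∈ S, ∑ k ∈ T, b k * oDer L μ c i k v) y := by
      rw [chain_mul hl, chain_sum hR hl S fun i hi => tame_sum T (tO i hi), div_eq_inv_mul]
      congr 1
      refine sum_congr rfl fun i hi => ?_
      rw [chain_sum hR hl T (tO i hi)]
      exact sum_congr rfl fun k _ => by rw [chain_mul hl, down_eq_chain hl]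
    rw [lhs, hpt, chain_add hR hl (((tame_sum T tg).const_mul _).add (tΨ.const_mul c)) tFv,
      chain_add hR hl ((tame_sum T tg).const_mul _) (tΨ.const_mul c), chain_mul hl, chain_mul hl,
      chain_sum hR hl T tg, ← down_eq_chain hl, ← down_eq_chain hl]
    congr 2
    simp only [chain_mul hl, ← down_eq_chain hl, asq, Nest.sqSum, b, div_eq_inv_mul]
    change n⁻¹ * p * ∑ k ∈ T, N.grad L μ l k y * N.grad L μ l k y = _
    simp only [← sq]
    ring
  simp only [hbdef] at e
  rw [e, hD]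
  have h5 : |p * asq N L μ n T l y - p * aT| ≤ |asq N L μ n T l y - aT| := by
    rw [← mul_sub, abs_mul, abs_of_nonneg hp0]
    exact mul_le_of_le_one_left (abs_nonneg _) hp1
  have h6 : |c * N.down (L.logZ μ) l Ψ y - c * (dS * aT)| ≤
      |c| * (N.down (L.logZ μ) l (L.gibbs μ fun ω v => |lsq L n S ω v - dS|) y +
        |asq N L μ n T l y - aT|) := by
    rw [← mul_sub, abs_mul]
    refine mul_le_mul_of_nonneg_left ?_ (abs_nonneg c)
    refine (abs_sub_le _ (dS * asq N L μ n T l y) _).trans (add_le_add hmain ?_)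
    rw [← mul_sub, abs_mul]
    exact mul_le_of_le_one_left (abs_nonneg _) hd
  have h7 := (dev_nonneg (μ := μ) hN hL hn T aT l y).2
  have h8 := mul_nonneg (abs_nonneg c) h7
  have := abs_le.1 h5
  have := abs_le.1 h6
  have := abs_le.1 hfield
  rw [abs_le]
  constructor <;> linarith

include hN hL hn hS hT hSR hTR in
/-- The term with the derivative of a product of coordinates. -/
theorem prod_term {l : ℕ} (hl : l ≤ N.K) (c dS dT φ δS δT : ℝ) (hdT : |dT| ≤ 1)
    (hp : (S.card : ℝ) ≤ n) (hp' : (T.card : ℝ) ≤ n)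
    (hφ : N.mean (L.logZ μ) N.K (fieldLen n R) ≤ φ)
    (hδS : N.mean (L.logZ μ) N.K (L.gibbs μ fun ω v => |lsq L n S ω v - dS|) ≤ δS)
    (hδT : N.mean (L.logZ μ) N.K (L.gibbs μ fun ω v => |lsq L n T ω v - dT|) ≤ δT) :
    |N.mean (L.logZ μ) l (fun y => (∑ i ∈ S, ∑ k ∈ T,
        N.down (L.logZ μ) l (pDer L μ c i k) y) / n ^ 2) -
        ((S.card : ℝ) / n * dT - (T.card : ℝ) / n * dS + c * (dS * dT))| ≤
      (1 + |c|) * (δS + δT) + 2 * φ := by
  have hR := reg (μ := μ) hN hL
  have olS := obs_lsq (S := S) hN hL hn hS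
  have olT := obs_lsq (S := T) hN hL hn hT
  have oaS := obs_abs_sub (a := dS) (N := N) hN hL olS
  have oaT := obs_abs_sub (a := dT) (N := N) hN hL olT
  set p := (S.card : ℝ) / n
  set q := (T.card : ℝ) / n
  have hp0 : 0 ≤ p := div_nonneg (Nat.cast_nonneg _) hn.le
  have hp1 : p ≤ 1 := (div_le_one hn).2 hp
  have hq0 : 0 ≤ q := div_nonneg (Nat.cast_nonneg _) hn.le
  have hq1 : q ≤ 1 := (div_le_one hn).2 hp'
  set F : (ι → ℝ) → ℝ := fun v => (n ^ 2)⁻¹ * ∑ i ∈ S, ∑ k ∈ T, pDer L μ c i k v with hF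
  have tF : Tame F :=
    (tame_sum S fun i _ => tame_sum T fun k _ => pDer_tame hN hL c i k).const_mul _
  have e : N.mean (L.logZ μ) l (fun y => (∑ i ∈ S, ∑ k ∈ T,
      N.down (L.logZ μ) l (pDer L μ c i k) y) / n ^ 2) = N.mean (L.logZ μ) N.K F := by
    rw [← mean_down hl F]
    refine congrArg _ (funext fun y => ?_)
    rw [down_eq_chain hl F, hF, chain_mul hl, div_eq_inv_mul,
      chain_sum hR hl S fun i _ => tame_sum T fun k _ => pDer_tame hN hL c i k]
    congr 1
    refine sum_congr rfl fun i _ => ?_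
    rw [chain_sum hR hl T fun k _ => pDer_tame hN hL c i k]
    simp only [down_eq_chain hl]
  rw [e]
  clear e
  clear_value F
  set V := p * dT - q * dS + c * (dS * dT)
  set D := fun v => (1 + |c|) * (L.gibbs μ (fun ω w => |lsq L n S ω w - dS|) v +
    L.gibbs μ (fun ω w => |lsq L n T ω w - dT|) v) + 2 * fieldLen n R v with hD
  have tg : Tame fun v => L.gibbs μ (fun ω w => |lsq L n S ω w - dS|) v +
      L.gibbs μ (fun ω w => |lsq L n T ω w - dT|) v :=
    (tame_gibbs hL oaS).add (tame_gibbs hL oaT)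
  have tD : Tame D := (tg.const_mul _).add ((tame_fieldLen R).const_mul 2)
  have h1 := abs_mean_le hR le_rfl (tF.sub (tame_const V)) tD fun v => ?_
  · rw [mean_sub'' hR le_rfl tF (tame_const _), mean_const'' hR, hD,
      mean_add'' hR le_rfl (tg.const_mul _) ((tame_fieldLen R).const_mul 2),
      mean_mul'', mean_mul'', mean_add'' hR le_rfl (tame_gibbs hL oaS) (tame_gibbs hL oaT)] at h1
    refine h1.trans ?_
    have := add_le_add hδS hδT
    gcongr
  set W := fieldLen n R v
  have hW : 0 ≤ W := div_nonneg (Real.sqrt_nonneg _) (Real.sqrt_nonneg _)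
  -- one observable at the fixed state `v`
  set G : Ω → (ι → ℝ) → ℝ := fun ω w => (n ^ 2)⁻¹ * (∑ i ∈ S, ∑ k ∈ T,
    (L.vec k ω w ^ 2 + (-1) * L.vec i ω w ^ 2 + c * (L.vec i ω w ^ 2 * L.vec k ω w ^ 2) +
      (v i * (L.vec i ω w * L.vec k ω w ^ 2) + (-(v k)) * (L.vec i ω w ^ 2 * L.vec k ω w))))
    with hG
  have o : ∀ i k, Obs fun ω w =>
      L.vec k ω w ^ 2 + (-1) * L.vec i ω w ^ 2 + c * (L.vec i ω w ^ 2 * L.vec k ω w ^ 2) +
        (v i * (L.vec i ω w * L.vec k ω w ^ 2) + (-(v k)) * (L.vec i ω w ^ 2 * L.vec k ω w)) :=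
    fun i k => (((obs_sq hL k).add ((obs_const (-1)).mul (obs_sq hL i))).add
      ((obs_const c).mul ((obs_sq hL i).mul (obs_sq hL k)))).add
      (((obs_const (v i)).mul ((obs_vec hL i).mul (obs_sq hL k))).add
        ((obs_const (-(v k))).mul ((obs_sq hL i).mul (obs_vec hL k))))
  have oG : Obs G := (obs_const _).mul (obs_sum S fun i => obs_sum T (o i))
  clear_value G
  have eF : F v = N.node L μ N.K G v := by
    rw [hG, node_const_mul hN hL, node_sum hN hL le_rfl S fun i => obs_sum T (o i), hF]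
    beta_reduce
    congr 1
    refine sum_congr rfl fun i _ => ?_
    rw [node_sum hN hL le_rfl T (o i)]
    refine sum_congr rfl fun k _ => ?_
    rw [node_add hN hL le_rfl, node_add hN hL le_rfl, node_add hN hL le_rfl,
      node_add hN hL le_rfl, node_const_mul hN hL, node_const_mul hN hL, node_const_mul hN hL,
      node_const_mul hN hL]
    · simp only [node_top hN hL, pDer, lprod, ← sq]
      ring
    any_goals first
      | exact obs_sq hL _
      | exact (obs_const _).mul (obs_sq hL _)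
      | exact (obs_sq hL k).add ((obs_const _).mul (obs_sq hL i))
      | exact (obs_const _).mul ((obs_sq hL i).mul (obs_sq hL k))
      | exact ((obs_sq hL k).add ((obs_const _).mul (obs_sq hL i))).add
          ((obs_const _).mul ((obs_sq hL i).mul (obs_sq hL k)))
      | exact (obs_const _).mul ((obs_vec hL i).mul (obs_sq hL k))
      | exact (obs_const _).mul ((obs_sq hL i).mul (obs_vec hL k))
      | exact ((obs_const _).mul ((obs_vec hL i).mul (obs_sq hL k))).add
          ((obs_const _).mul ((obs_sq hL i).mul (obs_vec hL k)))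
  rw [eF, hD]
  simp only [← node_top hN hL]
  have og := oaS.add oaT
  have key : ∀ ω w, |G ω w - V| ≤ (1 + |c|) * (|lsq L n S ω w - dS| + |lsq L n T ω w - dT|) +
      2 * W := by
    intro ω w
    have q1 : |∑ i ∈ S, v i * L.vec i ω w| ≤ n * W :=
      abs_le_of_sq_le_sq ((abs_dot_sq_le S _ _ (sum_sq_field hN hL hn hSR v) (hS ω w)).trans_eq
        (by ring)) (by positivity)
    have q2 : |∑ k ∈ T, v k * L.vec k ω w| ≤ n * W :=
      abs_le_of_sq_le_sq ((abs_dot_sq_le T _ _ (sum_sq_field hN hL hn hTR v) (hT ω w)).trans_eq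
        (by ring)) (by positivity)
    have eG : G ω w = p * lsq L n T ω w - q * lsq L n S ω w + c * (lsq L n S ω w * lsq L n T ω w) +
        ((∑ i ∈ S, v i * L.vec i ω w) / n * lsq L n T ω w -
          lsq L n S ω w * ((∑ k ∈ T, v k * L.vec k ω w) / n)) := by
      have es : ∀ f g : ι → ℝ, ∑ i ∈ S, ∑ k ∈ T, f i * g k = (∑ i ∈ S, f i) * ∑ k ∈ T, g k :=
        fun f g => (sum_mul_sum _ _ f g).symm
      have e0 : ∑ i ∈ S, ∑ k ∈ T,
          (L.vec k ω w ^ 2 + (-1) * L.vec i ω w ^ 2 + c * (L.vec i ω w ^ 2 * L.vec k ω w ^ 2) +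
            (v i * (L.vec i ω w * L.vec k ω w ^ 2) + (-(v k)) * (L.vec i ω w ^ 2 * L.vec k ω w))) =
          (S.card : ℝ) * (∑ k ∈ T, L.vec k ω w ^ 2) - (T.card : ℝ) * (∑ i ∈ S, L.vec i ω w ^ 2) +
            c * ((∑ i ∈ S, L.vec i ω w ^ 2) * ∑ k ∈ T, L.vec k ω w ^ 2) +
            ((∑ i ∈ S, v i * L.vec i ω w) * (∑ k ∈ T, L.vec k ω w ^ 2) -
              (∑ i ∈ S, L.vec i ω w ^ 2) * ∑ k ∈ T, v k * L.vec k ω w) := by
        rw [← es (fun i => L.vec i ω w ^ 2) fun k => L.vec k ω w ^ 2,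
          ← es (fun i => v i * L.vec i ω w) fun k => L.vec k ω w ^ 2,
          ← es (fun i => L.vec i ω w ^ 2) fun k => v k * L.vec k ω w,
          show (S.card : ℝ) * (∑ k ∈ T, L.vec k ω w ^ 2) = ∑ _i ∈ S, ∑ k ∈ T, L.vec k ω w ^ 2 by
            rw [sum_const, nsmul_eq_mul],
          show (T.card : ℝ) * (∑ i ∈ S, L.vec i ω w ^ 2) = ∑ i ∈ S, ∑ _k ∈ T, L.vec i ω w ^ 2 by
            rw [mul_sum]; simp]
        simp only [mul_sum, ← sum_sub_distrib, ← sum_add_distrib]
        exact sum_congr rfl fun i _ => sum_congr rfl fun k _ => by ring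
      rw [hG]
      beta_reduce
      rw [e0]
      simp only [p, q, lsq]
      field_simp
    have hls := abs_lsq_le (S := S) (N := N) hN hL hn hS ω w
    have hlt := abs_lsq_le (S := T) (N := N) hN hL hn hT ω w
    have a1 : |p * lsq L n T ω w - p * dT| ≤ |lsq L n T ω w - dT| := by
      rw [← mul_sub, abs_mul, abs_of_nonneg hp0]; exact mul_le_of_le_one_left (abs_nonneg _) hp1
    have a2 : |q * lsq L n S ω w - q * dS| ≤ |lsq L n S ω w - dS| := by
      rw [← mul_sub, abs_mul, abs_of_nonneg hq0]; exact mul_le_of_le_one_left (abs_nonneg _) hq1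
    have a3 : |c * (lsq L n S ω w * lsq L n T ω w) - c * (dS * dT)| ≤
        |c| * (|lsq L n S ω w - dS| + |lsq L n T ω w - dT|) := by
      rw [← mul_sub, abs_mul]
      exact mul_le_mul_of_nonneg_left (abs_prod_sub hls hdT) (abs_nonneg c)
    have a4 : ∀ x z : ℝ, |x| ≤ n * W → |z| ≤ 1 → |x / n * z| ≤ W := by
      intro x z hx hz
      rw [abs_mul, abs_div, abs_of_pos hn]
      refine (mul_le_of_le_one_right (by positivity) hz).trans ?_
      rw [div_le_iff₀ hn]; linarith
    have a5 := a4 _ _ q1 hlt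
    have a6 := a4 _ _ q2 hls
    rw [mul_comm _ (lsq L n S ω w)] at a6
    have := abs_le.1 a1
    have := abs_le.1 a2
    have := abs_le.1 a3
    have := abs_le.1 a5
    have := abs_le.1 a6
    rw [eG, abs_le]
    constructor <;> linarith
  have hu := node_mono (μ := μ) hN hL le_rfl oG ((obs_const V).add
      (((obs_const (1 + |c|)).mul og).add (obs_const (2 * W))))
    (fun ω w => by linarith [(abs_le.1 (key ω w)).2]) v
  have hl' := node_mono (μ := μ) hN hL le_rfl (obs_const V) (oG.add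
      (((obs_const (1 + |c|)).mul og).add (obs_const (2 * W))))
    (fun ω w => by linarith [(abs_le.1 (key ω w)).1]) v
  have eo := node_add (μ := μ) hN hL le_rfl oaS oaT v
  rw [node_add hN hL le_rfl (obs_const V) (((obs_const (1 + |c|)).mul og).add (obs_const (2 * W))),
    node_add hN hL le_rfl ((obs_const (1 + |c|)).mul og) (obs_const (2 * W)),
    node_const hN hL le_rfl, node_const hN hL le_rfl, node_const_mul hN hL, eo] at hu
  rw [node_add hN hL le_rfl oG (((obs_const (1 + |c|)).mul og).add (obs_const (2 * W))),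
    node_add hN hL le_rfl ((obs_const (1 + |c|)).mul og) (obs_const (2 * W)),
    node_const hN hL le_rfl, node_const hN hL le_rfl, node_const_mul hN hL, eo] at hl'
  rw [abs_le]
  constructor <;> linarith

end Vale.Agent.P166.Parisi.Loop
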