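import Vale.Agent.P166.Parisi.Spin
import Vale.Agent.P166.Parisi.Spec
import Vale.Agent.P157.Parisi.LowerBasics

/-!
Deterministic facts for the lower bound: the energy term is Lipschitz in the tails of the path, the
field of one spin with a base variance path, and the comparison with the variational value.
-/

namespace Vale.Agent.P166.Parisi

open MeasureTheory ProbabilityTheory Finset
open Vale.Agent.P157 Vale.Agent.P157.Parisi

/-! ### The energy term -/

section Energy

variable {γ : Type} [Fintype γ] (A : Atoms γ)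

/-- The R-transform of the atoms, continued to zero. -/
noncomputable def rInt (χ : ℝ) : ℝ := ∫ t in (0 : ℝ)..1, A.dPhi (t * χ)

lemma dPhi_scaled_integrable {χ : ℝ} (hχ : 0 ≤ χ) :
    IntervalIntegrable (fun t => A.dPhi (t * χ)) volume 0 1 :=
  ContinuousOn.intervalIntegrable_of_Icc zero_le_one
    ((continuousOn_dPhi A).comp (continuousOn_id.mul continuousOn_const)
      fun _ ht => Set.mem_Ici.2 (mul_nonneg ht.1 hχ))

lemma rInt_ge {χ c : ℝ} (hχ : 0 ≤ χ) (hc : ∀ r, c ≤ A.lam r) : c ≤ rInt A χ := by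
  have h := intervalIntegral.integral_mono_on zero_le_one
    (intervalIntegrable_const (μ := volume) (c := c)) (dPhi_scaled_integrable A hχ)
    (fun t ht => (dPhi_mem A (mul_nonneg ht.1 hχ) hc A.le_top).1)
  simpa [rInt] using h

lemma rInt_mono {χ χ' : ℝ} (hχ : 0 ≤ χ) (h : χ ≤ χ') : rInt A χ ≤ rInt A χ' :=
  intervalIntegral.integral_mono_on zero_le_one (dPhi_scaled_integrable A hχ)
    (dPhi_scaled_integrable A (hχ.trans h)) fun _ ht =>
      dPhi_monotoneOn A (Set.mem_Ici.2 (mul_nonneg ht.1 hχ))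
        (Set.mem_Ici.2 (mul_nonneg ht.1 (hχ.trans h))) (mul_le_mul_of_nonneg_left h ht.1)

lemma rInt_lipschitz : ∃ C : ℝ, 0 ≤ C ∧ ∀ χ ∈ Set.Icc (0 : ℝ) 1, ∀ χ' ∈ Set.Icc (0 : ℝ) 1,
    |rInt A χ - rInt A χ'| ≤ C * |χ - χ'| := by
  obtain ⟨C, hC⟩ := dPhi_lipschitz A
  refine ⟨max C 0, le_max_right _ _, fun χ hχ χ' hχ' => ?_⟩
  have hmem : ∀ t ∈ Set.Icc (0 : ℝ) 1, ∀ x ∈ Set.Icc (0 : ℝ) 1, t * x ∈ Set.Icc (0 : ℝ) 1 :=
    fun t ht x hx => ⟨mul_nonneg ht.1 hx.1, mul_le_one₀ ht.2 hx.1 hx.2⟩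
  rw [rInt, rInt, ← intervalIntegral.integral_sub (dPhi_scaled_integrable A hχ.1)
    (dPhi_scaled_integrable A hχ'.1)]
  refine (intervalIntegral.norm_integral_le_of_norm_le_const (C := max C 0 * |χ - χ'|)
    (f := fun t => A.dPhi (t * χ) - A.dPhi (t * χ')) fun t ht => ?_).trans (by simp)
  rw [Set.uIoc_of_le zero_le_one] at ht
  have ht' : t ∈ Set.Icc (0 : ℝ) 1 := Set.Ioc_subset_Icc_self ht
  rw [Real.norm_eq_abs]
  refine (hC _ (hmem t ht' χ hχ) _ (hmem t ht' χ' hχ')).trans ?_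
  rw [← mul_sub, abs_mul, abs_of_nonneg ht'.1]
  have h1 : t * |χ - χ'| ≤ |χ - χ'| := mul_le_of_le_one_left (abs_nonneg _) ht'.2
  have h2 : 0 ≤ t * |χ - χ'| := mul_nonneg ht'.1 (abs_nonneg _)
  calc C * (t * |χ - χ'|) ≤ max C 0 * (t * |χ - χ'|) :=
        mul_le_mul_of_nonneg_right (le_max_left _ _) h2
    _ ≤ max C 0 * |χ - χ'| := mul_le_mul_of_nonneg_left h1 (le_max_right _ _)

lemma continuousOn_rInt : ContinuousOn (rInt A) (Set.Icc 0 1) := by
  obtain ⟨C, hC0, hC⟩ := rInt_lipschitz A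
  refine (LipschitzOnWith.of_dist_le_mul (K := ⟨C, hC0⟩) fun x hx y hy => ?_).continuousOn
  simp only [Real.dist_eq]
  exact hC x hx y hy

lemma chi_integrable {K : ℕ} {q : ℕ → ℝ} (hq : IsPath q) (h1 : q K ≤ 1) :
    IntervalIntegrable (fun s => rInt A (chiPath K q s)) volume 0 1 :=
  ContinuousOn.intervalIntegrable_of_Icc zero_le_one
    ((continuousOn_rInt A).comp (chiPath_continuous K q).continuousOn
      fun _ hs => chiPath_mem hq h1 hs)

lemma energy_law {K : ℕ} {q : ℕ → ℝ} (hq : IsPath q) (h1 : q K < 1) :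
    energy A.law 1 K q = 1 / 2 * ∫ s in (0 : ℝ)..1, rInt A (chiPath K q s) := by
  rw [energy]
  congr 1
  refine intervalIntegral.integral_congr_ae ?_
  have hne : ∀ᵐ s : ℝ, s ≠ 1 := by simp [ae_iff, measure_singleton]
  filter_upwards [hne] with s hs hs'
  rw [Set.uIoc_of_le zero_le_one] at hs'
  have hsm : s ∈ Set.Ico (0 : ℝ) 1 := ⟨hs'.1.le, lt_of_le_of_ne hs'.2 hs⟩
  have hpos := chiPath_pos hq h1 hsm
  rw [one_mul, ← rTrans_atoms A hpos, rInt]
  refine intervalIntegral.integral_congr fun t ht => ?_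
  rw [Set.uIcc_of_le zero_le_one] at ht
  simp only [A.dEnergy_eq t hpos.le, max_eq_left ht.1]

end Energy

variable {M : ℕ} [NeZero M]

lemma evenLaw_law {a : Fin M → ℝ} (ha : Monotone a) : evenLaw a = (evenAtoms a ha).law := rfl

/-- The energy term is Lipschitz in the tails, from above. -/
theorem energy_tail_le {a : Fin M → ℝ} (ha : Monotone a) :
    ∃ C : ℝ, 0 ≤ C ∧ ∀ (K : ℕ) (p q : ℕ → ℝ), IsPath p → p K < 1 → IsPath q → q K < 1 →
      ∀ η : ℝ, 0 ≤ η → (∀ l ≤ K, qTail K q l - η ≤ qTail K p l) →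
        energy (evenLaw a) 1 K p ≤ energy (evenLaw a) 1 K q + C * η := by
  obtain ⟨C, hC0, hC⟩ := rInt_lipschitz (evenAtoms a ha)
  refine ⟨C, hC0, fun K p q hp hp1 hq hq1 η hη h => ?_⟩
  rw [evenLaw_law ha, energy_law _ hp hp1, energy_law _ hq hq1]
  have hmono : (∫ s in (0 : ℝ)..1, rInt (evenAtoms a ha) (chiPath K p s)) ≤
      ∫ s in (0 : ℝ)..1, (rInt (evenAtoms a ha) (chiPath K q s) + C * η) := by
    refine intervalIntegral.integral_mono_on zero_le_one (chi_integrable _ hp hp1.le)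
      ((chi_integrable _ hq hq1.le).add intervalIntegrable_const) fun s hs => ?_
    have hP := chiPath_mem hp hp1.le hs
    have hQ := chiPath_mem hq hq1.le hs
    rcases le_total (chiPath K p s) (chiPath K q s) with hle | hle
    · have := rInt_mono (evenAtoms a ha) hP.1 hle
      have : 0 ≤ C * η := mul_nonneg hC0 hη
      linarith
    · have h1 := (abs_le.1 (hC _ hP _ hQ)).2
      rw [abs_of_nonneg (sub_nonneg.2 hle)] at h1
      have h2 : C * (chiPath K p s - chiPath K q s) ≤ C * η :=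
        mul_le_mul_of_nonneg_left (by linarith [chiPath_tail hη h s]) hC0
      linarith
  rw [intervalIntegral.integral_add (chi_integrable _ hq hq1.le) intervalIntegrable_const,
    intervalIntegral.integral_const] at hmono
  simp only [sub_zero, one_smul] at hmono
  have : 0 ≤ C * η := mul_nonneg hC0 hη
  linarith

/-- Every path gives an upper bound of the value. -/
theorem value_le {a : Fin M → ℝ} (ha : Monotone a) {K : ℕ} {q : ℕ → ℝ} (hq : IsPath q)
    (h1 : q K < 1) : value (evenLaw a) 1 ≤ isingEntropy K q + energy (evenLaw a) 1 K q := by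
  refine csInf_le ⟨-(∑ r, |a r|) / 2, ?_⟩ ⟨K, q, hq, h1, rfl⟩
  rintro x ⟨K', p, hp, hp1, rfl⟩
  have h0 := isingEntropy_nonneg hp hp1
  have hlow : ∀ r, -(∑ i, |a i|) ≤ (evenAtoms a ha).lam r := fun r => by
    have := single_le_sum (f := fun i => |a i|) (fun i _ => abs_nonneg _) (mem_univ r)
    change -(∑ i, |a i|) ≤ a r
    linarith [neg_abs_le (a r)]
  rw [evenLaw_law ha, energy_law _ hp hp1]
  have h2 := intervalIntegral.integral_mono_on zero_le_one
    (intervalIntegrable_const (μ := volume) (c := -(∑ i, |a i|)))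
    (chi_integrable (evenAtoms a ha) hp hp1.le)
    (fun s hs => rInt_ge _ (chiPath_mem hp hp1.le hs).1 hlow)
  simp only [intervalIntegral.integral_const, sub_zero, one_smul] at h2
  linarith

/-! ### Tails -/

lemma pTail_eq_qTail (K : ℕ) (q : ℕ → ℝ) (l : ℕ) : pTail K q l = qTail K q l := by
  rw [pTail, qTail, ← Finset.sum_div, Finset.Ico_add_one_right_eq_Icc]

lemma IsPath.nonneg {q : ℕ → ℝ} (hq : IsPath q) (l : ℕ) : 0 ≤ q l :=
  hq.2.trans (hq.1 (Nat.zero_le l))

/-- The probe levels outside of the levels without fields. -/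
def probeSet (K L0 J : ℕ) : Finset ℕ :=
  insert 0 (((range J).image (probe K J)).filter fun l => L0 < l)

lemma zero_mem_probeSet (K L0 J : ℕ) : 0 ∈ probeSet K L0 J := mem_insert_self _ _

lemma probeSet_spec {K L0 J l : ℕ} (hl : l ∈ probeSet K L0 J) :
    l ≤ K ∧ ¬(1 ≤ l ∧ l ≤ L0) := by
  rcases mem_insert.1 hl with rfl | h
  · simp
  · obtain ⟨h1, h2⟩ := mem_filter.1 h
    obtain ⟨j, hj, rfl⟩ := mem_image.1 h1
    exact ⟨probe_le (mem_range.1 hj), by omega⟩

lemma card_probeSet (K L0 J : ℕ) : (probeSet K L0 J).card ≤ J + 1 := by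
  refine (card_insert_le _ _).trans (Nat.add_le_add_right ?_ 1)
  exact (card_filter_le _ _).trans (card_image_le.trans (card_range J).le)

/-- Tails which are close at the probe levels are close everywhere. -/
lemma tail_from_probe {K L0 J : ℕ} (hJ : 0 < J) {p q : ℕ → ℝ} (hp : IsPath p) (hp1 : p K ≤ 1)
    (hq : IsPath q) (hq1 : q K ≤ 1) {η : ℝ}
    (h : ∀ l ∈ probeSet K L0 J, |qTail K p l - qTail K q l| ≤ η) {l : ℕ} (hl : l ≤ K) :
    |qTail K p l - qTail K q l| ≤
      η + ((L0 : ℝ) / ((K : ℝ) + 1) + 1 / (J : ℝ) + 1 / ((K : ℝ) + 1)) := by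
  have hK : (0 : ℝ) < (K : ℝ) + 1 := by positivity
  suffices h' : ∃ l' ∈ probeSet K L0 J, l' ≤ l ∧ ((l : ℝ) - l') / ((K : ℝ) + 1) ≤
      (L0 : ℝ) / ((K : ℝ) + 1) + 1 / (J : ℝ) + 1 / ((K : ℝ) + 1) by
    obtain ⟨l', hm, hle, hgap⟩ := h'
    have hP := pTail_sub_le (K := K) (fun m _ => IsPath.nonneg hp m)
      (fun m hm => (hp.1 hm).trans hp1) hle
    have hQ := pTail_sub_le (K := K) (fun m _ => IsPath.nonneg hq m)
      (fun m hm => (hq.1 hm).trans hq1) hle
    rw [pTail_eq_qTail, pTail_eq_qTail] at hP hQ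
    have := abs_le.1 (h l' hm)
    rw [abs_le]
    constructor <;> linarith [hP.1, hP.2, hQ.1, hQ.2]
  have h1 : (0 : ℝ) ≤ 1 / (J : ℝ) := by positivity
  have h2 : (0 : ℝ) ≤ 1 / ((K : ℝ) + 1) := by positivity
  obtain ⟨j, hj, hjl, hgap⟩ := exists_probe hJ hl
  by_cases hc : L0 < probe K J j
  · refine ⟨probe K J j, mem_insert_of_mem (mem_filter.2 ⟨mem_image.2 ⟨j, mem_range.2 hj, rfl⟩, hc⟩),
      hjl, ?_⟩
    have : (0 : ℝ) ≤ (L0 : ℝ) / ((K : ℝ) + 1) := by positivity
    linarith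
  · refine ⟨0, zero_mem_probeSet _ _ _, Nat.zero_le _, ?_⟩
    have : (probe K J j : ℝ) / ((K : ℝ) + 1) ≤ (L0 : ℝ) / ((K : ℝ) + 1) := by
      gcongr; exact_mod_cast not_lt.1 hc
    rw [sub_div] at hgap
    simp only [Nat.cast_zero, sub_zero]
    linarith

/-! ### One spin with a base variance path -/

/-- The amplitudes whose variances are those of `e` added to the increments of `h`. -/
noncomputable def addVar (K : ℕ) (h e : ℕ → ℝ) (n : ℕ) : ℝ :=
  if n ≤ K then Real.sqrt (pInc h n + e n ^ 2) else e n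

/-- The free energy of one spin with amplitudes `e` over the base path `h`, up to `h K / 2`. -/
noncomputable def fieldPart (K : ℕ) (h e : ℕ → ℝ) : ℝ :=
  isingField K (fun l => h (min l K) + cumVar K e l) + (∑ n ∈ range (K + 2), e n ^ 2) / 2

lemma addVar_sq {K : ℕ} {h : ℕ → ℝ} (hh : IsPath h) (e : ℕ → ℝ) {n : ℕ} (hn : n ≤ K) :
    addVar K h e n ^ 2 = pInc h n + e n ^ 2 := by
  rw [addVar, if_pos hn, Real.sq_sqrt (add_nonneg (pInc_nonneg hh n) (sq_nonneg _))]

lemma cumVar_addVar {K : ℕ} {h : ℕ → ℝ} (hh : IsPath h) (e : ℕ → ℝ) :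
    cumVar K (addVar K h e) = fun l => h (min l K) + cumVar K e l := by
  funext l
  simp only [cumVar]
  rw [sum_congr rfl fun n hn => addVar_sq hh e
    ((Nat.lt_succ_iff.1 (mem_range.1 hn)).trans (Nat.min_le_right l K)), sum_add_distrib, sum_pInc]

lemma fieldPart_eq {K : ℕ} {h : ℕ → ℝ} (hh : IsPath h) (e : ℕ → ℝ) :
    fieldPart K h e = oneSpin K (addVar K h e) - h K / 2 := by
  rw [oneSpin_eq, cumVar_addVar hh, fieldPart]
  have : ∑ n ∈ range (K + 2), addVar K h e n ^ 2 = h K + ∑ n ∈ range (K + 2), e n ^ 2 := by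
    rw [sum_range_succ, sum_congr rfl fun n hn => addVar_sq hh e (Nat.lt_succ_iff.1 (mem_range.1 hn)),
      sum_add_distrib, sum_pInc]
    rw [sum_range_succ (fun n => e n ^ 2) (K + 1), addVar, if_neg (by omega)]
    ring
  rw [this]
  ring

lemma addVar_update (K : ℕ) (h e : ℕ → ℝ) {l : ℕ} (hl : l ≤ K) (x : ℝ) :
    addVar K h (Function.update e l x) =
      Function.update (addVar K h e) l (Real.sqrt (pInc h l + x ^ 2)) := by
  funext n
  rcases eq_or_ne n l with rfl | hne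
  · simp [addVar, hl]
  · simp [addVar, Function.update_of_ne hne]

/-- Below a parabola of curvature one in every amplitude. -/
lemma fieldPart_tangent {K : ℕ} {h : ℕ → ℝ} (hh : IsPath h) (e : ℕ → ℝ) {l : ℕ} (hl : l ≤ K)
    (he : 0 < e l) (d : ℝ) :
    fieldPart K h (Function.update e l (e l + d)) ≤ fieldPart K h e +
      e l * (1 - qTail K (spinPath K (addVar K h e)) l) * d + d ^ 2 / 2 := by
  rw [fieldPart_eq hh, fieldPart_eq hh, addVar_update K h e hl]
  set E := addVar K h e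
  set c := 1 - qTail K (spinPath K E) l with hc
  have hp := pInc_nonneg hh l
  have hE : E l = Real.sqrt (pInc h l + e l ^ 2) := if_pos hl
  have hE0 : 0 < E l := by rw [hE]; exact Real.sqrt_pos.2 (by positivity)
  set x := Real.sqrt (pInc h l + (e l + d) ^ 2) with hx
  have hx2 : x ^ 2 = pInc h l + (e l + d) ^ 2 := Real.sq_sqrt (by positivity)
  have hE2 : E l ^ 2 = pInc h l + e l ^ 2 := addVar_sq hh e hl
  obtain ⟨hpath, hK1⟩ := spinPath_path (K := K) E
  have hc0 : 0 ≤ c ∧ c ≤ 1 := by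
    obtain ⟨h0, h1⟩ := qTail_le hpath (show l ≤ K + 1 by omega)
    obtain ⟨x0, x1⟩ := lvl_mem (K := K) (show l ≤ K + 1 by omega)
    refine ⟨?_, by rw [hc]; linarith⟩
    rw [hc]
    nlinarith [IsPath.nonneg hpath K]
  -- the square root is `1`-Lipschitz
  have hlip : (x - E l) ^ 2 ≤ d ^ 2 := by
    have hx0 : 0 ≤ x := Real.sqrt_nonneg _
    have habs : |x ^ 2 - E l ^ 2| ≤ |d| * (x + E l) := by
      rw [hx2, hE2, show pInc h l + (e l + d) ^ 2 - (pInc h l + e l ^ 2) = d * (e l + d + e l) by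
        ring, abs_mul]
      refine mul_le_mul_of_nonneg_left ((abs_add_le _ _).trans (add_le_add ?_ ?_)) (abs_nonneg _)
      · rw [hx, ← Real.sqrt_sq_eq_abs]; exact Real.sqrt_le_sqrt (by linarith)
      · rw [hE, ← Real.sqrt_sq_eq_abs]; exact Real.sqrt_le_sqrt (by linarith)
    rw [sq_sub_sq, abs_mul, abs_of_pos (by linarith : 0 < x + E l), mul_comm] at habs
    exact sq_le_sq.2 (le_of_mul_le_mul_right habs (by linarith))
  have ht := oneSpin_tangent E hl hE0 x
  have key : E l * c * (x - E l) = c * ((x ^ 2 - E l ^ 2) / 2) - c * ((x - E l) ^ 2 / 2) := by ring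
  rw [hx2, hE2] at key
  have h1c : (1 - c) * ((x - E l) ^ 2 / 2) ≤ (1 - c) * (d ^ 2 / 2) :=
    mul_le_mul_of_nonneg_left (by linarith) (by linarith)
  linarith

/-- The increment of one spin dominates the value. -/
theorem value_le_fieldPart {a : Fin M → ℝ} (ha : Monotone a) :
    ∃ C : ℝ, 0 ≤ C ∧ ∀ (K : ℕ) (h q e : ℕ → ℝ), IsPath h → IsPath q → q K < 1 →
      e (K + 1) = 0 → ∀ κ η : ℝ, 0 < κ → κ ≤ 1 → 0 ≤ η →
        (∀ l ≤ K, |qTail K (spinPath K (addVar K h e)) l - qTail K q l| ≤ η) →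
        value (evenLaw a) 1 ≤ fieldPart K h e +
          (∑ l ∈ range (K + 1), h l * q l) / (2 * ((K : ℝ) + 1)) + energy (evenLaw a) 1 K q +
          h K * η / 2 + C * (η + κ) := by
  obtain ⟨C, hC0, hC⟩ := energy_tail_le ha
  refine ⟨C, hC0, fun K h q e hh hq hq1 he κ η hκ hκ1 hη htail => ?_⟩
  set E := addVar K h e with hE
  obtain ⟨hpath, hK1⟩ := spinPath_path (K := K) E
  set p : ℕ → ℝ := fun l => (1 - κ) * spinPath K E l with hp
  have hp0 : IsPath p := ⟨hpath.1.const_mul (by linarith), mul_nonneg (by linarith) hpath.2⟩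
  have hp1 : p K < 1 := by
    simp only [hp]
    nlinarith [IsPath.nonneg hpath K]
  have hval := value_le ha hp0 hp1
  have hent := isingEntropy_spinPath_le (K := K) E hκ hκ1
  have hen := hC K p q hp0 hp1 hq hq1 (η + κ) (by linarith) fun l hl => by
    have h1 := abs_le.1 (htail l hl)
    obtain ⟨h0, h2⟩ := qTail_le hpath (show l ≤ K + 1 by omega)
    obtain ⟨x0, x1⟩ := lvl_mem (K := K) (show l ≤ K + 1 by omega)
    have hle1 : qTail K (spinPath K E) l ≤ 1 := by
      nlinarith [IsPath.nonneg hpath K]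
    have hscale : qTail K p l = (1 - κ) * qTail K (spinPath K E) l := by
      simp only [qTail, hp, ← Finset.mul_sum, mul_div_assoc]
    rw [hscale]
    nlinarith [mul_le_mul_of_nonneg_left hle1 hκ.le]
  -- the pairings
  have hK : (0 : ℝ) < (K : ℝ) + 1 := by positivity
  have hpair := pairing_close (K := K) (p := spinPath K E) (q := q) hh (η := η) fun l hl => by
    rw [pTail_eq_qTail, pTail_eq_qTail]; exact htail l hl
  have hcum : (∑ l ∈ range (K + 1), cumVar K e l * spinPath K E l) / (2 * ((K : ℝ) + 1)) ≤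
      (∑ n ∈ range (K + 2), e n ^ 2) / 2 := by
    rw [div_le_iff₀ (by positivity)]
    calc ∑ l ∈ range (K + 1), cumVar K e l * spinPath K E l
        ≤ ∑ _l ∈ range (K + 1), ∑ n ∈ range (K + 2), e n ^ 2 := sum_le_sum fun l hl => by
          refine le_trans (mul_le_of_le_one_right (sum_nonneg fun i _ => sq_nonneg _)
            ((hpath.1 (Nat.lt_succ_iff.1 (mem_range.1 hl))).trans hK1)) ?_
          exact sum_le_sum_of_subset_of_nonneg
            (range_subset_range.2 (by omega)) fun _ _ _ => sq_nonneg _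
      _ = _ := by rw [sum_const, card_range, nsmul_eq_mul]; push_cast; ring
  have hsplit : (∑ l ∈ range (K + 1), cumVar K E l * spinPath K E l) / (2 * ((K : ℝ) + 1)) =
      (∑ l ∈ range (K + 1), h l * spinPath K E l) / (2 * ((K : ℝ) + 1)) +
        (∑ l ∈ range (K + 1), cumVar K e l * spinPath K E l) / (2 * ((K : ℝ) + 1)) := by
    rw [← add_div, ← sum_add_distrib, hE, cumVar_addVar hh]
    congr 1
    refine sum_congr rfl fun l hl => ?_
    simp only [Nat.min_eq_left (Nat.lt_succ_iff.1 (mem_range.1 hl))]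
    ring
  have hfield : isingField K (cumVar K E) + (∑ n ∈ range (K + 2), e n ^ 2) / 2 =
      fieldPart K h e := by rw [hE, cumVar_addVar hh]; rfl
  have h2 : ∀ x : ℝ, x / (2 * ((K : ℝ) + 1)) = x / ((K : ℝ) + 1) / 2 := fun x => by
    rw [div_div, mul_comm]
  rw [h2] at hcum ⊢
  rw [h2, h2, h2] at hsplit
  rw [h2] at hent
  have := (abs_le.1 hpair).2
  linarith

end Vale.Agent.P166.Parisi
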