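import Vale.Agent.P166.Parisi.BasicsPar
import Vale.Agent.P166.Parisi.Symm
import Vale.Agent.P166.Parisi.Blocks
import Vale.Agent.P166.Parisi.LowerAux
import Vale.Agent.P157.Parisi.BoxAvg

/-!
The increment of the free energy at a point of the box: self-consistency of the order parameters at
the probe levels.
-/

namespace Vale.Agent.P166.Parisi

open MeasureTheory ProbabilityTheory Finset Filter Topology
open Vale.Agent.P157 Vale.Agent.P157.Parisi

/-- A convex function close to a multiple of a function below parabolas has a close derivative. -/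
lemma slope_match {f g : ℝ → ℝ} (hf : ConvexOn ℝ Set.univ f) {σ θ u c m ep e0 em : ℝ} (hσ : 0 < σ)
    (hθ : 0 < θ) (hm : 0 < m) (hd : HasDerivAt f (m * σ * u) σ)
    (hg : ∀ d, g (σ + d) ≤ g σ + σ * c * d + d ^ 2 / 2)
    (hp : |f (σ + θ) - m * g (σ + θ)| ≤ ep) (h0 : |f σ - m * g σ| ≤ e0)
    (hn : |f (σ - θ) - m * g (σ - θ)| ≤ em) :
    |u - c| ≤ θ / (2 * σ) + (ep + 2 * e0 + em) / (m * σ * θ) := by
  have up := hf.le_slope_of_hasDerivAt (Set.mem_univ σ) (Set.mem_univ (σ + θ)) (by linarith) hd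
  have dn := hf.slope_le_of_hasDerivAt (Set.mem_univ (σ - θ)) (Set.mem_univ σ) (by linarith) hd
  rw [slope_def_field, add_sub_cancel_left, le_div_iff₀ hθ] at up
  rw [slope_def_field, sub_sub_cancel, div_le_iff₀ hθ] at dn
  have g1 := mul_le_mul_of_nonneg_left (hg θ) hm.le
  have g2 := mul_le_mul_of_nonneg_left (hg (-θ)) hm.le
  rw [← sub_eq_add_neg, neg_sq] at g2
  obtain ⟨p1, p2⟩ := abs_le.1 hp
  obtain ⟨o1, o2⟩ := abs_le.1 h0
  obtain ⟨n1, n2⟩ := abs_le.1 hn
  have hpos : 0 < m * σ * θ := by positivity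
  have key : |u - c| * (m * σ * θ) ≤ m * (θ ^ 2 / 2) + (ep + 2 * e0 + em) := by
    rcases abs_cases (u - c) with ⟨he, _⟩ | ⟨he, _⟩ <;> rw [he] <;> linarith
  calc |u - c| ≤ (m * (θ ^ 2 / 2) + (ep + 2 * e0 + em)) / (m * σ * θ) := by rwa [le_div_iff₀ hpos]
    _ = _ := by field_simp

lemma addAmp_self {N k : ℕ} (s : ℕ → ℝ) :
    addAmp (N := N) s (fun n (_ : Fin k) => s n) = fun l _ => s l := by
  funext l p
  induction p using Fin.addCases <;> simp [addAmp]

variable {M : ℕ} [NeZero M] {N : ℕ}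

/-- The free energy gained by adding spins with amplitudes `e`. -/
noncomputable def incr (P : Par) (a : Fin M → ℝ) (s : ℕ → ℝ) (b : Fin N → Fin M)
    (b' : Fin (N + M) → Fin M) (v : GBox M P.K → ℝ) (e : ℕ → ℝ) : ℝ :=
  P.freeS a (addAmp s fun n (_ : Fin M) => e n) b' v - P.free a s b v

omit [NeZero M] in
lemma incr_self (P : Par) (a : Fin M → ℝ) (s : ℕ → ℝ) (b : Fin N → Fin M)
    (b' : Fin (N + M) → Fin M) (v : GBox M P.K → ℝ) :
    incr P a s b b' v s = P.free a s b' v - P.free a s b v := by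
  rw [incr, addAmp_self]; rfl

lemma convexOn_meanFree {K : ℕ} (lam : Fin N → ℝ) (V : ℕ → Fin N → ℝ)
    {S : ℝ → ℕ → Fin N → ℝ}
    (hS : ∀ x y α β : ℝ, α + β = 1 → S (α * x + β * y) = α • S x + β • S y) :
    ConvexOn ℝ Set.univ fun x => meanFree K lam (S x) V := by
  refine ⟨convex_univ, fun x _ y _ α β hα hβ hαβ => ?_⟩
  have hi : ∀ z, Integrable (fun U => glassFree K lam (S z) V U) (haarON N) := fun z => by
    refine Vale.Agent.P166.integrable_of_cont ?_
    exact Continuous.comp
      (g := fun x : (Fin N → ℝ) × (ℕ → Fin N → ℝ) × (ℕ → Fin N → ℝ) × ON N =>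
        glassFree K x.1 x.2.1 x.2.2.1 x.2.2.2)
      (f := fun U => (lam, S z, V, U)) (continuous_glassFree K)
      (continuous_const.prodMk (continuous_const.prodMk (continuous_const.prodMk continuous_id)))
  simp only [meanFree, smul_eq_mul]
  rw [← integral_const_mul, ← integral_const_mul,
    ← integral_add ((hi x).const_mul α) ((hi y).const_mul β)]
  refine integral_mono (hi _) (((hi x).const_mul α).add ((hi y).const_mul β)) fun U => ?_
  have h := (glassFree_convex K U).2 (x := (lam, S x, V)) (Set.mem_univ _)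
    (y := (lam, S y, V)) (Set.mem_univ _) hα hβ hαβ
  simp only [Prod.smul_mk, Prod.mk_add_mk, ← add_smul, hαβ, one_smul, smul_eq_mul] at h
  rw [hS x y α β hαβ]
  exact h

omit [NeZero M] in
lemma incr_convex (P : Par) (a : Fin M → ℝ) (s : ℕ → ℝ) (b : Fin N → Fin M)
    (b' : Fin (N + M) → Fin M) (v : GBox M P.K → ℝ) (e : ℕ → ℝ) (l : ℕ) :
    ConvexOn ℝ Set.univ fun x => incr P a s b b' v (Function.update e l x) := by
  refine ((convexOn_meanFree (K := P.K) (N := N + M) (P.lamN a b' v) (P.ampN b' v) (S := fun x =>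
    addAmp s fun n (_ : Fin M) => Function.update e l x n) fun x y α β h => ?_).add_const
    (-P.free a s b v)).congr fun x _ => ?_
  · funext n p
    induction p using Fin.addCases with
    | left i =>
      simp only [addAmp, Fin.append_left, Pi.add_apply, Pi.smul_apply, smul_eq_mul]
      rw [← add_mul, h, one_mul]
    | right i =>
      simp only [addAmp, Fin.append_right, Pi.add_apply, Pi.smul_apply, smul_eq_mul]
      rcases eq_or_ne n l with rfl | hne
      · simp
      · simp only [Function.update_of_ne hne]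
        rw [← add_mul, h, one_mul]
  · simp only [incr, Par.freeS, Pi.add_apply]
    ring

omit [NeZero M] in
lemma incr_hasDerivAt (P : Par) (a : Fin M → ℝ) (s : ℕ → ℝ) (b : Fin N → Fin M)
    (b' : Fin (N + M) → Fin M) (v : GBox M P.K → ℝ) {l : ℕ} (hl : l ≤ P.K) :
    HasDerivAt (fun x => incr P a s b b' v (Function.update s l x))
      ((M : ℝ) * s l * (1 - qTail P.K (P.qhat a s b' v) l)) (s l) := by
  have h := (hasDerivAt_new P a s (k := M) b' v hl).sub_const (P.free a s b v)
  have e : ∀ θ : ℝ, (fun n (_ : Fin M) => Function.update s l θ n) =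
      Function.update (fun n (_ : Fin M) => s n) l fun _ => θ := fun θ => by
    funext n i
    rcases eq_or_ne n l with rfl | hne
    · simp
    · simp [Function.update_of_ne hne]
  simpa only [incr, e] using h

/-- The increment dominates the value up to the errors at the probe levels. -/
lemma step_lower (P : Par) {J : ℕ} (hJ : 0 < J) (a : Fin M → ℝ) (s : ℕ → ℝ) (b : Fin N → Fin M)
    (b' : Fin (N + M) → Fin M) (v : GBox M P.K → ℝ) {h q : ℕ → ℝ} (hh : IsPath h) (hq : IsPath q)
    (hq1 : q P.K ≤ 1) {W V L R D σ θ : ℝ} (hD0 : 0 ≤ D) (hσ : 0 < σ) (hθ : 0 < θ)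
    (hs : ∀ l ∈ probeSet P.K P.L0 J, s l = σ) (err : (ℕ → ℝ) → ℝ)
    (h0 : |incr P a s b b' v s - M * (fieldPart P.K h s + W)| ≤ err s)
    (h1 : ∀ l ∈ probeSet P.K P.L0 J, ∀ x, (x = σ + θ ∨ x = σ - θ) →
      |incr P a s b b' v (Function.update s l x) -
        M * (fieldPart P.K h (Function.update s l x) + W)| ≤ err (Function.update s l x))
    (hD : ∀ l ≤ P.K, |qTail P.K (P.qhat a s b' v) l - qTail P.K q l| ≤ D)
    (hval : ∀ η, 0 ≤ η →
      (∀ l ≤ P.K, |qTail P.K (spinPath P.K (addVar P.K h s)) l - qTail P.K q l| ≤ η) →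
      V ≤ fieldPart P.K h s + W + L * η + R) :
    (M : ℝ) * V ≤ incr P a s b b' v s + err s + M * (R + L * (θ / (2 * σ) +
      (∑ l ∈ probeSet P.K P.L0 J, (err (Function.update s l (σ + θ)) + 2 * err s +
        err (Function.update s l (σ - θ)))) / (M * σ * θ) + D +
      ((P.L0 : ℝ) / ((P.K : ℝ) + 1) + 1 / (J : ℝ) + 1 / ((P.K : ℝ) + 1)))) := by
  have hM : (0 : ℝ) < M := Nat.cast_pos.2 (Nat.pos_of_ne_zero (NeZero.ne M))
  set T := probeSet P.K P.L0 J
  set E := ∑ l ∈ T, (err (Function.update s l (σ + θ)) + 2 * err s +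
    err (Function.update s l (σ - θ)))
  have he : ∀ l ∈ T, 0 ≤ err (Function.update s l (σ + θ)) + 2 * err s +
      err (Function.update s l (σ - θ)) := fun l hl => by
    linarith [(abs_nonneg _).trans h0, (abs_nonneg _).trans (h1 l hl _ (Or.inl rfl)),
      (abs_nonneg _).trans (h1 l hl _ (Or.inr rfl))]
  obtain ⟨hsp, hsp1⟩ := spinPath_path (K := P.K) (addVar P.K h s)
  have hprobe : ∀ l ∈ T, |qTail P.K (spinPath P.K (addVar P.K h s)) l - qTail P.K q l| ≤
      θ / (2 * σ) + E / (M * σ * θ) + D := by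
    intro l hl
    have hlK := (probeSet_spec hl).1
    have hsl := hs l hl
    have hupd : Function.update s l σ = s := by rw [← hsl, Function.update_eq_self]
    have hd := incr_hasDerivAt P a s b b' v hlK
    rw [hsl] at hd
    have := slope_match (incr_convex P a s b b' v s l) hσ hθ hM hd
      (g := fun x => fieldPart P.K h (Function.update s l x) + W)
      (c := 1 - qTail P.K (spinPath P.K (addVar P.K h s)) l)
      (fun d => by
        have := fieldPart_tangent hh s hlK (hsl.symm ▸ hσ) d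
        rw [hsl] at this
        simp only [hupd]
        linarith)
      (h1 l hl _ (Or.inl rfl)) (e0 := err s) (by simpa only [hupd] using h0)
      (h1 l hl _ (Or.inr rfl))
    rw [sub_sub_sub_cancel_left] at this
    have hE : (err (Function.update s l (σ + θ)) + 2 * err s +
        err (Function.update s l (σ - θ))) / (M * σ * θ) ≤ E / (M * σ * θ) :=
      div_le_div_of_nonneg_right (single_le_sum he hl) (by positivity)
    refine (abs_sub_le _ (qTail P.K (P.qhat a s b' v) l) _).trans ?_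
    linarith [hD l hlK]
  have hη : 0 ≤ θ / (2 * σ) + E / (M * σ * θ) + D := by
    have := sum_nonneg he
    positivity
  have key := hval _ (by positivity) fun l hl => tail_from_probe hJ hsp hsp1 hq hq1 hprobe hl
  have hMk := mul_le_mul_of_nonneg_left key hM.le
  linarith [(abs_le.1 h0).1]

omit [NeZero M] in
/-- The overlaps move the tails by no more than their distance. -/
lemma qTail_qhat_close {N' : ℕ} (P : Par) (a : Fin M → ℝ) (s : ℕ → ℝ) (b : Fin N → Fin M)
    (b' : Fin N' → Fin M) (v : GBox M P.K → ℝ) (l : ℕ) :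
    |qTail P.K (P.qhat a s b' v) l - qTail P.K (P.qhat a s b v) l| ≤
      ∑ r, ((∑ m ∈ range (P.K + 1), |P.ovl a s b v r m - P.ovl a s b' v r m|) / ((P.K : ℝ) + 1) +
        |P.diag a s b v r - P.diag a s b' v r|) := by
  have hK : (0 : ℝ) < (P.K : ℝ) + 1 := by positivity
  rw [qTail, qTail, ← sub_div, ← sum_sub_distrib, abs_div, abs_of_pos hK, div_le_iff₀ hK]
  calc |∑ m ∈ Ico l (P.K + 1), (P.qhat a s b' v m - P.qhat a s b v m)|
      ≤ ∑ m ∈ range (P.K + 1), ∑ r, |P.ovl a s b v r m - P.ovl a s b' v r m| := by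
        refine (abs_sum_le_sum_abs _ _).trans ((sum_le_sum fun m hm => ?_).trans
          (sum_le_sum_of_subset_of_nonneg (fun m hm => mem_range.2 (mem_Ico.1 hm).2)
            fun _ _ _ => sum_nonneg fun _ _ => abs_nonneg _))
        have : min m P.K = m := Nat.min_eq_left (Nat.lt_succ_iff.1 (mem_Ico.1 hm).2)
        rw [Par.qhat, Par.qhat, this, ← sum_sub_distrib]
        exact (abs_sum_le_sum_abs _ _).trans (le_of_eq (sum_congr rfl fun r _ => abs_sub_comm _ _))
    _ = ∑ r, ∑ m ∈ range (P.K + 1), |P.ovl a s b v r m - P.ovl a s b' v r m| := sum_comm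
    _ ≤ _ := by
        rw [sum_mul]
        refine sum_le_sum fun r _ => ?_
        rw [add_mul, div_mul_cancel₀ _ hK.ne']
        linarith [mul_nonneg (abs_nonneg (P.diag a s b v r - P.diag a s b' v r)) hK.le]

omit [NeZero M] in
lemma qhat_flat (P : Par) (hP : P.Ok) (a : Fin M → ℝ) {s : ℕ → ℝ}
    (hs : ∀ l, 1 ≤ l → l ≤ P.L0 → s l = 0) (b : Fin N → Fin M) (v : GBox M P.K → ℝ) {l : ℕ}
    (hl : l ≤ P.L0) : P.qhat a s b v l = P.qhat a s b v 0 := by
  simp only [Par.qhat, Nat.zero_min, Nat.min_eq_left (hl.trans hP.L0_le.le)]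
  exact sum_congr rfl fun r _ => ovl_low P a s b v hs hP.L0_le.le r hl

omit [NeZero M] in
lemma continuous_qhat (P : Par) (a : Fin M → ℝ) (s : ℕ → ℝ) (b : Fin N → Fin M) (l : ℕ) :
    Continuous fun v => P.qhat a s b v l :=
  continuous_finsetSum _ fun r _ =>
    continuous_ovl_box P a s b r ((Nat.min_le_right l P.K).trans (Nat.le_succ _))

/-- The normalised top atom is close to the path of the exact solution. -/
lemma pathDist_le (P : Par) {a : Fin M → ℝ} (ha : Monotone a) (s : ℕ → ℝ) (b : Fin N → Fin M)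
    (v : GBox M P.K → ℝ) (hN : 0 < N) :
    P.pathDist a s b v (topPath a ha P.K (P.qhat a s b v)) ≤
      M * P.atomDist a s b v ha + 2 * |1 / frac b (topA M) - (M : ℝ)| := by
  set X := exactMat (evenAtoms a ha) P.K (P.qhat a s b v) (topA M) with hX
  set φ := |1 / frac b (topA M) - (M : ℝ)| with hφ
  obtain ⟨o0, omono, odiag, osum⟩ := ovl_facts P a s b v hN
  have hdiag : ∀ r, 0 ≤ P.diag a s b v r := fun r =>
    (o0 r 0).trans (odiag r 0 (Nat.zero_le _))
  have hd1 : P.diag a s b v (topA M) ≤ 1 :=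
    osum ▸ single_le_sum (fun r _ => hdiag r) (mem_univ (topA M))
  have key : ∀ x y : ℝ, 0 ≤ x → x ≤ 1 →
      |x / frac b (topA M) - M * y| ≤ M * |x - y| + φ := by
    intro x y hx hx1
    have : x / frac b (topA M) - M * y =
        M * (x - y) + x * (1 / frac b (topA M) - (M : ℝ)) := by ring
    rw [this]
    refine (abs_add_le _ _).trans (add_le_add ?_ ?_)
    · rw [abs_mul, Nat.abs_cast]
    · rw [abs_mul, abs_of_nonneg hx]
      exact mul_le_of_le_one_left (abs_nonneg _) hx1
  have hnrm : |P.diag a s b v (topA M) - X.d| +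
      (∑ l ∈ range (P.K + 1), |P.ovl a s b v (topA M) l - X.q l|) / ((P.K : ℝ) + 1) ≤
      P.atomDist a s b v ha := by
    have hw : ∀ l, (gridOf P.K).w l = 1 / ((P.K : ℝ) + 1) := fun l => by
      simp only [Grid.w, gridOf, lvl]
      push_cast
      ring
    refine le_trans (le_of_eq ?_) (single_le_sum (fun r _ => SMat.nrm_nonneg (gridOf P.K) _)
      (mem_univ (topA M)))
    simp only [SMat.nrm, SMat.add, SMat.smul, Par.atomMat, ← hX, neg_one_mul, ← sub_eq_add_neg,
      show (gridOf P.K).K = P.K from rfl, hw, Finset.sum_div]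
    congr 1
    exact sum_congr rfl fun l _ => by ring
  have h1 : (∑ l ∈ range (P.K + 1), |P.ovl a s b v (topA M) l / frac b (topA M) -
      topPath a ha P.K (P.qhat a s b v) l|) / ((P.K : ℝ) + 1) ≤
      M * ((∑ l ∈ range (P.K + 1), |P.ovl a s b v (topA M) l - X.q l|) / ((P.K : ℝ) + 1)) + φ := by
    rw [div_le_iff₀ (by positivity)]
    refine (sum_le_sum fun l hl => ?_).trans (le_of_eq ?_) (b := ∑ l ∈ range (P.K + 1),
      ((M : ℝ) * |P.ovl a s b v (topA M) l - X.q l| + φ))
    · have hlK := Nat.lt_succ_iff.1 (mem_range.1 hl)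
      rw [topPath, if_pos hlK]
      exact key _ _ (o0 _ _) ((odiag _ _ (hlK.trans (Nat.le_succ _))).trans hd1)
    · rw [sum_add_distrib, ← mul_sum, sum_const, card_range, nsmul_eq_mul]
      push_cast
      field_simp
  have h2 := key _ X.d (hdiag (topA M)) hd1
  have h3 := mul_le_mul_of_nonneg_left hnrm (Nat.cast_nonneg M : (0 : ℝ) ≤ M)
  unfold Par.pathDist
  rw [topPath, if_neg (by omega), ← hX]
  linarith

/-- Balanced atoms are large, and their proportions tend to `1 / M`. -/
lemma bal_large (C : ℝ) {δ : ℝ} (hδ : 0 < δ) :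
    ∀ᶠ N : ℕ in atTop, ∀ b : Fin N → Fin M, Bal C b →
      (∀ r, (N : ℝ) ≤ 2 * M * (fiber b r).card ∧ M - 1 ≤ (fiber b r).card) ∧
        |1 / frac b (topA M) - (M : ℝ)| ≤ δ := by
  have hM : (0 : ℝ) < M := Nat.cast_pos.2 (Nat.pos_of_ne_zero (NeZero.ne M))
  filter_upwards [eventually_gt_atTop 0,
    tendsto_natCast_atTop_atTop.eventually_ge_atTop (2 * (M : ℝ) * (|C| + M)),
    tendsto_natCast_atTop_atTop.eventually_ge_atTop (2 * (M : ℝ) ^ 2 * |C| / δ)]
    with N hN hN1 hN2 b hb
  have hN' : (0 : ℝ) < N := Nat.cast_pos.2 hN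
  have hge : ∀ r, (N : ℝ) / (2 * M) + M ≤ (fiber b r).card := fun r => by
    have h1 := (abs_le.1 (hb r)).1
    have h2 : |C| + M ≤ (N : ℝ) / (2 * M) := by rw [le_div_iff₀ (by positivity)]; linarith
    have h3 : (N : ℝ) / M = N / (2 * M) + N / (2 * M) := by field_simp; ring
    linarith [le_abs_self C]
  refine ⟨fun r => ⟨?_, ?_⟩, ?_⟩
  · have := hge r
    rw [← div_le_iff₀' (by positivity)]
    linarith
  · have := hge r
    have : (M : ℝ) ≤ (fiber b r).card := by linarith [show (0 : ℝ) ≤ N / (2 * M) by positivity]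
    exact (Nat.sub_le M 1).trans (by exact_mod_cast this)
  · set c := ((fiber b (topA M)).card : ℝ) with hc
    have hc1 : (N : ℝ) / (2 * M) ≤ c := by linarith [hge (topA M)]
    have hc0 : 0 < c := lt_of_lt_of_le (by positivity) hc1
    have hd : |c - N / M| ≤ |C| := (hb (topA M)).trans (le_abs_self C)
    have e : 1 / frac b (topA M) - (M : ℝ) = -((M : ℝ) * (c - N / M)) / c := by
      rw [frac, ← hc]; field_simp; ring
    rw [e, abs_div, abs_neg, abs_mul, Nat.abs_cast, abs_of_pos hc0, div_le_iff₀ hc0]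
    rw [div_le_iff₀ hδ] at hN2
    have h3 : (M : ℝ) * |C| ≤ δ * (N / (2 * M)) := by
      rw [← mul_div_assoc, le_div_iff₀ (by positivity)]
      linarith
    calc (M : ℝ) * |c - N / M| ≤ M * |C| := mul_le_mul_of_nonneg_left hd hM.le
      _ ≤ δ * (N / (2 * M)) := h3
      _ ≤ δ * c := mul_le_mul_of_nonneg_left hc1 hδ.le

end Vale.Agent.P166.Parisi
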