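import Vale.Agent.P166.Parisi.QuadCascade
import Vale.Agent.P166.Parisi.LowerPoint

/-!
The increment of the free energy on average over the box, from the increments at the probe levels.
-/

namespace Vale.Agent.P166.Parisi

open MeasureTheory ProbabilityTheory Finset Filter Topology
open Vale.Agent.P157 Vale.Agent.P157.Parisi

variable {M : ℕ} [NeZero M]

omit [NeZero M] in
lemma PsiOk.mono {κ κ' B B' : ℝ} {ψ ψ1 ψ2 : ℝ → ℝ} (h : PsiOk κ B ψ ψ1 ψ2) (hκ : κ ≤ κ')
    (hB : B ≤ B') : PsiOk κ' B' ψ ψ1 ψ2 where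
  deriv1 := h.deriv1
  deriv2 := h.deriv2
  cont2 := h.cont2
  bound0 x := (h.bound0 x).trans hB
  bound1 x := (h.bound1 x).trans hB
  bound2 x := (h.bound2 x).trans hκ
  upper x := (h.upper x).trans hκ
  lower x := le_trans (neg_le_neg (mul_le_mul_of_nonneg_right hκ (by positivity))) (h.lower x)
  sq_le x := (h.sq_le x).trans (mul_le_mul_of_nonneg_right hκ (by positivity))

/-- A family of cut-off quadratic potentials has common constants. -/
lemma quadCut_family {J : Type} [Fintype J] (E Bc : J → ℝ) (hE : ∀ j, 0 < E j) :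
    ∃ κ, ∀ R, 1 ≤ R → ∃ B, ∃ ψ1 ψ2 : J → ℝ → ℝ, 0 ≤ B ∧
      ∀ j, PsiOk κ B (quadCut R (E j) (Bc j)) (ψ1 j) (ψ2 j) := by
  choose κ hκ using fun j => quadCut_ok (hE j) (Bc j)
  refine ⟨∑ j, |κ j|, fun R hR => ?_⟩
  choose B ψ1 ψ2 h using fun j => hκ j R hR
  have hle : ∀ (f : J → ℝ) j, f j ≤ ∑ i, |f i| := fun f j =>
    (le_abs_self _).trans (single_le_sum (f := fun i => |f i|) (fun i _ => abs_nonneg _) (mem_univ j))
  exact ⟨∑ j, |B j|, ψ1, ψ2, sum_nonneg fun _ _ => abs_nonneg _,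
    fun j => (h j).mono (hle κ j) (hle B j)⟩

/-- The base system of the frame. -/
lemma exists_base {N : ℕ} (b : Fin N → Fin M) (hb : Bal 1 b) (hl : ∀ r, M - 1 ≤ (fiber b r).card) :
    ∃ bB : Fin N → Fin M, (∀ r, r ≠ topA M → (fiber bB r).card + (M - 1) = (fiber b r).card) ∧
      Bal ((M : ℝ) * M + 1) bB ∧
      ∀ r, ((fiber bB r).card : ℤ) - (fiber b r).card ≤ (M * M + M : ℕ) ∧
        ((fiber b r).card : ℤ) - (fiber bB r).card ≤ (M * M + M : ℕ) := by
  obtain ⟨bB, hmove, htop⟩ := exists_shift b hl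
  have hMM : (M - 1) * (M - 1) ≤ M * M := Nat.mul_le_mul (Nat.sub_le M 1) (Nat.sub_le M 1)
  have hM2 : M ≤ M * M := Nat.le_mul_self M
  have hle : ∀ r, |((fiber bB r).card : ℤ) - (fiber b r).card| ≤ ((M * M : ℕ) : ℤ) := fun r => by
    rw [abs_le]
    rcases eq_or_ne r (topA M) with rfl | hr
    · omega
    · have := hmove r hr; omega
  refine ⟨bB, hmove, fun r => ?_, fun r => ?_⟩
  · refine (abs_sub_le _ _ _).trans (add_le_add ?_ (hb r))
    exact_mod_cast hle r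
  · have := abs_le.1 (hle r)
    push_cast at this ⊢
    omega

/-- The step at one size of the system, from the increments at the probes. -/
lemma increment_at (P : Par) {N : ℕ} (hN : 0 < N) (a : Fin M → ℝ) {s : ℕ → ℝ}
    (b bB : Fin N → Fin M) (b' : Fin (N + M) → Fin M) {J : ℕ} (hJ0 : 0 < J) {V σ δ Cv L β : ℝ}
    (hσ : 0 < σ) (hδ : 0 < δ) (hL : 0 ≤ L) (hβ : 44 * β ≤ δ)
    (hβ' : ((J : ℝ) + 1) * (44 * β) ≤ δ * σ * (δ * σ)) (hβ0 : 0 ≤ β)
    (hG : (P.L0 : ℝ) / ((P.K : ℝ) + 1) + 1 / (J : ℝ) + 1 / ((P.K : ℝ) + 1) ≤ 3 * δ)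
    (hsT : ∀ l ∈ probeSet P.K P.L0 J, s l = σ)
    (err : (GBox M P.K → ℝ) → (ℕ → ℝ) → ℝ)
    (herr : ∀ e, (e = s ∨ ∃ l ∈ probeSet P.K P.L0 J, ∃ x, (x = σ + δ * σ ∨ x = σ - δ * σ) ∧
        e = Function.update s l x) →
      Integrable (fun v => err v e) (cubeLaw (GBox M P.K)) ∧
        ∫ v, err v e ∂cubeLaw (GBox M P.K) ≤ 11 * β)
    (hone : ∀ v, InBox v → ∃ (h : ℕ → ℝ) (W : ℝ), IsPath h ∧
      (∀ e, (e = s ∨ ∃ l ∈ probeSet P.K P.L0 J, ∃ x, (x = σ + δ * σ ∨ x = σ - δ * σ) ∧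
          e = Function.update s l x) →
        |incr P a s b b' v e - M * (fieldPart P.K h e + W)| ≤ err v e) ∧
      ∀ η, 0 ≤ η → (∀ l ≤ P.K, |qTail P.K (spinPath P.K (addVar P.K h s)) l -
          qTail P.K (P.qhat a s bB v) l| ≤ η) →
        V ≤ fieldPart P.K h s + W + L * η + Cv * δ)
    (hD : Integrable (fun v => ∑ r,
        ((∑ l ∈ range (P.K + 1), |P.ovl a s bB v r l - P.ovl a s b' v r l|) / ((P.K : ℝ) + 1) +
          |P.diag a s bB v r - P.diag a s b' v r|)) (cubeLaw (GBox M P.K)) ∧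
      ∫ v, (∑ r,
        ((∑ l ∈ range (P.K + 1), |P.ovl a s bB v r l - P.ovl a s b' v r l|) / ((P.K : ℝ) + 1) +
          |P.diag a s bB v r - P.diag a s b' v r|)) ∂cubeLaw (GBox M P.K) ≤ δ) :
    (M : ℝ) * (V - (δ + (Cv * δ + L * (6 * δ)))) +
        ∫ v, P.free a s b v ∂cubeLaw (GBox M P.K) ≤
      ∫ v, P.free a s b' v ∂cubeLaw (GBox M P.K) := by
  have hM1 : 1 ≤ M := Nat.pos_of_ne_zero (NeZero.ne M)
  have hM : (1 : ℝ) ≤ M := by exact_mod_cast hM1
  set θ := δ * σ with hθdef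
  have hθ : 0 < θ := mul_pos hδ hσ
  set T := probeSet P.K P.L0 J with hTdef
  obtain ⟨hDi, hDle⟩ := hD
  set D : (GBox M P.K → ℝ) → ℝ := fun v => ∑ r,
    ((∑ l ∈ range (P.K + 1), |P.ovl a s bB v r l - P.ovl a s b' v r l|) / ((P.K : ℝ) + 1) +
      |P.diag a s bB v r - P.diag a s b' v r|) with hDdef
  set G : ℝ := (P.L0 : ℝ) / ((P.K : ℝ) + 1) + 1 / (J : ℝ) + 1 / ((P.K : ℝ) + 1) with hGdef
  set E : (GBox M P.K → ℝ) → ℝ := fun v => ∑ l ∈ T, (err v (Function.update s l (σ + θ)) +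
    2 * err v s + err v (Function.update s l (σ - θ))) with hEdef
  have hpoint : ∀ᵐ v ∂cubeLaw (GBox M P.K), (M : ℝ) * V ≤
      (P.free a s b' v - P.free a s b v) + err v s +
        M * (Cv * δ + L * (θ / (2 * σ) + E v / (M * σ * θ) + D v + G)) := by
    filter_upwards [Box.ae_mem_cube] with v hv
    obtain ⟨h, W, hh, hW, hval⟩ := hone v
      fun i => ⟨by linarith [(hv i).1], by linarith [(hv i).2]⟩
    obtain ⟨hq, hq1⟩ := qhat_path P a s bB v hN
    have hstep := step_lower P hJ0 a s b b' v hh hq hq1 (W := W) (V := V) (L := L) (R := Cv * δ)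
      (D := D v) (sum_nonneg fun r _ => by positivity) hσ hθ hsT (err v) (hW s (Or.inl rfl))
      (fun l hl x hx => hW _ (Or.inr ⟨l, hl, x, hx, rfl⟩))
      (fun l _ => qTail_qhat_close P a s bB b' v l) hval
    rw [incr_self] at hstep
    exact hstep
  -- integration
  have hfree : ∀ {N' : ℕ} (c : Fin N' → Fin M),
      Integrable (fun v => P.free a s c v) (cubeLaw (GBox M P.K)) := fun c =>
    Box.integrable_cube (continuous_free_box P a c (fun l _ => s l))
  have hEi : Integrable E (cubeLaw (GBox M P.K)) ∧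
      ∫ v, E v ∂cubeLaw (GBox M P.K) ≤ ((J : ℝ) + 1) * (44 * β) := by
    have hterm : ∀ l ∈ T, Integrable (fun v => err v (Function.update s l (σ + θ)) +
        2 * err v s + err v (Function.update s l (σ - θ))) (cubeLaw (GBox M P.K)) ∧
        ∫ v, (err v (Function.update s l (σ + θ)) + 2 * err v s +
          err v (Function.update s l (σ - θ))) ∂cubeLaw (GBox M P.K) ≤ 44 * β := fun l hl => by
      obtain ⟨i1, j1⟩ := herr _ (Or.inr ⟨l, hl, _, Or.inl rfl, rfl⟩)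
      obtain ⟨i2, j2⟩ := herr _ (Or.inr ⟨l, hl, _, Or.inr rfl, rfl⟩)
      obtain ⟨i0, j0⟩ := herr s (Or.inl rfl)
      have i12 := i1.add (i0.const_mul 2)
      refine ⟨i12.add i2, ?_⟩
      rw [integral_add (f := fun v => err v (Function.update s l (σ + θ)) + 2 * err v s) i12 i2,
        integral_add i1 (i0.const_mul 2), integral_const_mul]
      linarith
    refine ⟨integrable_finsetSum _ fun l hl => (hterm l hl).1, ?_⟩
    simp only [hEdef]
    rw [integral_finsetSum _ fun l hl => (hterm l hl).1]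
    refine (sum_le_sum fun l hl => (hterm l hl).2).trans ?_
    rw [sum_const, nsmul_eq_mul]
    exact mul_le_mul_of_nonneg_right (by exact_mod_cast card_probeSet P.K P.L0 J) (by positivity)
  obtain ⟨hi0, hj0⟩ := herr s (Or.inl rfl)
  have hEdiv := hEi.1.div_const ((M : ℝ) * σ * θ)
  have hΦ := (hfree b').sub (hfree b)
  have hrest : Integrable (fun v =>
      L * (θ / (2 * σ) + E v / (M * σ * θ) + D v + G)) (cubeLaw (GBox M P.K)) :=
    ((((integrable_const _).add hEdiv).add hDi).add (integrable_const _)).const_mul _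
  have hrhs : Integrable (fun v => (P.free a s b' v - P.free a s b v) + err v s +
      M * (Cv * δ + L * (θ / (2 * σ) + E v / (M * σ * θ) + D v + G))) (cubeLaw (GBox M P.K)) :=
    (hΦ.add hi0).add (((integrable_const _).add hrest).const_mul _)
  have hint := integral_mono_ae (integrable_const _) hrhs hpoint
  rw [integral_const, probReal_univ, one_smul] at hint
  rw [integral_add (f := fun v => (P.free a s b' v - P.free a s b v) + err v s)
    (g := fun v => (M : ℝ) * (Cv * δ + L * (θ / (2 * σ) + E v / (M * σ * θ) + D v + G)))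
    (hΦ.add hi0) (((integrable_const _).add hrest).const_mul _),
    integral_add (f := fun v => P.free a s b' v - P.free a s b v) hΦ hi0,
    integral_sub (hfree b') (hfree b), integral_const_mul,
    integral_add (integrable_const _) hrest, integral_const, probReal_univ, one_smul,
    integral_const_mul] at hint
  rw [integral_add (f := fun v => θ / (2 * σ) + E v / (M * σ * θ) + D v)
    (((integrable_const _).add hEdiv).add hDi) (integrable_const _),
    integral_add (f := fun v => θ / (2 * σ) + E v / (M * σ * θ))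
      ((integrable_const _).add hEdiv) hDi,
    integral_add (integrable_const _) hEdiv, integral_div] at hint
  simp only [integral_const, probReal_univ, one_smul] at hint
  have hD : ∫ v, D v ∂cubeLaw (GBox M P.K) ≤ δ := hDle
  have hEd : (∫ v, E v ∂cubeLaw (GBox M P.K)) / (M * σ * θ) ≤ δ := by
    rw [div_le_iff₀ (by positivity)]
    refine hEi.2.trans ?_
    refine hβ'.trans ?_
    have h2 : δ * σ * θ ≤ (M : ℝ) * (δ * σ * θ) := le_mul_of_one_le_left (by positivity) hM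
    linarith
  have hθ2 : θ / (2 * σ) = δ / 2 := by rw [hθdef]; field_simp
  have hGδ : G ≤ 3 * δ := hG
  rw [hθ2, integral_div] at hint
  have hLsum : L * (δ / 2 + (∫ v, E v ∂cubeLaw (GBox M P.K)) / (M * σ * θ) +
      (∫ v, D v ∂cubeLaw (GBox M P.K)) + G) ≤ L * (6 * δ) :=
    mul_le_mul_of_nonneg_left (by linarith) hL
  have hMterm := mul_le_mul_of_nonneg_left hLsum (Nat.cast_nonneg M : (0 : ℝ) ≤ M)
  have herr0 : ∫ v, err v s ∂cubeLaw (GBox M P.K) ≤ (M : ℝ) * δ :=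
    (hj0.trans (by linarith)).trans (le_mul_of_one_le_left hδ.le hM)
  linarith

omit [NeZero M] in
lemma abs_combine {Φ c I₁ I₂ B₁ B₂ S β g₁ g₂ : ℝ} (hf : |Φ - (c + I₁ - I₂)| ≤ β)
    (h₁ : |I₁ - B₁| ≤ g₁) (h₂ : |I₂ - B₂| ≤ g₂) (hi : c + B₁ - B₂ = S) :
    |Φ - S| ≤ β + g₁ + g₂ := by
  obtain ⟨f1, f2⟩ := abs_le.1 hf
  obtain ⟨a1, a2⟩ := abs_le.1 h₁
  obtain ⟨b1, b2⟩ := abs_le.1 h₂
  rw [abs_le]
  constructor <;> linarith

omit [NeZero M] in
lemma abs_dist {f₀ f₁ f₂ c I₁ I₂ β X₁ X₂ Y : ℝ} (hf : |f₂ - f₁ - (c + I₁ - I₂)| ≤ β)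
    (h₁ : |I₁| ≤ X₁) (h₂ : |I₂| ≤ X₂) (h : |f₀ - f₁| ≤ Y) :
    |f₀ - f₂| ≤ β + |c| + X₁ + X₂ + Y := by
  obtain ⟨f1, f2⟩ := abs_le.1 hf
  obtain ⟨a1, a2⟩ := abs_le.1 h₁
  obtain ⟨b1, b2⟩ := abs_le.1 h₂
  obtain ⟨c1, c2⟩ := abs_le.1 h
  obtain ⟨d1, d2⟩ := abs_le.1 (le_refl |c|)
  rw [abs_le]
  constructor <;> linarith

end Vale.Agent.P166.Parisi
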