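import Vale.Agent.P166.Parisi.OvlClose
import Vale.Agent.P166.Parisi.AtomClose
import Vale.Agent.P166.Parisi.Insert
import Vale.Agent.P166.Parisi.InsertBound
import Vale.Agent.P166.Parisi.Frame
import Vale.Agent.P166.Parisi.LowerAverage

/-!
The increment of the free energy when every atom gets one more spin, on average over the box.
-/

namespace Vale.Agent.P166.Parisi

open MeasureTheory ProbabilityTheory Finset Filter Topology
open Vale.Agent.P157 Vale.Agent.P157.Parisi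

variable {M : ℕ} [NeZero M]

/-- The gain of a cut-off quadratic coupling is the exact cascade along the path of the exact
solution, on average over the box. -/
lemma gain_small {J : Type} [Fintype J] (k : ℕ) (E Bc : J → ℝ) (hE : ∀ j, 0 < E j) (t : J → Fin k)
    {a : Fin M → ℝ} (ha : Monotone a) (smax C : ℝ) {ε : ℝ} (hε : 0 < ε) :
    ∃ n₀ : ℕ, ∀ n : ℕ, n₀ ≤ n → 0 < n → ∃ R₀, ∀ R, R₀ ≤ R →
      ∃ B : ℝ, (∀ j, Continuous (quadCut R (E j) (Bc j)) ∧ ∀ x, |quadCut R (E j) (Bc j) x| ≤ B) ∧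
        ∃ k₀ : ℝ, ∀ P : Par, P.Ok → ((P.L0 : ℝ) + 1) / ((P.K : ℝ) + 1) = 1 / n →
          k₀ ≤ (P.K : ℝ) + 1 → P.du ≤ 1 / n → ((P.K : ℝ) + 2) ^ 3 * P.eta ≤ 1 / n →
          ∀ᶠ N : ℕ in atTop, ∀ s, P.SpinOk smax s → ∀ b : Fin N → Fin M, Bal C b →
            ∃ g : (ℕ → Fin k → ℝ) → (GBox M P.K → ℝ) → ℝ,
              (∀ e : ℕ → Fin k → ℝ, (∀ i, P.SpinOk smax fun l => e l i) →
                Integrable (g e) (cubeLaw (GBox M P.K)) ∧
                  ∫ v, g e v ∂cubeLaw (GBox M P.K) ≤ ε) ∧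
              ∀ e : ℕ → Fin k → ℝ, (∀ i, P.SpinOk smax fun l => e l i) → ∀ v,
                |P.insTerm a s b v e t (fun j => quadCut R (E j) (Bc j)) -
                  tauFree P.K (topPath a ha P.K (P.qhat a s b v)) e t
                    (fun j => quadPsi (E j) (Bc j))| ≤ g e v := by
  have hM : (0 : ℝ) < M := Nat.cast_pos.2 (Nat.pos_of_ne_zero (NeZero.ne M))
  have hΛ : ∀ r, |a r| ≤ ∑ i, |a i| := fun r =>
    single_le_sum (f := fun i => |a i|) (fun i _ => abs_nonneg _) (mem_univ r)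
  obtain ⟨κ, hκ⟩ := quadCut_family E Bc hE
  obtain ⟨C₁, hins⟩ := insert_gauss (M := M) J k κ (M : ℝ)
  obtain ⟨β, hβ, hβε⟩ : ∃ β, 0 < β ∧ 5 * β = ε := ⟨ε / 5, by positivity, by ring⟩
  obtain ⟨C₀, hC₀, hC₁⟩ : ∃ C₀, 0 < C₀ ∧ C₁ ≤ C₀ :=
    ⟨|C₁| + 1, by positivity, (le_abs_self _).trans (le_add_of_nonneg_right zero_le_one)⟩
  obtain ⟨τ, hτ, hatom⟩ :=
    atom_close (M := M) (∑ i, |a i|) (ε := β / (2 * M * C₀)) (by positivity)
  obtain ⟨n₀, hn₀⟩ := exists_nat_ge (max (1 / τ) (C₀ / β))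
  refine ⟨n₀, fun n hn hn' => ?_⟩
  have hn1 : (0 : ℝ) < n := Nat.cast_pos.2 hn'
  have hn2 : (n₀ : ℝ) ≤ n := Nat.cast_le.2 hn
  have hnτ : 1 / (n : ℝ) ≤ τ :=
    (one_div_le hn1 hτ).2 (((le_max_left _ _).trans hn₀).trans hn2)
  have hnC : C₀ * (1 / (n : ℝ)) ≤ β := by
    have h := ((le_max_right _ _).trans hn₀).trans hn2
    rw [div_le_iff₀ hβ] at h
    rw [mul_one_div, div_le_iff₀ hn1]
    linarith
  have hm : (0 : ℝ) < 1 / (n : ℝ) := by positivity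
  obtain ⟨R₀, hR₀⟩ := tauFree_cut E Bc hE t (H := (M : ℝ)) hm hβ
  refine ⟨max 1 R₀, fun R hR => ?_⟩
  obtain ⟨B, ψ1, ψ2, hB, hψ⟩ := hκ R ((le_max_left _ _).trans hR)
  refine ⟨B, fun j => ⟨continuous_iff_continuousAt.2 fun x => ((hψ j).deriv1 x).continuousAt,
    (hψ j).bound0⟩, ?_⟩
  obtain ⟨CB, hI⟩ := hins B
  refine ⟨(|CB| / β) ^ 2, fun P hP hfrac hk hdu heta => ?_⟩
  filter_upwards [eventually_gt_atTop 0, bal_large (M := M) C (δ := β / (4 * C₀)) (by positivity),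
    hI P hP (∑ i, |a i|) smax β hβ,
    hatom P hP (hfrac.trans_le hnτ) (hdu.trans hnτ) (heta.trans hnτ) smax C] with N hN hBal hG hAt
  intro s hs b hb
  obtain ⟨hbig, hfr⟩ := hBal b hb
  obtain ⟨hAi, hAle⟩ := hAt a ha hΛ s hs b hb
  have hqp := fun v => qhat_path P a s b v hN
  have hπc : ∀ l, Continuous fun v => topPath a ha P.K (P.qhat a s b v) l := fun l =>
    continuous_topPath ha P.K (fun v => (hqp v).1) (fun v => (hqp v).2)
      (fun m => continuous_qhat P a s b m) l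
  have hπ : ∀ v, IsPath (topPath a ha P.K (P.qhat a s b v)) ∧
      topPath a ha P.K (P.qhat a s b v) (P.K + 1) ≤ (M : ℝ) ∧ ∀ l ≤ P.L0,
        topPath a ha P.K (P.qhat a s b v) l = topPath a ha P.K (P.qhat a s b v) 0 := fun v => by
    obtain ⟨h1, h2, h3⟩ := topPath_path ha P.K (hqp v).1 (hqp v).2
    exact ⟨h1, h2, h3 P.L0 hP.L0_le.le fun l hl => qhat_flat P hP a hs.2 b v hl⟩
  have hcut : 1 / (n : ℝ) * ((P.K : ℝ) + 1) ≤ (P.L0 : ℝ) + 1 := by
    rw [← hfrac, div_mul_cancel₀ _ (by positivity)]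
  refine ⟨fun e v => |P.insTerm a s b v e t (fun j => quadCut R (E j) (Bc j)) -
      tauFree P.K (topPath a ha P.K (P.qhat a s b v)) e t (fun j => quadCut R (E j) (Bc j))| + β,
    fun e he => ?_, fun e he v => ?_⟩
  · obtain ⟨i1, j1⟩ := hG a hΛ s hs e he b (hbig _).1 (fun j => quadCut R (E j) (Bc j)) ψ1 ψ2 hψ t
      (fun v => topPath a ha P.K (P.qhat a s b v)) hπc hπ
    refine ⟨i1.add (integrable_const β), ?_⟩
    rw [integral_add i1 (integrable_const β), integral_const, probReal_univ, one_smul]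
    have hpd0 : ∀ v, 0 ≤ P.pathDist a s b v (topPath a ha P.K (P.qhat a s b v)) := fun v => by
      unfold Par.pathDist; positivity
    obtain ⟨x, hx⟩ : ∃ x, x = ∫ v, P.pathDist a s b v (topPath a ha P.K (P.qhat a s b v))
        ∂cubeLaw (GBox M P.K) := ⟨_, rfl⟩
    have hx0 : 0 ≤ x := hx ▸ integral_nonneg hpd0
    have hxle : C₀ * x ≤ β := by
      have h := integral_mono_of_nonneg (Eventually.of_forall hpd0)
        ((hAi.const_mul (M : ℝ)).add (integrable_const (2 * (β / (4 * C₀)))))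
        (Eventually.of_forall fun v => show _ ≤ (M : ℝ) * P.atomDist a s b v ha +
          2 * (β / (4 * C₀)) from (pathDist_le P ha s b v hN).trans (by linarith))
      simp only [Pi.add_apply] at h
      rw [integral_add (hAi.const_mul _) (integrable_const _), integral_const_mul, integral_const,
        probReal_univ, one_smul, ← hx] at h
      have h2 := mul_le_mul_of_nonneg_left hAle hM.le
      have h3 : C₀ * ((M : ℝ) * (β / (2 * M * C₀)) + 2 * (β / (4 * C₀))) = β := by field_simp; ring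
      rw [← h3]
      exact mul_le_mul_of_nonneg_left (by linarith) hC₀.le
    rw [← hx, hfrac] at j1
    have h1 : C₁ * (x + 1 / n) ≤ C₀ * (x + 1 / n) :=
      mul_le_mul_of_nonneg_right hC₁ (by positivity)
    have h2 : CB / Real.sqrt ((P.K : ℝ) + 1) ≤ β := by
      have hs' := Real.le_sqrt_of_sq_le hk
      rw [div_le_iff₀ hβ] at hs'
      rw [div_le_iff₀ (Real.sqrt_pos.2 (by positivity))]
      linarith [le_abs_self CB]
    linarith
  · refine (abs_sub_le _ _ _).trans (add_le_add le_rfl ?_)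
    exact hR₀ R ((le_max_right _ _).trans hR) P.K P.L0 hP.L0_le hcut _ (hπ v).1 (hπ v).2.2
      (hπ v).2.1 e fun l h1 h2 => funext fun i => (he i).2 l h1 h2

/-- One step in the size of the system gains `M` times the value, on average over some box. -/
theorem lower_increment {a : Fin M → ℝ} (ha : StrictMono a) {ε : ℝ} (hε : 0 < ε) :
    ∃ P : Par, P.Ok ∧ P.du ≤ ε ∧ ((P.K : ℝ) + 2) * P.eta ^ 2 ≤ ε ∧
      ∃ s : ℕ → ℝ, (∀ l, 0 ≤ s l) ∧ (∀ l, P.K < l → s l = 0) ∧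
        ∑ l ∈ range (P.K + 1), s l ^ 2 ≤ ε ∧
        ∀ᶠ N : ℕ in atTop, (M : ℝ) * (value (evenLaw a) 1 - ε) +
            ∫ v, P.free a s (blkOf : Fin N → Fin M) v ∂cubeLaw (GBox M P.K) ≤
          ∫ v, P.free a s (blkOf : Fin (N + M) → Fin M) v ∂cubeLaw (GBox M P.K) := by
  obtain ⟨cp⟩ := exists_compress ha
  obtain ⟨H₀, hquad⟩ := quad_increment ha cp
  obtain ⟨Cv, hCv0, hvalue⟩ := value_le_fieldPart ha.monotone
  have hΛ : ∀ r, |a r| ≤ ∑ i, |a i| := fun r =>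
    single_le_sum (f := fun i => |a i|) (fun i _ => abs_nonneg _) (mem_univ r)
  obtain ⟨L, hLdef⟩ : ∃ L, L = |H₀| / 2 + Cv := ⟨_, rfl⟩
  have hL : 0 ≤ L := by rw [hLdef]; positivity
  -- probe levels and amplitudes
  obtain ⟨δ, hδ, hδ1, hδε⟩ : ∃ δ : ℝ, 0 < δ ∧ δ ≤ 1 / 4 ∧ 7 * (1 + Cv + L) * δ ≤ ε := by
    refine ⟨min (1 / 4) (ε / (7 * (1 + Cv + L))), lt_min (by norm_num) (by positivity),
      min_le_left _ _, ?_⟩
    have := min_le_right (1 / 4 : ℝ) (ε / (7 * (1 + Cv + L)))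
    rw [le_div_iff₀ (by positivity)] at this
    linarith
  have hεδ : δ ≤ ε := by
    have : 1 * δ ≤ 7 * (1 + Cv + L) * δ := mul_le_mul_of_nonneg_right (by linarith) hδ.le
    linarith
  obtain ⟨J, hJ⟩ := exists_nat_ge (1 / δ)
  have hJpos : (0 : ℝ) < J := lt_of_lt_of_le (by positivity) hJ
  have hJ0 : 0 < J := Nat.cast_pos.1 hJpos
  have hJδ : 1 / (J : ℝ) ≤ δ := (one_div_le hJpos hδ).2 hJ
  obtain ⟨σ, hσdef⟩ : ∃ σ : ℝ, σ = δ / ((J : ℝ) + 1) := ⟨_, rfl⟩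
  have hσ : 0 < σ := by rw [hσdef]; positivity
  have hσ1 : σ ≤ 1 := by
    rw [hσdef, div_le_one (by positivity)]
    linarith
  have hθσ : δ * σ ≤ σ := mul_le_of_le_one_left hσ.le (by linarith)
  obtain ⟨β, hβ, hβJ⟩ : ∃ β, 0 < β ∧ ((J : ℝ) + 1) * (44 * β) = δ * σ * (δ * σ) :=
    ⟨δ * σ * (δ * σ) / (44 * ((J : ℝ) + 1)), by positivity, by field_simp⟩
  have hβδ : 44 * β ≤ δ := by
    have h1 : 1 * (44 * β) ≤ ((J : ℝ) + 1) * (44 * β) :=
      mul_le_mul_of_nonneg_right (by linarith) (by positivity)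
    have h2 : δ * σ * (δ * σ) ≤ δ * 1 := by
      rw [mul_assoc]
      exact mul_le_mul_of_nonneg_left (mul_le_one₀ hσ1 (by positivity) (hθσ.trans hσ1)) hδ.le
    linarith
  -- the range without fields, the cut-off and the size of the grid
  have hgap : ∀ j : MoveIdx M, 0 < a (topA M) - a j.1 := fun j =>
    sub_pos.2 (ha (lt_of_le_of_ne (Fin.le_iff_val_le_val.2 (Nat.le_sub_one_of_lt j.1.1.isLt)) j.1.2))
  obtain ⟨n₁, hn₁⟩ := gain_small M (fun j : NewIdx M => cp.e j.2) (fun j => cp.b j.2)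
    (fun j => cp.pos j.2) (fun j : NewIdx M => j.1) ha.monotone (2 * σ) ((M : ℝ) * M + 1)
    (ε := 5 * β) (by positivity)
  obtain ⟨n₂, hn₂⟩ := gain_small 1 (fun j : MoveIdx M => a (topA M) - a j.1) (fun _ => 0) hgap
    (fun _ : MoveIdx M => 0) ha.monotone (2 * σ) ((M : ℝ) * M + 1) (ε := 5 * β) (by positivity)
  obtain ⟨n, hnge⟩ := exists_nat_ge (max 2 (max (1 / δ) (max (n₁ : ℝ) n₂)))
  have hn2 : 2 ≤ n := by exact_mod_cast (le_max_left _ _).trans hnge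
  have hn' : (0 : ℝ) < n := Nat.cast_pos.2 (by omega)
  have hnδ : 1 / (n : ℝ) ≤ δ :=
    (one_div_le hn' hδ).2 (((le_max_left _ _).trans (le_max_right _ _)).trans hnge)
  obtain ⟨hna, hnb⟩ := max_le_iff.1 (((le_max_right _ _).trans (le_max_right _ _)).trans hnge)
  obtain ⟨R₁, hR₁⟩ := hn₁ n (Nat.cast_le.1 hna) (by omega)
  obtain ⟨R₂, hR₂⟩ := hn₂ n (Nat.cast_le.1 hnb) (by omega)
  obtain ⟨R₃, hR₃⟩ := frame_step ha cp (show (0 : ℝ) < 1 / n by positivity) (2 * σ) 1 hβ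
  obtain ⟨R, hR⟩ : ∃ R, R = max R₃ (max R₁ R₂) := ⟨_, rfl⟩
  obtain ⟨B₁, hψ₁, k₁, hg₁⟩ := hR₁ R (hR ▸ (le_max_left _ _).trans (le_max_right _ _))
  obtain ⟨B₂, hψ₂, k₂, hg₂⟩ := hR₂ R (hR ▸ (le_max_right _ _).trans (le_max_right _ _))
  obtain ⟨du₀, hdu₀, hframe⟩ := hR₃ R (hR ▸ le_max_left _ _)
  obtain ⟨k, hk⟩ := exists_nat_ge (max 1 (max k₁ k₂))
  have hk1 : 1 ≤ k := by exact_mod_cast (le_max_left _ _).trans hk
  obtain ⟨K, hKdef⟩ : ∃ K, K = n * k - 1 := ⟨_, rfl⟩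
  obtain ⟨L0, hL0def⟩ : ∃ L0, L0 = k - 1 := ⟨_, rfl⟩
  have hnk : k + k ≤ n * k := by
    have := Nat.mul_le_mul_right k hn2
    omega
  have hL0K : L0 < K := by omega
  have hK1 : (K : ℝ) + 1 = n * k := by
    rw [hKdef, Nat.cast_sub (by omega)]
    push_cast
    ring
  have hL01 : (L0 : ℝ) + 1 = k := by
    rw [hL0def, Nat.cast_sub hk1]
    push_cast
    ring
  have hk' : (1 : ℝ) ≤ k := by exact_mod_cast hk1
  have hfracL : ((L0 : ℝ) + 1) / ((K : ℝ) + 1) = 1 / n := by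
    rw [hK1, hL01]
    field_simp
  have hG : (L0 : ℝ) / ((K : ℝ) + 1) + 1 / (J : ℝ) + 1 / ((K : ℝ) + 1) ≤ 3 * δ := by
    have : ((L0 : ℝ) + 1) / ((K : ℝ) + 1) = (L0 : ℝ) / ((K : ℝ) + 1) + 1 / ((K : ℝ) + 1) :=
      add_div _ _ _
    linarith
  have hkK : max k₁ k₂ ≤ (K : ℝ) + 1 := by
    refine ((le_max_right _ _).trans hk).trans ?_
    rw [hK1]
    exact le_mul_of_one_le_left (by linarith) (by exact_mod_cast (show 1 ≤ n by omega))
  obtain ⟨du, hdu⟩ : ∃ du : ℝ, du = min du₀ (1 / n) := ⟨_, rfl⟩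
  have hdu0 : 0 < du := hdu ▸ lt_min hdu₀ (by positivity)
  have hcut : 1 / (n : ℝ) * ((K : ℝ) + 1) ≤ (L0 : ℝ) + 1 := by
    rw [← hfracL, div_mul_cancel₀ _ (by positivity)]
  obtain ⟨η₀, hη₀, hframe'⟩ := hframe K L0 hL0K hcut du hdu0 (hdu ▸ min_le_left _ _)
  obtain ⟨η, hη, hηη, hη3⟩ : ∃ η, 0 < η ∧ η ≤ η₀ ∧ ((K : ℝ) + 2) ^ 3 * η ≤ 1 / n := by
    refine ⟨min η₀ (1 / n / ((K : ℝ) + 2) ^ 3), lt_min hη₀ (by positivity), min_le_left _ _, ?_⟩
    have := min_le_right η₀ (1 / n / ((K : ℝ) + 2) ^ 3)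
    rw [le_div_iff₀ (by positivity)] at this
    linarith
  have hηδ : ((K : ℝ) + 2) * η ≤ δ := by
    refine ((mul_le_mul_of_nonneg_right ?_ hη.le).trans hη3).trans hnδ
    exact le_self_pow₀ (by linarith [(Nat.cast_nonneg K : (0 : ℝ) ≤ K)]) (by norm_num)
  have hη1 : η ≤ 1 := by
    have : η ≤ ((K : ℝ) + 2) * η :=
      le_mul_of_one_le_left hη.le (by linarith [(Nat.cast_nonneg K : (0 : ℝ) ≤ K)])
    linarith
  have hduδ : du ≤ δ := (hdu ▸ min_le_right _ _ : du ≤ 1 / n).trans hnδ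
  obtain ⟨P, rfl, rfl, hPeq⟩ : ∃ P : Par, P.K = K ∧ P.L0 = L0 ∧ P = ⟨K, L0, du, η⟩ :=
    ⟨⟨K, L0, du, η⟩, rfl, rfl, rfl⟩
  have hPdu : P.du = du := congrArg Par.du hPeq
  have hPeta : P.eta = η := congrArg Par.eta hPeq
  have hP : P.Ok := ⟨hL0K, hPdu ▸ hdu0, hPdu ▸ hduδ.trans (by linarith), hPeta ▸ hη, hPeta ▸ hη1⟩
  obtain ⟨s, hsdef⟩ : ∃ s : ℕ → ℝ, s = fun l => if l ∈ probeSet P.K P.L0 J then σ else 0 :=
    ⟨_, rfl⟩
  have hsT : ∀ l ∈ probeSet P.K P.L0 J, s l = σ := fun l hl => by rw [hsdef]; exact if_pos hl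
  have hs0 : ∀ l, 0 ≤ s l := fun l => by simp only [hsdef]; split_ifs <;> linarith
  have hsK : ∀ l, P.K < l → s l = 0 := fun l hl => by
    rw [hsdef]
    exact if_neg fun h => absurd (probeSet_spec h).1 (by omega)
  have hsOk : P.SpinOk (2 * σ) s :=
    ⟨fun l => by simp only [hsdef]; split_ifs <;> simp [abs_of_pos hσ] <;> linarith,
      fun l h1 h2 => by rw [hsdef]; exact if_neg fun h => (probeSet_spec h).2 ⟨h1, h2⟩⟩
  have hOk : ∀ e, (e = s ∨ ∃ l ∈ probeSet P.K P.L0 J, ∃ x, (x = σ + δ * σ ∨ x = σ - δ * σ) ∧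
      e = Function.update s l x) → P.SpinOk (2 * σ) e := by
    rintro e (rfl | ⟨l, hl, x, hx, rfl⟩)
    · exact hsOk
    refine ⟨fun m => ?_, fun m h1 h2 => ?_⟩
    · rcases eq_or_ne m l with rfl | hne
      · rw [Function.update_self, abs_le]
        have := mul_nonneg hδ.le hσ.le
        rcases hx with rfl | rfl <;> constructor <;> linarith
      · rw [Function.update_of_ne hne]; exact hsOk.1 m
    · have hne : m ≠ l := by rintro rfl; exact (probeSet_spec hl).2 ⟨h1, h2⟩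
      rw [Function.update_of_ne hne]; exact hsOk.2 m h1 h2
  have hzero : P.SpinOk (2 * σ) (fun _ => 0) := ⟨fun _ => by simp [hσ.le], fun _ _ _ => rfl⟩
  refine ⟨P, hP, hPdu ▸ hduδ.trans hεδ, ?_, s, hs0, hsK, ?_, ?_⟩
  · refine le_trans ?_ (hηδ.trans hεδ)
    rw [hPeta, pow_two, ← mul_assoc]
    exact mul_le_of_le_one_right (by positivity) hη1
  · have hsub : probeSet P.K P.L0 J ⊆ range (P.K + 1) := fun l hl =>
      mem_range.2 (Nat.lt_succ_of_le (probeSet_spec hl).1)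
    rw [← sum_subset hsub fun l _ hl => by simp [hsdef, hl],
      sum_congr rfl fun l hl => by rw [hsT l hl], sum_const, nsmul_eq_mul]
    calc ((probeSet P.K P.L0 J).card : ℝ) * σ ^ 2 ≤ ((J : ℝ) + 1) * σ ^ 2 :=
          mul_le_mul_of_nonneg_right (by exact_mod_cast card_probeSet P.K P.L0 J) (sq_nonneg _)
      _ = δ * σ := by rw [hσdef]; field_simp
      _ ≤ ε := (mul_le_of_le_one_right hδ.le hσ1).trans hεδ
  obtain ⟨Cd, hCd⟩ : ∃ Cd : ℝ, Cd = β + |(M : ℝ) * cp.c0| +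
    ((Fintype.card (NewIdx M) : ℝ) * B₁ + (M : ℝ) * ((P.K : ℝ) + 2) * (2 * σ) ^ 2 / 2) +
    ((Fintype.card (MoveIdx M) : ℝ) * B₂ + ((1 : ℕ) : ℝ) * ((P.K : ℝ) + 2) * (2 * σ) ^ 2 / 2) +
    ((M * M + M : ℕ) : ℝ) * (8 * (M : ℝ) ^ 2 * ((∑ i, |a i|) + 1 + ((P.K : ℝ) + 2) * 10)) :=
    ⟨_, rfl⟩
  filter_upwards [eventually_gt_atTop 0,
    bal_large (M := M) ((M : ℝ) * M + 1) (δ := 1) one_pos,
    bal_large (M := M) (1 : ℝ) (δ := 1) one_pos,
    hframe' η hη hηη P hPeq,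
    hg₁ P hP hfracL ((le_max_left _ _).trans hkK) (hPdu ▸ (hdu ▸ min_le_right _ _)) (hPeta ▸ hη3),
    hg₂ P hP hfracL ((le_max_right _ _).trans hkK) (hPdu ▸ (hdu ▸ min_le_right _ _)) (hPeta ▸ hη3),
    ovl_close (M := M) hP (∑ i, |a i|) (2 * σ) Cd M hδ] with N hN hBal hBal1 hFr hG₁ hG₂ hOv
  obtain ⟨bB, hmove, hBB, hdiff⟩ := exists_base (blkOf : Fin N → Fin M) bal_blkOf
    fun r => ((hBal1 _ bal_blkOf).1 r).2
  obtain ⟨g₁, hg₁i, hg₁b⟩ := hG₁ s hsOk bB hBB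
  obtain ⟨g₂, hg₂i, hg₂b⟩ := hG₂ s hsOk bB hBB
  have hres := increment_at P hN a (s := s) (blkOf : Fin N → Fin M) bB
    (blkOf : Fin (N + M) → Fin M) hJ0 (V := value (evenLaw a) 1) (σ := σ) (δ := δ) (Cv := Cv)
    (L := L) (β := β) hσ hδ hL hβδ hβJ.le hβ.le hG hsT
    (fun v e => β + g₁ (fun n _ => e n) v + g₂ (fun _ _ => 0) v) ?_ ?_ ?_
  · have hMε := mul_le_mul_of_nonneg_left
      (show δ + (Cv * δ + L * (6 * δ)) ≤ ε by
        have : 0 ≤ (6 + 6 * Cv + L) * δ := by positivity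
        linarith) (Nat.cast_nonneg M : (0 : ℝ) ≤ M)
    linarith
  · intro e he
    obtain ⟨i1, j1⟩ := hg₁i (fun n _ => e n) fun _ => hOk e he
    obtain ⟨i2, j2⟩ := hg₂i (fun _ _ => 0) fun _ => hzero
    have i := (integrable_const (μ := cubeLaw (GBox M P.K)) β).add i1
    refine ⟨i.add i2, ?_⟩
    rw [integral_add (f := fun v => β + g₁ (fun n _ => e n) v) i i2,
      integral_add (integrable_const _) i1, integral_const, probReal_univ, one_smul]
    linarith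
  · intro v hv
    obtain ⟨hq, hq1⟩ := qhat_path P a s bB v hN
    have hqlt := qhat_lt_one P a s bB v hN
    obtain ⟨h, hh, hhK, -, hident⟩ := hquad P.K (P.qhat a s bB v) hq hq1
      ((hq.1 (Nat.zero_le P.K)).trans_lt hqlt)
    refine ⟨h, (∑ l ∈ range (P.K + 1), h l * P.qhat a s bB v l) / (2 * ((P.K : ℝ) + 1)) +
        energy (evenLaw a) 1 P.K (P.qhat a s bB v), hh, fun e he => ?_, fun η' hη' htail => ?_⟩
    · refine abs_combine (hFr s hsOk (fun n _ => e n) (fun _ => hOk e he) blkOf blkOf bB bal_blkOf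
        (fun r => fiber_blkOf_add r) hmove v hv) (hg₁b _ (fun _ => hOk e he) v)
        (hg₂b _ (fun _ => hzero) v) ?_
      rw [hident fun n _ => e n, sum_const, card_univ, Fintype.card_fin, nsmul_eq_mul, fieldPart]
      ring
    · have h1 := hvalue P.K h (P.qhat a s bB v) s hh hq hqlt (hsK _ (by omega)) δ η' hδ
        (by linarith) hη' htail
      have h2 : h P.K * η' ≤ |H₀| * η' :=
        mul_le_mul_of_nonneg_right (hhK.trans (le_abs_self _)) hη'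
      rw [hLdef]
      linarith
  · refine hOv M le_rfl a hΛ s hsOk bB (blkOf : Fin (N + M) → Fin M) fun v hv => ?_
    have hf := hFr s hsOk (fun n _ => s n) (fun _ => hsOk) blkOf blkOf bB bal_blkOf
      (fun r => fiber_blkOf_add r) hmove v hv
    rw [addAmp_self] at hf
    rw [hCd]
    exact abs_dist hf
      (insTerm_bound P a s bB v (fun n (_ : Fin M) => s n) (fun l _ => hsOk.1 l)
        (fun j : NewIdx M => j.1) (fun j => quadCut R (cp.e j.2) (cp.b j.2))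
        (fun j => (hψ₁ j).1) fun j => (hψ₁ j).2)
      (insTerm_bound (k := 1) P a s bB v (fun _ _ => 0) (smax := 2 * σ)
        (fun l _ => hzero.1 l) (fun _ : MoveIdx M => 0)
        (fun j => quadCut R (a (topA M) - a j.1) 0) (fun j => (hψ₂ j).1) fun j => (hψ₂ j).2)
      (free_card_close P hP a hΛ _ hdiff (fun r => ((hBal bB hBB).1 r).1)
        (fun r => ((hBal1 _ bal_blkOf).1 r).1) hv)

end Vale.Agent.P166.Parisi
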