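import Vale.Agent.P166.Basic
import Vale.Agent.P157.Parisi.Quant
import Vale.Agent.P157.Parisi.Model
import Vale.Agent.P166.Parisi.Formula

/-!
The spin glass with hierarchical fields on the spins and on the rotated spins.
-/

namespace Vale.Agent.P166.Parisi

open MeasureTheory ProbabilityTheory Finset Matrix
open Vale.Agent.P157 Vale.Agent.P157.Parisi

variable {N : ℕ}

/-- The rotated spins. -/
noncomputable def rotSpin (U : ON N) (σ : Fin N → Bool) : Fin N → ℝ :=
  (U : Matrix (Fin N) (Fin N) ℝ) *ᵥ spin σ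

/-- Coordinates: fields on the spins (`inl`), fields on the rotated spins (`inr`). -/
abbrev FIdx (N : ℕ) := Fin N ⊕ Fin N

/-- The leaf: a linear Hamiltonian in both families of fields. -/
noncomputable def glassLeaf (U : ON N) : Leaf (Fin N → Bool) Unit (FIdx N) where
  a σ _ := Sum.elim (spin σ) (rotSpin U σ)
  φ _ z := z
  φ1 _ _ := 1
  φ2 _ _ := 0

/-- `2^{-N} ∑_σ exp (σᵀ Uᵀ diag(lam) U σ / 2)`. -/
noncomputable def quadPart (lam : Fin N → ℝ) (U : ON N) : ℝ :=
  (1 / (2 : ℝ) ^ N) * ∑ σ : Fin N → Bool,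
    Real.exp (1 / 2 * eng lam (U : Matrix (Fin N) (Fin N) ℝ) σ)

/-- The spin law tilted by the coupling. -/
noncomputable def quadLaw (lam : Fin N → ℝ) (U : ON N) : Measure (Fin N → Bool) :=
  ∑ σ : Fin N → Bool, ENNReal.ofReal ((1 / (2 : ℝ) ^ N) *
    Real.exp (1 / 2 * eng lam (U : Matrix (Fin N) (Fin N) ℝ) σ) / quadPart lam U) • Measure.dirac σ

/-- The amplitudes: `s` on the spins, `v` on the rotated spins. -/
def glassAmp (s v : ℕ → Fin N → ℝ) (l : ℕ) : FIdx N → ℝ := Sum.elim (s l) (v l)

/-- `K + 1` levels on the uniform grid and one last level of weight zero. -/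
noncomputable def glassNest (K : ℕ) (s v : ℕ → Fin N → ℝ) : Nest (FIdx N) where
  K := K + 1
  x := gridX K
  amp := glassAmp s v

/-- The log-partition function with hierarchical fields, for fixed `U`. -/
noncomputable def glassFree (K : ℕ) (lam : Fin N → ℝ) (s v : ℕ → Fin N → ℝ) (U : ON N) : ℝ :=
  Real.log (quadPart lam U) + (glassNest K s v).free (glassLeaf U) (quadLaw lam U)

/-- Its average over `U`. -/
noncomputable def meanFree (K : ℕ) (lam : Fin N → ℝ) (s v : ℕ → Fin N → ℝ) : ℝ :=
  ∫ U, glassFree K lam s v U ∂haarON N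

/-- The rotated-spin coordinates of a set of indices. -/
def rotSet (S : Finset (Fin N)) : Finset (FIdx N) := S.image Sum.inr

end Vale.Agent.P166.Parisi
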