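import Vale.Agent.P166.Parisi.Sys
import Vale.Agent.P157.Parisi.CalcAmpCont
import Vale.Agent.P157.GaussLaw

/-!
Finitely many configurations with linear Hamiltonians: orthogonal changes of coordinates and
continuity in a parameter.
-/

set_option linter.unusedSectionVars false

namespace Vale.Agent.P166.Parisi.Sym

open MeasureTheory ProbabilityTheory Finset Matrix
open Vale.Agent.P157 Vale.Agent.P157.Parisi

variable {ι : Type} [Fintype ι]

/-! ### Orthogonal changes of coordinates -/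

/-- `y ↦ Oᵀ y` for an orthogonal matrix `O`. -/
noncomputable def orthMap [DecidableEq ι] (O : Matrix ι ι ℝ) (h1 : Oᵀ * O = 1) (h2 : O * Oᵀ = 1) :
    (ι → ℝ) ≃ᵐ (ι → ℝ) where
  toFun y := Oᵀ *ᵥ y
  invFun y := O *ᵥ y
  left_inv y := by
    show O *ᵥ (Oᵀ *ᵥ y) = y
    rw [Matrix.mulVec_mulVec, h2, Matrix.one_mulVec]
  right_inv y := by
    show Oᵀ *ᵥ (O *ᵥ y) = y
    rw [Matrix.mulVec_mulVec, h1, Matrix.one_mulVec]
  measurable_toFun := by
    show Measurable fun y : ι → ℝ => Oᵀ *ᵥ y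
    refine measurable_pi_lambda _ fun i => ?_
    simp only [Matrix.mulVec, dotProduct]
    fun_prop
  measurable_invFun := by
    show Measurable fun y : ι → ℝ => O *ᵥ y
    refine measurable_pi_lambda _ fun i => ?_
    simp only [Matrix.mulVec, dotProduct]
    fun_prop

lemma orthMap_apply [DecidableEq ι] (O : Matrix ι ι ℝ) (h1 : Oᵀ * O = 1) (h2 : O * Oᵀ = 1)
    (y : ι → ℝ) : orthMap O h1 h2 y = Oᵀ *ᵥ y := rfl

lemma map_orthMap [DecidableEq ι] (O : Matrix ι ι ℝ) (h1 : Oᵀ * O = 1) (h2 : O * Oᵀ = 1) :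
    (gauss ι).map (orthMap O h1 h2) = gauss ι := by
  have hsum : ∀ s : ι → ℝ, ∑ i, (∑ l, s l * O i l) ^ 2 =
      ∑ k, (∑ l, s l * if k = l then (1 : ℝ) else 0) ^ 2 := by
    intro s
    have hO : ∀ i, ∑ l, s l * O i l = (O *ᵥ s) i := fun i => by
      simp [Matrix.mulVec, dotProduct, mul_comm]
    have hl : ∑ i, (O *ᵥ s) i ^ 2 = (O *ᵥ s) ⬝ᵥ (O *ᵥ s) := by
      simp [dotProduct, sq]
    simp only [hO, hl]
    rw [Matrix.dotProduct_mulVec, ← Matrix.mulVec_transpose, Matrix.mulVec_mulVec, h1,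
      Matrix.one_mulVec]
    simp [dotProduct, sq]
  have h := map_gauss_eq (Λ := ι) (fun l i => O i l) (fun l k => if k = l then (1 : ℝ) else 0) hsum
  have e1 : (fun g : ι → ℝ => fun l => ∑ i, g i * O i l) = orthMap O h1 h2 := by
    funext g l
    simp [orthMap_apply, Matrix.mulVec, dotProduct, mul_comm]
  have e2 : (fun g : ι → ℝ => fun l => ∑ k, g k * if k = l then (1 : ℝ) else 0) = id := by
    funext g l; simp
  rwa [e1, e2, Measure.map_id] at h

variable [DecidableEq ι] {O : Matrix ι ι ℝ} {h1 : Oᵀ * O = 1} {h2 : O * Oᵀ = 1}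

lemma orthMap_scale {a a' : ι → ℝ} (h : ∀ i k, O i k ≠ 0 → a' i = a k) (z : ι → ℝ) :
    orthMap O h1 h2 (fun i => a' i * z i) = fun k => a k * orthMap O h1 h2 z k := by
  funext k
  simp only [orthMap_apply, Matrix.mulVec, dotProduct, Matrix.transpose_apply, mul_sum]
  refine sum_congr rfl fun i _ => ?_
  rcases eq_or_ne (O i k) 0 with h0 | h0
  · simp [h0]
  · rw [h i k h0]; ring

lemma orthMap_move {a a' : ι → ℝ} (h : ∀ i k, O i k ≠ 0 → a' i = a k) (y z : ι → ℝ) :
    orthMap O h1 h2 (move a' y z) = move a (orthMap O h1 h2 y) (orthMap O h1 h2 z) := by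
  have e := orthMap_scale (h1 := h1) (h2 := h2) h z
  funext k
  have e' : move a' y z = y + fun i => a' i * z i := rfl
  rw [e', orthMap_apply, Matrix.mulVec_add, ← orthMap_apply O h1 h2, ← orthMap_apply O h1 h2, e]
  rfl

lemma integral_orthMap (g : (ι → ℝ) → ℝ) :
    ∫ z, g (orthMap O h1 h2 z) ∂gauss ι = ∫ z, g z ∂gauss ι := by
  rw [← integral_map_equiv (orthMap O h1 h2) g, map_orthMap]

/-- The data of an orthogonal change of coordinates between two hierarchies. -/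
structure NestRot (Nn Nn' : Nest ι) (O : Matrix ι ι ℝ) : Prop where
  hK : Nn'.K = Nn.K
  hx : Nn'.x = Nn.x
  amp : ∀ l i k, O i k ≠ 0 → Nn'.amp l i = Nn.amp l k

variable {Nn Nn' : Nest ι} {W W' : (ι → ℝ) → ℝ}

lemma transport_u (h : NestRot Nn Nn' O) (hW : ∀ y, W' y = W (orthMap O h1 h2 y)) (l : ℕ)
    (y : ι → ℝ) : Nn'.u W' l y = Nn.u W l (orthMap O h1 h2 y) := by
  by_cases hl : l ≤ Nn.K
  swap
  · rw [u_top (N := Nn) (by omega), u_top (N := Nn') (by rw [h.hK]; omega), hW]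
  refine levels_induction (P := fun l => ∀ y, Nn'.u W' l y = Nn.u W l (orthMap O h1 h2 y))
    (fun y => ?_) (fun m hm ih y => ?_) hl y
  · rw [u_top (N := Nn) le_rfl, u_top (N := Nn') (by rw [h.hK]), hW]
  · rw [u_succ (N := Nn) hm, u_succ (N := Nn') (by rw [h.hK]; exact hm), h.hx]
    simp only [stepLog, ih, orthMap_move (h.amp (m + 1))]
    rw [integral_orthMap (fun w => Real.exp (Nn.x (m + 1) *
      Nn.u W (m + 1) (move (Nn.amp (m + 1)) (orthMap O h1 h2 y) w)))]

lemma transport_avg (h : NestRot Nn Nn' O) (hW : ∀ y, W' y = W (orthMap O h1 h2 y)) (l : ℕ)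
    {f f' : (ι → ℝ) → ℝ} (hf : ∀ y, f' y = f (orthMap O h1 h2 y)) (y : ι → ℝ) :
    Nn'.avg W' l f' y = Nn.avg W l f (orthMap O h1 h2 y) := by
  simp only [Nest.avg, tilt, h.hx, transport_u h hW, hf, orthMap_move (h.amp (l + 1))]
  rw [integral_orthMap (fun w => Real.exp (Nn.x (l + 1) *
      Nn.u W (l + 1) (move (Nn.amp (l + 1)) (orthMap O h1 h2 y) w)) *
        f (move (Nn.amp (l + 1)) (orthMap O h1 h2 y) w)),
    integral_orthMap (fun w => Real.exp (Nn.x (l + 1) *
      Nn.u W (l + 1) (move (Nn.amp (l + 1)) (orthMap O h1 h2 y) w)))]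

lemma transport_down (h : NestRot Nn Nn' O) (hW : ∀ y, W' y = W (orthMap O h1 h2 y)) {l : ℕ}
    (hl : l ≤ Nn.K) {f f' : (ι → ℝ) → ℝ} (hf : ∀ y, f' y = f (orthMap O h1 h2 y)) (y : ι → ℝ) :
    Nn'.down W' l f' y = Nn.down W l f (orthMap O h1 h2 y) := by
  refine levels_induction
    (P := fun l => ∀ y, Nn'.down W' l f' y = Nn.down W l f (orthMap O h1 h2 y))
    (fun y => ?_) (fun m hm ih y => ?_) hl y
  · rw [down_top (N := Nn) le_rfl, down_top (N := Nn') (by rw [h.hK]), hf]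
  · rw [down_succ (N := Nn) hm, down_succ (N := Nn') (by rw [h.hK]; exact hm)]
    exact transport_avg h hW m ih y

lemma transport_mean (h : NestRot Nn Nn' O) (hW : ∀ y, W' y = W (orthMap O h1 h2 y)) (l : ℕ)
    {f f' : (ι → ℝ) → ℝ} (hf : ∀ y, f' y = f (orthMap O h1 h2 y)) :
    Nn'.mean W' l f' = Nn.mean W l f := by
  induction l generalizing f f' with
  | zero =>
    simp only [Nest.mean, hf, orthMap_scale (h.amp 0)]
    exact integral_orthMap (fun w => f fun i => Nn.amp 0 i * w i)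
  | succ l ih => exact ih (transport_avg h hW l hf)

/-! ### Linear leaves on finitely many configurations -/

variable {Ω : Type} [Fintype Ω] [MeasurableSpace Ω] [MeasurableSingletonClass Ω]

/-- The law with weights `w`. -/
noncomputable def finLaw (w : Ω → ℝ) : Measure Ω :=
  ∑ ω, ENNReal.ofReal (w ω) • Measure.dirac ω

/-- The leaf with Hamiltonian `c ω ⬝ᵥ y`. -/
def linL (c : Ω → ι → ℝ) : Leaf Ω Unit ι where
  a ω _ := c ω
  φ _ z := z
  φ1 _ _ := 1
  φ2 _ _ := 0

omit [DecidableEq ι] in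
lemma integral_finLaw {w : Ω → ℝ} (hw : ∀ ω, 0 ≤ w ω) (f : Ω → ℝ) :
    ∫ ω, f ω ∂finLaw w = ∑ ω, w ω * f ω := by
  rw [finLaw, integral_finsetSum_measure fun ω _ =>
    (integrable_dirac (by simp)).smul_measure ENNReal.ofReal_ne_top]
  exact sum_congr rfl fun ω _ => by simp [ENNReal.toReal_ofReal (hw ω)]

omit [DecidableEq ι] in
lemma prob_finLaw {w : Ω → ℝ} (hw : ∀ ω, 0 ≤ w ω) (h1 : ∑ ω, w ω = 1) :
    IsProbabilityMeasure (finLaw w) :=
  ⟨by simp [finLaw, ← ENNReal.ofReal_sum_of_nonneg (fun ω _ => hw ω), h1]⟩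

omit [DecidableEq ι] in
lemma ham_linL (c : Ω → ι → ℝ) (ω : Ω) (y : ι → ℝ) : (linL c).ham ω y = c ω ⬝ᵥ y := by
  simp [Leaf.ham, Leaf.loc, linL, dotProduct]

omit [DecidableEq ι] in
lemma vec_linL (c : Ω → ι → ℝ) (i : ι) : (linL c).vec i = fun ω _ => c ω i := by
  funext ω y
  simp [Leaf.vec, linL]

omit [DecidableEq ι] in
lemma linL_good (c : Ω → ι → ℝ) {B : ℝ} (hB : ∀ ω i, |c ω i| ≤ B) : (linL c).Good (|B| + 1) where
  nonneg := by positivity
  meas _ _ := measurable_of_finite _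
  bound ω _ i := (hB ω i).trans (by linarith [le_abs_self B])
  deriv1 _ z := hasDerivAt_id z
  deriv2 _ z := hasDerivAt_const z (1 : ℝ)
  cont2 _ := continuous_const
  bound1 _ _ := by simp [linL]
  bound2 _ _ := by simp only [linL, abs_zero]; positivity

omit [Fintype ι] [DecidableEq ι] in
lemma obs_fin (f : Ω → ℝ) : Obs fun ω (_ : ι → ℝ) => f ω :=
  ⟨fun _ => measurable_of_finite _, fun _ => continuous_const, ∑ ω, |f ω|,
    fun ω _ => Finset.single_le_sum (f := fun ω => |f ω|) (fun _ _ => abs_nonneg _) (mem_univ ω)⟩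

/-- The log-partition function. -/
noncomputable def linW (c : Ω → ι → ℝ) (w : Ω → ℝ) (y : ι → ℝ) : ℝ :=
  Real.log (∑ ω, w ω * Real.exp (c ω ⬝ᵥ y))

/-- The Gibbs average of a function of the configuration. -/
noncomputable def linG (c : Ω → ι → ℝ) (w f : Ω → ℝ) (y : ι → ℝ) : ℝ :=
  (∑ ω, w ω * (Real.exp (c ω ⬝ᵥ y) * f ω)) / ∑ ω, w ω * Real.exp (c ω ⬝ᵥ y)

omit [DecidableEq ι] in
lemma logZ_linL {w : Ω → ℝ} (hw : ∀ ω, 0 ≤ w ω) (c : Ω → ι → ℝ) :
    (linL c).logZ (finLaw w) = linW c w := by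
  funext y
  simp [Leaf.logZ, linW, ham_linL, integral_finLaw hw]

omit [DecidableEq ι] in
lemma gibbs_linL {w : Ω → ℝ} (hw : ∀ ω, 0 ≤ w ω) (c : Ω → ι → ℝ) (f : Ω → ℝ) :
    (linL c).gibbs (finLaw w) (fun ω _ => f ω) = linG c w f := by
  funext y
  simp [Leaf.gibbs, linG, ham_linL, integral_finLaw hw]

section transport

variable {Ω' : Type} [Fintype Ω'] [MeasurableSpace Ω'] [MeasurableSingletonClass Ω']
variable {c : Ω → ι → ℝ} {c' : Ω' → ι → ℝ} {w : Ω → ℝ} {w' : Ω' → ℝ} (T : Ω ≃ Ω')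

omit [MeasurableSpace Ω] [MeasurableSingletonClass Ω] [MeasurableSpace Ω']
  [MeasurableSingletonClass Ω'] in
lemma linW_transport (hc : ∀ ω, c' (T ω) = O *ᵥ c ω) (hw : ∀ ω, w' (T ω) = w ω) (y : ι → ℝ) :
    linW c' w' y = linW c w (orthMap O h1 h2 y) := by
  simp only [linW]
  rw [← T.sum_comp]
  simp only [hc, hw, orthMap_apply, Matrix.mulVec_transpose, dotProduct_comm _ (y ᵥ* O)]
  simp only [← Matrix.dotProduct_mulVec, dotProduct_comm y]

omit [MeasurableSpace Ω] [MeasurableSingletonClass Ω] [MeasurableSpace Ω']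
  [MeasurableSingletonClass Ω'] in
lemma linG_transport (hc : ∀ ω, c' (T ω) = O *ᵥ c ω) (hw : ∀ ω, w' (T ω) = w ω) {f : Ω → ℝ}
    {f' : Ω' → ℝ} (hf : ∀ ω, f' (T ω) = f ω) (y : ι → ℝ) :
    linG c' w' f' y = linG c w f (orthMap O h1 h2 y) := by
  simp only [linG]
  rw [← T.sum_comp, ← T.sum_comp (fun ω => w' ω * Real.exp (c' ω ⬝ᵥ y))]
  simp only [hc, hw, hf, orthMap_apply, Matrix.mulVec_transpose, dotProduct_comm _ (y ᵥ* O)]
  simp only [← Matrix.dotProduct_mulVec, dotProduct_comm y]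

/-- Orthogonal changes of coordinates preserve the free energy and the node averages. -/
theorem lin_transport (h1 : Oᵀ * O = 1) (h2 : O * Oᵀ = 1) (h : NestRot Nn Nn' O)
    (hw0 : ∀ ω, 0 ≤ w ω) (hw0' : ∀ ω, 0 ≤ w' ω) (hc : ∀ ω, c' (T ω) = O *ᵥ c ω)
    (hw : ∀ ω, w' (T ω) = w ω) :
    Nn'.free (linL c') (finLaw w') = Nn.free (linL c) (finLaw w) ∧
      ∀ (l : ℕ) (f : Ω → ℝ) (f' : Ω' → ℝ), l ≤ Nn.K → (∀ ω, f' (T ω) = f ω) →
        Nn'.mean ((linL c').logZ (finLaw w')) l (Nn'.node (linL c') (finLaw w') l fun ω _ => f' ω) =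
            Nn.mean ((linL c).logZ (finLaw w)) l (Nn.node (linL c) (finLaw w) l fun ω _ => f ω) ∧
        Nn'.mean ((linL c').logZ (finLaw w')) l
            (fun y => Nn'.node (linL c') (finLaw w') l (fun ω _ => f' ω) y ^ 2) =
          Nn.mean ((linL c).logZ (finLaw w)) l
            (fun y => Nn.node (linL c) (finLaw w) l (fun ω _ => f ω) y ^ 2) := by
  simp only [Nest.free, Nest.node, logZ_linL hw0, logZ_linL hw0', gibbs_linL hw0, gibbs_linL hw0']
  have hW := linW_transport (h1 := h1) (h2 := h2) T hc hw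
  refine ⟨transport_mean h hW 0 (transport_u h hW 0), fun l f f' hl hf => ?_⟩
  have hd := transport_down h hW hl (linG_transport (h1 := h1) (h2 := h2) T hc hw hf)
  exact ⟨transport_mean h hW l hd, transport_mean h hW l fun y => by rw [hd y]⟩

end transport

/-! ### Continuity in a parameter -/

section continuity

variable {T : Type} [TopologicalSpace T] [FirstCountableTopology T]
variable {c : T → Ω → ι → ℝ} {w : T → Ω → ℝ} {B : ℝ}
variable (hc : ∀ ω i, Continuous fun t => c t ω i) (hwc : ∀ ω, Continuous fun t => w t ω)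
variable (hB : ∀ t ω i, |c t ω i| ≤ B) (hw : ∀ t ω, 0 ≤ w t ω) (hw1 : ∀ t, ∑ ω, w t ω = 1)

include hB hw hw1

omit [DecidableEq ι] [FirstCountableTopology T] [TopologicalSpace T] [MeasurableSpace Ω]
  [MeasurableSingletonClass Ω] in
lemma den_bounds (t : T) (y : ι → ℝ) :
    Real.exp (-(|B| * l1 y)) ≤ ∑ ω, w t ω * Real.exp (c t ω ⬝ᵥ y) ∧
      ∑ ω, w t ω * Real.exp (c t ω ⬝ᵥ y) ≤ Real.exp (|B| * l1 y) := by
  have h : ∀ ω, |c t ω ⬝ᵥ y| ≤ |B| * l1 y := fun ω => by
    rw [l1, mul_sum]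
    refine (abs_sum_le_sum_abs _ _).trans (sum_le_sum fun i _ => ?_)
    rw [abs_mul]
    exact mul_le_mul_of_nonneg_right ((hB t ω i).trans (le_abs_self _)) (abs_nonneg _)
  constructor
  · calc Real.exp (-(|B| * l1 y)) = ∑ ω, w t ω * Real.exp (-(|B| * l1 y)) := by
          rw [← sum_mul, hw1, one_mul]
      _ ≤ _ := sum_le_sum fun ω _ => mul_le_mul_of_nonneg_left
          (Real.exp_le_exp.2 (abs_le.1 (h ω)).1) (hw t ω)
  · calc _ ≤ ∑ ω, w t ω * Real.exp (|B| * l1 y) := sum_le_sum fun ω _ =>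
          mul_le_mul_of_nonneg_left (Real.exp_le_exp.2 (abs_le.1 (h ω)).2) (hw t ω)
      _ = _ := by rw [← sum_mul, hw1, one_mul]

include hc hwc

omit [DecidableEq ι] [FirstCountableTopology T] in
lemma plin_logZ : PLin fun t => (linL (c t)).logZ (finLaw (w t)) := by
  simp only [logZ_linL (hw _)]
  have hpos : ∀ p : T × (ι → ℝ), 0 < ∑ ω, w p.1 ω * Real.exp (c p.1 ω ⬝ᵥ p.2) := fun p =>
    lt_of_lt_of_le (Real.exp_pos _) (den_bounds hB hw hw1 p.1 p.2).1
  refine ⟨Continuous.log ?_ fun p => (hpos p).ne', fun _ => ⟨0, |B|, le_rfl, abs_nonneg _,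
    .of_forall fun t y => ?_⟩⟩
  · refine continuous_finsetSum _ fun ω _ => ((hwc ω).comp continuous_fst).mul
      (Real.continuous_exp.comp ?_)
    simp only [dotProduct]
    exact continuous_finsetSum _ fun i _ => ((hc ω i).comp continuous_fst).mul
      ((continuous_apply i).comp continuous_snd)
  · have h := den_bounds hB hw hw1 t y
    simp only [linW]
    rw [zero_add, abs_le]
    exact ⟨(Real.le_log_iff_exp_le (hpos (t, y))).2 h.1,
      (Real.log_le_iff_le_exp (hpos (t, y))).2 h.2⟩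

omit [DecidableEq ι] [FirstCountableTopology T] in
lemma ptame_gibbs {f : T → Ω → ℝ} (hf : ∀ ω, Continuous fun t => f t ω) :
    PTame fun t => (linL (c t)).gibbs (finLaw (w t)) fun ω _ => f t ω := by
  simp only [gibbs_linL (hw _)]
  have hpos : ∀ p : T × (ι → ℝ), 0 < ∑ ω, w p.1 ω * Real.exp (c p.1 ω ⬝ᵥ p.2) := fun p =>
    lt_of_lt_of_le (Real.exp_pos _) (den_bounds hB hw hw1 p.1 p.2).1
  have hexp : ∀ ω, Continuous fun p : T × (ι → ℝ) => Real.exp (c p.1 ω ⬝ᵥ p.2) := fun ω => by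
    refine Real.continuous_exp.comp ?_
    simp only [dotProduct]
    exact continuous_finsetSum _ fun i _ => ((hc ω i).comp continuous_fst).mul
      ((continuous_apply i).comp continuous_snd)
  refine ⟨(continuous_finsetSum _ fun ω _ => ((hwc ω).comp continuous_fst).mul
      ((hexp ω).mul ((hf ω).comp continuous_fst))).div
    (continuous_finsetSum _ fun ω _ => ((hwc ω).comp continuous_fst).mul (hexp ω))
    fun p => (hpos p).ne', fun t₀ => ?_⟩
  obtain ⟨C, k, hC, hk, hev⟩ := (ptame_param (ι := ι) (g := fun t => ∑ ω, |f t ω|)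
    (continuous_finsetSum _ fun ω _ => (hf ω).abs)).2 t₀
  refine ⟨C, k, hC, hk, hev.mono fun t ht y => le_trans ?_ ((le_abs_self _).trans (ht y))⟩
  simp only [linG]
  rw [abs_div, abs_of_pos (hpos (t, y)), div_le_iff₀ (hpos (t, y)), mul_sum]
  refine (abs_sum_le_sum_abs _ _).trans (sum_le_sum fun ω _ => ?_)
  rw [abs_mul, abs_mul, abs_of_nonneg (hw t ω), Real.abs_exp, ← mul_assoc,
    mul_comm _ (w t ω * Real.exp _)]
  exact mul_le_mul_of_nonneg_left
    (single_le_sum (f := fun ω => |f t ω|) (fun _ _ => abs_nonneg _) (mem_univ ω))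
    (mul_nonneg (hw t ω) (Real.exp_pos _).le)

omit [DecidableEq ι] in
lemma plin_u_lin (Nn : Nest ι) {l : ℕ} (hl : l ≤ Nn.K) :
    PLin fun t => Nn.u ((linL (c t)).logZ (finLaw (w t))) l := by
  refine levels_induction (P := fun l => PLin fun t => Nn.u ((linL (c t)).logZ (finLaw (w t))) l) ?_
    (fun m hm ih => ?_) hl
  · simp only [u_top (N := Nn) le_rfl]
    exact plin_logZ hc hwc hB hw hw1
  · simp only [u_succ (N := Nn) hm]
    exact plin_stepLog (s := fun _ => Nn.amp (m + 1)) ih (fun i => continuous_const) _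

omit [DecidableEq ι] in
lemma continuous_mean_lin (Nn : Nest ι) {l : ℕ} (hl : l ≤ Nn.K) {f : T → (ι → ℝ) → ℝ}
    (hf : PTame f) :
    Continuous fun t => Nn.mean ((linL (c t)).logZ (finLaw (w t))) l (f t) := by
  induction l generalizing f with
  | zero => exact hf.continuous_integral fun i => continuous_const
  | succ l ih =>
    exact ih (Nat.le_of_succ_le hl)
      (ptame_tilt (s := fun _ => Nn.amp (l + 1)) (plin_u_lin hc hwc hB hw hw1 Nn hl)
        (fun i => continuous_const) _ hf)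

omit [DecidableEq ι] in
lemma ptame_node_lin (Nn : Nest ι) {l : ℕ} (hl : l ≤ Nn.K) {f : T → Ω → ℝ}
    (hf : ∀ ω, Continuous fun t => f t ω) :
    PTame fun t => Nn.node (linL (c t)) (finLaw (w t)) l fun ω _ => f t ω := by
  simp only [Nest.node]
  refine levels_induction (P := fun l => PTame fun t => Nn.down ((linL (c t)).logZ (finLaw (w t))) l
    ((linL (c t)).gibbs (finLaw (w t)) fun ω _ => f t ω)) ?_ (fun m hm ih => ?_) hl
  · simp only [down_top (N := Nn) le_rfl]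
    exact ptame_gibbs hc hwc hB hw hw1 hf
  · simp only [down_succ (N := Nn) hm]
    exact ptame_tilt (s := fun _ => Nn.amp (m + 1)) (plin_u_lin hc hwc hB hw hw1 Nn hm)
      (fun i => continuous_const) _ ih

end continuity

end Vale.Agent.P166.Parisi.Sym
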