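import Vale.Agent.P166.Parisi.UpperAux
import Vale.Agent.P166.Parisi.AtomClose
import Vale.Agent.P166.Parisi.Blocks

/-!
The upper bound for equally weighted atoms: interpolation in the atoms along a maximiser of the
free energy with coarse amplitudes on the spins.
-/

namespace Vale.Agent.P166.Parisi

open MeasureTheory ProbabilityTheory Finset Filter Topology
open Vale.Agent.P157 Vale.Agent.P157.Parisi

variable {M N : ℕ}

namespace Upper

/-- Tails known on the coarse levels bound the refined path. -/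
lemma chiPath_block {K K' L : ℕ} (hL : 0 < L) (hK : K' + 1 = (K + 1) * L) {p q : ℕ → ℝ} {η : ℝ}
    (hη : 0 ≤ η) (h : ∀ j : Fin (K + 1), qTail K q j - η ≤ qTail K' p ((j : ℕ) * L)) (s : ℝ) :
    chiPath K' p s ≤ chiPath K q s + η := by
  rw [← sub_le_iff_le_add]
  refine Finset.le_inf' _ _ fun j hj => ?_
  rw [sub_le_iff_le_add]
  have hj' : j ≤ K + 1 := Nat.lt_succ_iff.1 (mem_range.1 hj)
  have hjL : j * L ≤ K' + 1 := hK ▸ Nat.mul_le_mul_right L hj'
  refine (Finset.inf'_le _ (mem_range.2 (Nat.lt_succ_of_le hjL))).trans ?_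
  have hlvl : lvl K' (j * L) = lvl K j := by
    have hc : ((K' : ℝ) + 1) = ((K : ℝ) + 1) * L := by exact_mod_cast hK
    have hL' : (L : ℝ) ≠ 0 := by exact_mod_cast hL.ne'
    rw [lvl, lvl, hc, Nat.cast_mul, mul_div_mul_right _ _ hL']
  rw [hlvl]
  rcases Nat.lt_or_ge j (K + 1) with hlt | hge
  · have := h ⟨j, hlt⟩
    dsimp only at this
    linarith
  · obtain rfl : j = K + 1 := le_antisymm hj' hge
    simp [qTail, hK]
    linarith

variable [NeZero M]

/-- The derivative in time lies below the energy density of the coarse path. -/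
lemma diag_le {a : Fin M → ℝ} (ha : Monotone a) {t : ℝ} (ht : 0 ≤ t)
    (hta : Monotone fun r => t * a r) {Λ : ℝ} (hΛ : ∀ r, |a r| ≤ Λ) (P : Par) (s : ℕ → ℝ)
    (b : Fin N → Fin M) (v : GBox M P.K → ℝ) (hN : 0 < N) {K : ℕ} {q : ℕ → ℝ} {η : ℝ}
    (h : ∀ x, chiPath P.K (P.qhat (fun r => t * a r) s b v) x ≤ chiPath K q x + η) :
    ∑ r, a r * P.diag (fun r => t * a r) s b v r ≤
      (∫ x in (0 : ℝ)..1, dens ha t (chiPath K q x + η)) +
        Λ * P.atomDist (fun r => t * a r) s b v hta := by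
  set A := evenAtoms (fun r => t * a r) hta
  set qh := P.qhat (fun r => t * a r) s b v
  obtain ⟨hp, hle⟩ := qhat_path P (fun r => t * a r) s b v hN
  have hΛ0 : 0 ≤ Λ := (abs_nonneg _).trans (hΛ (topA M))
  have hchi : ∀ x ∈ Set.Icc (0 : ℝ) 1, 0 ≤ chiPath P.K qh x := fun x hx =>
    (chiPath_mem hp hle hx).1
  have hd : ∑ r, a r * (exactMat A P.K qh r).d ≤
      ∫ x in (0 : ℝ)..1, dens ha t (chiPath K q x + η) := by
    have hint : ∀ r, IntervalIntegrable (fun x => a r * A.dPart r (chiPath P.K qh x)) volume 0 1 :=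
      fun r => (ContinuousOn.intervalIntegrable_of_Icc zero_le_one
        ((continuousOn_dPart A r).comp (chiPath_continuous P.K qh).continuousOn hchi)).const_mul _
    have he : ∑ r, a r * (exactMat A P.K qh r).d =
        ∫ x in (0 : ℝ)..1, ∑ r, a r * A.dPart r (chiPath P.K qh x) := by
      rw [intervalIntegral.integral_finsetSum fun r _ => hint r]
      refine sum_congr rfl fun r _ => ?_
      rw [exactMat_d A P.K hp hle r, intervalIntegral.integral_const_mul]
    rw [he]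
    refine intervalIntegral.integral_mono_on zero_le_one
      (by simpa only [Finset.sum_fn] using IntervalIntegrable.sum univ fun r _ => hint r)
      ((continuous_dens_comp ha continuous_const
        ((chiPath_continuous K q).add continuous_const)).intervalIntegrable _ _) fun x hx => ?_
    rw [← dEnergy_eq_scaled ha ht hta]
    have h0 := hchi x hx
    rw [dens, max_eq_left (h0.trans (h x))]
    exact dEnergy_monotoneOn (evenAtoms a ha) t h0 (Set.mem_Ici.2 (h0.trans (h x))) (h x)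
  have hdist : ∑ r, a r * (P.diag (fun r => t * a r) s b v r - (exactMat A P.K qh r).d) ≤
      Λ * P.atomDist (fun r => t * a r) s b v hta := by
    rw [Par.atomDist, mul_sum]
    refine sum_le_sum fun r _ => (le_abs_self _).trans ?_
    rw [abs_mul]
    refine mul_le_mul (hΛ r) ?_ (abs_nonneg _) hΛ0
    simp only [SMat.nrm, SMat.add, SMat.smul, Par.atomMat, neg_one_mul, ← sub_eq_add_neg]
    exact le_add_of_nonneg_right (sum_nonneg fun l hl =>
      mul_nonneg (SMat.w_nonneg _ (Nat.lt_succ_iff.1 (mem_range.1 hl))) (abs_nonneg _))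
  simp only [mul_sub, sum_sub_distrib] at hdist
  linarith

omit [NeZero M] in
/-- One step back in time. -/
lemma avgFree_step {a : Fin M → ℝ} (P : Par) (s : ℕ → ℝ) (b : Fin N → Fin M) (hN : 0 < N)
    {t u : ℝ} (hut : u < t) {G : ℝ}
    (hG : ∫ v, ∑ r, a r * P.diag (fun r => t * a r) s b v r ∂cubeLaw (GBox M P.K) ≤ G) :
    avgFree P (fun r => t * a r) s b ≤ avgFree P (fun r => u * a r) s b + (t - u) * G / 2 := by
  have hN' : (0 : ℝ) < N := by exact_mod_cast hN
  have hint : Integrable (fun v => ∑ r, a r * P.diag (fun r => t * a r) s b v r)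
      (cubeLaw (GBox M P.K)) :=
    Box.integrable_cube (continuous_finsetSum _ fun r _ =>
      continuous_const.mul (continuous_diag_box P _ s b r))
  have hpt : ∀ v, P.free (fun r => t * a r) s b v / N ≤ P.free (fun r => u * a r) s b v / N +
      (t - u) / 2 * ∑ r, a r * P.diag (fun r => t * a r) s b v r := by
    intro v
    have hconv : ConvexOn ℝ Set.univ fun t : ℝ => P.free (fun r => t * a r) s b v :=
      free_convex P (fun (t : ℝ) r => t * a r) (fun _ => s) b v
        (fun x y p r _ i => by simp only [smul_eq_mul]; ring)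
        fun _ _ p r hpr l => by rw [← add_mul, hpr, one_mul]
    have h := hconv.slope_le_of_hasDerivAt (Set.mem_univ u) (Set.mem_univ t) hut
      (hasDerivAt_atoms P a s b v t)
    rw [slope_def_field, div_le_iff₀ (sub_pos.2 hut)] at h
    rw [← sub_le_iff_le_add', div_sub_div_same, div_le_iff₀ hN']
    refine h.trans_eq ?_
    ring
  have hm := integral_mono (μ := cubeLaw (GBox M P.K)) (integrable_free P (fun r => t * a r) s b)
    ((integrable_free P (fun r => u * a r) s b).add (hint.const_mul ((t - u) / 2))) hpt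
  simp only [Pi.add_apply] at hm
  rw [integral_add (integrable_free P _ s b) (hint.const_mul _), integral_const_mul] at hm
  have := mul_le_mul_of_nonneg_left hG (by linarith : 0 ≤ (t - u) / 2)
  simp only [avgFree] at hm ⊢
  linarith

/-- The penalised averaged free energy at time `t`. -/
noncomputable def value' (P : Par) (a : Fin M → ℝ) (b : Fin N → Fin M) {K : ℕ} (L : ℕ)
    (q : ℕ → ℝ) (e t : ℝ) (c : Fin (K + 1) → ℝ) : ℝ :=
  avgFree P (fun r => t * a r) (fine L c) b + pen q e c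

lemma sum_coarse_sq {K : ℕ} (c : Fin (K + 1) → ℝ) :
    ∑ l ∈ range (K + 1), coarse c l ^ 2 = ∑ j, c j ^ 2 := by
  simpa using coarse_sum c (fun _ => 1)

section

variable {P : Par} {a : Fin M → ℝ} {b : Fin N → Fin M} {K L : ℕ} {q : ℕ → ℝ} {e γ C : ℝ}

omit [NeZero M] in
/-- A maximiser over positive amplitudes lies in the box. -/
lemma exists_maximiser (hN : 0 < N) (hdu : 0 ≤ P.du) (heta : 0 ≤ P.eta) (hL : 0 < L)
    (hK : P.K = (K + 1) * L - 1) (hw : width P ≤ 1) {Λ t : ℝ} (hb : ∀ r, |t * a r| ≤ Λ)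
    (hgrow : ∀ f : ℕ → ℝ, f (K + 1) = 0 → oneSpin K f ≤
      (∑ l ∈ range (K + 1), f l ^ 2 * (1 - qTail K q l)) / 2 -
        γ * ∑ l ∈ range (K + 1), f l ^ 2 + C)
    {δ R : ℝ} (hδ : 0 < δ) (hδ1 : δ ≤ 1) (hR : 1 ≤ R)
    (hbox : ∀ c : Fin (K + 1) → ℝ, (∀ j, 0 < c j) → (∃ j, c j < δ ∨ R < c j) →
      C + (Λ / 2 + 1) + ∑ j, (-γ * c j ^ 2 + e * Real.log (c j)) ≤
        oneSpin K (coarse fun _ : Fin (K + 1) => (1 : ℝ)) - (Λ / 2 + 1) -
          (∑ j : Fin (K + 1), (1 : ℝ) ^ 2 * (1 - qTail K q j)) / 2) :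
    ∃ c : Fin (K + 1) → ℝ, (∀ j, c j ∈ Set.Icc δ R) ∧
      ∀ d : Fin (K + 1) → ℝ, (∀ j, 0 < d j) → value' P a b L q e t d ≤ value' P a b L q e t c := by
  refine exists_max (Φ := value' P a b L q e t) hδ hδ1 hR ?_ fun d hd hout => ?_
  · refine (continuous_avgFree P (fun r => t * a r) b).continuousOn.add ?_
    refine ((continuous_finsetSum _ fun j _ => ((continuous_apply j).pow 2).mul
      continuous_const).neg.div_const 2).continuousOn.add ?_
    exact continuousOn_const.mul (continuousOn_finsetSum _ fun j _ =>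
      (continuous_apply j).continuousOn.log fun c hc => (hc j).ne')
  · have h1 := abs_le.1 (avgFree_oneSpin P (fun r => t * a r) b hN hdu heta hL hK hb d)
    have h2 := abs_le.1 (avgFree_oneSpin P (fun r => t * a r) b hN hdu heta hL hK hb
      fun _ : Fin (K + 1) => (1 : ℝ))
    have h3 := hgrow (coarse d) (coarse_top d)
    rw [coarse_sum d (fun l => 1 - qTail K q l), sum_coarse_sq] at h3
    have h4 := hbox d hd hout
    have h5 : ∑ j, (-γ * d j ^ 2 + e * Real.log (d j)) =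
        -(γ * ∑ j, d j ^ 2) + e * ∑ j, Real.log (d j) := by
      rw [sum_add_distrib, mul_sum, mul_sum, ← sum_neg_distrib]
      simp
    rw [h5] at h4
    have h6 : e * ∑ _j : Fin (K + 1), Real.log 1 = 0 := by simp
    simp only [value', pen, h6]
    linarith [h1.2, h2.1]

omit [NeZero M] in
/-- The value at time zero lies below the entropy. -/
lemma value_zero_le (hN : 0 < N) (hdu : 0 ≤ P.du) (heta : 0 ≤ P.eta) (hL : 0 < L)
    (hK : P.K = (K + 1) * L - 1) (hq : IsPath q) (h1 : q K < 1) (hγ : 0 < γ)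
    (he : 0 ≤ e) (he1 : e ≤ 1)
    (hgrow : ∀ f : ℕ → ℝ, f (K + 1) = 0 → oneSpin K f ≤
      (∑ l ∈ range (K + 1), f l ^ 2 * (1 - qTail K q l)) / 2 -
        γ * ∑ l ∈ range (K + 1), f l ^ 2 + C)
    {c : Fin (K + 1) → ℝ} (hc : ∀ j, 0 < c j) :
    value' P a b L q e 0 c ≤ isingEntropy K q +
      e * |C - isingEntropy K q + ((K : ℝ) + 1) / (4 * γ)| + width P := by
  have hs := (abs_le.1 (avgFree_oneSpin P (fun r => 0 * a r) b hN hdu heta hL hK
    (Λ := 0) (fun r => by simp) c)).2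
  have h2 := oneSpin_pen_le hq h1 c
  have h3 := hgrow (coarse c) (coarse_top c)
  rw [coarse_sum c (fun l => 1 - qTail K q l), sum_coarse_sq] at h3
  have h6 : ∑ j, Real.log (c j) ≤ γ * ∑ j, c j ^ 2 + ((K : ℝ) + 1) / (4 * γ) := by
    rw [mul_sum, show ((K : ℝ) + 1) / (4 * γ) = ∑ _j : Fin (K + 1), 1 / (4 * γ) by
      rw [sum_const, card_univ, Fintype.card_fin, nsmul_eq_mul]; push_cast; ring,
      ← sum_add_distrib]
    refine sum_le_sum fun j _ => ?_
    have h7 := Real.log_le_sub_one_of_pos (hc j)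
    have h8 : γ * c j ^ 2 + 1 / (4 * γ) - c j = (2 * γ * c j - 1) ^ 2 / (4 * γ) := by
      field_simp; ring
    have h9 : 0 ≤ (2 * γ * c j - 1) ^ 2 / (4 * γ) := by positivity
    linarith
  simp only [value', pen]
  have ha := mul_le_mul_of_nonneg_left h2 (sub_nonneg.2 he1)
  have hb := mul_le_mul_of_nonneg_left h3 he
  have hl := mul_le_mul_of_nonneg_left h6 he
  have hD := mul_le_mul_of_nonneg_left
    (le_abs_self (C - isingEntropy K q + ((K : ℝ) + 1) / (4 * γ))) he
  linarith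

omit [NeZero M] in
/-- The value at time one at small constant amplitudes dominates the pressure. -/
lemma meanP_le_value (hN : 0 < N) (hdu : 0 ≤ P.du) (heta : 0 ≤ P.eta) (hq : IsPath q)
    (he : 0 ≤ e) {c₀ : ℝ} :
    meanP 1 (a ∘ b) ≤ value' (K := K) P a b L q e 1 (fun _ => c₀) +
      ((K : ℝ) + 1) * c₀ ^ 2 / 2 + e * (((K : ℝ) + 1) * |Real.log c₀|) + width P := by
  set c : Fin (K + 1) → ℝ := fun _ => c₀ with hc
  have h2 := (abs_le.1 (avgFree_close P (fun r => 1 * a r) (fine L c) b hN hdu heta)).1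
  have e2 : (fun r => 1 * a r) ∘ b = a ∘ b := by funext p; simp
  rw [e2] at h2
  have h3 : meanFree P.K (a ∘ b) (fun _ _ => (0 : ℝ)) (fun _ _ => 0) ≤
      meanFree P.K (a ∘ b) (fun l _ => fine L c l) (fun _ _ => 0) :=
    meanFree_amp_mono P.K _ (fun l p => by simp) fun _ _ => le_rfl
  rw [meanFree_zero] at h3
  have h4 : meanP 1 (a ∘ b) ≤
      meanFree P.K (a ∘ b) (fun l _ => fine L c l) (fun _ _ => 0) / (N : ℝ) :=
    (le_div_iff₀ (by exact_mod_cast hN)).2 (by linarith)
  have h6 : ∑ j : Fin (K + 1), c₀ ^ 2 * (1 - qTail K q j) ≤ ((K : ℝ) + 1) * c₀ ^ 2 := by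
    refine (sum_le_sum fun j _ => mul_le_of_le_one_right (sq_nonneg c₀)
      (sub_le_self _ (qTail_le hq j.isLt.le).1)).trans_eq ?_
    rw [sum_const, card_univ, Fintype.card_fin, nsmul_eq_mul]
    push_cast; ring
  have h7 : ∑ j : Fin (K + 1), Real.log (c j) = ((K : ℝ) + 1) * Real.log c₀ := by
    rw [hc, sum_const, card_univ, Fintype.card_fin, nsmul_eq_mul]
    push_cast; ring
  have h8 := mul_le_mul_of_nonneg_left
    (mul_le_mul_of_nonneg_left (neg_abs_le (Real.log c₀))
      (by positivity : (0 : ℝ) ≤ (K : ℝ) + 1)) he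
  simp only [value', pen, h7]
  simp only [hc] at h2 h4 ⊢
  linarith

/-- One step of the interpolation. -/
lemma value_step (ha : Monotone a) (hN : 0 < N) (hdu : 0 ≤ P.du) (heta : 0 ≤ P.eta) (hL : 0 < L)
    (hK : P.K + 1 = (K + 1) * L) (hq : IsPath q) (he : 0 ≤ e) {δ η Λ Δ : ℝ} (hδ : 0 < δ)
    (hη : 0 < η) (hw : 8 * width P ≤ δ ^ 2 * η ^ 2) (hΛ : ∀ r, |a r| ≤ Λ) {u t : ℝ} (hu : 0 ≤ u)
    (hut : u < t) (hta : Monotone fun r => t * a r) {c : Fin (K + 1) → ℝ} (hc : ∀ j, δ ≤ c j)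
    (hopt : ∀ d : Fin (K + 1) → ℝ, (∀ j, 0 < d j) →
      value' P a b L q e t d ≤ value' P a b L q e t c)
    (hint : Integrable (fun v => P.atomDist (fun r => t * a r) (fine L c) b v hta)
      (cubeLaw (GBox M P.K)))
    (hle : ∫ v, P.atomDist (fun r => t * a r) (fine L c) b v hta ∂cubeLaw (GBox M P.K) ≤ Δ) :
    value' P a b L q e t c ≤ value' P a b L q e u c +
      (t - u) * ((∫ x in (0 : ℝ)..1, dens ha t (chiPath K q x + η)) + Λ * Δ) / 2 := by
  have hΛ0 : 0 ≤ Λ := (abs_nonneg _).trans (hΛ (topA M))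
  set G := ∫ x in (0 : ℝ)..1, dens ha t (chiPath K q x + η)
  have hG : ∫ v, ∑ r, a r * P.diag (fun r => t * a r) (fine L c) b v r ∂cubeLaw (GBox M P.K) ≤
      G + Λ * Δ := by
    refine (integral_mono_ae
      (g := fun v => G + Λ * P.atomDist (fun r => t * a r) (fine L c) b v hta)
      (Box.integrable_cube (continuous_finsetSum _ fun r _ =>
        continuous_const.mul (continuous_diag_box P _ (fine L c) b r)))
      ((integrable_const _).add (hint.const_mul Λ)) ?_).trans ?_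
    · filter_upwards [Box.ae_mem_cube] with v hv
      exact diag_le ha (hu.trans hut.le) hta hΛ P (fine L c) b v hN fun x =>
        chiPath_block hL hK hη.le (fun j => tail_at_max P (fun r => t * a r) b hq he hN
          hdu heta hL hK hδ hη hw hc hopt hv j) x
    · rw [integral_add (integrable_const _) (hint.const_mul Λ), integral_const_mul]
      simp only [integral_const, probReal_univ, smul_eq_mul, one_mul]
      linarith [mul_le_mul_of_nonneg_left hle hΛ0]
  have h1 := avgFree_step (a := a) P (fine L c) b hN hut hG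
  simp only [value']
  linarith

end

/-- Levels and a box so fine that every error is small. -/
lemma exists_par (K : ℕ) {τ w : ℝ} (hτ : 0 < τ) (hw : 0 < w) :
    ∃ L : ℕ, 0 < L ∧ ∃ P : Par, P.Ok ∧ P.L0 = 0 ∧ P.K + 1 = (K + 1) * L ∧
      ((P.L0 : ℝ) + 1) / ((P.K : ℝ) + 1) ≤ τ ∧ P.du ≤ τ ∧
      ((P.K : ℝ) + 2) ^ 3 * P.eta ≤ τ ∧ width P ≤ w := by
  obtain ⟨L₀, hL₀⟩ := exists_nat_ge (1 / τ)
  have hLL : L₀ + 2 ≤ (K + 1) * (L₀ + 2) := Nat.le_mul_of_pos_left _ (Nat.succ_pos K)
  refine ⟨L₀ + 2, by omega, ?_⟩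
  generalize (K + 1) * (L₀ + 2) = n at hLL
  set k : ℝ := ((n - 1 : ℕ) : ℝ) + 2 with hk
  have hk0 : 0 < k := by positivity
  set eta := min 1 (min (τ / k ^ 3) (w / (4 * k))) with heta
  have heta0 : 0 < eta := lt_min one_pos (lt_min (by positivity) (by positivity))
  refine ⟨⟨n - 1, 0, min 1 (min τ w), eta⟩, ⟨show 0 < n - 1 by omega,
    lt_min one_pos (lt_min hτ hw), min_le_left _ _, heta0, min_le_left _ _⟩, rfl,
    show n - 1 + 1 = n by omega, ?_, (min_le_right _ _).trans (min_le_left _ _), ?_, ?_⟩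
  · have h1 : 1 / τ ≤ ((n - 1 : ℕ) : ℝ) + 1 := hL₀.trans <| by
      exact_mod_cast (show L₀ ≤ n - 1 + 1 by omega)
    rw [div_le_iff₀ hτ] at h1
    simp only [Nat.cast_zero, zero_add]
    rw [div_le_iff₀ (by positivity)]
    linarith
  · have h1 := (le_div_iff₀ (by positivity)).1
      ((min_le_right 1 (min (τ / k ^ 3) (w / (4 * k)))).trans (min_le_left _ _))
    rw [mul_comm] at h1
    exact h1
  · have h1 := (le_div_iff₀ (by positivity)).1
      ((min_le_right 1 (min (τ / k ^ 3) (w / (4 * k)))).trans (min_le_right _ _))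
    rw [← heta] at h1
    have h2 : eta ≤ 1 := min_le_left _ _
    have h3 : min 1 (min τ w) ≤ w := (min_le_right _ _).trans (min_le_right _ _)
    show min 1 (min τ w) / 2 + 2 * k * eta ^ 2 ≤ w
    nlinarith [mul_pos hk0 heta0]

end Upper

open Upper

variable [NeZero M]

/-- Module U. -/
theorem atoms_upper {a : Fin M → ℝ} (ha : Monotone a) (K : ℕ) {q : ℕ → ℝ} (hq : IsPath q)
    (h1 : q K < 1) {ε : ℝ} (hε : 0 < ε) :
    ∀ᶠ N : ℕ in atTop, meanP 1 (a ∘ (blkOf : Fin N → Fin M)) ≤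
      isingEntropy K q + energy (evenLaw a) 1 K q + ε := by
  obtain ⟨n, hn, η, hη, hgrid⟩ := exists_grid ha hq h1 (show 0 < ε / 4 by positivity)
  set Λ := ∑ r, |a r| with hΛd
  have hΛ : ∀ r, |a r| ≤ Λ := fun r =>
    single_le_sum (f := fun r => |a r|) (fun r _ => abs_nonneg _) (mem_univ r)
  have hΛ0 : 0 ≤ Λ := sum_nonneg fun r _ => abs_nonneg _
  obtain ⟨γ, C, hγ, hgrow⟩ := oneSpin_growth hq h1
  -- small amplitudes at the end, weight of the logarithm
  set k : ℝ := (K : ℝ) + 1 with hk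
  have hk0 : 0 < k := by positivity
  set c₀ : ℝ := min 1 (ε / (5 * k)) with hc₀
  have hc₀0 : 0 < c₀ := lt_min one_pos (by positivity)
  have hc₀1 : k * c₀ ^ 2 / 2 ≤ ε / 10 := by
    have h1 := (le_div_iff₀ (by positivity)).1 (min_le_right 1 (ε / (5 * k)))
    rw [← hc₀] at h1
    nlinarith [min_le_left 1 (ε / (5 * k)), mul_pos hk0 hc₀0]
  set D := C - isingEntropy K q + k / (4 * γ) with hD
  set e : ℝ := min 1 (ε / (10 * (|D| + k * |Real.log c₀| + 1))) with he
  have he0 : 0 < e := lt_min one_pos (by positivity)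
  have he1 : e ≤ 1 := min_le_left _ _
  have heD : e * |D| ≤ ε / 10 ∧ e * (k * |Real.log c₀|) ≤ ε / 10 := by
    have h1 := (le_div_iff₀ (by positivity)).1
      (min_le_right 1 (ε / (10 * (|D| + k * |Real.log c₀| + 1))))
    rw [← he] at h1
    constructor <;> nlinarith [mul_nonneg he0.le (abs_nonneg D),
      mul_nonneg he0.le (mul_nonneg hk0.le (abs_nonneg (Real.log c₀)))]
  obtain ⟨δ, R, hδ, hδ1, hR, hbox⟩ := exists_box hγ he0 (C + (Λ / 2 + 1))
    (oneSpin K (coarse fun _ : Fin (K + 1) => (1 : ℝ)) - (Λ / 2 + 1) -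
      (∑ j : Fin (K + 1), (1 : ℝ) ^ 2 * (1 - qTail K q j)) / 2) (K + 1)
  set w₀ := min 1 (min (δ ^ 2 * η ^ 2 / 8) (ε / 20)) with hw₀
  have hw₀0 : 0 < w₀ := lt_min one_pos (lt_min (by positivity) (by positivity))
  obtain ⟨τ, hτ, hclose⟩ := atom_close (M := M) Λ (show 0 < ε / (5 * (Λ + 1)) by positivity)
  obtain ⟨L, hL, P, hok, hP0, hPK, hPL, hPdu, hPeta, hwidth⟩ := exists_par K hτ hw₀0
  have hPK' : P.K = (K + 1) * L - 1 := by omega
  have hw1 : width P ≤ 1 := hwidth.trans (min_le_left _ _)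
  have hwε : width P ≤ ε / 20 := hwidth.trans ((min_le_right _ _).trans (min_le_right _ _))
  have hwη : 8 * width P ≤ δ ^ 2 * η ^ 2 := by
    have := hwidth.trans ((min_le_right _ _).trans (min_le_left _ _))
    linarith
  filter_upwards [hclose P hok hPL hPdu hPeta R 1, eventually_gt_atTop 0] with N hdist hN
  have hta : ∀ t : ℝ, 0 ≤ t → Monotone fun r => t * a r := fun t ht i j hij =>
    mul_le_mul_of_nonneg_left (ha hij) ht
  have hbnd : ∀ t ∈ Set.Icc (0 : ℝ) 1, ∀ r, |t * a r| ≤ Λ := fun t ht r => by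
    rw [abs_mul, abs_of_nonneg ht.1]
    exact (mul_le_of_le_one_left (abs_nonneg _) ht.2).trans (hΛ r)
  have hmax : ∀ t : ℝ, ∃ c : Fin (K + 1) → ℝ, t ∈ Set.Icc (0 : ℝ) 1 →
      (∀ j, c j ∈ Set.Icc δ R) ∧ ∀ d : Fin (K + 1) → ℝ, (∀ j, 0 < d j) →
        value' P a (blkOf : Fin N → Fin M) L q e t d ≤
          value' P a (blkOf : Fin N → Fin M) L q e t c := fun t => by
    by_cases ht : t ∈ Set.Icc (0 : ℝ) 1
    · obtain ⟨c, hc⟩ := exists_maximiser (a := a) (b := (blkOf : Fin N → Fin M)) hN hok.du_pos.le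
        hok.eta_pos.le hL hPK' hw1 (hbnd t ht) hgrow hδ hδ1 hR hbox
      exact ⟨c, fun _ => hc⟩
    · exact ⟨fun _ => 1, fun h => absurd h ht⟩
  choose cs hcs using hmax
  set F : ℝ → ℝ := fun t => value' P a (blkOf : Fin N → Fin M) L q e t (cs t) with hF
  have hpos : ∀ t ∈ Set.Icc (0 : ℝ) 1, ∀ j, 0 < cs t j := fun t ht j =>
    lt_of_lt_of_le hδ ((hcs t ht).1 j).1
  have h0 : (0 : ℝ) ∈ Set.Icc (0 : ℝ) 1 := ⟨le_rfl, zero_le_one⟩
  have hstart : F 0 ≤ isingEntropy K q + ε / 10 + ε / 20 := by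
    have := value_zero_le (a := a) (b := (blkOf : Fin N → Fin M)) hN hok.du_pos.le hok.eta_pos.le
      hL hPK' hq h1 hγ he0.le he1 hgrow (hpos 0 h0)
    simp only [hF]
    linarith [heD.1]
  have hend : meanP 1 (a ∘ (blkOf : Fin N → Fin M)) ≤ F 1 + ε / 5 + ε / 20 := by
    have h2 := (hcs 1 ⟨zero_le_one, le_rfl⟩).2 (fun _ => c₀) fun _ => hc₀0
    have h3 := meanP_le_value (a := a) (b := (blkOf : Fin N → Fin M)) (K := K) (L := L) (c₀ := c₀)
      hN hok.du_pos.le hok.eta_pos.le hq he0.le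
    simp only [hF]
    linarith [heD.2]
  set G : ℕ → ℝ := fun i =>
    ∫ x in (0 : ℝ)..1, dens ha (((i : ℝ) + 1) / n) (chiPath K q x + η) with hGd
  have hn0 : (0 : ℝ) < n := Nat.cast_pos.2 hn
  have hstep : ∀ i ∈ range n, F (((i : ℝ) + 1) / n) - F ((i : ℝ) / n) ≤
      1 / (n : ℝ) * ((G i + ε / 5) / 2) := by
    intro i hi
    set t := ((i : ℝ) + 1) / n with ht
    set u := (i : ℝ) / n with hu
    have hut : u < t := by rw [ht, hu]; gcongr; linarith
    have htm : t ∈ Set.Icc (0 : ℝ) 1 := ⟨by positivity, by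
      rw [ht, div_le_one hn0]; exact_mod_cast mem_range.1 hi⟩
    have hum : u ∈ Set.Icc (0 : ℝ) 1 := ⟨by positivity, hut.le.trans htm.2⟩
    obtain ⟨hc, hopt⟩ := hcs t htm
    have hspin : P.SpinOk R (fine L (cs t)) :=
      ⟨abs_fine_le _ (zero_le_one.trans hR) fun j => by
        rw [abs_of_pos (hpos t htm j)]; exact (hc j).2, fun l h1 h2 => by omega⟩
    obtain ⟨hint, hle⟩ := hdist (fun r => t * a r) (hta t htm.1) (hbnd t htm) (fine L (cs t)) hspin
      (blkOf : Fin N → Fin M) bal_blkOf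
    have hs := value_step (a := a) (b := (blkOf : Fin N → Fin M)) ha hN hok.du_pos.le
      hok.eta_pos.le hL hPK hq he0.le hδ hη hwη hΛ hum.1 hut (hta t htm.1)
      (fun j => (hc j).1) hopt hint hle
    have h2 := (hcs u hum).2 (cs t) (hpos t htm)
    have hw : t - u = 1 / (n : ℝ) := by rw [ht, hu]; ring
    have h3 : Λ * (ε / (5 * (Λ + 1))) ≤ ε / 5 := by
      rw [mul_div_assoc', div_le_div_iff₀ (by positivity) (by positivity)]
      nlinarith
    have h4 := mul_le_mul_of_nonneg_left h3 (by positivity : 0 ≤ 1 / (n : ℝ))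
    rw [hw] at hs
    simp only [hF, hGd, ← ht]
    linarith
  have htel : F 1 - F 0 = ∑ i ∈ range n, (F (((i : ℝ) + 1) / n) - F ((i : ℝ) / n)) := by
    have h := sum_range_sub (fun i : ℕ => F ((i : ℝ) / n)) n
    simp only [Nat.cast_zero, zero_div, div_self hn0.ne'] at h
    rw [← h]
    exact sum_congr rfl fun i _ => by push_cast; rfl
  have hsum : ∑ i ∈ range n, 1 / (n : ℝ) * ((G i + ε / 5) / 2) =
      (∑ i ∈ range n, 1 / (n : ℝ) * G i) / 2 + ε / 10 := by
    rw [sum_congr rfl fun i _ => show 1 / (n : ℝ) * ((G i + ε / 5) / 2) =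
      1 / (n : ℝ) * G i / 2 + ε / 10 / n by ring, sum_add_distrib, sum_const, card_range,
      nsmul_eq_mul, ← sum_div]
    field_simp
  linarith [(htel.le.trans (sum_le_sum hstep)).trans_eq hsum]

end Vale.Agent.P166.Parisi
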