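import Vale.Agent.P166.Parisi.BasicsPar
import Vale.Agent.P166.Parisi.Spin
import Vale.Agent.P166.Parisi.Spec
import Vale.Agent.P157.Parisi.BoxAvg

/-!
Ingredients of the upper bound: amplitudes on a coarse set of levels, the averaged free energy with
a quadratic and logarithmic penalty, and the Riemann sums of the energy term.
-/

namespace Vale.Agent.P166.Parisi

open MeasureTheory ProbabilityTheory Finset Matrix
open Vale.Agent.P157 Vale.Agent.P157.Parisi

variable {M N : ℕ}

namespace Upper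

/-! ### Amplitudes on the coarse levels -/

/-- Amplitudes on the levels `0..K`, zero above. -/
def coarse {K : ℕ} (c : Fin (K + 1) → ℝ) (j : ℕ) : ℝ := if h : j < K + 1 then c ⟨j, h⟩ else 0

/-- The same amplitudes on the levels `j * L` of the refined hierarchy. -/
def fine {K : ℕ} (L : ℕ) (c : Fin (K + 1) → ℝ) (l : ℕ) : ℝ :=
  if l % L = 0 ∧ l ≤ (K + 1) * L then coarse c (l / L) else 0

variable {K L : ℕ}

lemma coarse_val (c : Fin (K + 1) → ℝ) (j : Fin (K + 1)) : coarse c j = c j := by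
  simp [coarse, j.isLt]

lemma coarse_top (c : Fin (K + 1) → ℝ) : coarse c (K + 1) = 0 := by simp [coarse]

lemma fine_at (hL : 0 < L) (c : Fin (K + 1) → ℝ) (j : Fin (K + 1)) :
    fine L c ((j : ℕ) * L) = c j := by
  have h : (j : ℕ) * L ≤ (K + 1) * L := Nat.mul_le_mul_right L j.isLt.le
  rw [fine, if_pos ⟨Nat.mul_mod_left _ _, h⟩, Nat.mul_div_cancel _ hL, coarse_val]

lemma abs_fine_le (c : Fin (K + 1) → ℝ) {R : ℝ} (hR : 0 ≤ R) (h : ∀ j, |c j| ≤ R) (l : ℕ) :
    |fine L c l| ≤ R := by
  unfold fine coarse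
  split_ifs <;> first | exact h _ | simpa using hR

lemma fine_update (hL : 0 < L) (c : Fin (K + 1) → ℝ) (j : Fin (K + 1)) (θ : ℝ) :
    Function.update (fine L c) ((j : ℕ) * L) θ = fine L (Function.update c j θ) := by
  funext l
  by_cases hl : l = (j : ℕ) * L
  · subst hl
    rw [Function.update_self, fine_at hL, Function.update_self]
  · rw [Function.update_of_ne hl]
    unfold fine coarse
    split_ifs with h1 h2 <;> try rfl
    rw [Function.update_of_ne fun he => hl ?_]
    rw [← congrArg Fin.val he, mul_comm]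
    exact (Nat.mul_div_cancel' (Nat.dvd_of_mod_eq_zero h1.1)).symm

lemma fine_affine (c d : Fin (K + 1) → ℝ) (x y : ℝ) (l : ℕ) :
    fine L (x • c + y • d) l = x * fine L c l + y * fine L d l := by
  unfold fine coarse
  split_ifs <;> simp

/-- The penalty of the coarse amplitudes. -/
noncomputable def pen {K : ℕ} (q : ℕ → ℝ) (e : ℝ) (c : Fin (K + 1) → ℝ) : ℝ :=
  -(∑ j : Fin (K + 1), c j ^ 2 * (1 - qTail K q j)) / 2 + e * ∑ j, Real.log (c j)

lemma coarse_sum (c : Fin (K + 1) → ℝ) (w : ℕ → ℝ) :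
    ∑ l ∈ range (K + 1), coarse c l ^ 2 * w l = ∑ j : Fin (K + 1), c j ^ 2 * w j := by
  rw [← Fin.sum_univ_eq_sum_range (fun l => coarse c l ^ 2 * w l)]
  exact sum_congr rfl fun j _ => by rw [coarse_val]

/-- One spin with the quadratic penalty lies below the entropy. -/
lemma oneSpin_pen_le {q : ℕ → ℝ} (hq : IsPath q) (h1 : q K < 1) (c : Fin (K + 1) → ℝ) :
    oneSpin K (coarse c) - (∑ j : Fin (K + 1), c j ^ 2 * (1 - qTail K q j)) / 2 ≤
      isingEntropy K q := by
  refine le_of_eq_of_le ?_ (isingEntropy_ge hq h1 (cumVar_path (K := K) (coarse c)))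
  rw [oneSpin_eq, sum_range_succ (fun i => coarse c i ^ 2) (K + 1), coarse_top,
    ← coarse_sum c (fun l => 1 - qTail K q l)]
  have key : ∑ m ∈ range (K + 1), cumVar K (coarse c) m * q m =
      ((K : ℝ) + 1) * ∑ l ∈ range (K + 1), coarse c l ^ 2 * qTail K q l := by
    have e : ∀ l : ℕ, ((K : ℝ) + 1) * (coarse c l ^ 2 * qTail K q l) =
        ∑ m ∈ Ico l (K + 1), coarse c l ^ 2 * q m := by
      intro l
      rw [qTail, ← mul_sum]
      field_simp
    have e2 : ∀ m ∈ range (K + 1),
        cumVar K (coarse c) m * q m = ∑ l ∈ range (m + 1), coarse c l ^ 2 * q m := by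
      intro m hm
      rw [cumVar, min_eq_left (Nat.lt_succ_iff.1 (mem_range.1 hm)), sum_mul]
    rw [mul_sum, sum_congr rfl fun l _ => e l, sum_congr rfl e2]
    refine sum_comm' fun m l => ?_
    simp only [mem_range, mem_Ico]
    omega
  rw [key]
  simp only [mul_sub, mul_one, sum_sub_distrib]
  field_simp
  ring

/-! ### Convexity -/

lemma meanFree_convex (K : ℕ) : ConvexOn ℝ Set.univ
    fun x : (Fin N → ℝ) × (ℕ → Fin N → ℝ) × (ℕ → Fin N → ℝ) => meanFree K x.1 x.2.1 x.2.2 := by
  have hi : ∀ x : (Fin N → ℝ) × (ℕ → Fin N → ℝ) × (ℕ → Fin N → ℝ),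
      Integrable (glassFree K x.1 x.2.1 x.2.2) (haarON N) := by
    rintro ⟨l, S, V⟩
    have h : Continuous fun U : ON N => (l, S, V, U) :=
      continuous_const.prodMk (continuous_const.prodMk (continuous_const.prodMk continuous_id))
    have hg := (continuous_glassFree (N := N) K).comp' h
    exact integrable_of_cont hg
  refine ⟨convex_univ, fun x _ y _ p r hp hr hpr => ?_⟩
  simp only [meanFree, smul_eq_mul]
  rw [← integral_const_mul, ← integral_const_mul, ← integral_add ((hi x).const_mul p)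
    ((hi y).const_mul r)]
  exact integral_mono (hi (p • x + r • y)) (((hi x).const_mul p).add ((hi y).const_mul r))
    fun U => (glassFree_convex K U).2 (Set.mem_univ x) (Set.mem_univ y) hp hr hpr

lemma free_convex {E : Type} [AddCommGroup E] [Module ℝ E] (P : Par) (A : E → Fin M → ℝ)
    (S : E → ℕ → ℝ) (b : Fin N → Fin M) (v : GBox M P.K → ℝ)
    (hA : ∀ (x y : E) (p r : ℝ), p + r = 1 → ∀ i, A (p • x + r • y) i = p * A x i + r * A y i)
    (hS : ∀ (x y : E) (p r : ℝ), p + r = 1 → ∀ l, S (p • x + r • y) l = p * S x l + r * S y l) :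
    ConvexOn ℝ Set.univ fun x => P.free (A x) (S x) b v := by
  refine ⟨convex_univ, fun x _ y _ p r hp hr hpr => ?_⟩
  have h := (meanFree_convex (N := N) P.K).2
    (Set.mem_univ (P.lamN (A x) b v, (fun l _ => S x l), P.ampN b v))
    (Set.mem_univ (P.lamN (A y) b v, (fun l _ => S y l), P.ampN b v)) hp hr hpr
  refine le_of_eq_of_le ?_ h
  simp only [Prod.smul_fst, Prod.smul_snd, Prod.fst_add, Prod.snd_add, Par.free, Par.freeS]
  congr 1
  · funext i
    simp only [Par.lamN, Par.lamV, hA x y p r hpr, Pi.add_apply, Pi.smul_apply, smul_eq_mul]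
    linear_combination (-(P.du * v (Sum.inl (b i)))) * hpr
  · funext l i
    simp only [hS x y p r hpr, Pi.add_apply, Pi.smul_apply, smul_eq_mul]
  · funext l i
    simp only [Pi.add_apply, Pi.smul_apply, smul_eq_mul]
    linear_combination (-(P.ampN b v l i)) * hpr

lemma free_convex_fine (P : Par) (a : Fin M → ℝ) (b : Fin N → Fin M) (v : GBox M P.K → ℝ) :
    ConvexOn ℝ Set.univ fun c : Fin (K + 1) → ℝ => P.free a (fine L c) b v :=
  free_convex P (fun _ => a) (fun c => fine L c) b v
    (fun _ _ p r hpr i => by rw [← add_mul, hpr, one_mul]) fun c d p r _ l => fine_affine c d p r l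

/-! ### The box -/

/-- The width of the box in free energy per spin. -/
noncomputable def width (P : Par) : ℝ := P.du / 2 + 2 * ((P.K : ℝ) + 2) * P.eta ^ 2

/-- The averaged free energy per spin. -/
noncomputable def avgFree (P : Par) (a : Fin M → ℝ) (s : ℕ → ℝ) (b : Fin N → Fin M) : ℝ :=
  ∫ v, P.free a s b v / N ∂cubeLaw (GBox M P.K)

variable (P : Par) (a : Fin M → ℝ) (s : ℕ → ℝ) (b : Fin N → Fin M)

lemma integrable_free :
    Integrable (fun v => P.free a s b v / N) (cubeLaw (GBox M P.K)) :=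
  Box.integrable_cube ((continuous_free_box P a b (fun l _ => s l)).div_const _)

/-- On the box the fields and shifts cost at most the width. -/
lemma free_close (hN : 0 < N) (hdu : 0 ≤ P.du) (heta : 0 ≤ P.eta) {v : GBox M P.K → ℝ}
    (hv : ∀ k, v k ∈ Set.Icc (0 : ℝ) 1) :
    |P.free a s b v / N - meanFree P.K (a ∘ b) (fun l _ => s l) (fun _ _ => 0) / (N : ℝ)| ≤
      width P := by
  have hlam : ∀ p, |P.lamN a b v p - (a ∘ b) p| ≤ P.du := fun p => by
    simp only [Par.lamN, Par.lamV, Function.comp_apply, add_sub_cancel_left, abs_mul,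
      abs_of_nonneg hdu]
    exact mul_le_of_le_one_right hdu (abs_le.2 ⟨by linarith [(hv (Sum.inl (b p))).1],
      (hv (Sum.inl (b p))).2⟩)
  have hamp : ∀ l p, |P.ampN b v l p| ≤ 2 * P.eta := fun l p => by
    simp only [Par.ampN, Par.etaV]
    split_ifs with h1 h2
    · simpa using mul_nonneg zero_le_two heta
    · obtain ⟨u0, u1⟩ := hv (Sum.inr (⟨l, Nat.lt_succ_of_le h1⟩, b p))
      rw [abs_of_nonneg (mul_nonneg heta (by linarith))]
      nlinarith
    · simpa using mul_nonneg zero_le_two heta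
  have h1 := abs_le.1 (meanFree_lam_lip P.K (fun l _ => s l) (fun _ _ => (0 : ℝ)) hlam)
  have h2 : meanFree P.K (P.lamN a b v) (fun l _ => s l) (fun _ _ => 0) ≤ P.free a s b v :=
    meanFree_amp_mono P.K _ (fun _ _ => le_rfl) fun l p => by simp
  have h3 : P.free a s b v ≤ meanFree P.K (P.lamN a b v) (fun l _ => s l) (fun _ _ => 0) +
      (N : ℝ) / 2 * ∑ l ∈ range (P.K + 2), (2 * P.eta) ^ 2 :=
    meanFree_amp_le P.K _ _ _ hamp
  rw [sum_const, card_range, nsmul_eq_mul] at h3
  push_cast at h3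
  have hN' : (0 : ℝ) < N := by exact_mod_cast hN
  have h4 : (0 : ℝ) ≤ N * (2 * ((P.K : ℝ) + 2) * P.eta ^ 2) := by positivity
  rw [div_sub_div_same, abs_div, abs_of_pos hN', div_le_iff₀ hN', abs_le, width]
  constructor <;> nlinarith [h1.1, h1.2]

lemma avgFree_close (hN : 0 < N) (hdu : 0 ≤ P.du) (heta : 0 ≤ P.eta) :
    |avgFree P a s b - meanFree P.K (a ∘ b) (fun l _ => s l) (fun _ _ => 0) / (N : ℝ)| ≤
      width P := by
  set m := meanFree P.K (a ∘ b) (fun l _ => s l) (fun _ _ => 0) / (N : ℝ)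
  have hm : avgFree P a s b - m = ∫ v, (P.free a s b v / N - m) ∂cubeLaw (GBox M P.K) := by
    rw [integral_sub (integrable_free P a s b) (integrable_const m)]
    simp [avgFree]
  rw [hm]
  refine (abs_integral_le_integral_abs).trans ((integral_mono_ae
    ((integrable_free P a s b).sub (integrable_const m)).abs (integrable_const (width P))
    ?_).trans_eq (by simp))
  filter_upwards [Box.ae_mem_cube] with v hv
  exact free_close P a s b hN hdu heta hv

lemma free_avg_close (hN : 0 < N) (hdu : 0 ≤ P.du) (heta : 0 ≤ P.eta) {v : GBox M P.K → ℝ}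
    (hv : ∀ k, v k ∈ Set.Icc (0 : ℝ) 1) :
    |P.free a s b v / N - avgFree P a s b| ≤ 2 * width P := by
  have h1 := abs_le.1 (free_close P a s b hN hdu heta hv)
  have h2 := abs_le.1 (avgFree_close P a s b hN hdu heta)
  exact abs_le.2 ⟨by linarith [h1.1, h2.2], by linarith [h1.2, h2.1]⟩

lemma avgFree_oneSpin (hN : 0 < N) (hdu : 0 ≤ P.du) (heta : 0 ≤ P.eta) (hL : 0 < L)
    (hK : P.K = (K + 1) * L - 1) {Λ : ℝ} (ha : ∀ r, |a r| ≤ Λ) (c : Fin (K + 1) → ℝ) :
    |avgFree P a (fine L c) b - oneSpin K (coarse c)| ≤ Λ / 2 + width P := by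
  have h1 := abs_le.1 (avgFree_close P a (fine L c) b hN hdu heta)
  have h2 := abs_le.1 (meanFree_lam_lip P.K (lam := a ∘ b) (lam' := fun _ => (0 : ℝ))
    (fun l _ => fine L c l) (fun _ _ => (0 : ℝ)) (d := Λ) fun p => by simpa using ha (b p))
  have e : oneSpin P.K (fine L c) = oneSpin K (coarse c) := by
    rw [hK]
    exact oneSpin_refine K hL (coarse c)
  have hN' : (0 : ℝ) < N := by exact_mod_cast hN
  rw [meanFree_const_zero, e] at h2
  simp only [zero_div, zero_add] at h2
  have h3 : |meanFree P.K (a ∘ b) (fun l _ => fine L c l) (fun _ _ => 0) / (N : ℝ) -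
      oneSpin K (coarse c)| ≤ Λ / 2 := by
    rw [div_sub' hN'.ne', abs_div, abs_of_pos hN', div_le_iff₀ hN', abs_le]
    constructor <;> linarith [h2.1, h2.2]
  have h4 := abs_le.1 h3
  exact abs_le.2 ⟨by linarith [h1.1, h4.1], by linarith [h1.2, h4.2]⟩

lemma continuous_avgFree : Continuous fun c : Fin (K + 1) → ℝ => avgFree P a (fine L c) b := by
  have hc : ConvexOn ℝ Set.univ fun c : Fin (K + 1) → ℝ => avgFree P a (fine L c) b := by
    refine ⟨convex_univ, fun x _ y _ p r hp hr hpr => ?_⟩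
    simp only [avgFree, smul_eq_mul]
    rw [← integral_const_mul, ← integral_const_mul,
      ← integral_add ((integrable_free P a _ b).const_mul p) ((integrable_free P a _ b).const_mul r)]
    refine integral_mono (integrable_free P a _ b)
      (((integrable_free P a _ b).const_mul p).add ((integrable_free P a _ b).const_mul r))
      fun v => ?_
    have h := (free_convex_fine (L := L) P a b v).2 (Set.mem_univ x) (Set.mem_univ y) hp hr hpr
    exact (div_le_div_of_nonneg_right (h.trans_eq (by simp only [smul_eq_mul]; rfl))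
      (Nat.cast_nonneg N)).trans_eq (by ring)
  exact continuousOn_univ.1 (hc.continuousOn isOpen_univ)

/-! ### The maximiser -/

/-- Outside a compact box the penalised values are low. -/
lemma exists_box {γ e : ℝ} (hγ : 0 < γ) (he : 0 < e) (A m₀ : ℝ) (n : ℕ) :
    ∃ δ R : ℝ, 0 < δ ∧ δ ≤ 1 ∧ 1 ≤ R ∧ ∀ c : Fin n → ℝ, (∀ j, 0 < c j) →
      (∃ j, c j < δ ∨ R < c j) → A + ∑ j, (-γ * c j ^ 2 + e * Real.log (c j)) ≤ m₀ := by
  set H := e ^ 2 / (4 * γ) with hH
  have hterm : ∀ x : ℝ, 0 < x → -γ * x ^ 2 + e * Real.log x ≤ H := fun x hx => by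
    rw [hH, le_div_iff₀ (by positivity)]
    nlinarith [mul_le_mul_of_nonneg_left ((Real.log_le_sub_one_of_pos hx).trans
      (sub_le_self x zero_le_one)) (by positivity : 0 ≤ e * (4 * γ)), sq_nonneg (e - 2 * γ * x)]
  set T := m₀ - A - n * H with hT
  refine ⟨min 1 (Real.exp (T / e)), max 1 ((e + |T| + 1) / γ), lt_min one_pos (Real.exp_pos _),
    min_le_left _ _, le_max_left _ _, ?_⟩
  rintro c hc ⟨j, hj⟩
  have hjT : -γ * c j ^ 2 + e * Real.log (c j) ≤ T := by
    rcases hj with hj | hj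
    · have h := Real.log_le_log (hc j) (hj.le.trans (min_le_right _ _))
      rw [Real.log_exp, le_div_iff₀ he] at h
      nlinarith [sq_nonneg (c j)]
    · have h1 : 1 ≤ c j := (le_max_left _ _).trans hj.le
      have h2 := (le_max_right _ _).trans hj.le
      rw [div_le_iff₀ hγ] at h2
      have h3 := mul_le_mul_of_nonneg_left ((Real.log_le_sub_one_of_pos (hc j)).trans
        (sub_le_self _ zero_le_one)) he.le
      nlinarith [neg_abs_le T, mul_le_mul_of_nonneg_left h1 (by positivity : 0 ≤ |T| + 1)]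
  have hH0 : 0 ≤ H := by positivity
  have hrest : ∑ i ∈ univ.erase j, (-γ * c i ^ 2 + e * Real.log (c i)) ≤ n * H := by
    refine (sum_le_sum fun i _ => hterm (c i) (hc i)).trans ?_
    rw [sum_const, nsmul_eq_mul]
    refine mul_le_mul_of_nonneg_right ?_ hH0
    exact_mod_cast (card_erase_le (s := univ) (a := j)).trans_eq (by simp)
  rw [← add_sum_erase _ _ (mem_univ j)]
  linarith

/-- A maximiser over positive amplitudes. -/
lemma exists_max {n : ℕ} {Φ : (Fin n → ℝ) → ℝ} {δ R : ℝ} (hδ : 0 < δ) (hδ1 : δ ≤ 1) (hR : 1 ≤ R)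
    (hΦ : ContinuousOn Φ {c | ∀ j, 0 < c j})
    (hout : ∀ c : Fin n → ℝ, (∀ j, 0 < c j) → (∃ j, c j < δ ∨ R < c j) → Φ c ≤ Φ fun _ => 1) :
    ∃ c : Fin n → ℝ, (∀ j, c j ∈ Set.Icc δ R) ∧
      ∀ d : Fin n → ℝ, (∀ j, 0 < d j) → Φ d ≤ Φ c := by
  obtain ⟨c, hc, hmax⟩ := (isCompact_univ_pi fun _ : Fin n => isCompact_Icc (a := δ) (b := R)
    ).exists_isMaxOn ⟨fun _ => 1, fun _ _ => ⟨hδ1, hR⟩⟩
    (hΦ.mono fun c hc j => lt_of_lt_of_le hδ (hc j (Set.mem_univ j)).1)
  refine ⟨c, fun j => hc j (Set.mem_univ j), fun d hd => ?_⟩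
  by_cases h : ∀ j, d j ∈ Set.Icc δ R
  · exact hmax fun j _ => h j
  · obtain ⟨j, hj⟩ := not_forall.1 h
    refine (hout d hd ⟨j, ?_⟩).trans (hmax fun j _ => ⟨hδ1, hR⟩)
    rcases not_and_or.1 hj with h' | h'
    · exact Or.inl (not_le.1 h')
    · exact Or.inr (not_le.1 h')

/-- At a maximiser the tails of the overlaps dominate those of `q`, at every point of the box. -/
lemma tail_at_max {q : ℕ → ℝ} (hq : IsPath q) {e : ℝ} (he : 0 ≤ e) (hN : 0 < N) (hdu : 0 ≤ P.du)
    (heta : 0 ≤ P.eta) (hL : 0 < L) (hK : P.K + 1 = (K + 1) * L) {δ η : ℝ} (hδ : 0 < δ)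
    (hη : 0 < η) (hw : 8 * width P ≤ δ ^ 2 * η ^ 2) {c : Fin (K + 1) → ℝ} (hc : ∀ j, δ ≤ c j)
    (hmax : ∀ d : Fin (K + 1) → ℝ, (∀ j, 0 < d j) →
      avgFree P a (fine L d) b + pen q e d ≤ avgFree P a (fine L c) b + pen q e c)
    {v : GBox M P.K → ℝ} (hv : ∀ k, v k ∈ Set.Icc (0 : ℝ) 1) (j : Fin (K + 1)) :
    qTail K q j - η ≤ qTail P.K (P.qhat a (fine L c) b v) ((j : ℕ) * L) := by
  set T := qTail P.K (P.qhat a (fine L c) b v) ((j : ℕ) * L)
  have hjK : (j : ℕ) * L ≤ P.K := by
    have h : ((j : ℕ) + 1) * L ≤ (K + 1) * L := Nat.mul_le_mul_right L j.isLt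
    rw [add_mul, one_mul] at h
    omega
  have hd : HasDerivAt (fun θ => P.free a (fine L (Function.update c j θ)) b v)
      ((N : ℝ) * c j * (1 - T)) (c j) := by
    have h := hasDerivAt_spin P a (fine L c) b v hjK
    simp only [fine_update hL, fine_at hL] at h
    exact h
  have hconv : ConvexOn ℝ Set.univ fun θ : ℝ => P.free a (fine L (Function.update c j θ)) b v :=
    free_convex P (fun _ => a) (fun θ : ℝ => fine L (Function.update c j θ)) b v
      (fun _ _ p r hpr i => by rw [← add_mul, hpr, one_mul]) fun x y p r hpr l => by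
        rw [← fine_affine]
        congr 1
        funext i
        by_cases hi : i = j
        · subst hi
          simp
        · simp only [Pi.add_apply, Pi.smul_apply, Function.update_of_ne hi, smul_eq_mul, ← add_mul,
            hpr, one_mul]
  set h := δ * η with hh
  have hh0 : 0 < h := mul_pos hδ hη
  have hslope := hconv.le_slope_of_hasDerivAt (Set.mem_univ _) (Set.mem_univ (c j + h))
    (by linarith) hd
  rw [slope_def_field, add_sub_cancel_left, le_div_iff₀ hh0, Function.update_eq_self] at hslope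
  set d := Function.update c j (c j + h) with hd'
  have hdpos : ∀ i, 0 < d i := fun i => by
    have := hc i
    rw [hd', Function.update_apply]
    split_ifs
    · linarith [hc j]
    · linarith
  have hN' : (0 : ℝ) < N := by exact_mod_cast hN
  have e1 := abs_le.1 (free_avg_close P a (fine L d) b hN hdu heta hv)
  have e2 := abs_le.1 (free_avg_close P a (fine L c) b hN hdu heta hv)
  have hpen : pen q e c - pen q e d ≤
      (c j * h + h ^ 2 / 2) * (1 - qTail K q j) := by
    have hlog : ∑ i, Real.log (c i) ≤ ∑ i, Real.log (d i) := sum_le_sum fun i _ =>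
      Real.log_le_log (by linarith [hc i]) <| by
        rw [hd', Function.update_apply]
        split_ifs with hi
        · subst hi
          linarith
        · exact le_rfl
    have hsum : ∑ i : Fin (K + 1), d i ^ 2 * (1 - qTail K q i) =
        ∑ i : Fin (K + 1), c i ^ 2 * (1 - qTail K q i) +
          ((c j + h) ^ 2 - c j ^ 2) * (1 - qTail K q j) := by
      rw [← sub_eq_iff_eq_add', ← sum_sub_distrib, sum_eq_single j]
      · rw [hd', Function.update_self]
        ring
      · exact fun i _ hi => by rw [hd', Function.update_of_ne hi, sub_self]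
      · exact fun hn => absurd (mem_univ j) hn
    simp only [pen, hsum]
    have := mul_le_mul_of_nonneg_left hlog he
    linarith
  have hdiff : P.free a (fine L d) b v - P.free a (fine L c) b v ≤
      (N : ℝ) * ((c j * h + h ^ 2 / 2) * (1 - qTail K q j) + 4 * width P) := by
    have := hmax d hdpos
    rw [mul_comm, ← div_le_iff₀ hN', sub_div]
    linarith [e1.2, e2.1]
  have hmain : c j * (1 - T) * h ≤
      (c j * h + h ^ 2 / 2) * (1 - qTail K q j) + 4 * width P := by
    refine le_of_mul_le_mul_left ?_ hN'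
    linarith
  have hjle : (j : ℕ) ≤ K + 1 := j.isLt.le
  have hq0 := (qTail_le hq hjle).1
  by_contra hcon
  rw [not_le] at hcon
  have h5 := mul_lt_mul_of_pos_left (show T + η < qTail K q j by linarith)
    (mul_pos (lt_of_lt_of_le hδ (hc j)) hh0)
  have h6 := mul_le_mul_of_nonneg_left (hc j) (mul_nonneg hh0.le hη.le)
  nlinarith [mul_nonneg (sq_nonneg h) hq0]

/-! ### The energy term -/

variable [NeZero M]

/-- The energy density, extended to negative overlaps. -/
noncomputable def dens {a : Fin M → ℝ} (ha : Monotone a) (t χ : ℝ) : ℝ :=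
  (evenAtoms a ha).dEnergy t (max χ 0)

lemma continuous_dens {a : Fin M → ℝ} (ha : Monotone a) :
    Continuous fun x : ℝ × ℝ => dens ha x.1 x.2 :=
  (dEnergy_continuousOn (evenAtoms a ha)).comp_continuous
    (continuous_fst.prodMk (continuous_snd.max continuous_const))
    fun _ => ⟨Set.mem_univ _, Set.mem_Ici.2 (le_max_right _ _)⟩

lemma dEnergy_eq_scaled {a : Fin M → ℝ} (ha : Monotone a) {t : ℝ} (ht : 0 ≤ t)
    (hta : Monotone fun r => t * a r) (χ : ℝ) :
    (evenAtoms a ha).dEnergy t χ = ∑ r, a r * (evenAtoms (fun r => t * a r) hta).dPart r χ := by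
  have e : (evenAtoms a ha).scale (max t 0) (le_max_right t 0) =
      evenAtoms (fun r => t * a r) hta := by
    simp [Atoms.scale, evenAtoms, max_eq_left ht]
  rw [Atoms.dEnergy, e]
  rfl

/-- A Riemann sum lies below the integral. -/
lemma riemann_le {f : ℝ → ℝ} (hf : Continuous f) {n : ℕ} (hn : 0 < n) {y : ℕ → ℝ} {ε : ℝ}
    (h : ∀ i < n, ∀ t ∈ Set.Icc ((i : ℝ) / n) (((i : ℝ) + 1) / n), y i - ε ≤ f t) :
    ∑ i ∈ range n, (1 / (n : ℝ)) * y i ≤ (∫ t in (0 : ℝ)..1, f t) + ε := by
  have hn0 : (0 : ℝ) < n := Nat.cast_pos.2 hn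
  have hsplit : ∫ t in (0 : ℝ)..1, f t =
      ∑ i ∈ range n, ∫ t in (i : ℝ) / n..((i + 1 : ℕ) : ℝ) / n, f t := by
    rw [intervalIntegral.sum_integral_adjacent_intervals (a := fun i : ℕ => (i : ℝ) / n)
      fun i _ => hf.intervalIntegrable _ _]
    simp [hn.ne']
  rw [hsplit, show ε = ∑ _i ∈ range n, ε / n by
    rw [sum_const, card_range, nsmul_eq_mul]; field_simp, ← sum_add_distrib]
  refine sum_le_sum fun i hi => ?_
  have hconst : ∫ _t in (i : ℝ) / n..((i + 1 : ℕ) : ℝ) / n, (y i - ε) =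
      1 / (n : ℝ) * y i - ε / n := by
    rw [intervalIntegral.integral_const, smul_eq_mul]; push_cast; ring
  suffices hs : ∫ _t in (i : ℝ) / n..((i + 1 : ℕ) : ℝ) / n, (y i - ε) ≤
      ∫ t in (i : ℝ) / n..((i + 1 : ℕ) : ℝ) / n, f t by linarith
  refine intervalIntegral.integral_mono_on (by push_cast; gcongr; linarith)
    intervalIntegrable_const (hf.intervalIntegrable _ _) fun t ht => h i (mem_range.1 hi) t ?_
  simpa using ht

lemma continuous_dens_comp {a : Fin M → ℝ} (ha : Monotone a) {X : Type} [TopologicalSpace X]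
    {f g : X → ℝ} (hf : Continuous f) (hg : Continuous g) :
    Continuous fun x => dens ha (f x) (g x) := by
  have h := (continuous_dens ha).comp (hf.prodMk hg)
  simpa only [Function.comp_def] using h

lemma energy_eq_dens {a : Fin M → ℝ} (ha : Monotone a) {K : ℕ} {q : ℕ → ℝ} (hq : IsPath q)
    (h1 : q K < 1) : 2 * energy (evenLaw a) 1 K q =
      ∫ s in (0 : ℝ)..1, ∫ t in (0 : ℝ)..1, dens ha t (chiPath K q s) := by
  rw [energy, ← mul_assoc, show (2 : ℝ) * (1 / 2) = 1 by norm_num, one_mul]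
  refine intervalIntegral.integral_congr_ae ?_
  filter_upwards [(Set.countable_singleton (1 : ℝ)).ae_notMem volume] with s hs hmem
  rw [Set.uIoc_of_le zero_le_one] at hmem
  have hpos : 0 < chiPath K q s :=
    chiPath_pos hq h1 ⟨hmem.1.le, lt_of_le_of_ne hmem.2 (by simpa using hs)⟩
  have hlaw : evenLaw a = (evenAtoms a ha).law := rfl
  rw [one_mul, hlaw, ← rTrans_atoms (evenAtoms a ha) hpos]
  simp [dens, max_eq_left hpos.le]

/-- Riemann sums in time of the energy term. -/
lemma exists_grid {a : Fin M → ℝ} (ha : Monotone a) {K : ℕ} {q : ℕ → ℝ} (hq : IsPath q)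
    (h1 : q K < 1) {ε : ℝ} (hε : 0 < ε) :
    ∃ n : ℕ, 0 < n ∧ ∃ η : ℝ, 0 < η ∧ ∑ i ∈ range n,
        (1 / (n : ℝ)) * ∫ s in (0 : ℝ)..1, dens ha (((i : ℝ) + 1) / n) (chiPath K q s + η) ≤
      2 * energy (evenLaw a) 1 K q + ε := by
  have hc := continuous_dens (a := a) ha
  obtain ⟨ρ, hρ, huc⟩ := Metric.uniformContinuousOn_iff_le.1
    (((isCompact_Icc (a := (0 : ℝ)) (b := 1)).prod (isCompact_Icc (a := (0 : ℝ)) (b := 2)))
      |>.uniformContinuousOn_of_continuous hc.continuousOn) ε hε
  obtain ⟨n, hn⟩ := exists_nat_gt (1 / ρ)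
  have hn0 : (0 : ℝ) < n := lt_trans (by positivity) hn
  have hn' : 0 < n := Nat.cast_pos.1 hn0
  have hnρ : 1 / (n : ℝ) ≤ ρ := by
    rw [div_le_iff₀ hn0, mul_comm]
    rw [div_lt_iff₀ hρ] at hn
    linarith
  refine ⟨n, hn', min ρ 1, lt_min hρ one_pos, ?_⟩
  have hηρ : min ρ 1 ≤ ρ := min_le_left _ _
  have hη1 : min ρ 1 ≤ 1 := min_le_right _ _
  have hη0 : 0 < min ρ 1 := lt_min hρ one_pos
  generalize min ρ 1 = η at hηρ hη1 hη0 ⊢
  have hpoint : ∀ χ ∈ Set.Icc (0 : ℝ) 1,
      ∑ i ∈ range n, (1 / (n : ℝ)) * dens ha (((i : ℝ) + 1) / n) (χ + η) ≤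
        (∫ t in (0 : ℝ)..1, dens ha t χ) + ε := by
    intro χ hχ
    refine riemann_le (continuous_dens_comp ha continuous_id continuous_const) hn'
      fun i hi t ht => ?_
    have hi1 : ((i : ℝ) + 1) / n ≤ 1 := by
      rw [div_le_one hn0]; exact_mod_cast hi
    have h0 : (0 : ℝ) ≤ (i : ℝ) / n := by positivity
    have hw : ((i : ℝ) + 1) / n = (i : ℝ) / n + 1 / n := add_div _ _ _
    have hd := huc (((i : ℝ) + 1) / n, χ + η)
      ⟨⟨by positivity, hi1⟩, by linarith [hχ.1], by linarith [hχ.2]⟩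
      (t, χ) ⟨⟨h0.trans ht.1, ht.2.trans hi1⟩, hχ.1, by linarith [hχ.2]⟩ (by
        rw [Prod.dist_eq, Real.dist_eq, Real.dist_eq, max_le_iff, abs_le, abs_le]
        exact ⟨⟨by linarith [ht.2], by linarith [ht.1]⟩, by linarith, by linarith⟩)
    rw [Real.dist_eq, abs_le] at hd
    simp only [id_eq]
    linarith [hd.2]
  have hci : ∀ t : ℝ, Continuous fun s => dens ha t (chiPath K q s + η) := fun t =>
    continuous_dens_comp ha continuous_const ((chiPath_continuous K q).add continuous_const)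
  have hcr : Continuous fun s => ∫ t in (0 : ℝ)..1, dens ha t (chiPath K q s) :=
    intervalIntegral.continuous_parametric_intervalIntegral_of_continuous'
      (continuous_dens_comp ha (X := ℝ × ℝ) continuous_snd
        ((chiPath_continuous K q).comp' continuous_fst)) 0 1
  have hsum : ∑ i ∈ range n,
      (1 / (n : ℝ)) * ∫ s in (0 : ℝ)..1, dens ha (((i : ℝ) + 1) / n) (chiPath K q s + η) =
      ∫ s in (0 : ℝ)..1, ∑ i ∈ range n,
        (1 / (n : ℝ)) * dens ha (((i : ℝ) + 1) / n) (chiPath K q s + η) := by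
    rw [intervalIntegral.integral_finsetSum fun i _ =>
      ((hci _).intervalIntegrable _ _).const_mul _]
    exact sum_congr rfl fun i _ => (intervalIntegral.integral_const_mul _ _).symm
  rw [hsum, energy_eq_dens ha hq h1]
  refine (intervalIntegral.integral_mono_on zero_le_one
    ((continuous_finsetSum _ fun i _ => (hci _).const_mul _).intervalIntegrable _ _)
    ((hcr.intervalIntegrable _ _).add intervalIntegrable_const)
    fun s hs => hpoint _ (chiPath_mem hq h1.le hs)).trans_eq ?_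
  rw [intervalIntegral.integral_add (hcr.intervalIntegrable _ _) intervalIntegrable_const,
    intervalIntegral.integral_const]
  simp

end Upper

end Vale.Agent.P166.Parisi
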